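import Vale.Agent.P236EL.Tool
import Vale.Agent.P257.H93.Cup

/-!
# P236EL / Alg : products of charts, Leibniz rules, reindexing operators
-/

noncomputable section

namespace Vale.Agent.P236EL

open Vale.Agent.P251.F Vale.Agent.P251.F.F3 LawRing
open Vale.Agent.P257.H93 (dS dS_apply dS_dS dS_cup)

variable {N : Type} [CommRing N] [LawRing N] {B : Type} [CommRing B]
  {ι κ μ : Type} [Fintype ι] [DecidableEq ι] [Fintype κ] [DecidableEq κ] [Fintype μ]
  {θ : ι → ι → Cob N 1} {η : κ → κ → Cob N 1} {a b c m n s : ℕ}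

/-- shift of a sequence -/
abbrev sq {W : Type*} (a : ℕ) (G : ℕ → W) : ℕ → W := Vale.Agent.P257.H93.sh a G

omit [Fintype ι] [DecidableEq ι] in
theorem mc_zero' : ∀ c c' : ι, Cob.map (fun _ => 0 : Fin 2 → Fin 1) ((0 : ι → ι → Cob N 1) c c') = 0 :=
  fun _ _ => map_zero _

omit [DecidableEq ι] in
theorem mc_zero : MC (0 : ι → ι → Cob N 1) := ⟨fun _ _ => by simp [Cob.cup], mc_zero'⟩

omit [DecidableEq ι] in
theorem DD_zero (F : ι → Cob N s) (c : ι) : DD (0 : ι → ι → Cob N 1) s F c = Cob.d s (F c) := by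
  simp [DD_apply, Cob.cup]

variable (θ) in
/-- evaluation of charts as an additive map -/
def XH (n : ℕ) (x : N →+* B) (G : ℕ → strict B) (g : strict B) : (ι → Cob N n) →+ (ι → B) where
  toFun F := XX θ n F x G g
  map_zero' := by funext c; simp [XX]
  map_add' F F' := by funext c; simp [XX, add_mul, Finset.sum_add_distrib]

theorem XH_apply (F : ι → Cob N n) (x : N →+* B) (G : ℕ → strict B) (g : strict B) :
    XH θ n x G g F = XX θ n F x G g := rfl

theorem ext_XH (h : MC θ) {F F' : ι → Cob N n} (e : ∀ (B : Type) [CommRing B] (x : N →+* B)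
    (G : ℕ → strict B) (g : strict B), XH θ n x G g F = XH θ n x G g F') : F = F' :=
  funext fun c => ext_ofSeq fun B _ x G => by
    rw [← XX_self h, ← XX_self h]
    exact congrFun (e B x G (G n)) c

theorem XH_DD (h : MC θ) (F : ι → Cob N n) (x : N →+* B) (G : ℕ → strict B) (g : strict B) :
    XH θ (n + 1) x G g (DD θ n F) = dS n (fun G => XH θ n x G g F) G := by
  funext c
  rw [XH_apply, XX_DD h, dS_apply, Finset.sum_apply]
  rfl

theorem XH_congr (F : ι → Cob N n) (x : N →+* B) (g : strict B) (G G' : ℕ → strict B)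
    (h : ∀ k ≤ n, G k = G' k) : XH θ n x G g F = XH θ n x G' g F :=
  funext fun c => XX_congr F x h g c

omit [DecidableEq ι] in
theorem DD_DD (h : MC θ) (F : ι → Cob N n) : DD θ (n + 1) (DD θ n F) = 0 := by
  classical
  refine ext_XH h fun B _ x G g => ?_
  simp only [XH_DD h, map_zero]
  exact dS_dS n _ G

/-! ### cup products with a free choice of the total degree -/

/-- the cup product -/
def cupE (h : a + b = n) (x : Cob N a) (y : Cob N b) : Cob N n :=
  Cob.map (fun i : Fin (a + 1) => (⟨i, by omega⟩ : Fin (n + 1))) x *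
    Cob.map (fun i : Fin (b + 1) => (⟨a + i, by omega⟩ : Fin (n + 1))) y

theorem cupE_rfl (x : Cob N a) (y : Cob N b) : cupE rfl x y = Cob.cup x y := rfl

theorem ev_cupE (h : a + b = n) (x : N →+* B) (G : ℕ → strict B) (y : Cob N a) (z : Cob N b) :
    Cob.ev (ofSeq n x G) (cupE h y z) = Cob.ev (ofSeq a x G) y * Cob.ev (ofSeq b x (sq a G)) z := by
  rw [cupE, map_mul, Cob.ev_map_res, Cob.ev_map_res, ofSeq_res' x G _ (α' := id),
    ofSeq_res' x G _ (α' := fun k => a + k)]
  · rfl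
  all_goals exact fun _ => rfl

/-- the cup product as a biadditive map -/
def cupH (h : a + b = n) : Cob N a →+ Cob N b →+ Cob N n :=
  AddMonoidHom.mk' (fun x => AddMonoidHom.mk' (cupE h x) fun y y' => by simp [cupE, mul_add])
    fun x x' => AddMonoidHom.ext fun y => by
      change cupE h (x + x') y = cupE h x y + cupE h x' y
      rw [cupE, map_add, add_mul, cupE, cupE]

theorem cupH_apply (h : a + b = n) (x : Cob N a) (y : Cob N b) : cupH h x y = cupE h x y := rfl

theorem isWt_cupE (h : a + b = n) {w v : ℤ} {x : Cob N a} {y : Cob N b} (hx : Cob.IsWt w x)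
    (hy : Cob.IsWt v y) : Cob.IsWt (w + v) (cupE h x y) := (hx.map _).mul (hy.map _)

theorem cupE_assoc {k l : ℕ} (h1 : a + b = k) (h2 : k + c = n) (h3 : b + c = l) (h4 : a + l = n)
    (x : Cob N a) (y : Cob N b) (z : Cob N c) :
    cupE h2 (cupE h1 x y) z = cupE h4 x (cupE h3 y z) := ext_ofSeq fun B _ u G => by
  simp only [ev_cupE, P257.H93.sh_sh, h1, mul_assoc]

theorem cupE_one (x : Cob N a) : cupE (add_zero a) x 1 = x := by
  rw [cupE, map_one, mul_one]
  exact Cob.map_id x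

theorem one_cupE (x : Cob N a) : cupE (zero_add a) 1 x = x := ext_ofSeq fun B _ u G => by
  simp [ev_cupE]

theorem mapRing_cupE {M : Type} [CommRing M] [LawRing M] {φ : N →+* M} (hφ : IsLawHom φ)
    (h : a + b = n) (x : Cob N a) (y : Cob N b) :
    Cob.mapRing φ n (cupE h x y) = cupE h (Cob.mapRing φ a x) (Cob.mapRing φ b y) := by
  subst h
  exact Cob.mapRing_cup hφ x y

/-- left multiplication by a cochain -/
def lc (ι : Type) (h : a + b = n) : Cob N a →+ (ι → Cob N b) →+ (ι → Cob N n) :=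
  AddMonoidHom.mk' (fun t => pw ι (cupH h t)) fun t t' => by ext F c; simp

omit [Fintype ι] [DecidableEq ι] in
theorem lc_apply (h : a + b = n) (t : Cob N a) (F : ι → Cob N b) (c : ι) :
    lc ι h t F c = cupE h t (F c) := rfl

theorem XH_lc (h : a + b = n) (t : Cob N a) (F : ι → Cob N b) (x : N →+* B) (G : ℕ → strict B)
    (g : strict B) :
    XH θ n x G g (lc ι h t F) = Cob.ev (ofSeq a x G) t • XH θ b x (sq a G) g F := by
  funext c
  simp [XH_apply, XX, lc_apply, ev_cupE, Finset.mul_sum, mul_assoc, h]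

theorem ev_d_dS (z : Cob N n) (x : N →+* B) (G : ℕ → strict B) :
    Cob.ev (ofSeq (n + 1) x G) (Cob.d n z) = dS n (fun G => Cob.ev (ofSeq n x G) z) G :=
  ev_d_ofSeq x G z

omit [DecidableEq ι] in
/-- the Leibniz rule for left multiplication -/
theorem DD_lc (hθ : MC θ) (h : a + b = n) (t : Cob N a) (F : ι → Cob N b) :
    DD θ n (lc ι h t F) = lc ι (show a + 1 + b = n + 1 by omega) (Cob.d a t) F +
      ((-1 : ℤ) ^ a) • lc ι (show a + (b + 1) = n + 1 by omega) t (DD θ b F) := by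
  classical
  refine ext_XH hθ fun B _ x G g => ?_
  subst h
  simp only [map_add, map_zsmul, XH_DD hθ, XH_lc, ev_d_dS]
  exact dS_cup (smulAddHom B (ι → B)) a b (fun G => Cob.ev (ofSeq a x G) t)
    (fun G => XH θ b x G g F) (fun G G' e => by rw [ofSeq_congr e]) G

theorem d_cupE (h : a + b = n) (t : Cob N a) (y : Cob N b) :
    Cob.d n (cupE h t y) = cupE (show a + 1 + b = n + 1 by omega) (Cob.d a t) y +
      ((-1 : ℤ) ^ a) • cupE (show a + (b + 1) = n + 1 by omega) t (Cob.d b y) := by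
  have h1 := congrFun (DD_lc (mc_zero (ι := Unit)) h t fun _ => y) ()
  rwa [DD_zero, Pi.add_apply, Pi.smul_apply, lc_apply, lc_apply, lc_apply, DD_zero] at h1

omit [Fintype ι] [DecidableEq ι] in
theorem lc_mem_CW {p : ℕ} (h : a + b = n) {d : ι → ℤ} {ω w : ℤ} {t : Cob N a}
    (ht : Cob.IsWt (((p : ℤ) - 1) * ω) t) {F : ι → Cob N b} (hF : F ∈ CW p N d w b) :
    lc ι h t F ∈ CW p N d (ω + w) n := fun c => by
  rw [add_sub_assoc, mul_add]
  exact isWt_cupE h ht (hF c)

/-! ### matrices of cochains -/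

/-- the product of a chart with a matrix -/
def mc (h : s + m = n) : (ι → Cob N s) →+ (ι → κ → Cob N m) →+ (κ → Cob N n) :=
  AddMonoidHom.mk' (fun F => AddMonoidHom.mk' (fun φ => ∑ c, lc κ h (F c) (φ c))
    fun φ φ' => by simp only [Pi.add_apply, map_add, Finset.sum_add_distrib])
    fun F F' => AddMonoidHom.ext fun φ => by
      simp only [Pi.add_apply, map_add, AddMonoidHom.add_apply, AddMonoidHom.mk'_apply,
        Finset.sum_add_distrib]

omit [DecidableEq ι] [Fintype κ] [DecidableEq κ] in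
theorem mc_eq (h : s + m = n) (F : ι → Cob N s) (φ : ι → κ → Cob N m) :
    mc h F φ = ∑ c, lc κ h (F c) (φ c) := rfl

omit [DecidableEq ι] [Fintype κ] [DecidableEq κ] in
theorem mc_apply (h : s + m = n) (F : ι → Cob N s) (φ : ι → κ → Cob N m) (k : κ) :
    mc h F φ k = ∑ c, cupE h (F c) (φ c k) := by
  rw [mc_eq, Finset.sum_apply]
  rfl

omit [DecidableEq ι] in
theorem DD_eq (F : ι → Cob N s) :
    DD θ s F = (fun c => Cob.d s (F c)) + ((-1 : ℤ) ^ (s + 1)) • mc rfl F θ := by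
  funext c
  rw [DD_apply, Pi.add_apply, Pi.smul_apply, mc_apply]
  rfl

omit [DecidableEq ι] [DecidableEq κ] [Fintype μ] in
theorem mc_assoc {k l : ℕ} (h1 : a + b = k) (h2 : k + c = n) (h3 : b + c = l) (h4 : a + l = n)
    (F : ι → Cob N a) (φ : ι → κ → Cob N b) (ψ : κ → μ → Cob N c) :
    mc h2 (mc h1 F φ) ψ = mc h4 F fun i => mc h3 (φ i) ψ := by
  funext j
  simp only [mc_apply, ← cupH_apply, map_sum, AddMonoidHom.finsetSum_apply]
  rw [Finset.sum_comm]
  simp only [cupH_apply, cupE_assoc h1 h2 h3 h4]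

omit [DecidableEq ι] [Fintype κ] [DecidableEq κ] in
theorem mc_lc {k l : ℕ} (h1 : a + b = k) (h2 : k + c = n) (h3 : b + c = l) (h4 : a + l = n)
    (t : Cob N a) (F : ι → Cob N b) (φ : ι → κ → Cob N c) :
    mc h2 (lc ι h1 t F) φ = lc κ h4 t (mc h3 F φ) := by
  funext j
  simp only [mc_apply, lc_apply, ← cupH_apply, map_sum]
  simp only [cupH_apply, cupE_assoc h1 h2 h3 h4]

variable (θ η) in
/-- the differential on matrices -/
def DH (m : ℕ) : (ι → κ → Cob N m) →+ (ι → κ → Cob N (m + 1)) :=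
  pw ι (DD η m) + AddMonoidHom.pi fun c => mc (Nat.add_comm 1 m) (θ c)

omit [DecidableEq ι] [DecidableEq κ] in
theorem DH_apply (φ : ι → κ → Cob N m) (c : ι) :
    DH θ η m φ c = DD η m (φ c) + mc (Nat.add_comm 1 m) (θ c) φ := rfl

omit [DecidableEq ι] [DecidableEq κ] in
/-- the Leibniz rule for matrices -/
theorem DD_mc (hη : MC η) (h : s + m = n) (F : ι → Cob N s) (φ : ι → κ → Cob N m) :
    DD η n (mc h F φ) = mc (show s + 1 + m = n + 1 by omega) (DD θ s F) φ +
      ((-1 : ℤ) ^ s) • mc (show s + (m + 1) = n + 1 by omega) F (DH θ η m φ) := by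
  have h1 : mc (show s + (m + 1) = n + 1 by omega) F (DH θ η m φ) =
      ∑ c, lc κ (show s + (m + 1) = n + 1 by omega) (F c) (DD η m (φ c)) +
        mc (show s + 1 + m = n + 1 by omega) (mc rfl F θ) φ := by
    rw [mc_assoc rfl _ (Nat.add_comm 1 m) (show s + (m + 1) = n + 1 by omega), mc_eq, mc_eq,
      ← Finset.sum_add_distrib]
    exact Finset.sum_congr rfl fun c _ => map_add _ _ _
  rw [h1, DD_eq F, map_add, map_zsmul, AddMonoidHom.add_apply, AddMonoidHom.smul_apply, mc_eq,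
    mc_eq _ (fun c => Cob.d s (F c)), map_sum, smul_add, pow_succ, Finset.smul_sum]
  simp only [DD_lc hη, Finset.sum_add_distrib, mul_neg, mul_one, neg_smul]
  abel

omit [DecidableEq ι] [Fintype κ] [DecidableEq κ] in
theorem mc_mem_CW {p : ℕ} (h : s + m = n) {d : ι → ℤ} {d' : κ → ℤ} {ω w : ℤ} {F : ι → Cob N s}
    (hF : F ∈ CW p N d w s) {φ : ι → κ → Cob N m} (hφ : ∀ c, φ c ∈ CW p N d' (d c + ω) m) :
    mc h F φ ∈ CW p N d' (w + ω) n := by
  rw [mc_eq]
  refine sum_mem fun c _ => ?_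
  have h1 := lc_mem_CW h (hF c) (hφ c)
  rwa [show w - d c + (d c + ω) = w + ω by ring] at h1

omit [DecidableEq ι] [Fintype κ] [DecidableEq κ] in
theorem mapRing_mc {M : Type} [CommRing M] [LawRing M] {f : N →+* M} (hf : IsLawHom f)
    (h : s + m = n) (F : ι → Cob N s) (φ : ι → κ → Cob N m) (k : κ) :
    Cob.mapRing f n (mc h F φ k) =
      mc h (fun c => Cob.mapRing f s (F c)) (fun c k => Cob.mapRing f m (φ c k)) k := by
  simp only [mc_apply, map_sum, mapRing_cupE hf]

/-! ### reindexing -/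

variable (θ) in
/-- the transport matrix from vertex `i` to the last vertex -/
def tp (n : ℕ) (i : Fin (n + 1)) (c c' : ι) : Cob N n :=
  (if c = c' then 1 else 0) + Cob.map ![i, Fin.last n] (θ c c')

omit [Fintype ι] in
theorem ev_tp (i : Fin (n + 1)) (x : N →+* B) (G : ℕ → strict B) (c c' : ι) :
    Cob.ev (ofSeq n x G) (tp θ n i c c') = TH θ x (G i) (G n) c c' := by
  rw [tp, map_add, apply_ite (Cob.ev _), map_one, map_zero, Cob.ev_map_res,
    ofSeq_res' x G _ (α' := p2 (i : ℕ) n) fun k => by fin_cases k <;> rfl, ev_ofSeq_one]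
  rfl

omit [Fintype ι] in
theorem isWt_tp {D : ι → ℤ} (hθ : ∀ c c', Cob.IsWt (D c - D c') (θ c c')) (i : Fin (n + 1))
    (c c' : ι) : Cob.IsWt (D c - D c') (tp θ n i c c') := by
  refine Cob.IsWt.add ?_ ((hθ c c').map _)
  split_ifs with h
  · rw [h, sub_self]
    exact Cob.isWt_one
  · exact Cob.isWt_zero _

variable (θ) in
/-- the operator of a map of indices -/
def opr (m n : ℕ) (α : ℕ → ℕ) (hα : ∀ k ≤ m, α k ≤ n) : (ι → Cob N m) →+ (ι → Cob N n) :=
  mat fun c c' => (AddMonoidHom.mulRight (tp θ n ⟨α m, Nat.lt_succ_of_le (hα m le_rfl)⟩ c c')).comp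
    (Cob.map fun k : Fin (m + 1) =>
      (⟨α k, Nat.lt_succ_of_le (hα k (by omega))⟩ : Fin (n + 1))).toAddMonoidHom

theorem XH_opr (h : MC θ) {α : ℕ → ℕ} (hα : ∀ k ≤ m, α k ≤ n) (F : ι → Cob N m) (x : N →+* B)
    (G : ℕ → strict B) (g : strict B) :
    XH θ n x G g (opr θ m n α hα F) = XH θ m x (G ∘ α) g F := by
  funext c''
  rw [XH_apply, XH_apply, ← XX_trans h F x (G ∘ α) (G n), XX]
  refine Finset.sum_congr rfl fun c' _ => ?_
  rw [opr, mat_apply, map_sum, XX]
  congr 1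
  refine Finset.sum_congr rfl fun c _ => ?_
  change Cob.ev _ (Cob.map _ (F c) * _) = _
  rw [map_mul, ev_tp, Cob.ev_map_res, ofSeq_res' x G _ (α' := α) fun _ => rfl]
  rfl

theorem opr_mem_CW {p : ℕ} {d : ι → ℤ}
    (hθ : ∀ c c', Cob.IsWt (((p : ℤ) - 1) * (d c - d c')) (θ c c')) {α : ℕ → ℕ}
    (hα : ∀ k ≤ m, α k ≤ n) {w : ℤ} {F : ι → Cob N m} (hF : F ∈ CW p N d w m) :
    opr θ m n α hα F ∈ CW p N d w n := fun c' => by
  rw [opr, mat_apply]
  refine (Cob.wt N n _).sum_mem fun c _ => ?_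
  rw [← sub_add_sub_cancel w (d c) (d c'), mul_add, mul_sub _ (d c)]
  exact ((hF c).map _).mul (isWt_tp (fun c c' => by rw [← mul_sub]; exact hθ c c') _ c c')

variable (θ) in
/-- right multiplication by a cochain -/
def rc (h : a + b = n) (F : ι → Cob N a) (t : Cob N b) : ι → Cob N n :=
  mc h F fun c c' => t * tp θ b 0 c c'

theorem XH_rc (hθ : MC θ) (h : a + b = n) (F : ι → Cob N a) (t : Cob N b) (x : N →+* B)
    (G : ℕ → strict B) (g : strict B) :
    XH θ n x G g (rc θ h F t) = Cob.ev (ofSeq b x (sq a G)) t • XH θ a x G g F := by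
  funext c''
  rw [Pi.smul_apply, XH_apply, XH_apply, ← XX_trans hθ F x G (G n), XX, smul_eq_mul, Finset.mul_sum]
  refine Finset.sum_congr rfl fun c' _ => ?_
  simp only [rc, mc_apply, map_sum, ev_cupE, map_mul, ev_tp, XX, Finset.sum_mul, Finset.mul_sum]
  refine Finset.sum_congr rfl fun c _ => ?_
  simp only [P257.H93.sh_apply, h, Fin.val_zero, add_zero]
  ring

theorem rc_zero (h : a + b = n) (F : ι → Cob N a) (t : Cob N b) (c : ι) :
    rc (0 : ι → ι → Cob N 1) h F t c = cupE h (F c) t := by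
  simp [rc, mc_apply, tp, ← cupH_apply, apply_ite (cupH h _)]

theorem DD_rc (hθ : MC θ) (h : a + b = n) (F : ι → Cob N a) (t : Cob N b) :
    DD θ n (rc θ h F t) = rc θ (show a + 1 + b = n + 1 by omega) (DD θ a F) t +
      ((-1 : ℤ) ^ a) • rc θ (show a + (b + 1) = n + 1 by omega) F (Cob.d b t) := by
  refine ext_XH hθ fun B _ x G g => ?_
  subst h
  simp only [map_add, map_zsmul, XH_DD hθ, XH_rc hθ, ev_d_dS]
  exact dS_cup (smulAddHom B (ι → B)).flip a b (fun G => XH θ a x G g F)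
    (fun G => Cob.ev (ofSeq b x G) t) (XH_congr F x g) G

theorem rc_mem_CW {p : ℕ} {d : ι → ℤ}
    (hθ : ∀ c c', Cob.IsWt (((p : ℤ) - 1) * (d c - d c')) (θ c c')) (h : a + b = n) {ω w : ℤ}
    {F : ι → Cob N a} (hF : F ∈ CW p N d w a) {t : Cob N b}
    (ht : Cob.IsWt (((p : ℤ) - 1) * ω) t) : rc θ h F t ∈ CW p N d (w + ω) n :=
  mc_mem_CW h hF fun c c' => by
    rw [add_sub_right_comm, add_comm, mul_add, mul_sub _ (d c)]
    exact ht.mul (isWt_tp (fun c c' => by rw [← mul_sub]; exact hθ c c') _ c c')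

end Vale.Agent.P236EL

end
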