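import Vale.Agent.P236EL.Log

/-!
# P236EL / Arr : the category of Hazewinkel laws in coordinates

Objects over a ring `B` are sequences `v : ℕ → B`, arrows out of `v` are sequences `t : ℕ → B`,
standing for the strict isomorphism `(hs (hz v) t)⁻¹ : hz v → hz (tg v t)`; `cm v s t` is the
composite of `s : v → tg v s` and `t : tg v s → tg (tg v s) t`.
-/

noncomputable section

namespace Vale.Agent.P236EL

open MvPowerSeries Vale.Agent.P217 Vale.Agent.P251.F Vale.Agent.P257.H80

variable (p : ℕ) [hp : Fact p.Prime] {A B : Type*} [CommRing A] [CommRing B]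

omit hp in
theorem mapQ_injective (σ : Type*) :
    Function.Injective (MvPolynomial.map (σ := σ) (Int.castRingHom ℚ)) :=
  MvPolynomial.map_injective _ Int.cast_injective

omit hp in
theorem law_map_injective {ι : A →+* B} (hι : Function.Injective ι) {F G : Law A}
    (h : F.map ι = G.map ι) : F = G := by
  apply Law.ext_ps
  ext d
  apply hι
  have h1 := congrArg (fun H : Law B => coeff d H.ps) h
  simpa only [Law.map_ps, coeff_map] using h1

omit hp in
theorem ser_map_injective {ι : A →+* B} (hι : Function.Injective ι) {f g : InvSeries A}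
    (h : InvSeries.map ι f = InvSeries.map ι g) : f = g := by
  apply InvSeries.ext_c
  intro n
  apply hι
  rw [← InvSeries.c_map, h, InvSeries.c_map]

theorem exists_tgU : ∃ w : ℕ → MvPolynomial (ℕ ⊕ ℕ) ℤ,
    (hs p (hz p fun i => (MvPolynomial.X (Sum.inl i) : MvPolynomial (ℕ ⊕ ℕ) ℤ))
      fun i => MvPolynomial.X (Sum.inr i))⁻¹ •
      hz p (fun i => (MvPolynomial.X (Sum.inl i) : MvPolynomial (ℕ ⊕ ℕ) ℤ)) = hz p w := by
  set ι := MvPolynomial.map (σ := ℕ ⊕ ℕ) (Int.castRingHom ℚ) with hι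
  set v : ℕ → MvPolynomial (ℕ ⊕ ℕ) ℤ := fun i => MvPolynomial.X (Sum.inl i) with hv
  set t : ℕ → MvPolynomial (ℕ ⊕ ℕ) ℤ := fun i => MvPolynomial.X (Sum.inr i) with ht
  obtain ⟨w, hw⟩ := exists_tg_rat p (fun i => ι (v i)) (fun i => ι (t i))
  have h1 : ((hs p (hz p v) t)⁻¹ • hz p v).map ι = hz p w := by
    rw [InvSeries.map_smul, map_inv, map_hs, map_hz, hw]
  choose w' hw' using hz_descend p _ w h1
  refine ⟨w', law_map_injective (mapQ_injective _) ?_⟩
  rw [h1, map_hz]
  congr 1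
  funext k
  exact (hw' k).symm

/-- the universal target `η_R (v_{n+1})` -/
def tgU : ℕ → MvPolynomial (ℕ ⊕ ℕ) ℤ := (exists_tgU p).choose

/-- evaluation of polynomials in two sequences of variables -/
def ev2 (v t : ℕ → B) : MvPolynomial (ℕ ⊕ ℕ) ℤ →+* B :=
  MvPolynomial.eval₂Hom (Int.castRingHom B) (Sum.elim v t)

omit hp in
@[simp] theorem ev2_inl (v t : ℕ → B) (i : ℕ) : ev2 v t (MvPolynomial.X (Sum.inl i)) = v i := by
  simp [ev2]

omit hp in
@[simp] theorem ev2_inr (v t : ℕ → B) (i : ℕ) : ev2 v t (MvPolynomial.X (Sum.inr i)) = t i := by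
  simp [ev2]

/-- the target of the arrow `t` out of `v` -/
def tg (v t : ℕ → B) (n : ℕ) : B := ev2 v t (tgU p n)

theorem hz_tg (v t : ℕ → B) : (hs p (hz p v) t)⁻¹ • hz p v = hz p (tg p v t) := by
  have h := congrArg (Law.map (ev2 v t)) (exists_tgU p).choose_spec
  rw [InvSeries.map_smul, map_inv, map_hs, map_hz, map_hz] at h
  simp only [ev2_inl, ev2_inr] at h
  exact h

theorem hs_smul_tg (v t : ℕ → B) : hs p (hz p v) t • hz p (tg p v t) = hz p v := by
  rw [← hz_tg, smul_inv_smul]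

theorem map_tg (φ : A →+* B) (v t : ℕ → A) (n : ℕ) :
    φ (tg p v t n) = tg p (fun i => φ (v i)) (fun i => φ (t i)) n := by
  have h : φ.comp (ev2 v t) = ev2 (fun i => φ (v i)) (fun i => φ (t i)) :=
    hom_ext_Z (by rintro (i | i) <;> simp)
  rw [tg, tg, ← h]
  rfl

theorem tg_zero (v : ℕ → B) : tg p v (fun _ => 0) = v := by
  apply hz_injective p
  rw [← hz_tg, hs_zero, inv_one, one_smul]

/-- Over a `p`-local ring every strict isomorphism of Hazewinkel laws is a formal sum. -/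
theorem exists_hs_of_ploc (hB : PLoc p B) {g : InvSeries B} (hg : g ∈ strict B) {v w : ℕ → B}
    (h : g⁻¹ • hz p v = hz p w) : ∃ t, g = hs p (hz p v) t := by
  obtain ⟨t, ht⟩ := exists_hs_coeff p (hz p v) fun n => PowerSeries.coeff (p ^ (n + 1)) g.val
  refine ⟨t, InvSeries.ext_c fun n => ?_⟩
  induction n using Nat.strong_induction_on with
  | _ n ih =>
    rcases n with _ | n
    · rw [mem_strict.1 hg, mem_strict.1 (hs_mem p _ t)]
    by_cases hn : ∃ k, n + 2 = p ^ k
    · obtain ⟨k, hk⟩ := hn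
      obtain ⟨k, rfl⟩ : ∃ l, k = l + 1 := ⟨k - 1, by
        rcases k with _ | k
        · rw [pow_zero] at hk
          omega
        · rfl⟩
      rw [InvSeries.c, InvSeries.c, show n + 1 + 1 = p ^ (k + 1) from hk, hs_val, ht]
    · have h1 := log_compare (hs_mem p (hz p v) t) (f := g) (n := n)
        (fun k hk => ih k (by omega)) (hz p v)
      rw [h, hz_tg] at h1
      set k := Nat.log p (n + 2) with hkdef
      have hk1 : p ^ k ≤ n + 2 := Nat.pow_log_le_self p (by omega)
      have hk2 : n + 2 < p ^ (k + 1) := Nat.lt_pow_succ_log_self hp.out.one_lt _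
      have h2 : ∀ j < k, w j = tg p v t j := by
        intro j hj
        induction j using Nat.strong_induction_on with
        | _ j ihj =>
          have h3 := (hz_compare p (k := j) fun i hi => ihj i hi (by omega)).2
          have h4 : p ^ (j + 1) ≤ p ^ k := Nat.pow_le_pow_right hp.out.pos (by omega)
          have h5 := two_le_pow (k := j + 1) hp.out (Nat.succ_ne_zero j)
          have h6 : n + 2 ≠ p ^ (j + 1) := fun h => hn ⟨_, h⟩
          rw [xC_eq_of_sub_mem h1.1 (k := p ^ (j + 1) - 2) (by omega), sub_self] at h3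
          exact sub_eq_zero.1 (neg_eq_zero.1 h3.symm)
      have h3 := xC_eq_of_sub_mem (hz_compare p h2).1 hk2
      have h4 := h1.2
      rw [h3, sub_self, nsmul_eq_mul] at h4
      exact sub_eq_zero.1 ((isUnit_dC hp.out hB hn).mul_right_eq_zero.1 (neg_eq_zero.1 h4.symm))

omit hp in
theorem ploc_rat {K : Type*} [CommRing K] [Algebra ℚ K] : PLoc p K := by
  intro m hm
  have h0 : (m : ℚ) ≠ 0 := by
    rintro h
    rw [Nat.cast_eq_zero] at h
    exact hm (h ▸ dvd_zero p)
  have := (IsUnit.mk0 _ h0).map (algebraMap ℚ K)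
  rwa [map_natCast] at this

theorem exists_cmU : ∃ T : ℕ → MvPolynomial (ℕ ⊕ ℕ ⊕ ℕ) ℤ,
    hs p (hz p fun i => MvPolynomial.X (Sum.inl i))
        (fun i => MvPolynomial.X (Sum.inr (Sum.inl i))) *
      hs p (hz p (tg p (fun i => MvPolynomial.X (Sum.inl i))
        fun i => MvPolynomial.X (Sum.inr (Sum.inl i))))
        (fun i => MvPolynomial.X (Sum.inr (Sum.inr i))) =
      hs p (hz p fun i => MvPolynomial.X (Sum.inl i)) T := by
  set ι := MvPolynomial.map (σ := ℕ ⊕ ℕ ⊕ ℕ) (Int.castRingHom ℚ) with hι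
  set v : ℕ → MvPolynomial (ℕ ⊕ ℕ ⊕ ℕ) ℤ := fun i => MvPolynomial.X (Sum.inl i) with hv
  set s : ℕ → MvPolynomial (ℕ ⊕ ℕ ⊕ ℕ) ℤ := fun i => MvPolynomial.X (Sum.inr (Sum.inl i)) with hs'
  set t : ℕ → MvPolynomial (ℕ ⊕ ℕ ⊕ ℕ) ℤ := fun i => MvPolynomial.X (Sum.inr (Sum.inr i)) with ht
  set g := hs p (hz p v) s * hs p (hz p (tg p v s)) t with hg
  have h1 : g⁻¹ • hz p v = hz p (tg p (tg p v s) t) := by
    rw [hg, mul_inv_rev, mul_smul, hz_tg, hz_tg]
  have h2 := congrArg (Law.map ι) h1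
  rw [InvSeries.map_smul, map_inv, map_hz, map_hz] at h2
  obtain ⟨T, hT⟩ := exists_hs_of_ploc p (ploc_rat p)
    (map_mem_strict ι (mul_mem (hs_mem p _ _) (hs_mem p _ _))) h2
  rw [← map_hz] at hT
  choose T' hT' using hs_descend p _ g T hT
  refine ⟨T', ser_map_injective (mapQ_injective _) ?_⟩
  rw [hT, map_hs]
  congr 1
  funext k
  exact (hT' k).symm

/-- the universal composite `Δ (t_{n+1})` -/
def cmU : ℕ → MvPolynomial (ℕ ⊕ ℕ ⊕ ℕ) ℤ := (exists_cmU p).choose

/-- evaluation of polynomials in three sequences of variables -/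
def ev3 (v s t : ℕ → B) : MvPolynomial (ℕ ⊕ ℕ ⊕ ℕ) ℤ →+* B :=
  MvPolynomial.eval₂Hom (Int.castRingHom B) (Sum.elim v (Sum.elim s t))

omit hp in
@[simp] theorem ev3_1 (v s t : ℕ → B) (i : ℕ) :
    ev3 v s t (MvPolynomial.X (Sum.inl i)) = v i := by simp [ev3]

omit hp in
@[simp] theorem ev3_2 (v s t : ℕ → B) (i : ℕ) :
    ev3 v s t (MvPolynomial.X (Sum.inr (Sum.inl i))) = s i := by simp [ev3]

omit hp in
@[simp] theorem ev3_3 (v s t : ℕ → B) (i : ℕ) :
    ev3 v s t (MvPolynomial.X (Sum.inr (Sum.inr i))) = t i := by simp [ev3]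

/-- the composite of the arrows `s` and `t` -/
def cm (v s t : ℕ → B) (n : ℕ) : B := ev3 v s t (cmU p n)

theorem hs_cm (v s t : ℕ → B) :
    hs p (hz p v) s * hs p (hz p (tg p v s)) t = hs p (hz p v) (cm p v s t) := by
  have h := congrArg (InvSeries.map (ev3 v s t)) (exists_cmU p).choose_spec
  rw [map_mul, map_hs, map_hs, map_hs, map_hz, map_hz] at h
  simp only [map_tg, ev3_1, ev3_2, ev3_3] at h
  exact h

theorem map_cm (φ : A →+* B) (v s t : ℕ → A) (n : ℕ) :
    φ (cm p v s t n) = cm p (fun i => φ (v i)) (fun i => φ (s i)) (fun i => φ (t i)) n := by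
  have h : φ.comp (ev3 v s t) = ev3 (fun i => φ (v i)) (fun i => φ (s i)) (fun i => φ (t i)) :=
    hom_ext_Z (by rintro (i | i | i) <;> simp)
  rw [cm, cm, ← h]
  rfl

theorem cm_zero_left (v t : ℕ → B) : cm p v (fun _ => 0) t = t := by
  apply hs_injective p (hz p v)
  rw [← hs_cm, hs_zero, one_mul, tg_zero]

theorem cm_zero_right (v s : ℕ → B) : cm p v s (fun _ => 0) = s := by
  apply hs_injective p (hz p v)
  rw [← hs_cm, hs_zero, mul_one]

theorem tg_cm (v s t : ℕ → B) : tg p v (cm p v s t) = tg p (tg p v s) t := by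
  apply hz_injective p
  rw [← hz_tg, ← hs_cm, mul_inv_rev, mul_smul, hz_tg, hz_tg]

theorem cm_assoc (v s t u : ℕ → B) :
    cm p v (cm p v s t) u = cm p v s (cm p (tg p v s) t u) := by
  apply hs_injective p (hz p v)
  rw [← hs_cm, ← hs_cm, ← hs_cm, ← hs_cm, tg_cm, mul_assoc]

/-! ### scaling -/

/-- rescaling of coordinates -/
def scl (u : B) (v : ℕ → B) : ℕ → B := fun k => u ^ (p ^ (k + 1) - 1) * v k

theorem hz_scl (u : Bˣ) (v : ℕ → B) : hz p (scl p (u : B) v) = (InvSeries.lin u)⁻¹ • hz p v :=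
  hz_lin p u v

theorem hs_scl (u : Bˣ) (v t : ℕ → B) : hs p (hz p (scl p (u : B) v)) (scl p (u : B) t) =
    (InvSeries.lin u)⁻¹ * hs p (hz p v) t * InvSeries.lin u := by
  rw [hz_scl]
  exact hs_conj p u _ t

theorem tg_scl (u : Bˣ) (v t : ℕ → B) :
    tg p (scl p (u : B) v) (scl p (u : B) t) = scl p (u : B) (tg p v t) := by
  apply hz_injective p
  rw [← hz_tg, hs_scl, hz_scl, hz_scl, ← hz_tg, smul_smul, smul_smul]
  congr 1
  group

theorem cm_scl (u : Bˣ) (v s t : ℕ → B) :
    cm p (scl p (u : B) v) (scl p (u : B) s) (scl p (u : B) t) = scl p (u : B) (cm p v s t) := by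
  apply hs_injective p (hz p (scl p (u : B) v))
  rw [← hs_cm, tg_scl, hs_scl, hs_scl, hs_scl, ← hs_cm]
  group

/-! ### the integral form of the logarithmic identities -/

/-- `p^n` times the `n`-th coefficient of the logarithm -/
def lam (v : ℕ → B) : ℕ → B
  | 0 => 1
  | n + 1 => ∑ i : Fin (n + 1), (p : B) ^ (n - i) * lam v i * v (n - i) ^ p ^ (i : ℕ)

omit hp in
theorem lam_zero (v : ℕ → B) : lam p v 0 = 1 := by rw [lam]

omit hp in
theorem lam_succ (v : ℕ → B) (n : ℕ) : lam p v (n + 1) =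
    ∑ i ∈ Finset.range (n + 1), (p : B) ^ (n - i) * lam p v i * v (n - i) ^ p ^ i := by
  rw [lam, Finset.sum_range]

omit hp in
theorem map_lam (φ : A →+* B) (v : ℕ → A) (n : ℕ) :
    φ (lam p v n) = lam p (fun i => φ (v i)) n := by
  induction n using Nat.strong_induction_on with
  | _ n ih =>
    rcases n with _ | n
    · rw [lam_zero, lam_zero, map_one]
    · rw [lam_succ, lam_succ, map_sum]
      refine Finset.sum_congr rfl fun i hi => ?_
      rw [map_mul, map_mul, map_pow, map_pow, map_natCast, ih i (Finset.mem_range.1 hi)]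

theorem lam_rat {K : Type*} [CommRing K] [Algebra ℚ K] (v : ℕ → K) (n : ℕ) :
    lam p v n = (p : K) ^ n * one1 (el p v) n := by
  have h1 : (p : K) * algebraMap ℚ K (1 / p) = 1 := by
    rw [← map_natCast (algebraMap ℚ K), ← map_mul,
      mul_one_div_cancel (by exact_mod_cast hp.out.ne_zero), map_one]
  induction n using Nat.strong_induction_on with
  | _ n ih =>
    rcases n with _ | n
    · rw [lam_zero, pow_zero, one1_zero, mul_one]
    · rw [lam_succ, one1_succ, el_eq, ← mul_assoc, pow_succ, mul_assoc _ (p : K), h1, mul_one,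
        Finset.mul_sum]
      refine Finset.sum_congr rfl fun i hi => ?_
      rw [Finset.mem_range] at hi
      rw [ih i hi, ← mul_assoc, ← pow_add, show n - i + i = n by omega, mul_assoc]

/-- `p^n l'_n = ∑ p^{j} (p^{n-j} l_{n-j}) t_j^{p^{n-j}}` -/
theorem lam_tg (v t : ℕ → B) (n : ℕ) : lam p (tg p v t) n =
    ∑ j ∈ Finset.range (n + 1), (p : B) ^ j * lam p v (n - j) * one1 t j ^ p ^ (n - j) := by
  have key : ∀ v t : ℕ → MvPolynomial (ℕ ⊕ ℕ) ℚ, lam p (tg p v t) n =
      ∑ j ∈ Finset.range (n + 1), (p : MvPolynomial (ℕ ⊕ ℕ) ℚ) ^ j * lam p v (n - j) *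
        one1 t j ^ p ^ (n - j) := by
    intro v t
    rw [lam_rat, el_of_tg p (hz_tg p v t)]
    rcases n with _ | n
    · simp [lam_zero]
    · rw [one1_succ, lt, Finset.mul_sum]
      refine Finset.sum_congr rfl fun j hj => ?_
      rw [Finset.mem_range] at hj
      rw [lam_rat, ← mul_assoc (_ ^ j), ← pow_add, show j + (n + 1 - j) = n + 1 by omega,
        mul_assoc]
  have h1 : lam p (tg p (fun i => (MvPolynomial.X (Sum.inl i) : MvPolynomial (ℕ ⊕ ℕ) ℤ))
      fun i => MvPolynomial.X (Sum.inr i)) n = ∑ j ∈ Finset.range (n + 1),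
        (p : MvPolynomial (ℕ ⊕ ℕ) ℤ) ^ j * lam p (fun i => MvPolynomial.X (Sum.inl i)) (n - j) *
        one1 (fun i => MvPolynomial.X (Sum.inr i)) j ^ p ^ (n - j) := by
    apply mapQ_injective
    simp only [map_lam, map_tg, map_sum, map_mul, map_pow, map_natCast, map_one1]
    exact key _ _
  have h2 := congrArg (ev2 v t) h1
  simpa only [map_lam, map_tg, map_sum, map_mul, map_pow, map_natCast, map_one1, ev2_inl,
    ev2_inr] using h2

end Vale.Agent.P236EL

end
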