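import Vale.Agent.P236EL.Rep

/-!
# P236EL / Bc : change of coefficients and the Bockstein homomorphism
-/

noncomputable section

namespace Vale.Agent.P236EL

open Vale.Agent.P251.F Vale.Agent.P251.F.F3 Vale.Agent.P257.H80 LawRing MvPolynomial Ch

section coeff

variable {σ L : Type} [CommRing L] {p : ℕ} (ω : σ → ℕ)

variable (p L) in
/-- the ideal generated by `p` and the variables of length one -/
def JJ : Ideal (MvPolynomial σ L) := Ideal.span (insert (p : MvPolynomial σ L) (X '' {i | ω i = 1}))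

variable (p L) in
/-- divisibility of the coefficients -/
def Dv (n : ℕ) : Ideal (MvPolynomial σ L) where
  carrier := {F | ∀ m, (p : L) ^ (n - Finsupp.weight ω m) ∣ coeff m F}
  zero_mem' _ := dvd_zero _
  add_mem' ha hb m := by rw [coeff_add]; exact dvd_add (ha m) (hb m)
  smul_mem' c F hF m := by
    classical
    rw [smul_eq_mul, coeff_mul]
    refine Finset.dvd_sum fun ab hab => Dvd.dvd.mul_left ((pow_dvd_pow _ ?_).trans (hF _)) _
    rw [← Finset.HasAntidiagonal.mem_antidiagonal.1 hab, map_add]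
    omega

theorem Dv_mul (i j : ℕ) : Dv L p ω i * Dv L p ω j ≤ Dv L p ω (i + j) := by
  classical
  refine Ideal.mul_le.2 fun F hF F' hF' m => ?_
  rw [coeff_mul]
  refine Finset.dvd_sum fun ab hab => (pow_dvd_pow _ ?_).trans
    ((pow_add _ _ _).dvd.trans (mul_dvd_mul (hF _) (hF' _)))
  rw [← Finset.HasAntidiagonal.mem_antidiagonal.1 hab, map_add]
  omega

theorem pow_le_Dv (n : ℕ) : JJ L p ω ^ n ≤ Dv L p ω n := by
  classical
  have h1 : JJ L p ω ≤ Dv L p ω 1 := by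
    rw [JJ, Ideal.span_le]
    rintro _ (rfl | ⟨i, hi, rfl⟩) m
    · rw [← map_natCast C, coeff_C]
      split_ifs
      · exact (pow_dvd_pow _ (Nat.sub_le _ _)).trans (pow_one _).dvd
      · exact dvd_zero _
    · rw [coeff_X]
      split_ifs with h
      · rw [← h, Finsupp.weight_single, show ω i = 1 from hi]
        simp
      · exact dvd_zero _
  induction n with
  | zero => exact fun F _ m => by simp
  | succ n ih => exact (pow_succ _ n).trans_le ((Ideal.mul_mono ih h1).trans (Dv_mul ω n 1))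

variable {ω} (hω : ∀ i, ω i ≤ 1)

include hω

theorem monomial_mem_JJ (m : σ →₀ ℕ) :
    (monomial m 1 : MvPolynomial σ L) ∈ JJ L p ω ^ Finsupp.weight ω m := by
  induction m using Finsupp.induction_linear with
  | zero => simp
  | add a b ha hb =>
    rw [map_add, pow_add, ← one_mul (1 : L), ← monomial_mul]
    exact Ideal.mul_mem_mul ha hb
  | single i n =>
    rw [Finsupp.weight_single, smul_eq_mul]
    rcases Nat.le_one_iff_eq_zero_or_eq_one.1 (hω i) with h | h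
    · simp [h]
    · rw [h, mul_one, ← X_pow_eq_monomial]
      exact Ideal.pow_mem_pow (Ideal.subset_span (Set.mem_insert_of_mem _
        (Set.mem_image_of_mem X (show i ∈ {i | ω i = 1} from h)))) n

theorem mem_JJ_pow {n : ℕ} {F : MvPolynomial σ L} :
    F ∈ JJ L p ω ^ n ↔ ∀ m, (p : L) ^ (n - Finsupp.weight ω m) ∣ coeff m F := by
  refine ⟨fun h => pow_le_Dv ω n h, fun h => ?_⟩
  rw [F.as_sum]
  refine Ideal.sum_mem _ fun m _ => ?_
  obtain ⟨d, hd⟩ := h m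
  rw [hd, mul_comm, ← mul_one (d * _), ← C_mul_monomial, map_mul, map_pow, map_natCast, mul_assoc]
  refine Ideal.mul_mem_left _ _ (Ideal.pow_le_pow_right
    (show n ≤ n - Finsupp.weight ω m + Finsupp.weight ω m by omega) ?_)
  rw [pow_add]
  exact Ideal.mul_mem_mul (Ideal.pow_mem_pow (Ideal.subset_span (Set.mem_insert _ _)) _)
    (monomial_mem_JJ hω m)

variable {Q : ℕ} (hQ : Q = p * p) (ψ : ZMod Q →+* ZMod p)

omit hω in
include hQ in
theorem zmod_ker (hp : p ≠ 0) (a : ZMod Q) : (ψ a = 0 ↔ (p : ZMod Q) ∣ a) ∧ (p * a = 0 → ψ a = 0) := by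
  obtain ⟨n, rfl⟩ := ZMod.intCast_surjective a
  rw [map_intCast, ZMod.intCast_zmod_eq_zero_iff_dvd]
  refine ⟨⟨fun h => by simpa using map_dvd (Int.castRingHom (ZMod Q)) h, fun h => ?_⟩, fun h => ?_⟩
  · have h1 := map_dvd ψ h
    rwa [map_natCast, ZMod.natCast_self, map_intCast, zero_dvd_iff,
      ZMod.intCast_zmod_eq_zero_iff_dvd] at h1
  · rw [← Int.cast_natCast, ← Int.cast_mul, ZMod.intCast_zmod_eq_zero_iff_dvd, hQ, Nat.cast_mul] at h
    exact (mul_dvd_mul_iff_left (Nat.cast_ne_zero.2 hp)).1 h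

include hQ

theorem map_mem_of_mul (hp : p ≠ 0) {n : ℕ} {F : MvPolynomial σ (ZMod Q)}
    (h : p • F ∈ JJ (ZMod Q) p ω ^ n) : map ψ F ∈ JJ (ZMod p) p ω ^ (n - 1) := by
  refine (mem_JJ_pow hω).2 fun m => ?_
  obtain ⟨d, hd⟩ := (mem_JJ_pow hω).1 h m
  rcases Nat.eq_zero_or_pos (n - 1 - Finsupp.weight ω m) with h1 | h1
  · rw [h1, pow_zero]
    exact one_dvd _
  · rw [coeff_map, (zmod_ker hQ ψ hp _).2]
    · exact dvd_zero _
    · rw [← nsmul_eq_mul, ← coeff_smul, hd, show n - Finsupp.weight ω m =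
        n - 2 - Finsupp.weight ω m + 2 by omega, pow_add, pow_two, ← Nat.cast_mul, ← hQ,
        ZMod.natCast_self, mul_zero, zero_mul]

theorem exists_div (hp : p ≠ 0) {n : ℕ} {κ : σ → ℤ} {w : ℤ} {F : MvPolynomial σ (ZMod Q)}
    (hF : IsWeightedHomogeneous κ F w) (h : map ψ F ∈ JJ (ZMod p) p ω ^ n) :
    ∃ y, IsWeightedHomogeneous κ y w ∧ F - p • y ∈ JJ (ZMod Q) p ω ^ n := by
  classical
  have h1 : ∀ m, ∃ b, Finsupp.weight ω m < n → coeff m F = p * b := fun m => by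
    by_cases hm : Finsupp.weight ω m < n
    · have h2 := (mem_JJ_pow hω).1 h m
      rw [ZMod.natCast_self, zero_pow (by omega), zero_dvd_iff, coeff_map] at h2
      obtain ⟨b, hb⟩ := (zmod_ker hQ ψ hp _).1.1 h2
      exact ⟨b, fun _ => hb⟩
    · exact ⟨0, fun h => absurd h hm⟩
  choose b hb using h1
  refine ⟨∑ m ∈ F.support, monomial m (b m), IsWeightedHomogeneous.sum _ _ _ fun m hm =>
    isWeightedHomogeneous_monomial _ _ _ (hF (mem_support_iff.1 hm)), (mem_JJ_pow hω).2 fun m => ?_⟩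
  by_cases hm : Finsupp.weight ω m < n
  · rw [coeff_sub, coeff_smul, coeff_sum]
    simp only [coeff_monomial, Finset.sum_ite_eq', mem_support_iff]
    split_ifs with h2
    · rw [hb m hm, nsmul_eq_mul, sub_self]
      exact dvd_zero _
    · simp [not_not.1 h2]
  · rw [Nat.sub_eq_zero_of_le (not_lt.1 hm), pow_zero]
    exact one_dvd _

theorem exists_lift_JJ (hp : p ≠ 0) {n : ℕ} {κ : σ → ℤ} {w : ℤ} {F : MvPolynomial σ (ZMod p)}
    (hF : IsWeightedHomogeneous κ F w) (h : F ∈ JJ (ZMod p) p ω ^ n) :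
    ∃ y, IsWeightedHomogeneous κ y w ∧ y ∈ JJ (ZMod Q) p ω ^ n ∧ map ψ y = F := by
  choose b hb using ZMod.ringHom_surjective ψ
  have h1 : map ψ (∑ m ∈ F.support, monomial m (b (coeff m F))) = F := by
    simp only [map_sum, map_monomial, hb]
    exact F.as_sum.symm
  have h2 := IsWeightedHomogeneous.sum F.support (fun m => monomial m (b (coeff m F))) w
    fun m hm => isWeightedHomogeneous_monomial κ _ _ (hF (mem_support_iff.1 hm))
  obtain ⟨y, hy, h3⟩ := exists_div hω hQ ψ hp h2 (h1.symm ▸ h)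
  refine ⟨_, (WS σ _ κ w).sub_mem h2 ((WS σ _ κ w).nsmul_mem hy p), h3, ?_⟩
  rw [map_sub, h1, map_nsmul, nsmul_eq_mul, ← map_natCast C, ZMod.natCast_self, map_zero, zero_mul,
    sub_zero]

end coeff

variable {p : ℕ} [hp : Fact p.Prime] {L L' : Type} [CommRing L] [CommRing L']

omit hp in
theorem II_eq : II p L = JJ L p fun _ : ℕ => 1 := by simp [II, JJ]

theorem Fil_II_pow (n : ℕ) :
    Fil p (II p L ^ n) = JJ L p (Sum.elim (fun _ => 1) fun _ => 0 : ℕ ⊕ ℕ × ℕ → ℕ) ^ n := by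
  rw [Fil, Ideal.map_pow, II, Ideal.map_span, Set.image_insert_eq, map_natCast, JJ]
  congr 3
  ext F
  simp [Ch.vtx, univ]

omit hp in
theorem elim_le : ∀ i, (Sum.elim (fun _ => 1) fun _ => 0 : ℕ ⊕ ℕ × ℕ → ℕ) i ≤ 1 := by
  rintro (i | i) <;> simp

/-! ### change of coefficients -/

section pre

variable (ψ : L →+* L') {B : Type*} [CommRing B]

/-- restriction of scalars -/
def Ch.pre (c : Ch L' B) : Ch L B := ⟨c.o.comp ψ, c.x, c.a⟩

theorem Ch.vtx_pre (c : Ch L' B) (k : ℕ) : (c.pre ψ).vtx p k = c.vtx p k := by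
  induction k with
  | zero => rfl
  | succ k ih => rw [vtx, ih]; rfl

theorem Ch.res_pre (c : Ch L' B) (α : ℕ → ℕ) : (c.pre ψ).res p α = (c.res p α).pre ψ := by
  have h : ∀ i m, (c.pre ψ).sg p i m = c.sg p i m := fun i m => by
    induction m with
    | zero => rfl
    | succ m ih => rw [Ch.sg, ih, vtx_pre]; rfl
  ext1
  · rfl
  · exact c.vtx_pre ψ _
  · funext k
    exact h _ _

omit hp in
theorem Ch.ev_pre (c : Ch L' B) (F : CC L) : (c.pre ψ).ev F = c.ev (MvPolynomial.map ψ F) :=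
  (eval₂_map ψ _ _ F).symm

theorem Ch.pt_pre (c : Ch L' B) (k : ℕ) :
    (c.pre ψ).pt p k = (c.pt p k).comp (MvPolynomial.map ψ) :=
  ringHom_ext (fun a => by simp [pre]) fun i => by simp [vtx_pre]

theorem Ch.arr_pre (c : Ch L' B) (k : ℕ) (g : GG L) :
    (c.pre ψ).arr p k g = c.arr p k (MvPolynomial.map (MvPolynomial.map ψ) g) := by
  rw [arr, pt_pre]
  exact (eval₂_map _ _ _ g).symm

omit hp in
theorem bc_ev (F : CC L) : map ψ F = ((univ L').pre ψ).ev F := by rw [ev_pre, ev_univ]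

theorem bc_pb (α : ℕ → ℕ) (F : CC L) : map ψ (pb p L α F) = pb p L' α (map ψ F) := by
  rw [bc_ev, ev_pb, res_pre, ev_pre, pb]

theorem bc_pt (k : ℕ) (a : AA L) : map ψ ((univ L).pt p k a) = (univ L').pt p k (map ψ a) := by
  rw [bc_ev, ev_pt, pt_pre, RingHom.comp_apply]

theorem bc_arr (k : ℕ) (g : GG L) :
    map ψ ((univ L).arr p k g) = (univ L').arr p k (map (map ψ) g) := by
  rw [bc_ev, ev_arr, arr_pre]

theorem bc_itg (n : ℕ) (r : (ℕ →₀ ℕ) → AA L) (F : CC L) :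
    map ψ (itg p n r F) = itg p n (fun E => map ψ (r E)) (map ψ F) := by
  rw [bc_ev, ev_itg, itg_apply, ← ev_pre, pt_pre, rAp_eq, rAp_eq]
  rfl

omit hp in
theorem bc_cst (F : CC L) : map ψ ((cst L).ev F) = (cst L').ev (map ψ F) := by
  rw [← ev_pre, ← Ch.ev_map]
  congr 2
  ext1
  · exact RingHom.ext fun a => by simp [Ch.map, pre, cst]
  · funext i
    simp [Ch.map, pre, cst]
  · funext k i
    simp [Ch.map, pre, cst]

omit hp in
theorem bc_rAp (r : (ℕ →₀ ℕ) → AA L) (g : GG L) : map ψ (rAp (RingHom.id _) r g) =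
    rAp (RingHom.id _) (fun E => map ψ (r E)) (map (map ψ) g) := by
  rw [map_rAp, rAp_eq, rAp_eq]
  rfl

theorem bc_rs {Q Q' : ℕ} (hQ : PLoc p (ZMod Q)) (hQ' : PLoc p (ZMod Q')) (ψ : ZMod Q →+* ZMod Q')
    (s : ℕ) (z : Cob Laz s) : map ψ (rs hQ s z) = rs hQ' s z := by
  obtain ⟨xU, h⟩ := exists_isTy (rpQZ hQ') (univ (ZMod Q'))
  obtain ⟨x, hx⟩ := (rpQZ hQ).ex _ ((univ (ZMod Q')).pre ψ).o (law.map xU.1)
  have h1 : IsTy p ((univ (ZMod Q')).pre ψ) x xU.2 :=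
    ⟨fun k => by rw [vtx_pre, hx, h.vtx], fun k => by rw [vtx_pre]; exact h.arr k⟩
  rw [bc_ev, rs_apply, h1.ev_resC, rs_apply, resC, h.toChain, Cob.ev_mapRing, Cob.ev_mapRing,
    ofSeq_pre (isLawHom_mkZ Q), ofSeq_pre (isLawHom_mkZ Q')]
  congr 3
  apply LawRing.epi_laz
  rw [← Law.map_map, ← Law.map_map, (isLawHom_mkZ Q).law, (isLawHom_mkZ Q').law, hx]

/-- change of coefficients in each coordinate -/
def bc (ι σ : Type) : (ι → MvPolynomial σ L) →+ (ι → MvPolynomial σ L') :=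
  pw ι (map ψ).toAddMonoidHom

omit hp in
theorem bc_apply {ι σ : Type} (u : ι → MvPolynomial σ L) (i : ι) : bc ψ ι σ u i = map ψ (u i) := rfl

omit hp in
theorem down_bc {ι : Type} (F : ι → CC L) : down ι (bc ψ _ _ F) = bc ψ _ _ (down ι F) := by
  funext i
  rw [down_apply, bc_apply, bc_apply, down_apply, bc_cst]

end pre

variable {G : ℕ → Type} [∀ q, Fintype (G q)]

/-- `R'` is obtained from `R` by change of coefficients -/
structure Bc (ψ : L →+* L') (R : Rs p L G) (R' : Rs p L' G) : Prop where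
  deg : R'.deg = R.deg
  e : ∀ c w, R'.e c w = map (map ψ) (R.e c w)
  y : ∀ q w w' E, R'.y q w w' E = map ψ (R.y q w w' E)

namespace Bc

variable {ψ : L →+* L'} {R : Rs p L G} {R' : Rs p L' G} (h : Bc ψ R R')

include h

theorem TT (n q s : ℕ) (e : q + n = s) (F : G q → CC L) :
    R'.TT n q s e (bc ψ _ _ F) = bc ψ _ _ (R.TT n q s e F) := by
  refine zig_nat (E := fun q => G q → CC L) (E' := fun q => G q → CC L') (fun q => bc ψ _ _)
    (fun n q x => funext fun w' => ?_) n q s e F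
  rcases q with _ | q
  · change sg p L' n (tw p n R'.e _ w') = map ψ (sg p L n (tw p n R.e x w'))
    simp only [tw_apply, map_sum, map_mul, sg_fc_succ, h.e, ← bc_arr]
    simp only [sg, bc_pb]
    rfl
  · change _ = map ψ (R.st n (q + 1) x w')
    simp only [Rs.st_succ, map_sum, bc_itg, ← h.y]
    rfl

theorem Phi (s : ℕ) (F : G 0 → CC L) : R'.Phi s (bc ψ _ _ F) = bc ψ _ _ (R.Phi s F) := by
  rw [Rs.Phi_apply, h.TT, down_bc, Rs.Phi_apply]

theorem star (m q s : ℕ) (e : q + m = s) (θ : CC L) (u : G q → AA L) :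
    R'.star m q s e (map ψ θ) (bc ψ _ _ u) = bc ψ _ _ (R.star m q s e θ u) := by
  have h1 : cup p _ m (map ψ θ) (up p _ (bc ψ _ _ u)) = bc ψ _ _ (cup p _ m θ (up p _ u)) := by
    funext i
    change _ = map ψ (θ * pb p L _ ((univ L).pt p 0 (u i)))
    rw [map_mul, bc_pb, bc_pt]
    rfl
  rw [Rs.star_apply, h1, h.TT, down_bc, Rs.star_apply]

theorem dl (q : ℕ) (g : GG L) (u : G (q + 1) → AA L) :
    R'.dl q (map (map ψ) g) (bc ψ _ _ u) = bc ψ _ _ (R.dl q g u) := by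
  rw [← Rs.star_arr, ← Rs.star_arr, ← bc_arr, h.star]

theorem sd (q : ℕ) (u : G q → AA L) : R'.sd q (bc ψ _ _ u) = bc ψ _ _ (R.sd q u) := by
  rcases q with _ | q
  · exact (map_zero _).symm
  · rw [← Rs.dl_one, ← Rs.dl_one, ← h.dl, map_one]

theorem tens [Unique (G 0)] {h0 : R.deg 0 default = 0} {h1 : R.th default default = 1}
    {h0' : R'.deg 0 default = 0} {h1' : R'.th default default = 1} {ι : Type} [Fintype ι]
    [DecidableEq ι] {Y : Cm p L ι} {Y' : Cm p L' ι} (hd : Y'.d = Y.d)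
    (ht : ∀ c c', Y'.th c c' = map (map ψ) (Y.th c c'))
    (hs : ∀ c c', Y'.ps c c' = map (map ψ) (Y.ps c c')) :
    Bc ψ (R.tens h0 h1 Y) (R'.tens h0' h1' Y') := by
  refine ⟨funext fun q => ?_, fun (c : ι) (w : G 1 × ι) => ?_, fun q w w' E => ?_⟩
  · rcases q with _ | q
    · exact hd
    · change (fun wc : G (q + 1) × ι => R'.deg (q + 1) wc.1 + Y'.d wc.2) = _
      rw [hd, h.deg]
      rfl
  · change R'.e default w.1 * Y'.th c w.2 = map _ (R.e default w.1 * Y.th c w.2)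
    rw [map_mul, h.e, ht]
  · change mulF _ _ E = map ψ (mulF _ _ E)
    rw [mulF, mulF, bc_rAp, map_mul (MvPolynomial.map _), map_monomial,
      (MvPolynomial.map ψ).map_one, hs, _root_.funext (h.y q _ _)]

theorem ga [Unique (G 0)] {h0 : R.deg 0 default = 0} {h1 : R.th default default = 1}
    {h0' : R'.deg 0 default = 0} {h1' : R'.th default default = 1} {ι : Type} [Fintype ι]
    [DecidableEq ι] {Y : Ga L ι} {Y' : Ga L' ι} (hd : Y'.d = Y.d)
    (ha : ∀ c c', Y'.a c c' = ψ (Y.a c c')) :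
    Bc ψ (R.tens h0 h1 (Y.cm p)) (R'.tens h0' h1' (Y'.cm p)) :=
  h.tens hd (fun c c' => by simp [Ga.cm, Ga.ent, hd, ha]) fun c c' => by
    simp [Ga.cm, Ga.ent, hd, ha]

end Bc

theorem Bc.Ph {Q Q' : ℕ} {hQ : PLoc p (ZMod Q)} {hQ' : PLoc p (ZMod Q')} {ψ : ZMod Q →+* ZMod Q'}
    {R : Rs p (ZMod Q) G} {R' : Rs p (ZMod Q') G} (h : Bc ψ R R') (s : ℕ) (x : G 0 → Cob Laz s) :
    Ph hQ' R' s x = bc ψ _ _ (Ph hQ R s x) := by
  rw [Ph_apply, Ph_apply, ← h.Phi]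
  congr 1
  funext c
  rw [bc_apply, rsP_apply, rsP_apply, bc_rs hQ hQ']

/-! ### the Bockstein homomorphism -/

variable {Q : ℕ} {hQ : PLoc p (ZMod Q)} {hP : PLoc p (ZMod p)} (hq : Q = p * p)
  (ψ : ZMod Q →+* ZMod p) {ι : Type} {d : ι → ℤ} {w : ℤ} {s a b : ℕ}

include hq

theorem bc_mem_ZA {u : ι → AA (ZMod Q)} (h : p • u ∈ ZA ι (II p (ZMod Q) ^ a)) :
    bc ψ _ _ u ∈ ZA ι (II p (ZMod p) ^ (a - 1)) := fun i => by
  rw [II_eq]
  exact map_mem_of_mul (fun _ => le_rfl) hq ψ hp.out.ne_zero (II_eq (L := ZMod Q) ▸ h i)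

theorem exists_div_PA {K : Ideal (AA (ZMod Q))} {u : ι → AA (ZMod Q)} (hu : u ∈ PA p d w K)
    (h : bc ψ _ _ u ∈ ZA ι (II p (ZMod p) ^ a)) :
    ∃ e ∈ PA p d w ⊤, u - p • e ∈ ZA ι (II p (ZMod Q) ^ a) := by
  choose e he he' using fun i => exists_div (fun _ => le_rfl) hq ψ hp.out.ne_zero (hu i).1
    (II_eq (L := ZMod p) ▸ h i)
  exact ⟨e, fun i => ⟨he i, trivial⟩, fun i => II_eq (L := ZMod Q) ▸ he' i⟩

theorem exists_lift_PA {u : ι → AA (ZMod p)} (hu : u ∈ PA p d w (II p (ZMod p) ^ a)) :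
    ∃ e ∈ PA p d w (II p (ZMod Q) ^ a), bc ψ _ _ e = u := by
  choose e he he' he'' using fun i => exists_lift_JJ (fun _ => le_rfl) hq ψ hp.out.ne_zero (hu i).1
    (II_eq (L := ZMod p) ▸ (hu i).2)
  exact ⟨e, fun i => ⟨he i, II_eq (L := ZMod Q) ▸ he' i⟩, funext he''⟩

include ψ

theorem Fl_of_nsmul {x : ι → Cob Laz s} (h : p • x ∈ Fl hQ ι s (II p (ZMod Q) ^ a)) :
    x ∈ Fl hP ι s (II p (ZMod p) ^ (a - 1)) := fun c => by
  have h1 := h c
  rw [map_nsmul, Fil_II_pow] at h1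
  rw [rsP_apply, ← bc_rs hQ hP ψ, Fil_II_pow]
  exact map_mem_of_mul elim_le hq ψ hp.out.ne_zero h1

theorem exists_Fl_lift {x : ι → Cob Laz s} (hx : x ∈ CW p Laz d w s)
    (h : x ∈ Fl hP ι s (II p (ZMod p) ^ a)) :
    ∃ y ∈ CW p Laz d w s, x - p • y ∈ Fl hQ ι s (II p (ZMod Q) ^ a) := by
  have h1 : ∀ c, ∃ Y, Cob.IsWt (((p : ℤ) - 1) * (w - d c)) Y ∧
      rs hQ s (x c - p • Y) ∈ Fil p (II p (ZMod Q) ^ a) := fun c => by
    have h2 := h c
    rw [rsP_apply, ← bc_rs hQ hP ψ, Fil_II_pow] at h2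
    obtain ⟨y, h3, h4⟩ := exists_div elim_le hq ψ hp.out.ne_zero (rs_mem_WC hQ (hx c)) h2
    obtain ⟨Y, hY, h5⟩ := exists_rs hQ (pb_min_mem_Loc s y) (pb_mem_WC _ h3)
    refine ⟨Y, hY, ?_⟩
    rw [map_sub, map_nsmul, h5, ← mem_Loc.1 (rs_mem_Loc hQ s (x c)), ← map_nsmul, ← map_sub]
    exact pb_mem_Fil (inv_II.pow a) (monotone_min s) (Fil_II_pow (p := p) (L := ZMod Q) a ▸ h4)
  choose Y hY hY' using h1
  exact ⟨Y, hY, hY'⟩

variable {ψ} {R : Rs p (ZMod Q) G} {R' : Rs p (ZMod p) G}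

/-- a representative modulo `p` gives a representative modulo `p ^ 2` -/
theorem Rv.lift (hB : Bc ψ R R') {x : G 0 → Cob Laz s} {u : G (s + 1) → AA (ZMod Q)}
    (h : Rv hP R' s w a b x (bc ψ _ _ u)) (hu : u ∈ PA p (R.deg (s + 1)) w (II p (ZMod Q) ^ a)) :
    ∃ y ∈ CW p Laz (R.deg 0) w s, ∃ e ∈ PA p (R.deg (s + 1)) w ⊤,
      Rv hQ R s w a b (x - p • y) (u + p • e) := by
  have hx := h.cw
  obtain ⟨v', hv', h1⟩ := Rs.mem_Bd.1 h.bd
  rw [hB.deg] at hx hv'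
  obtain ⟨y, hy, h2⟩ := exists_Fl_lift (hQ := hQ) hq ψ hx h.fl
  obtain ⟨v, hv, rfl⟩ := exists_lift_PA hq ψ hv'
  have h3 := sub_mem hx (nsmul_mem hy p)
  obtain ⟨e, he, h4⟩ := exists_div_PA hq ψ (a := b) (sub_mem (sub_mem (Ph_mem (inv_II.pow a) h3 h2)
    hu) (Rs.sd_mem_PA (inv_II.pow a) hv)) (by
      rw [map_sub, map_sub, ← hB.Ph (hQ' := hP), ← hB.sd, map_sub, sub_right_comm _ _ (bc ψ _ _ u),
        sub_right_comm]
      exact sub_mem h1 (Ph_mem_ZA (inv_II.pow b) (QW_le_Fl _ (mem_QW.2 ⟨y, hy, rfl⟩))))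
  exact ⟨y, hy, e, he, h3, h2, Rs.mem_Bd.2 ⟨v, hv, by rwa [← sub_sub, sub_right_comm]⟩⟩

/-- **the Bockstein homomorphism** -/
theorem Rv.bock [DecidableEq (G 0)] {θ : G 0 → G 0 → Cob Laz 1} (hB : Bc ψ R R') (hC : IC hQ R θ)
    {F : Type} [Field F] {π : ZMod Q →+* F} {r : ℕ} {T : ℤ} (hR : R.Ok π r (s + 1) T) (hw : w ≤ T)
    (hab : a ≤ b) (hb : b ≤ a + r) {x : G 0 → Cob Laz s} {u : G (s + 1) → AA (ZMod Q)}
    (h : Rv hP R' s w a b x (bc ψ _ _ u)) (hu : u ∈ PA p (R.deg (s + 1)) w (II p (ZMod Q) ^ a))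
    {c : G 0 → Cob Laz (s + 1)} (hc : c ∈ CW p Laz (R.deg 0) w (s + 1))
    (hd : P236EL.DD θ s x - p • c ∈ QW p Laz (R.deg 0) w Q (s + 1)) {v : G (s + 2) → AA (ZMod Q)}
    (hv : R.sd (s + 1) u - p • v ∈ ZA _ (II p (ZMod Q) ^ b)) : ∃ y ∈ CW p Laz (R.deg 0) w s,
      Rv hP R' (s + 1) w (a - 1) (b - 1) (c - P236EL.DD θ s y) (bc ψ _ _ v) := by
  obtain ⟨y, hy, e, he, h1⟩ := h.lift (hQ := hQ) hq hB hu
  have h2 : P236EL.DD θ s (x - p • y) - (P236EL.DD θ s x - p • c) = p • (c - P236EL.DD θ s y) := by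
    rw [map_sub, map_nsmul, smul_sub]
    abel
  have h3 := bc_mem_ZA hq ψ (u := e) (a := a) (by
    simpa using sub_mem (h1.mem_ZA hab) (show u ∈ ZA _ _ from fun i => (hu i).2))
  refine ⟨y, hy, hB.deg ▸ sub_mem hc (DD_mem_CW hC.wt hy), Fl_of_nsmul (hQ := hQ) hq ψ ?_,
    Rs.mem_Bd.2 ⟨bc ψ _ _ e, fun i => ⟨?_, h3 i⟩, ?_⟩⟩
  · rw [← h2]
    exact sub_mem (hC.DD_mem_Fl (inv_II.pow a) h1.fl) (QW_le_Fl _ hd)
  · rw [hB.deg]
    exact fun m hm => (he i).1 fun h0 => hm (by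
      change coeff m (map ψ (e i)) = 0
      rw [coeff_map, h0, map_zero])
  · rw [hB.Ph (hQ := hQ), hB.sd, ← map_sub, ← map_sub]
    refine bc_mem_ZA hq ψ ?_
    have h4 := sub_mem (add_mem (h1.DD hC hR hw hb) hv)
      (Ph_mem_ZA (hQ := hQ) (R := R) (inv_II.pow b) (QW_le_Fl _ hd))
    rw [smul_sub, smul_sub, ← map_nsmul, ← h2, map_sub]
    convert h4 using 1
    rw [map_add, map_nsmul]
    abel

omit hq ψ hp in
/-- cocycles modulo `p ^ 2` vanish modulo `p` if the Bockstein homomorphism is injective -/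
theorem van_of_bock [Fintype ι] {θ : ι → ι → Cob Laz 1} (hθ : MC θ)
    {𝒵 : AddSubgroup (ι → Cob Laz s)} (h1 : ZC p θ d w p s ≤ 𝒵 ⊔ BQ p θ d w p s)
    (h2 : ∀ z ∈ 𝒵, ∀ c ∈ BQ p θ d w p (s + 1), DD θ s z = p • c → z ∈ BQ p θ d w p s) :
    ZC p θ d w (p * p) s ≤ BQ p θ d w p s := fun x hx => by
  obtain ⟨c, hc, h3⟩ := (mem_ZC.1 hx).2
  obtain ⟨z, hz, e, he, rfl⟩ := AddSubgroup.mem_sup.1
    (h1 (mem_ZC'.2 ⟨hx.1, QW_mono (dvd_mul_right p p) hx.2⟩))
  obtain ⟨b, hb, u, hu, rfl⟩ := mem_BQ.1 he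
  have h4 : DD θ s b = 0 := by
    rcases s with _ | s
    · rw [AddSubgroup.mem_bot.1 hb, map_zero]
    · obtain ⟨y, -, rfl⟩ := hb
      exact DD_DD hθ y
  rw [map_add, map_add, h4, zero_add, map_nsmul, mul_smul] at h3
  exact add_mem (h2 z hz (p • c - DD θ s u) (sub_mem (AddSubgroup.mem_sup_right ⟨c, hc, rfl⟩)
    (AddSubgroup.mem_sup_left ⟨u, hu, rfl⟩)) (by rw [smul_sub, h3, add_sub_cancel_right])) he

end Vale.Agent.P236EL

end
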