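import Mathlib

/-!
# P236EL / Pl : matrices over the field with three elements with undetermined entries
-/

namespace Vale.Agent.P236EL

open AddSubgroup

/-- coordinate vectors -/
abbrev V3 (n : ℕ) : Type := Fin n → ZMod 3

/-- an entry of a row; the value `3` means that the entry is not determined -/
def en (r : List ℕ) (j : ℕ) : ℕ := r.getD j 3

/-- the vector has the determined entries of the row -/
def Ag {n : ℕ} (r : List ℕ) (w : V3 n) : Prop := ∀ j : Fin n, en r j < 3 → w j = (en r j : ℕ)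

/-- one entry of a combination of rows -/
def dot : List ℕ → List (List ℕ) → ℕ → ℕ
  | c :: d, r :: M, j => if c = 0 then dot d M j else
      if en r j < 3 ∧ dot d M j < 3 then (c * en r j + dot d M j) % 3 else 3
  | _, _, _ => 0

/-- a combination of vectors -/
def lsum {n : ℕ} : List ℕ → List (V3 n) → V3 n
  | c :: d, w :: l => c • w + lsum d l
  | _, _ => 0

/-- the test holds for all coefficient lists of length `n` -/
def allV : ℕ → (List ℕ → Bool) → Bool
  | 0, C => C []
  | n + 1, C => allV n (fun c => C (0 :: c)) && allV n (fun c => C (1 :: c)) &&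
      allV n fun c => C (2 :: c)

/-- the test holds for some coefficient list of length `n` -/
def anyV : ℕ → (List ℕ → Bool) → Bool
  | 0, C => C []
  | n + 1, C => anyV n (fun c => C (0 :: c)) || anyV n (fun c => C (1 :: c)) ||
      anyV n fun c => C (2 :: c)

/-- the coefficient list of a vector -/
def cl {n : ℕ} (c : V3 n) : List ℕ := List.ofFn fun i => (c i).val

variable {n m k : ℕ} {M N : List (List ℕ)} {C : List ℕ → Bool}

theorem allV_spec (h : allV n C = true) (c : V3 n) : C (cl c) = true := by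
  induction n generalizing C with
  | zero => exact h
  | succ n ih =>
    simp only [allV, Bool.and_eq_true] at h
    rw [cl, List.ofFn_succ]
    have h1 : (c 0).val < 3 := ZMod.val_lt _
    rcases (by omega : (c 0).val = 0 ∨ (c 0).val = 1 ∨ (c 0).val = 2) with e | e | e <;> rw [e]
    exacts [ih h.1.1 _, ih h.1.2 _, ih h.2 _]

theorem anyV_spec (h : anyV n C = true) : ∃ c, C c = true := by
  induction n generalizing C with
  | zero => exact ⟨_, h⟩
  | succ n ih =>
    simp only [anyV, Bool.or_eq_true] at h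
    rcases h with (h | h) | h <;> exact (ih h).elim fun _ h => ⟨_, h⟩

theorem en_cl (c : V3 n) (j : Fin n) : en (cl c) j = (c j).val := by simp [en, cl]

theorem dot_spec {l : List (V3 n)} (h : List.Forall₂ Ag M l) (d : List ℕ) (j : Fin n)
    (hj : dot d M j < 3) : lsum d l j = (dot d M j : ℕ) := by
  induction h generalizing d with
  | nil => cases d <;> simp [dot, lsum]
  | @cons r w M l h _ ih =>
    rcases d with _ | ⟨c, d⟩
    · simp [dot, lsum]
    rw [dot] at hj ⊢
    rw [lsum, Pi.add_apply, Pi.smul_apply]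
    split_ifs at hj ⊢ with h1 h2
    · rw [h1, zero_smul, zero_add, ih d hj]
    · rw [ih d h2.2, h j h2.1, ZMod.natCast_mod]
      simp
    · omega

theorem lsum_mem {W : AddSubgroup (V3 n)} {l : List (V3 n)} (h : ∀ w ∈ l, w ∈ W) (d : List ℕ) :
    lsum d l ∈ W := by
  induction l generalizing d with
  | nil => cases d <;> exact zero_mem _
  | cons w l ih =>
    rcases d with _ | ⟨c, d⟩
    · exact zero_mem _
    · exact add_mem (nsmul_mem (h w List.mem_cons_self) c)
        (ih (fun v hv => h v (List.mem_cons_of_mem _ hv)) d)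

theorem lsum_ofFn (c : Fin m → ℕ) (w : Fin m → V3 n) :
    lsum (List.ofFn c) (List.ofFn w) = ∑ i, c i • w i := by
  induction m with
  | zero => simp [lsum]
  | succ m ih => rw [List.ofFn_succ, List.ofFn_succ, lsum, ih, Fin.sum_univ_succ]

/-- the determined entries of the matrix of `φ` -/
def Pa (φ : V3 m →+ V3 n) (M : List (List ℕ)) : Prop :=
  List.Forall₂ Ag M (List.ofFn fun i => φ (Pi.single i 1))

theorem sum_single (c : V3 n) : ∑ i, (c i).val • (Pi.single i 1 : V3 n) = c := funext fun j => by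
  rw [Finset.sum_apply, Finset.sum_eq_single j (fun i _ h => by simp [Pi.single_eq_of_ne h.symm])
    fun h => absurd (Finset.mem_univ j) h]
  simp

variable {φ : V3 m →+ V3 n} {ψ : V3 m →+ V3 k} {W W' : AddSubgroup (V3 n)}

theorem Pa.dot (h : Pa φ M) (c : V3 m) (j : Fin n) (hj : dot (cl c) M j < 3) :
    φ c j = (dot (cl c) M j : ℕ) := by
  rw [← dot_spec h _ j hj, cl, lsum_ofFn]
  conv_lhs => rw [← sum_single c, map_sum]
  simp only [map_nsmul]

theorem Pa.ent (h : Pa φ M) (i : Fin m) (j : Fin n) (c : ℕ) (e : en (M.getD i []) j = c)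
    (hc : c < 3) : φ (Pi.single i 1) j = c := by
  have h1 := h.length_eq
  rw [List.length_ofFn] at h1
  have h2 := List.forall₂_iff_get.1 h |>.2 i (h1 ▸ i.2) (by simp)
  rw [List.getD_eq_getElem _ _ (h1 ▸ i.2)] at e
  simpa [← e] using h2 j (by simpa [e] using hc)

theorem pa_of (h : M.length = m) (h' : ∀ i : Fin m, Ag (M.getD i []) (φ (Pi.single i 1))) :
    Pa φ M := List.forall₂_iff_get.2 ⟨by simpa using h, fun i h1 h2 => by
  have h3 := h' ⟨i, h ▸ h1⟩
  rw [List.getD_eq_getElem _ _ h1] at h3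
  simpa using h3⟩

/-- the combination is certainly not zero -/
def nzR (n : ℕ) (M : List (List ℕ)) (c : List ℕ) : Bool :=
  (List.range n).any fun j => dot c M j = 1 ∨ dot c M j = 2
/-- the combination agrees with `c` outside `U` -/
def eqR (n : ℕ) (U : List ℕ) (M : List (List ℕ)) (d : List ℕ) (c : ℕ → ℕ) : Bool :=
  (List.range n).all fun j => j ∈ U ∨ (c j < 3 ∧ dot d M j = c j)

theorem Pa.nz (h : Pa φ M) {c : V3 m} (hc : nzR n M (cl c) = true) : φ c ≠ 0 := fun e => by
  obtain ⟨j, h1, h2⟩ := List.any_eq_true.1 hc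
  have h3 := of_decide_eq_true h2
  have h4 := h.dot c ⟨j, List.mem_range.1 h1⟩ (by dsimp only; omega)
  rw [e, Pi.zero_apply] at h4
  rcases h3 with h3 | h3 <;> rw [h3] at h4 <;> exact absurd h4 (by decide)

theorem Pa.eq0 (h : Pa φ M) {c : V3 m} (hc : eqR n [] M (cl c) (fun _ => 0) = true) : φ c = 0 :=
    funext fun j => by
  have h1 := of_decide_eq_true (List.all_eq_true.1 hc j (List.mem_range.2 j.2))
  have h2 := (h1.resolve_left List.not_mem_nil).2
  rw [h.dot c j (h2 ▸ Nat.zero_lt_succ 2), h2]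
  rfl

/-- **injectivity** -/
theorem Pa.inj (h : Pa φ M) (hc : allV m (fun c => nzR n M c || c.all (· = 0)) = true) (c : V3 m)
    (e : φ c = 0) : c = 0 := funext fun j => by
  have h1 := (Bool.or_eq_true _ _ ▸ allV_spec hc c).resolve_left fun h1 => h.nz h1 e
  have h2 := List.all_eq_true.1 h1 (c j).val (by simp [cl])
  simpa using h2

/-- **inclusion of kernels** -/
theorem Pa.kin (h : Pa φ M) (h' : Pa ψ N)
    (hc : allV m (fun c => nzR n M c || eqR k [] N c fun _ => 0) = true) (c : V3 m) (e : φ c = 0) :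
    ψ c = 0 := h'.eq0 ((Bool.or_eq_true _ _ ▸ allV_spec hc c).resolve_left fun h1 => h.nz h1 e)

/-- **the zero map** -/
theorem Pa.zero (h : Pa φ M) (hc : allV m (fun c => eqR n [] M c fun _ => 0) = true) (c : V3 m) :
    φ c = 0 := h.eq0 (allV_spec hc c)

/-- every row is realized by an element of `W` -/
def Rows (W : AddSubgroup (V3 n)) (M : List (List ℕ)) : Prop :=
  ∃ l, List.Forall₂ Ag M l ∧ ∀ w ∈ l, w ∈ W

theorem Pa.rows (h : Pa φ M) (hW : φ.range ≤ W) : Rows W M := ⟨_, h, fun w hw => by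
  obtain ⟨i, rfl⟩ := (List.mem_ofFn' _ _).1 hw
  exact hW ⟨_, rfl⟩⟩

theorem Rows.append (h : Rows W M) (h' : Rows W N) : Rows W (M ++ N) := by
  obtain ⟨l, h1, h2⟩ := h
  obtain ⟨l', h3, h4⟩ := h'
  exact ⟨_, List.rel_append h1 h3, fun w hw => (List.mem_append.1 hw).elim (h2 w) (h4 w)⟩

theorem Rows.one {r : List ℕ} {w : V3 n} (h : Ag r w) (hw : w ∈ W) : Rows W [r] :=
  ⟨[w], .cons h .nil, List.forall_mem_singleton.2 hw⟩

/-- the listed unit vectors lie in `W` -/
def Un (W : AddSubgroup (V3 n)) (U : List ℕ) : Prop := ∀ j : Fin n, j.1 ∈ U → Pi.single j 1 ∈ W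

theorem Rows.mem (h : Rows W M) {U d : List ℕ} (hU : Un W U) {c : ℕ → ℕ}
    (hc : eqR n U M d c = true) {w : V3 n} (hw : ∀ j : Fin n, c j < 3 → w j = (c j : ℕ)) :
    w ∈ W := by
  obtain ⟨l, h1, h2⟩ := h
  rw [← sub_add_cancel w (lsum d l), ← sum_single (w - lsum d l)]
  refine add_mem (sum_mem fun j _ => ?_) (lsum_mem h2 d)
  rcases of_decide_eq_true (List.all_eq_true.1 hc j (List.mem_range.2 j.2)) with h3 | h3
  · exact nsmul_mem (hU j h3) _
  · rw [Pi.sub_apply, dot_spec h1 d j (by omega), h3.2, hw j h3.1, sub_self, ZMod.val_zero,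
      zero_smul]
    exact zero_mem _

/-- a program which produces unit vectors -/
def unC (n : ℕ) (M : List (List ℕ)) : List (ℕ × List ℕ) → Bool
  | [] => true
  | e :: p => unC n M p && eqR n (p.map Prod.fst) M e.2 fun j => if j = e.1 then 1 else 0

theorem Rows.un (h : Rows W M) {p : List (ℕ × List ℕ)} (hc : unC n M p = true) :
    Un W (p.map Prod.fst) := by
  induction p with
  | nil => exact fun _ h => nomatch h
  | cons e p ih =>
    simp only [unC, Bool.and_eq_true] at hc
    intro j hj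
    rcases List.mem_cons.1 hj with e1 | hj
    · refine h.mem (ih hc.1) hc.2 fun i _ => ?_
      rw [Pi.single_apply, ← e1]
      simp [Fin.ext_iff]
    · exact ih hc.1 j hj

/-- the vector with the entries `c` lies in the span of the rows -/
def inR (n : ℕ) (M : List (List ℕ)) (p : List (ℕ × List ℕ)) (c : ℕ → ℕ) : Bool :=
  anyV M.length fun d => eqR n (p.map Prod.fst) M d c

theorem Rows.inR (h : Rows W M) {p : List (ℕ × List ℕ)} (hp : unC n M p = true) {c : ℕ → ℕ}
    (hc : inR n M p c = true) {w : V3 n} (hw : ∀ j : Fin n, c j < 3 → w j = (c j : ℕ)) : w ∈ W :=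
  (anyV_spec hc).elim fun _ hd => h.mem (h.un hp) hd hw

/-- **surjectivity** -/
theorem Rows.top (h : Rows W M) (p : List (ℕ × List ℕ))
    (hc : (unC n M p && eqR n (p.map Prod.fst) M [] fun _ => 3) = true) (w : V3 n) : w ∈ W :=
  have h1 := Bool.and_eq_true _ _ ▸ hc
  h.mem (h.un h1.1) h1.2 fun _ h => absurd h (lt_irrefl _)

/-- **the kernel lies in `W`** -/
theorem Pa.kim {φ : V3 n →+ V3 m} (h : Pa φ M) (h' : Rows W N) (p : List (ℕ × List ℕ))
    (hc : (unC n N p && allV n fun c => nzR m M c || P236EL.inR n N p (en c)) = true) (c : V3 n)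
    (e : φ c = 0) : c ∈ W :=
  have h1 := Bool.and_eq_true _ _ ▸ hc
  h'.inR h1.1 ((Bool.or_eq_true _ _ ▸ allV_spec h1.2 c).resolve_left fun h2 => h.nz h2 e)
    fun j _ => by rw [en_cl, ZMod.natCast_zmod_val]

/-- **the image lies in `W`** -/
theorem Pa.iin (h : Pa φ M) (h' : Rows W N) (p : List (ℕ × List ℕ))
    (hc : (unC n N p && M.all fun r => P236EL.inR n N p (en r)) = true) (c : V3 m) : φ c ∈ W := by
  have h1 := Bool.and_eq_true _ _ ▸ hc
  have h2 := h.length_eq
  rw [List.length_ofFn] at h2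
  rw [← sum_single c, map_sum]
  refine sum_mem fun i _ => ?_
  rw [map_nsmul]
  refine nsmul_mem (h'.inR h1.1 (List.all_eq_true.1 h1.2 (M.getD i []) ?_)
    fun j hj => h.ent i j _ rfl hj) _
  rw [List.getD_eq_getElem _ _ (h2 ▸ i.2)]
  exact List.getElem_mem _

/-- **the image of the kernel lies in `W`** -/
theorem Pa.kii {W : AddSubgroup (V3 k)} {L : List (List ℕ)} (h : Pa φ M) (h' : Pa ψ N)
    (h'' : Rows W L) (p : List (ℕ × List ℕ))
    (hc : (unC k L p && allV m fun c => nzR n M c || P236EL.inR k L p (P236EL.dot c N)) = true)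
    (c : V3 m) (e : φ c = 0) : ψ c ∈ W :=
  have h1 := Bool.and_eq_true _ _ ▸ hc
  h''.inR h1.1 ((Bool.or_eq_true _ _ ▸ allV_spec h1.2 c).resolve_left fun h2 => h.nz h2 e)
    fun j hj => h'.dot c j hj

end Vale.Agent.P236EL
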