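import Vale.Agent.P236EL.Co
import Vale.Agent.P236EL.Pl

/-!
# P236EL / Cb : bases of cohomology groups and matrices of maps
-/

noncomputable section

namespace Vale.Agent.P236EL

open Vale.Agent.P251.F Vale.Agent.P251.I Vale.Agent.P236SY Vale.Agent.P236R
open Vale.Agent.P236KE Vale.Agent.P236K3 Vale.Agent.P236F AddSubgroup

/-- level, precision and leading terms -/
structure Be : Type where
  k : Nat
  b : Nat
  l : List Tr

/-- an entry of a list -/
def gB (bl : List Be) (i : Nat) : Be := bl.getD i ⟨0, 0, []⟩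

/-- the test holds for all combinations of the terms of level `k` -/
def allK (k : Nat) (bl : List Be) : (List Tr → Bool) → Bool :=
  List.rec (motive := fun _ => (List Tr → Bool) → Bool) (fun C => C [])
    (fun e _ ih C => Bool.rec (motive := fun _ => Bool) (ih C) (grd (ih C)
      (grd (ih fun m => C (List.append e.l m)) (ih fun m => C (List.append (twL e.l) m))))
      (Nat.beq e.k k)) bl

/-- the test holds for all normalized combinations of the terms of level `k` -/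
def nzK (k : Nat) (bl : List Be) (C : List Tr → Bool) : Bool :=
  List.rec (motive := fun _ => Bool) true (fun e bl ih => grd ih
    (Bool.rec (motive := fun _ => Bool) true (allK k bl fun m => C (List.append e.l m))
      (Nat.beq e.k k))) bl

namespace WC'

variable (D : KD) (s T : Nat)

/-- the listed terms are not a boundary in level `k` -/
def nlC (k : Nat) (l : List Tr) : Bool := force (Nat.sub k 2) fun a => force (Nat.succ k) fun b =>
  bnd D s T (grd (okL (D.L s) T k (Nat.add k 3) l)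
    (D.noB s T a b ((vcL (D.L s) l).re (D.L s) T k b)))
/-- independence in level `k` modulo `gs` -/
def ikC (k : Nat) (gs : List (List Tr)) (bl : List Be) : Bool :=
  nzK k bl fun m => allC gs fun g => nlC D s T k (List.append m g)
/-- a listed class -/
def nmB (e : Be) : WC' := nmv D s T e.k (mn e.b (Nat.add e.k 3)) e.l
/-- subtract a combination of listed classes -/
def sbB (bl : List Be) : List Nat → WC' → WC' :=
  List.rec (motive := fun _ => List Nat → WC' → WC') (fun _ v => v)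
    (fun e _ ih r v => List.rec (motive := fun _ => WC') v (fun c r _ => ih r
      (Bool.rec (motive := fun _ => WC') ((v.add (D.L s) ((nmB D s T e).sm (Nat.sub 3 c)))) v
        (Nat.beq (Nat.mod c 3) 0))) r) bl
/-- the check of a row -/
def rowC (b : Nat) (bl zs : List Be) (r : List Nat) (v : WC') : Bool :=
  grd ((List.range r.length).all fun j => en r j = 3 ∨ (en r j < 3 ∧ (gB bl j).k < b))
    (inC D s T b (zs.map (nmB D s T)) (sbB D s T bl r v))

end WC'

variable [hp : Fact (Nat.Prime 3)]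

section vec

variable {W : Type} {ix : W → ℕ} {k n : ℕ} {bl : List Be} {C : List Tr → Bool}

theorem zs3 (c : ℤ) (u : W → A) :
    ((c : ZMod 3) = 0 ∧ c • u = 0) ∨ c • u = u ∨ (c • u = 2 • u ∧ (-c) • u = u) := by
  have h3 : (3 : ℤ) • u = 0 := funext fun g => by
    rw [Pi.smul_apply, zsmul_eq_mul]
    exact mul_eq_zero_of_left (CharP.cast_eq_zero A 3) _
  have h : ∀ a q : ℤ, (a + q * 3) • u = a • u := fun a q => by
    rw [add_smul, mul_smul, h3, smul_zero, add_zero]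
  rcases (by omega : c = 0 + c / 3 * 3 ∨ c = 1 + c / 3 * 3 ∨ c = 2 + c / 3 * 3) with e | e | e
  · refine .inl ⟨(ZMod.intCast_zmod_eq_zero_iff_dvd c 3).2 (by omega), ?_⟩
    rw [e, h, zero_smul]
  · exact .inr (.inl (by rw [e, h, one_smul]))
  · refine .inr (.inr ⟨by rw [e, h, two_smul, two_smul], ?_⟩)
    rw [show -c = 1 + (-(c / 3) - 1) * 3 by omega, h, one_smul]

variable (ix k bl) in
/-- the part of level `k` of a combination -/
def lw (c : Fin n → ℤ) : W → A := 
  ∑ i : Fin n, (if (gB bl i).k = k then c i else 0) • vL ix (gB bl i).l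

theorem lw_cons (e : Be) (c : Fin (n + 1) → ℤ) : lw ix k (e :: bl) c =
    (if e.k = k then c 0 else 0) • vL ix e.l + lw ix k bl fun i => c i.succ :=
  Fin.sum_univ_succ _

theorem lw_neg (c : Fin n → ℤ) : lw ix k bl (-c) = -lw ix k bl c := by
  rw [lw, lw, ← Finset.sum_neg_distrib]
  exact Finset.sum_congr rfl fun i _ => by split_ifs <;> simp

theorem allK_spec (h : allK k bl C = true) (hn : bl.length = n) (c : Fin n → ℤ) :
    ∃ m, C m = true ∧ vL ix m = lw ix k bl c := by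
  induction bl generalizing C n with
  | nil => exact ⟨[], h, by subst hn; rfl⟩
  | cons e bl ih =>
    obtain rfl : n = bl.length + 1 := hn.symm
    rw [lw_cons]
    by_cases h1 : e.k = k
    · rw [if_pos h1]
      have h2 : grd (allK k bl C) (grd (allK k bl fun m => C (List.append e.l m))
          (allK k bl fun m => C (List.append (twL e.l) m))) = true := by
        have h3 := h
        simp only [allK] at h3
        rwa [show Nat.beq e.k k = true from Nat.beq_eq ▸ h1] at h3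
      obtain ⟨h3, h4⟩ := grd_spec h2
      obtain ⟨h5, h6⟩ := grd_spec h4
      rcases zs3 (c 0) (vL ix e.l) with e1 | e1 | e1
      · rw [e1.2, zero_add]
        exact ih h3 rfl _
      · obtain ⟨m, h7, h8⟩ := ih h5 rfl fun i => c i.succ
        exact ⟨_, h7, by rw [vL_append, e1, h8]⟩
      · obtain ⟨m, h7, h8⟩ := ih h6 rfl fun i => c i.succ
        exact ⟨_, h7, by rw [vL_append, e1.1, h8, vL_twL]⟩
    · rw [if_neg h1, zero_smul, zero_add]
      refine ih ?_ rfl _
      have h3 := h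
      simp only [allK] at h3
      rwa [show Nat.beq e.k k = false from Bool.eq_false_iff.2 fun h => h1 (Nat.eq_of_beq_eq_true h)]
        at h3

theorem nzK_spec {N : (W → A) → Prop} (hN : ∀ m, C m = true → N (vL ix m))
    (hm : ∀ u, N (-u) → N u) (h : nzK k bl C = true) (hn : bl.length = n) (c : Fin n → ℤ)
    (i : Fin n) (hi : (gB bl i).k = k) (hc : (c i : ZMod 3) ≠ 0) : N (lw ix k bl c) := by
  induction bl generalizing n with
  | nil => subst hn; exact i.elim0
  | cons e bl ih =>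
    obtain rfl : n = bl.length + 1 := hn.symm
    obtain ⟨h1, h2⟩ := grd_spec h
    have h3 : (if e.k = k then c 0 else 0 : ℤ) • vL ix e.l = 0 → (i = 0 → False) →
        N (lw ix k (e :: bl) c) := fun h3 h4 => by
      obtain ⟨j, rfl⟩ := Fin.exists_succ_eq.2 h4
      rw [lw_cons, h3, zero_add]
      exact ih h1 rfl _ j hi hc
    by_cases h4 : e.k = k
    · rw [show Nat.beq e.k k = true from Nat.beq_eq ▸ h4] at h2
      rcases zs3 (c 0) (vL ix e.l) with e1 | e1 | e1
      · exact h3 (by rw [if_pos h4, e1.2]) fun e2 => hc (e2 ▸ e1.1)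
      · obtain ⟨m, h7, h8⟩ := allK_spec (ix := ix) h2 rfl fun i => c i.succ
        simpa only [lw_cons, if_pos h4, e1, ← h8, vL_append] using hN _ h7
      · obtain ⟨m, h7, h8⟩ := allK_spec (ix := ix) h2 rfl fun i => (-c) i.succ
        refine hm _ ?_
        rw [← lw_neg, lw_cons, if_pos h4, Pi.neg_apply, e1.2, ← h8, ← vL_append]
        exact hN _ h7
    · exact h3 (by rw [if_neg h4, zero_smul]) fun e2 => h4 (by subst e2; exact hi)

end vec

variable {G G' G'' : ℕ → Type} [∀ q, Fintype (G q)] [∀ q, Fintype (G' q)] [∀ q, Fintype (G'' q)]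
  (R : Rs 3 K G) (θ : G 0 → G 0 → Cob Laz 1) (ix : ∀ q, G (q + 1) → ℕ) (R' : Rs 3 K G')
  (θ' : G' 0 → G' 0 → Cob Laz 1) (s T : ℕ)

/-- cocycles -/
abbrev Zk : AddSubgroup (G 0 → Cob Laz s) := ZC 3 θ (R.deg 0) T 3 s
/-- coboundaries -/
abbrev Bk : AddSubgroup (G 0 → Cob Laz s) := BQ 3 θ (R.deg 0) T 3 s

/-- the class has the listed leading terms -/
abbrev Rb (x : G 0 → Cob Laz s) (e : Be) : Prop := Rc R θ s T e.k e.b x (vL (ix s) e.l)

/-- the leading terms of coboundaries of level `k` -/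
def Nx (k : ℕ) (gs : List (List Tr)) : Prop := ∀ x ∈ Bk R θ s T, x ∈ Fl p3 _ s (II 3 K ^ k) →
  Ph p3 R s x ∈ spn (ix s) gs ⊔ R.Bd s T (k - 2) (k + 1)

/-- the listed terms generate -/
def Gn (bl : List Be) : Prop := ∀ 𝒵 : AddSubgroup (G 0 → Cob Laz s),
  (∀ e ∈ bl, vL (ix s) e.l ∈ Sp R θ (e.k - 2) (e.k + 1) T 𝒵) → Hg R θ 0 T 𝒵

/-- the listed terms of level `k` are independent -/
def Ik (bl : List Be) (k : ℕ) : Prop := ∀ n, bl.length = n → ∀ c : Fin n → ℤ,
  Rc R θ s T k (k + 1) 0 (lw (ix s) k bl c) → ∀ i : Fin n, (gB bl i).k = k → (c i : ZMod 3) = 0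

/-- a basis of a cohomology group -/
structure Bs (n : ℕ) (bl : List Be) : Type where
  x : Fin n → Zk R θ s T
  len : bl.length = n
  rc : ∀ i : Fin n, Rb R θ ix s T (x i) (gB bl i)
  co : Zk R θ s T →+ V3 n
  cox : ∀ i, co (x i) = Pi.single i 1
  ker : ∀ z, co z = 0 ↔ z.1 ∈ Bk R θ s T
  hi : ∀ k z, Rc R θ s T k k z.1 0 → ∀ i : Fin n, (gB bl i).k < k → co z i = 0

/-- a map of cohomology groups -/
structure Mp (s' T' : ℕ) : Type where
  f : Zk R θ s T →+ Zk R' θ' s' T'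
  hb : ∀ z, z.1 ∈ Bk R θ s T → (f z).1 ∈ Bk R' θ' s' T'

variable {R θ ix R' θ' s T} {D D' : KD} {ix' ix₀ : ∀ q, G (q + 1) → ℕ} {n n' k a b s' T' : ℕ}
  {bl bl' zs : List Be} {gs : List (List Tr)} {jx jx₀ : ∀ q, G' (q + 1) → ℕ}

theorem Nb.nx (h : Nb R θ s T k) : Nx R θ ix s T k [] := fun x hx hx' => mem_sup_right (h x hx hx')

theorem rc_bq [DecidableEq (G 0)] (H : Wd R θ) {x} (hx : x ∈ Bk R θ s T) : Rc R θ s T a b x 0 :=
  H.cong .zero (by rwa [sub_zero])

theorem rc_low {x u} (h : Rc R θ s T k b x u) (h1 : a ≤ n) (h2 : n ≤ k) : Rc R θ s T a n x 0 :=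
  ⟨h.zc, h.ex.imp fun _ h => ⟨h.1, .of_Fl h.2.cw h1 (Fl_mono p3 (Ideal.pow_le_pow_right h2) h.2.fl)⟩⟩

theorem rc_sum {ι : Type} (S : Finset ι) {x : ι → G 0 → Cob Laz s} {u : ι → G (s + 1) → A}
    (h : ∀ i, Rc R θ s T a b (x i) (u i)) : Rc R θ s T a b (∑ i ∈ S, x i) (∑ i ∈ S, u i) := by
  classical
  induction S using Finset.induction_on with
  | empty => exact .zero
  | insert i S hi ih =>
    rw [Finset.sum_insert hi, Finset.sum_insert hi]
    exact (h i).add ih

theorem three_bq {x} (hx : x ∈ Zk R θ s T) {c : ℤ} (hc : (c : ZMod 3) = 0) :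
    c • x ∈ Bk R θ s T := by
  obtain ⟨q, rfl⟩ := (ZMod.intCast_zmod_eq_zero_iff_dvd c 3).1 hc
  have h : x ∈ CW 3 Laz (R.deg 0) T s := hx.1
  exact mem_sup_right (mem_QW.2 ⟨q • x, zsmul_mem h q, by rw [mul_smul, natCast_zsmul]⟩)

theorem bs_ind [DecidableEq (G 0)] (H : Wd R θ) {x : Fin n → G 0 → Cob Laz s} (hn : bl.length = n)
    (hx : ∀ i : Fin n, Rc R θ s T (gB bl i).k ((gB bl i).k + 1) (x i) (vL (ix s) (gB bl i).l))
    (hi : ∀ i : Fin n, Ik R θ ix s T bl (gB bl i).k) (c : Fin n → ℤ)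
    (h : Rc R θ s T k k (∑ i, c i • x i) 0) (i : Fin n) (hk : (gB bl i).k < k) :
    (c i : ZMod 3) = 0 := by
  generalize e : (gB bl i).k = m
  induction m using Nat.strong_induction_on generalizing i with
  | _ m ih =>
    subst e
    refine hi i n hn c ?_ i rfl
    have h1 := (rc_sum Finset.univ (x := fun j => c j • x j) (u := fun j : Fin n =>
      (if (gB bl j).k = (gB bl i).k then c j else 0) • vL (ix s) (gB bl j).l) fun j => ?_).sub
      (h.mono hk.le hk)
    · rwa [sub_self, sub_zero] at h1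
    rcases lt_trichotomy (gB bl j).k (gB bl i).k with h2 | h2 | h2
    · rw [if_neg h2.ne, zero_smul]
      exact rc_bq H (three_bq (hx j).zc (ih _ h2 j (h2.trans hk) rfl))
    · rw [if_pos h2, ← h2]
      exact (hx j).zsmul _
    · rw [if_neg h2.ne', zero_smul]
      exact rc_low ((hx j).zsmul _) (Nat.le_succ _) h2

theorem exists_bs [DecidableEq (G 0)] (H : Wd R θ) {x : Fin n → G 0 → Cob Laz s}
    (hn : bl.length = n) (hx : ∀ i : Fin n, Rb R θ ix s T (x i) (gB bl i))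
    (hb : ∀ e ∈ bl, e.k < e.b) (hg : Gn R θ ix s T bl) (hi : ∀ e ∈ bl, Ik R θ ix s T bl e.k) :
    ∃ B : Bs R θ ix s T n bl, ∀ i, (B.x i).1 = x i := by
  have hm : ∀ i : Fin n, gB bl i ∈ bl := fun i => by
    rw [gB, List.getD_eq_getElem _ _ (hn ▸ i.2)]
    exact List.getElem_mem _
  have h1 := fun k => bs_ind (k := k) H hn (fun i => (hx i).mono le_rfl (hb _ (hm i)))
    fun i => hi _ (hm i)
  obtain ⟨L, hL⟩ : ∃ L : (Fin n → ℤ) →+ G 0 → Cob Laz s, ∀ c, L c = ∑ i, c i • x i :=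
    ⟨.mk' (fun c => ∑ i, c i • x i) fun c c' => by
      simp only [Pi.add_apply, add_smul, Finset.sum_add_distrib], fun _ => rfl⟩
  have hS : ∀ i, L (Pi.single i 1) = x i := fun i => by simp [hL, Pi.single_apply]
  have h2 : ∀ z : Zk R θ s T, ∃ c, z.1 - L c ∈ Bk R θ s T := fun z => by
    obtain ⟨_, ⟨c, rfl⟩, y, hy, e⟩ := mem_sup.1 ((hg L.range fun e he => by
      obtain ⟨i, h3, rfl⟩ := List.getElem_of_mem he
      have h4 := hx ⟨i, hn ▸ h3⟩
      rw [gB, List.getD_eq_getElem _ _ h3] at h4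
      exact ⟨_, ⟨_, hS ⟨i, hn ▸ h3⟩⟩,
        h4.mono (Nat.sub_le _ _) (hb _ he)⟩).le z.2)
    exact ⟨c, by rwa [← e, add_sub_cancel_left]⟩
  choose c hc using h2
  have h3 : ∀ (z : Zk R θ s T) c', z.1 - L c' ∈ Bk R θ s T → ∀ i, (c z i : ZMod 3) = c' i :=
    fun z c' h i => by
      have h4 := sub_mem h (hc z)
      rw [sub_sub_sub_cancel_left, ← map_sub, hL] at h4
      simpa [sub_eq_zero] using h1 _ _ (rc_bq H h4) i (Nat.lt_succ_self _)
  refine ⟨⟨fun i => ⟨x i, (hx i).zc⟩, hn, hx, AddMonoidHom.mk' (fun z i => c z i) fun z z' =>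
    funext fun i => ?_, fun i => funext fun j => ?_, fun z => ⟨fun h => ?_, fun h =>
      funext fun i => ?_⟩, fun k z h i hk => h1 k _ ?_ i hk⟩, fun _ => rfl⟩
  · simpa using h3 (z + z') (c z + c z') (by
      simpa [add_sub_add_comm] using add_mem (hc z) (hc z')) i
  · refine (h3 _ (Pi.single i 1) (by simp [hS]) j).trans ?_
    rcases eq_or_ne j i with rfl | h <;> simp [*]
  · have h4 : L (c z) ∈ Bk R θ s T :=
      hL _ ▸ sum_mem fun i _ => three_bq (hx i).zc (congrFun h i)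
    simpa using add_mem (hc z) h4
  · simpa using h3 z 0 (by simpa using h) i
  · exact H.cong h (by simpa [hL] using neg_mem (hc z))

namespace Bs

variable (B : Bs R θ ix s T n bl) (B' : Bs R' θ' jx s' T' n' bl') (F : Mp R θ R' θ' s T s' T')

theorem co_sum (c : V3 n) : B.co (∑ i, (c i).val • B.x i) = c := by
  simp only [map_sum, map_nsmul, B.cox, sum_single]

theorem onto : Function.Surjective B.co := fun c => ⟨_, B.co_sum c⟩

theorem co_eq {z z' : Zk R θ s T} : B.co z = B.co z' ↔ z.1 - z'.1 ∈ Bk R θ s T := by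
  rw [← sub_eq_zero, ← map_sub, B.ker]
  rfl

/-- the map in coordinates -/
def mx : V3 n →+ V3 n' := (Fintype.linearCombination (ZMod 3) fun i => B'.co (F.f (B.x i))).toAddMonoidHom

theorem mx_single (i : Fin n) : B.mx B' F (Pi.single i 1) = B'.co (F.f (B.x i)) := by simp [mx]

theorem mx_co (z : Zk R θ s T) : B.mx B' F (B.co z) = B'.co (F.f z) := by
  have h := B'.co_eq.2 (F.f.map_sub _ _ ▸ F.hb (∑ i, (B.co z i).val • B.x i - z)
    (B.co_eq.1 (B.co_sum _)) : (F.f _ - F.f _).1 ∈ _)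
  rw [← h]
  conv_lhs => rw [← sum_single (B.co z)]
  simp only [map_sum, map_nsmul, mx_single]

/-- a row of the matrix -/
def Rw (i : ℕ) (r : List ℕ) : Prop := ∀ h : i < n, Ag r (B'.co (F.f (B.x ⟨i, h⟩)))

/-- the rows from the index `i` on -/
def Rws : ℕ → List (List ℕ) → Prop
  | _, [] => True
  | i, r :: M => B.Rw B' F i r ∧ Rws (i + 1) M

theorem pa {M : List (List ℕ)} (hn : M.length = n) (h : B.Rws B' F 0 M) : Pa (B.mx B' F) M := by
  have h1 : ∀ M i j, B.Rws B' F i M → B.Rw B' F (i + j) (M.getD j []) := fun M => by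
    induction M with
    | nil => exact fun _ _ _ _ j hj => absurd hj (by simp [en])
    | cons r M ih =>
      rintro i (_ | j) h
      exacts [h.1, (show i + 1 + j = i + (j + 1) by omega) ▸ ih (i + 1) j h.2]
  exact pa_of hn fun i => B.mx_single B' F i ▸ (Nat.zero_add i.1 ▸ h1 M 0 i h) i.2

/-- a row which is a basis vector -/
theorem rwE (i j : ℕ) (hj : j < n') (e : ∀ h, (F.f (B.x ⟨i, h⟩)).1 = (B'.x ⟨j, hj⟩).1) {r : List ℕ}
    (hc : ((List.range n').all fun l => en r l = if l = j then 1 else 0) = true) :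
    B.Rw B' F i r := fun h l _ => by
  rw [Subtype.ext (e h), B'.cox, of_decide_eq_true (List.all_eq_true.1 hc l (List.mem_range.2 l.2)),
    Pi.single_apply]
  simp [Fin.ext_iff]

variable {B B' F} {R'' : Rs 3 K G''} {θ'' : G'' 0 → G'' 0 → Cob Laz 1} {s'' T'' n'' : ℕ}
  {kx : ∀ q, G'' (q + 1) → ℕ} {bl'' : List Be} {B'' : Bs R'' θ'' kx s'' T'' n'' bl''}

theorem inj (h : ∀ c, B.mx B' F c = 0 → c = 0) (z : Zk R θ s T) (hz : (F.f z).1 ∈ Bk R' θ' s' T') :
    z.1 ∈ Bk R θ s T := (B.ker z).1 (h _ ((B.mx_co B' F z).trans ((B'.ker _).2 hz)))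

theorem zero (h : ∀ c, B.mx B' F c = 0) (z : Zk R θ s T) : (F.f z).1 ∈ Bk R' θ' s' T' :=
  (B'.ker _).1 ((B.mx_co B' F z).symm.trans (h _))

theorem kin {E : Mp R θ R'' θ'' s T s'' T''} (h : ∀ c, B.mx B' F c = 0 → B.mx B'' E c = 0)
    (z : Zk R θ s T) (hz : (F.f z).1 ∈ Bk R' θ' s' T') : (E.f z).1 ∈ Bk R'' θ'' s'' T'' :=
  (B''.ker _).1 ((B.mx_co B'' E z).symm.trans (h _ ((B.mx_co B' F z).trans ((B'.ker _).2 hz))))

theorem of_range {y : Zk R' θ' s' T'} (h : B'.co y ∈ (B.mx B' F).range) :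
    ∃ z, y.1 - (F.f z).1 ∈ Bk R' θ' s' T' := by
  obtain ⟨c, h⟩ := h
  obtain ⟨z, rfl⟩ := B.onto c
  exact ⟨z, B'.co_eq.1 (h.symm.trans (B.mx_co B' F z))⟩

theorem of_sup {E : Mp R'' θ'' R' θ' s'' T'' s' T'} {y : Zk R' θ' s' T'}
    (h : B'.co y ∈ (B.mx B' F).range ⊔ (B''.mx B' E).range) :
    ∃ z z', y.1 - (F.f z).1 - (E.f z').1 ∈ Bk R' θ' s' T' := by
  obtain ⟨_, ⟨c, rfl⟩, _, ⟨c', rfl⟩, h⟩ := mem_sup.1 h
  obtain ⟨z, rfl⟩ := B.onto c
  obtain ⟨z', rfl⟩ := B''.onto c'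
  rw [mx_co, mx_co, ← map_add] at h
  have h1 := B'.co_eq.1 h.symm
  rw [AddSubgroup.coe_add, ← sub_sub] at h1
  exact ⟨z, z', h1⟩

end Bs

variable [DecidableEq (G 0)] {Tm s3 s4 : ℕ} (H : Wx R θ D ix Tm s3 s4) {v : WC'}

include H

theorem Wx.nl {l : List Tr} (hc : WC'.nlC D s T k l = true) :
    vL (ix s) l ∉ R.Bd s T (k - 2) (k + 1) := by
  rw [WC'.nlC, force_eq, force_eq] at hc
  obtain ⟨-, h2, -, h4⟩ := H.bnd hc
  obtain ⟨h5, h6⟩ := grd_spec h4
  exact H.cx.noB (add_zero _).symm h2 (by omega)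
    (H.cx.re h2 le_rfl (Nat.sub_le k 2) (by omega) (vr_vL (H.ok s) h5)) h6

/-- **independence** -/
theorem Wx.ik (e : ix = ix₀) (h : Nx R θ ix₀ s T k gs) (hc : WC'.ikC D s T k gs bl = true) :
    Ik R θ ix₀ s T bl k := fun n hn c h1 i hi => by_contra fun h2 => by
  subst e
  refine nzK_spec (N := fun u => ¬ Rc R θ s T k (k + 1) 0 u) (fun m h3 h4 => ?_)
    (fun u h3 h4 => h3 (by simpa using h4.neg)) hc hn c i hi h2 h1
  obtain ⟨y, hy, h5⟩ := h4.ex
  obtain ⟨g, h6, u, h7, h8⟩ := mem_sup.1 (h _ (sub_mem (zero_mem _) hy) h5.fl)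
  obtain ⟨m', h9, h10⟩ := allC_spec h3 (neg_mem h6)
  refine H.nl h9 ?_
  have h11 := sub_mem h7 (Rs.Bd_mono (Nat.sub_le k 2) le_rfl h5.bd)
  rw [← h8] at h11
  rw [vL_append, h10]
  convert h11 using 1
  abel

theorem Wx.nmB {x} {e : Be} (h : Rb R θ ix s T x e) : CV R θ D ix s x (WC'.nmB D s T e) :=
  H.nm' (h.mono le_rfl (mn_eq _ _ ▸ min_le_left _ _)) (mn_eq _ _ ▸ min_le_right _ _)

theorem Wx.sbB {x : Fin n → Zk R θ s T} (hn : bl.length = n)
    (hx : ∀ i : Fin n, Rb R θ ix s T (x i) (gB bl i)) (r : List ℕ) {y : Zk R θ s T}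
    (h : CV R θ D ix s y.1 v) : ∃ c : Fin n → ℕ, (∀ i : Fin n, en r i < 3 →
      (c i : ZMod 3) = -(en r i : ℕ)) ∧
      CV R θ D ix s (y + ∑ i, c i • x i).1 (WC'.sbB D s T bl r v) := by
  induction bl generalizing n r y v with
  | nil =>
    subst hn
    exact ⟨0, fun i => i.elim0, h.cast (by simp)⟩
  | cons e bl ih =>
    obtain rfl : n = bl.length + 1 := hn.symm
    rcases r with _ | ⟨a, r⟩
    · exact ⟨0, fun i h => absurd h (by simp [en]), h.cast (by simp)⟩
    have h1 : ∃ a' : ℕ, (a < 3 → (a' : ZMod 3) = -(a : ℕ)) ∧ CV R θ D ix s (y + a' • x 0).1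
        (Bool.rec (motive := fun _ => WC') (v.add (D.L s) ((WC'.nmB D s T e).sm (Nat.sub 3 a))) v
          (Nat.beq (Nat.mod a 3) 0)) := by
      refine bool_ind (Q := fun w => ∃ a' : ℕ, (a < 3 → (a' : ZMod 3) = -(a : ℕ)) ∧
        CV R θ D ix s (y + a' • x 0).1 w) ⟨3 - a, fun h2 => ?_, H.add h ((H.nmB (hx 0)).sm _)⟩
        fun h2 => ⟨0, fun h3 => ?_, by simpa using h⟩
      · rw [Nat.cast_sub h2.le, ZMod.natCast_self, zero_sub]
      · rw [show a = 0 from (Nat.mod_eq_of_lt h3).symm.trans (Nat.eq_of_beq_eq_true h2)]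
        simp
    obtain ⟨a', h2, h3⟩ := h1
    obtain ⟨c, h4, h5⟩ := ih (x := fun i => x i.succ) rfl (fun i => hx i.succ) r h3
    refine ⟨Fin.cons a' c, Fin.forall_fin_succ.2 ⟨h2, h4⟩, ?_⟩
    rw [Fin.sum_univ_succ, ← add_assoc]
    exact h5

/-- **the coordinates of a computed class** -/
theorem Wx.row (e : ix = ix₀) (B : Bs R θ ix₀ s T n bl) {y : Zk R θ s T} (h : CV R θ D ix s y.1 v)
    (b : ℕ) (hz : ∀ e ∈ zs, Rb R θ ix₀ s T 0 e) {r : List ℕ}
    (hc : WC'.rowC D s T b bl zs r v = true) : Ag r (B.co y) := fun j hj => by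
  subst e
  obtain ⟨h1, h2⟩ := grd_spec hc
  obtain ⟨c, h3, h4⟩ := H.sbB B.len B.rc r h
  have h5 : CL R θ D ix (s := s) ⊥ (zs.map (WC'.nmB D s T)) := by
    clear hc h2
    induction zs with
    | nil => exact .nil
    | cons e zs ih =>
      exact .cons (zero_mem _) (H.nmB (hz e List.mem_cons_self))
        (ih fun e he => hz e (List.mem_cons_of_mem _ he))
  obtain ⟨_, rfl, h6⟩ := H.rc_mem h4 h5 h2
  obtain ⟨h7, -, h8, -⟩ := H.bnd h2
  have h9 : j.1 < r.length := by_contra fun h9 => by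
    rw [en, List.getD_eq_default _ _ (not_lt.1 h9)] at hj
    exact lt_irrefl _ hj
  have h10 := B.hi b _ (H.wd.up (by omega) h8 (sub_zero (y + ∑ i, c i • B.x i).1 ▸ h6) (by omega)
    (by omega) le_rfl (zero_mem _)) j ((of_decide_eq_true (List.all_eq_true.1 h1 j
      (List.mem_range.2 h9))).resolve_left hj.ne).2
  simp only [map_add, map_sum, map_nsmul, B.cox] at h10
  rw [Pi.add_apply, Finset.sum_apply, Finset.sum_eq_single j
    (fun i _ h => by simp [Pi.single_eq_of_ne h.symm]) fun h => absurd (Finset.mem_univ j) h] at h10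
  simpa [h3 j hj, add_neg_eq_zero] using h10

end Vale.Agent.P236EL

end
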