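import Vale.Agent.P236EL.Ci

/-!
# P236EL / Cc : cellular maps on computed classes
-/

noncomputable section

namespace Vale.Agent.P236EL

open Vale.Agent.P251.F Vale.Agent.P251.I Vale.Agent.P236SY Vale.Agent.P236R
open Vale.Agent.P236KE Vale.Agent.P236K3 Vale.Agent.P236F AddSubgroup Vale.Agent.P236KE.S90

/-- a block of bits -/
def blk (s m : Nat) (x : P) : P := P.and ⟨Nat.shiftRight x.a s, Nat.shiftRight x.b s⟩ m

namespace WC'

/-- the component on the cell `c` -/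
def cel (L : LD) (c : Nat) (v : WC') : WC' := v.bind fun T a b p => ⟨fun k => force L.N fun N =>
  force (Nat.mul c N) fun s => force (Nat.sub (Nat.shiftLeft 1 N) 1) fun m =>
    (of (Nat.sub T c) a b (Nat.ble c T) ((cst' p).map (blk s m))).run k⟩
/-- the vector placed on the cell `c` -/
def put (L : LD) (c : Nat) (v : WC') : WC' := v.bind fun T a b p => ⟨fun k => force L.N fun N =>
  force (Nat.mul c N) fun s =>
    (of (Nat.add T c) a b (Nat.ble (Nat.add T c) L.T) ((cst' p).shl s)).run k⟩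
/-- two cells are moved -/
def mv (L L' : LD) (c d c' d' : Nat) (v : WC') : WC' := v.share fun v =>
  add L' (put L c' (cel L c v)) (put L d' (cel L d v))

end WC'

theorem blk_R {x : P} {v v' : V} (h : x.R v) (s N : ℕ) (h1 : ∀ p < N, v' p = v (p + s))
    (h2 : ∀ p, N ≤ p → v' p = 0) : (blk s (Nat.sub (Nat.shiftLeft 1 N) 1) x).R v' := fun p => by
  change ((x.a >>> s) &&& (1 <<< N - 1)).testBit p = _ ∧
    ((x.b >>> s) &&& (1 <<< N - 1)).testBit p = _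
  rw [Nat.testBit_and, Nat.testBit_and, Nat.one_shiftLeft, Nat.testBit_two_pow_sub_one,
    Nat.testBit_shiftRight, Nat.testBit_shiftRight, (h _).1, (h _).2, add_comm]
  rcases lt_or_ge p N with hp | hp
  · simp [hp, h1 p hp]
  · rw [h2 p hp, decide_eq_false hp.not_gt, Bool.and_false, Bool.and_false]
    decide

section vec

variable {W : Type} [Fintype W] {L : LD} {ix : W → ℕ} (hL : L.Ok ix) {m : ℕ}

include hL

theorem op_cel (c : Fin m) : OP (tL (cdN m) L) (tix L ix Fin.val) L ix (WC'.cel L c)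
    fun u w => u (w, c) := fun _ u hv => WC'.Ok.bind hv fun T a b p h1 => WC'.ok_of (c := Nat.ble c T)
      (w := (cst' p).map (blk (c * L.N) (Nat.sub (Nat.shiftLeft 1 L.N) 1))) fun _ => by
  have hT : T ≤ L.T := h1.hT
  have hm : ∀ c' : Fin m, P236K3.Hm L ix (T - c') fun w => u (w, c') := fun c' w J hJ => by
    have h2 := h1.vp.hz.1 (w, c') J hJ
    rw [tix, tL_dg (hL.lt w)] at h2
    exact Nat.eq_sub_of_add_eq ((add_assoc _ _ _).trans h2)
  refine ⟨_, ⟨⟨hm c, fun w => h1.vp.hz.2 (w, c)⟩, fun _ hk => ⟨_, blk_R h1.vp.r _ _ (fun q hq => ?_)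
    fun q hq => cr_top hL ((Nat.sub_le _ _).trans hT) (hm c) hq, hk⟩⟩,
    fun _ h2 => ⟨(Nat.sub_le _ _).trans hT, h1.hb, h2⟩⟩
  rw [cr_tL hL, Finset.sum_apply, Finset.sum_eq_single c, sh_apply, if_pos (Nat.le_add_left _ _),
    Nat.add_sub_cancel]
  · intro c' _ h2
    rw [sh_apply]
    split_ifs with h3
    · refine cr_top hL ((Nat.sub_le _ _).trans hT) (hm c') ?_
      rcases lt_or_gt_of_ne (Fin.val_ne_of_ne h2) with h4 | h4 <;>
        have := Nat.mul_le_mul_right L.N (Nat.succ_le_of_lt h4) <;> rw [Nat.succ_mul] at this <;>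
        omega
    · rfl
  · exact fun h => absurd (Finset.mem_univ c) h

theorem op_put (c : Fin m) : OP L ix (tL (cdN m) L) (tix L ix Fin.val) (WC'.put L c)
    fun u a => if a.2 = c then u a.1 else 0 := fun _ u hv => WC'.Ok.bind hv fun T a b p h1 =>
  WC'.ok_of (c := Nat.ble (T + c) L.T) (w := (cst' p).shl (c * L.N)) fun h2 => by
  refine ⟨_, ⟨⟨fun z J hJ => ?_, fun z => ?_⟩, fun _ hk => ⟨_, ?_, hk⟩⟩,
    fun _ h3 => ⟨Nat.le_of_ble_eq_true h2, h1.hb, h3⟩⟩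
  · dsimp only at hJ
    split_ifs at hJ with h3
    · rw [tix, tL_dg (hL.lt _), ← add_assoc, h1.vp.hz.1 _ J hJ, h3]
      rfl
    · exact absurd rfl hJ
  · dsimp only
    split_ifs
    exacts [h1.vp.hz.2 _, zero_mem _]
  · rw [cr_tL hL, Finset.sum_eq_single c]
    · simpa only [if_true] using h1.vp.r.shl _
    · intro c' _ h3
      simp only [if_neg h3]
      exact (congrArg _ (map_zero _)).trans (map_zero _)
    · exact fun h => absurd (Finset.mem_univ c) h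

theorem op_mv {n : ℕ} (hL' : (tL (cdN n) L).Ok (tix L ix (Fin.val (n := n)))) (c d : Fin m)
    (c' d' : Fin n) : OP (tL (cdN m) L) (tix L ix Fin.val) (tL (cdN n) L) (tix L ix Fin.val)
      (WC'.mv L (tL (cdN n) L) c d c' d') fun u a =>
        (if a.2 = c' then u (a.1, c) else 0) + if a.2 = d' then u (a.1, d) else 0 :=
  fun _ u hv => hv.share fun v hv => (op_put hL c' _ _ (op_cel hL c v u hv)).add hL'
    (op_put hL d' _ _ (op_cel hL d v u hv))

end vec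

variable [hp : Fact (Nat.Prime 3)] {G G' : ℕ → Type} [∀ q, Fintype (G q)] [∀ q, Fintype (G' q)]
  {R : Rs 3 K G} {θ : G 0 → G 0 → Cob Laz 1} {D : KD} {ix : ∀ q, G (q + 1) → ℕ} {R' : Rs 3 K G'}
  {θ' : G' 0 → G' 0 → Cob Laz 1} {D' : KD} {ix' : ∀ q, G' (q + 1) → ℕ} {s T : ℕ} {v : WC'}

omit hp in
theorem OP.cast {W W' : Type} [Fintype W] [Fintype W'] {L L' : LD} {ix : W → ℕ} {ix' : W' → ℕ}
    {o : WC' → WC'} {f f' : (W → A) → W' → A} (h : OP L ix L' ix' o f) (e : ∀ u, f u = f' u) :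
    OP L ix L' ix' o f' := fun v u hv => e u ▸ h v u hv

omit hp in
theorem OP.comp {W W' W'' : Type} [Fintype W] [Fintype W'] [Fintype W''] {L L' L'' : LD}
    {ix : W → ℕ} {ix' : W' → ℕ} {ix'' : W'' → ℕ} {o o' : WC' → WC'} {f : (W → A) → W' → A}
    {f' : (W' → A) → W'' → A} (h' : OP L' ix' L'' ix'' o' f') (h : OP L ix L' ix' o f) :
    OP L ix L'' ix'' (fun v => o' (o v)) fun u => f' (f u) := fun v u hv => h' _ _ (h v u hv)

/-- cellular maps -/
theorem CV.hm (hL : (D'.L s).Ok (ix' s)) {f : ∀ q, G q → G' q → ℤ} {ω₀ : ℤ} (hf : Hm R R' f ω₀)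
    (hθ : ∀ c k', ∑ k, f 0 c k • θ' k k' = ∑ c', f 0 c' k' • θ c c') (ω ω' : ℕ)
    (e : ω₀ = ω - ω') {o : WC' → WC'}
    (ho : OP (D.L s) (ix s) (D'.L s) (ix' s) o (zm _ (f (s + 1)))) {x : G 0 → Cob Laz s}
    (h : CV R θ D ix s x v) :
    CV R' θ' D' ix' s (zm _ (f 0) x) (WC'.op (D'.L s) s ω ω' 0 o v) :=
  h.op hL ho fun T T' a b u _ h2 _ _ h5 => by
    rw [zero_add, zero_add, show (T' : ℤ) = T + ω₀ by omega]
    exact h5.map _ (zm_mem_ZC hθ (hf.dg 0) h5.zc) (fun _ => zm_mem_BQ hθ (hf.dg 0))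
      fun _ _ h => h.zm hf

/-- shifts of cells -/
def sf (m n j i : ℕ) (c : Fin m) (k : Fin n) : ℤ := if c.val + i = k.val + j then 1 else 0

namespace WC'

variable (T s : Nat)

def ciA : WC' → WC' := op ((dA T).L s) s 0 0 0 (put ((dS T).L s) 0)
def ce0 : WC' → WC' := op ((dY T).L s) s 0 0 0 (put ((dS T).L s) 0)
def cjA : WC' → WC' := op ((dS T).L s) s 0 1 0 (cel ((dS T).L s) 1)
def cjy : WC' → WC' := op ((dS T).L s) s 0 2 0 (cel ((dS T).L s) 2)
def cee : WC' → WC' := op ((dY T).L s) s 0 0 0 (mv ((dS T).L s) ((dY T).L s) 0 1 0 1)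
def cqq : WC' → WC' := op ((dA T).L s) s 0 1 0 (mv ((dS T).L s) ((dA T).L s) 1 2 0 1)

end WC'

theorem hm_iA : Hm rS rA (bf sph.G (0 : Fin 2)) 0 :=
  Hm.bot fun c => by fin_cases c <;> simp [Ga.cm, Ga.ent, Ga.two]

theorem hm_e0 : Hm rS rY (bf sph.G (0 : Fin 3)) 0 :=
  Hm.bot fun c => by fin_cases c <;> simp [Ga.cm, Ga.ent, Ga.three]

theorem hm_jA : Hm rA rS (pf sph.G (1 : Fin 2)) (-1) :=
  Hm.top fun c => by fin_cases c <;> simp [Ga.cm, Ga.ent, Ga.two]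

theorem hm_ee : Hm rA rY (tf sph.G (sf 2 3 0 0)) 0 :=
  Hm.tens (fun c k => by
    fin_cases c <;> fin_cases k <;> simp [Ga.cm, Ga.ent, Ga.two, Ga.three, sf, Fin.sum_univ_succ])
    fun c k => by fin_cases c <;> fin_cases k <;> simp [sf, Ga.cm, Ga.two, Ga.three]

theorem hm_qq : Hm rY rA (tf sph.G (sf 3 2 1 0)) (-1) :=
  Hm.tens (fun c k => by
    fin_cases c <;> fin_cases k <;> simp [Ga.cm, Ga.ent, Ga.two, Ga.three, sf, Fin.sum_univ_succ])
    fun c k => by fin_cases c <;> fin_cases k <;> simp [sf, Ga.cm, Ga.two, Ga.three]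

variable {t : Cob Laz 1}

omit hp

theorem nat_iA (c : Fin 1) (k' : Fin 2) : ∑ k : Fin 2, (if k = 0 then 1 else 0 : ℤ) • θA t k k' =
    ∑ c', (if k' = 0 then 1 else 0 : ℤ) • (0 : Fin 1 → Fin 1 → Cob Laz 1) c c' := by
  fin_cases k' <;> simp [θA]

theorem nat_e0 (c : Fin 1) (k' : Fin 3) : ∑ k : Fin 3, (if k = 0 then 1 else 0 : ℤ) • θY t k k' =
    ∑ c', (if k' = 0 then 1 else 0 : ℤ) • (0 : Fin 1 → Fin 1 → Cob Laz 1) c c' := by
  fin_cases k' <;> simp [θY]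

theorem nat_jA (c : Fin 2) (k' : Fin 1) :
    ∑ k, (if c = 1 then 1 else 0 : ℤ) • (0 : Fin 1 → Fin 1 → Cob Laz 1) k k' =
      ∑ c' : Fin 2, (if c' = 1 then 1 else 0 : ℤ) • θA t c c' := by
  fin_cases c <;> simp [θA]

theorem nat_jy (c : Fin 3) (k' : Fin 1) :
    ∑ k, (if c = 2 then 1 else 0 : ℤ) • (0 : Fin 1 → Fin 1 → Cob Laz 1) k k' =
      ∑ c' : Fin 3, (if c' = 2 then 1 else 0 : ℤ) • θY t c c' := by
  fin_cases c <;> simp [θY]

theorem nat_ee (c : Fin 2) (k' : Fin 3) :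
    ∑ k, sf 2 3 0 0 c k • θY t k k' = ∑ c', sf 2 3 0 0 c' k' • θA t c c' := by
  fin_cases c <;> fin_cases k' <;> simp [sf, θA, θY, Fin.sum_univ_succ]

theorem nat_qq (c : Fin 3) (k' : Fin 2) :
    ∑ k, sf 3 2 1 0 c k • θA t k k' = ∑ c', sf 3 2 1 0 c' k' • θY t c c' := by
  fin_cases c <;> fin_cases k' <;> simp [sf, θA, θY, Fin.sum_univ_succ]

variable [hp : Fact (Nat.Prime 3)] (ht : IsT1 3 t) (hT : T ≤ 90)

include hT

theorem okS : ((dS T).L s).Ok (iS s) := (wS T hT).ok s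

theorem op_bf {m : ℕ} (c : Fin m) : OP ((dS T).L s) (iS s) (tL (cdN m) ((dS T).L s)) (iT T m s)
    (WC'.put ((dS T).L s) c) (zm _ (bf sph.G c (s + 1))) :=
  (op_put (okS hT) c).cast fun u => funext fun a => (zm_bf c u a.1 a.2).symm

theorem op_pf {m : ℕ} (c : Fin m) : OP (tL (cdN m) ((dS T).L s)) (iT T m s) ((dS T).L s) (iS s)
    (WC'.cel ((dS T).L s) c) (zm _ (pf sph.G c (s + 1))) :=
  (op_cel (okS hT) c).cast fun u => funext fun w => (zm_pf c u w).symm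

theorem CA.jA {x : Fin 2 → Cob Laz s} (h : CA t T s x v) :
    CS T s (fun _ => x 1) (v.cjA T s) :=
  (h.hm (okS hT) hm_jA nat_jA 0 1 rfl (op_pf hT 1)).cast (funext (zm_pf_zero _ x))

theorem CY.jy {x : Fin 3 → Cob Laz s} (h : CY t T s x v) :
    CS T s (fun _ => x 2) (v.cjy T s) :=
  (h.hm (okS hT) hm_top nat_jy 0 2 rfl (op_pf hT 2)).cast (funext (zm_pf_zero _ x))

include ht

theorem CS.iA {x : Fin 1 → Cob Laz s} (h : CS T s x v) : CA t T s ![x 0, 0] (v.ciA T s) :=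
  (h.hm ((wA ht T hT).ok s) hm_iA nat_iA 0 0 rfl (op_bf hT 0)).cast
    (funext fun c : Fin 2 => by
      change ∑ a : Fin 1, (if c = 0 then 1 else 0 : ℤ) • x a = _
      fin_cases c <;> simp)

theorem CS.e0 {x : Fin 1 → Cob Laz s} (h : CS T s x v) : CY t T s ![x 0, 0, 0] (v.ce0 T s) :=
  (h.hm ((wY ht T hT).ok s) hm_e0 nat_e0 0 0 rfl (op_bf hT 0)).cast
    (funext fun c : Fin 3 => by
      change ∑ a : Fin 1, (if c = 0 then 1 else 0 : ℤ) • x a = _
      fin_cases c <;> simp)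

theorem op_ee : OP ((dA T).L s) (iT T 2 s) ((dY T).L s) (iT T 3 s)
    (WC'.mv ((dS T).L s) ((dY T).L s) 0 1 0 1) (zm _ (tf sph.G (sf 2 3 0 0) (s + 1))) :=
  (op_mv (okS hT) ((wY ht T hT).ok s) (0 : Fin 2) 1 0 1).cast fun u => funext fun ⟨w, c⟩ => by
    rw [zm_tf]
    fin_cases c <;> simp [sf]

theorem op_qq : OP ((dY T).L s) (iT T 3 s) ((dA T).L s) (iT T 2 s)
    (WC'.mv ((dS T).L s) ((dA T).L s) 1 2 0 1) (zm _ (tf sph.G (sf 3 2 1 0) (s + 1))) :=
  (op_mv (okS hT) ((wA ht T hT).ok s) (1 : Fin 3) 2 0 1).cast fun u => funext fun ⟨w, c⟩ => by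
    rw [zm_tf]
    fin_cases c <;> simp [sf, Fin.sum_univ_succ]

theorem CA.ee {x : Fin 2 → Cob Laz s} (h : CA t T s x v) :
    CY t T s ![x 0, x 1, 0] (v.cee T s) :=
  (h.hm ((wY ht T hT).ok s) hm_ee nat_ee 0 0 rfl (op_ee ht hT)).cast (funext fun c : Fin 3 => by
    change ∑ i, sf 2 3 0 0 i c • x i = _
    fin_cases c <;> simp [sf])

theorem CY.qq {x : Fin 3 → Cob Laz s} (h : CY t T s x v) : CA t T s ![x 1, x 2] (v.cqq T s) :=
  (h.hm ((wA ht T hT).ok s) hm_qq nat_qq 0 1 rfl (op_qq ht hT)).cast (funext fun c : Fin 2 => by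
    change ∑ i, sf 3 2 1 0 i c • x i = _
    fin_cases c <;> simp [sf, Fin.sum_univ_succ])

/-- the operation `P` -/
theorem CY.pp {x : Fin 3 → Cob Laz s} (h : CY t T s x v) :
    CY t T s ![x 1, x 2, 0] ((v.cqq T s).cee T s) := (h.qq ht hT).ee ht hT

end Vale.Agent.P236EL

end
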