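import Vale.Agent.P236EL.Cc

/-!
# P236EL / Cd : connecting maps on computed classes
-/

noncomputable section

namespace Vale.Agent.P236EL

open Vale.Agent.P251.F Vale.Agent.P251.I Vale.Agent.P236SY Vale.Agent.P236R
open Vale.Agent.P236KE Vale.Agent.P236K3 Vale.Agent.P236F AddSubgroup Vale.Agent.P236KE.S90

section chart

variable {ι κ μ : Type} [Fintype ι] [Fintype κ] [Fintype μ] (θ : κ → κ → Cob Laz 1)
  (ρ : κ → ι → ℤ) (σ : μ → κ → ℤ)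

/-- the connecting map on charts -/
def cn (s : ℕ) : (μ → Cob Laz s) →+ (ι → Cob Laz (s + 1)) :=
  (zm _ ρ).comp ((DD θ s).comp (zm _ σ))

/-- a split short exact sequence of charts -/
structure S0 (θA : ι → ι → Cob Laz 1) (θB : μ → μ → Cob Laz 1) (i : ι → κ → ℤ) (f : κ → μ → ℤ) :
    Prop where
  mc : MC θ
  ni : ∀ c k', ∑ k, i c k • θ k k' = ∑ c', i c' k' • θA c c'
  nf : ∀ c k', ∑ k, f c k • θB k k' = ∑ c', f c' k' • θ c c'
  ρi : ∀ s (u : ι → Cob Laz s), zm _ ρ (zm _ i u) = u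
  fσ : ∀ s (u : μ → Cob Laz s), zm _ f (zm _ σ u) = u
  sp : ∀ s (u : κ → Cob Laz s), zm _ σ (zm _ f u) + zm _ i (zm _ ρ u) = u

variable {θ ρ σ} {θA : ι → ι → Cob Laz 1} {θB : μ → μ → Cob Laz 1} {i : ι → κ → ℤ}
  {f : κ → μ → ℤ} (H : S0 θ ρ σ θA θB i f) {s : ℕ}

include H

theorem S0.dd (x : μ → Cob Laz s) :
    DD θ s (zm _ σ x) = zm _ σ (DD θB s x) + zm _ i (cn θ ρ σ s x) := by
  conv_lhs => rw [← H.sp _ (DD θ s _), ← DD_zm H.nf, H.fσ]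
  rfl

theorem S0.anti (x : μ → Cob Laz s) :
    cn θ ρ σ (s + 1) (DD θB s x) = DD θA (s + 1) (-cn θ ρ σ s x) := by
  have h := congrArg (zm _ ρ) (DD_DD H.mc (zm _ σ x))
  rw [H.dd, map_add, DD_zm H.ni, map_add, H.ρi, map_zero] at h
  rw [map_neg]
  exact eq_neg_of_add_eq_zero_left h

end chart

variable [hp : Fact (Nat.Prime 3)] {G GA GB : ℕ → Type} [∀ q, Fintype (G q)] [∀ q, Fintype (GA q)]
  [∀ q, Fintype (GB q)] [DecidableEq (G 0)] [DecidableEq (GB 0)] {R : Rs 3 K G} {RA : Rs 3 K GA} {RB : Rs 3 K GB}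
  {θ : G 0 → G 0 → Cob Laz 1} {θ₁ : GA 0 → GA 0 → Cob Laz 1} {θ₂ : GB 0 → GB 0 → Cob Laz 1}
  {i : ∀ q, GA q → G q → ℤ} {f : ∀ q, G q → GB q → ℤ} {ρ : ∀ q, G q → GA q → ℤ}
  {σ : ∀ q, GB q → G q → ℤ} {ω ω' w : ℤ} {s a b T : ℕ} {v : WC'}

theorem Rc.conn (W : Wd R θ) (W₂ : Wd RB θ₂) (H : Ses RA R RB i f ρ σ ω ω')
    (H0 : S0 θ (ρ 0) (σ 0) θ₁ θ₂ (i 0) (f 0)) (hs : s ≤ 60) (hw : w ≤ 90) (hb : b ≤ a + 3)
    {x : GB 0 → Cob Laz s} {u : GB (s + 1) → A} (h : Rc RB θ₂ s (w + ω') a b x u) :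
    Rc RA θ₁ (s + 1) (w + -ω) a b (cn θ (ρ 0) (σ 0) s x)
      (zm _ (ρ (s + 2)) (R.sd (s + 1) (zm _ (σ (s + 1)) u))) := by
  have h1 : ∀ {s} {y : GB 0 → Cob Laz s}, y ∈ CW 3 Laz (RB.deg 0) (w + ω') s →
      zm _ (σ 0) y ∈ CW 3 Laz (R.deg 0) w s := fun hy => by simpa using zm_mem_CW (H.hσ 0) hy
  have h2 : ∀ {s} {y : GB 0 → Cob Laz s}, y ∈ CW 3 Laz (RB.deg 0) (w + ω') s →
      cn θ (ρ 0) (σ 0) s y ∈ CW 3 Laz (RA.deg 0) (w + -ω) (s + 1) := fun hy =>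
    zm_mem_CW (H.hρ 0) (DD_mem_CW W.ic.wt (h1 hy))
  have h3 : ∀ {s} {y : GB 0 → Cob Laz s}, y ∈ QW 3 Laz (RB.deg 0) (w + ω') 3 s →
      cn θ (ρ 0) (σ 0) s y ∈ QW 3 Laz (RA.deg 0) (w + -ω) 3 (s + 1) := by
    rintro _ _ ⟨y, hy, rfl⟩
    exact ⟨_, h2 hy, (map_nsmul _ _ _).symm⟩
  refine h.map _ ⟨h2 h.zc.1, ?_⟩ (fun y hy => ?_) fun y hy h4 => ?_
  · have h4 := neg_mem (h3 h.zc.2)
    rwa [H0.anti, map_neg, neg_neg] at h4
  · obtain ⟨e, he, z, hz, rfl⟩ := mem_BQ.1 hy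
    rw [map_add]
    refine add_mem (mem_sup_left ?_) (mem_sup_right (h3 ⟨z, hz, rfl⟩))
    rcases s with _ | s
    · rw [mem_bot.1 he, map_zero]
      exact zero_mem _
    · obtain ⟨y, hy', rfl⟩ := he
      exact ⟨_, neg_mem (h2 hy'), (H0.anti y).symm⟩
  · refine H.conn W.ic (W.ok' (by omega)) hw hb (h1 h4.cw) (zm_mem_Fl _ h4.fl) (by rwa [H0.fσ])
      (h2 h4.cw) (zm_mem_Fl _ (W.ic.DD_mem_Fl (inv_II.pow a) (zm_mem_Fl _ h4.fl))) ?_
    rw [H0.dd, add_sub_cancel_right]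
    exact zm_mem_Fl _ (ZC_DD_Fl (sub_mem h.zc (W₂.bz hy)) _)

theorem sgn_eq {W : Type} (n : ℕ) (u : W → A) : ((-1 : ℤ) ^ n) • u = 2 ^ n • u := by
  have h : (3 : A) = 0 := CharP.cast_eq_zero A 3
  funext w
  rw [Pi.smul_apply, Pi.smul_apply, zsmul_eq_mul, nsmul_eq_mul]
  push_cast
  rw [show (-1 : A) = 2 by linear_combination -h]

variable {t : Cob Laz 1}

theorem tf_tf {l m n q : ℕ} (f : Fin l → Fin m → ℤ) (g : Fin m → Fin n → ℤ)
    (u : sph.G (q + 1) × Fin l → A) (w : sph.G (q + 1)) (c : Fin n) :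
    zm A (tf sph.G g (q + 1)) (zm A (tf sph.G f (q + 1)) u) (w, c) =
      ∑ k, g k c • ∑ j, f j k • u (w, j) :=
  (zm_tf _ _ w c).trans (Finset.sum_congr rfl fun k _ => congrArg _ (zm_tf _ u w k))

theorem bf_pf {n q : ℕ} (k : Fin n) (u : sph.G (q + 1) × Fin n → A) (w : sph.G (q + 1))
    (c : Fin n) : zm A (bf sph.G k (q + 1)) (zm A (pf sph.G k (q + 1)) u) (w, c) =
      if c = k then u (w, k) else 0 :=
  (zm_bf _ _ w c).trans (if_congr Iff.rfl (zm_pf _ u w) rfl)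

theorem pf_bf {n q : ℕ} (k : Fin n) (u : sph.G (q + 1) → A) :
    zm A (pf sph.G k (q + 1)) (zm A (bf sph.G k (q + 1)) u) = u :=
  funext fun w => (zm_pf _ _ w).trans ((zm_bf _ u w k).trans (if_pos rfl))

theorem ses_A : Ses rA rY rS (tf sph.G (sf 2 3 0 0)) (pf sph.G (2 : Fin 3)) (tf sph.G (sf 3 2 0 0))
    (bf sph.G (2 : Fin 3)) 0 (-2) where
  hi := hm_ee
  hf := hm_top
  hρ := dg_tf fun c k => by fin_cases c <;> fin_cases k <;> simp [sf, Ga.cm, Ga.two, Ga.three]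
  hσ := dg_bf (2 : Fin 3)
  ρi _ u := funext fun ⟨w, c⟩ => (tf_tf _ _ u w c).trans (by
    fin_cases c <;> simp [sf, Fin.sum_univ_succ])
  fσ _ := pf_bf _
  sp _ u := funext fun ⟨w, c⟩ => by
    refine (congrArg₂ (· + ·) (bf_pf _ u w c) (tf_tf _ _ u w c)).trans ?_
    fin_cases c <;> simp [sf, Fin.sum_univ_succ]

theorem ses_S : Ses rS rY rA (bf sph.G (0 : Fin 3)) (tf sph.G (sf 3 2 1 0)) (pf sph.G (0 : Fin 3))
    (tf sph.G (sf 2 3 0 1)) 0 (-1) where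
  hi := hm_e0
  hf := hm_qq
  hρ := dg_pf (0 : Fin 3)
  hσ := dg_tf fun c k => by fin_cases c <;> fin_cases k <;> simp [sf, Ga.cm, Ga.two, Ga.three]
  ρi _ := pf_bf _
  fσ _ u := funext fun ⟨w, c⟩ => (tf_tf _ _ u w c).trans (by
    fin_cases c <;> simp [sf, Fin.sum_univ_succ])
  sp _ u := funext fun ⟨w, c⟩ => by
    refine (congrArg₂ (· + ·) (tf_tf _ _ u w c) (bf_pf _ u w c)).trans ?_
    fin_cases c <;> simp [sf, Fin.sum_univ_succ]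

omit hp

theorem s0_A (ht : IsT1 3 t) : S0 (θY t) (sf 3 2 0 0) (fun (_ : Fin 1) c => if c = 2 then 1 else 0)
    (θA t) 0 (sf 2 3 0 0) fun c _ => if c = 2 then 1 else 0 where
  mc := mc_Y ht
  ni := nat_ee
  nf := nat_jy
  ρi s u := funext fun c => by fin_cases c <;> simp [zm_apply, sf, Fin.sum_univ_succ]
  fσ s u := funext fun c => by fin_cases c; simp [zm_apply]
  sp s u := funext fun c => by fin_cases c <;> simp [zm_apply, sf, Fin.sum_univ_succ]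

theorem s0_S (ht : IsT1 3 t) : S0 (θY t) (fun c (_ : Fin 1) => if c = 0 then 1 else 0) (sf 2 3 0 1)
    0 (θA t) (fun _ c => if c = 0 then 1 else 0) (sf 3 2 1 0) where
  mc := mc_Y ht
  ni := nat_e0
  nf := nat_qq
  ρi s u := funext fun c => by fin_cases c; simp [zm_apply]
  fσ s u := funext fun c => by fin_cases c <;> simp [zm_apply, sf, Fin.sum_univ_succ]
  sp s u := funext fun c => by fin_cases c <;> simp [zm_apply, sf, Fin.sum_univ_succ]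

theorem cn_A (x : Fin 1 → Cob Laz s) : ((-1 : ℤ) ^ (s + 1)) •
    cn (θY t) (sf 3 2 0 0) (fun (_ : Fin 1) c => if c = 2 then 1 else 0) s x =
      fun j => Cob.cup (x 0) (![2 * t ^ 2, 2 * t] j) := funext fun c => by
  fin_cases c <;>
    simp [cn, zm_apply, DD_apply, sf, θY, Fin.sum_univ_succ, ← mul_assoc, ← mul_pow, Cob.cup]

theorem cn_S (x : Fin 2 → Cob Laz s) : ((-1 : ℤ) ^ (s + 1)) •
    cn (θY t) (fun c (_ : Fin 1) => if c = 0 then 1 else 0) (sf 2 3 0 1) s x =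
      fun _ => Cob.cup (x 0) (2 * t) + Cob.cup (x 1) (2 * t ^ 2) := funext fun c => by
  simp [cn, zm_apply, DD_apply, sf, θY, Fin.sum_univ_succ, ← mul_assoc, ← mul_pow, Cob.cup]

namespace WC'

variable (T s : Nat)

def cat : WC' → WC' := op ((dA T).L (Nat.succ s)) s 2 0 0 fun v =>
  sm (Nat.pow 2 (Nat.succ s)) (mv ((dS T).L (Nat.succ s)) ((dA T).L (Nat.succ s)) 0 1 0 1
    (dl (dY T) s 0 0 (put ((dS T).L s) 2 v)))
def cab : WC' → WC' := op ((dS T).L (Nat.succ s)) s 1 0 0 fun v =>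
  sm (Nat.pow 2 (Nat.succ s)) (cel ((dS T).L (Nat.succ s)) 0
    (dl (dY T) s 0 0 (mv ((dS T).L s) ((dY T).L s) 0 1 1 2 v)))

end WC'

variable [hp : Fact (Nat.Prime 3)] (ht : IsT1 3 t) (hT : T ≤ 90)

include ht hT

theorem op_ρ : OP ((dY T).L s) (iT T 3 s) ((dA T).L s) (iT T 2 s)
    (WC'.mv ((dS T).L s) ((dA T).L s) 0 1 0 1) (zm _ (tf sph.G (sf 3 2 0 0) (s + 1))) :=
  (op_mv (okS hT) ((wA ht T hT).ok s) (0 : Fin 3) 1 0 1).cast fun u => funext fun ⟨w, c⟩ => by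
    rw [zm_tf]
    fin_cases c <;> simp [sf, Fin.sum_univ_succ]

theorem op_σ : OP ((dA T).L s) (iT T 2 s) ((dY T).L s) (iT T 3 s)
    (WC'.mv ((dS T).L s) ((dY T).L s) 0 1 1 2) (zm _ (tf sph.G (sf 2 3 0 1) (s + 1))) :=
  (op_mv (okS hT) ((wY ht T hT).ok s) (0 : Fin 2) 1 1 2).cast fun u => funext fun ⟨w, c⟩ => by
    rw [zm_tf]
    fin_cases c <;> simp [sf]

/-- the coextension of `α` -/
theorem CS.at {x : Fin 1 → Cob Laz s} (h : CS T s x v) :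
    CA t T (s + 1) (fun j => Cob.cup (x 0) (![2 * t ^ 2, 2 * t] j)) (v.cat T s) :=
  h.op ((wA ht T hT).ok _) (fun _ _ hv => (op_ρ ht hT _ _ (op_sd (wY ht T hT).cx _ _
    (op_bf hT (2 : Fin 3) _ _ hv))).sm _) fun T₁ T' a b u h1 h2 h3 h4 h5 => by
    have h6 := (Rc.conn (w := T') (x := x) (u := u) (wY ht T hT).wd (wS T hT).wd ses_A (s0_A ht)
      (h1.trans (by decide)) ((wA ht T hT).le h3) h4
      ((show (T₁ : ℤ) = T' + -2 by omega) ▸ h5)).zsmul ((-1) ^ (s + 1))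
    rw [sgn_eq, neg_zero, add_zero] at h6
    rw [zero_add, zero_add, ← cn_A]
    exact h6

/-- the extension of `α` -/
theorem CA.ab {x : Fin 2 → Cob Laz s} (h : CA t T s x v) :
    CS T (s + 1) (fun _ => Cob.cup (x 0) (2 * t) + Cob.cup (x 1) (2 * t ^ 2)) (v.cab T s) :=
  h.op (okS hT) (fun _ _ hv => (op_pf hT (0 : Fin 3) _ _ (op_sd (wY ht T hT).cx _ _
    (op_σ ht hT _ _ hv))).sm _) fun T₁ T' a b u h1 h2 h3 h4 h5 => by
    have h6 := (Rc.conn (w := T') (x := x) (u := u) (wY ht T hT).wd (wA ht T hT).wd ses_S (s0_S ht)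
      (h1.trans (by decide)) ((wS T hT).le h3) h4
      ((show (T₁ : ℤ) = T' + -1 by omega) ▸ h5)).zsmul ((-1) ^ (s + 1))
    rw [sgn_eq, neg_zero, add_zero] at h6
    rw [zero_add, zero_add, ← cn_S]
    exact h6

/-- the right multiplication by `α` -/
theorem CS.al {x : Fin 1 → Cob Laz s} (h : CS T s x v) :
    CS T (s + 1) (fun _ => Cob.cup (x 0) (2 * t)) ((v.cat T s).cjA T (s + 1)) :=
  (h.at ht hT).jA hT

end Vale.Agent.P236EL

end
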