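import Vale.Agent.P236EL.Cv

/-!
# P236EL / Ce : statements about cohomology classes from checks
-/

noncomputable section

namespace Vale.Agent.P236EL

open Vale.Agent.P251.F Vale.Agent.P251.I Vale.Agent.P236SY Vale.Agent.P236R MvPolynomial
open Vale.Agent.P236KE Vale.Agent.P236K3 Vale.Agent.P236F AddSubgroup

namespace WC'

variable (D : KD) (s T : Nat)

/-- the bounds -/
def bnd (c : Bool) : Bool := grd (Nat.ble s 59) (grd (Nat.ble T (D.L s).T) c)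
/-- membership modulo filtration `k` -/
def inC (k : Nat) (l : List WC') (v : WC') : Bool := force (Nat.sub k 3) fun a =>
  bnd D s T (exa (D.L s) T a k v fun p => runW (D.L s) T a k l fun l => D.inB s T a k l (cst' p))
/-- generators in filtration `k` -/
def k3C (k : Nat) (l : List WC') : Bool := force (Nat.sub k 2) fun a => force (Nat.succ k) fun b =>
  bnd D s T (runW (D.L s) T a b l fun l => D.k3s s T k l)
/-- vanishing in the filtrations from `a` to `b - 1` -/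
def vaC (a b : Nat) : Bool := bnd D s T (D.van s T 0 a b)
/-- not a boundary in filtration `k` -/
def noC (k : Nat) (v : WC') : Bool := force (Nat.sub k 2) fun a => force (Nat.succ k) fun b =>
  bnd D s T (exa (D.L s) T a b v fun p => grd (D.isZ s T a k (cst' p)) (D.noB s T a b (cst' p)))
/-- zero modulo filtration `k` -/
def hiC (k : Nat) (v : WC') : Bool := inC D s T k [] v
/-- the listed terms form a cycle -/
def cyC (a b : Nat) (l : List Tr) : Bool := force (Nat.succ s) fun s' =>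
  bnd D s T ((lst (D.L s) T a b l).run fun T a b p =>
    D.isZ s' T a b (D.dl s s' 0 T T a b (cst' p)))
/-- the check for improving the precision -/
def geC (a k n : Nat) (l : List WC') : Bool := force (Nat.succ k) fun b =>
  bnd D s T (grd (Nat.ble a k) (grd (Nat.ble b (Nat.add a 3)) (grd (Nat.ble n (Nat.add a 3))
    (runW (D.L s) T a b l fun l => D.gen s T a k n l))))
def up (k : Nat) (v : WC') : WC' := v.bind fun T a b p =>
  of T k b (grd (Nat.ble s 59) (grd (Nat.ble a k) (grd (Nat.ble k b) (D.isZ s T a k (cst' p)))))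
    (cst' p)

end WC'

variable [hp : Fact (Nat.Prime 3)] {G : ℕ → Type} [∀ q, Fintype (G q)] {R : Rs 3 K G}
  {θ : G 0 → G 0 → Cob Laz 1} {D : KD} {ix : ∀ q, G (q + 1) → ℕ} {s T a b k n N : ℕ}
  {x : G 0 → Cob Laz s} {v : WC'} {l : List WC'} {𝒵 : AddSubgroup (G 0 → Cob Laz s)}

theorem CL.mono {𝒵' : AddSubgroup (G 0 → Cob Laz s)} (h : CL R θ D ix 𝒵 l) (h' : 𝒵 ≤ 𝒵') :
    CL R θ D ix 𝒵' l := by
  induction h with
  | nil => exact .nil
  | cons h1 h2 _ ih => exact .cons (h' h1) h2 ih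

theorem CL.one (h : CV R θ D ix s x v) : CL R θ D ix (zmultiples x) [v] :=
  .cons (mem_zmultiples x) h .nil

theorem CL.two {y : G 0 → Cob Laz s} {v' : WC'} (h : CV R θ D ix s x v) (h' : CV R θ D ix s y v') :
    CL R θ D ix (closure {x, y}) [v, v'] :=
  .cons (subset_closure (.inl rfl)) h (.cons (subset_closure (.inr rfl)) h' .nil)

variable [DecidableEq (G 0)] {Tm s3 s4 : ℕ}

namespace Wx

variable (H : Wx R θ D ix Tm s3 s4)

include H

theorem bnd {c : Bool} (h : WC'.bnd D s T c = true) : s ≤ 59 ∧ T ≤ Tm ∧ (T : ℤ) ≤ 90 ∧ c = true :=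
  have h1 := grd_spec h
  have h2 := grd_spec h1.2
  have h3 := Nat.le_of_ble_eq_true h2.1
  ⟨Nat.le_of_ble_eq_true h1.1, H.cx.hT s ▸ h3, H.le h3, h2.2⟩

theorem exa (h : CV R θ D ix s x v) {κ : P → Bool}
    (hc : WC'.exa (D.L s) T a b v κ = true) :
    ∃ u p, Rc R θ s T a b x u ∧ VR (D.L s) (ix s) T a b (cst' p) u ∧ κ p = true := by
  obtain ⟨T', a', b', p', ⟨u, h1, h2⟩, h3⟩ := h _ hc
  obtain ⟨h4, h5⟩ := grd_spec h3
  obtain ⟨h6, h7⟩ := grd_spec h4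
  obtain rfl := Nat.eq_of_beq_eq_true h6
  have h8 : mn b' b ≤ b' := mn_eq b' b ▸ min_le_left _ _
  have h9 := vr_cut (H.ok s) h2.hT h2.hb h2.vp (Nat.le_of_ble_eq_true h7) h8
  obtain ⟨p, h10, h11⟩ := h9.run _ h5
  obtain ⟨h12, h13⟩ := grd_spec h11
  have h14 := Nat.eq_of_beq_eq_true h12
  rw [h14] at h8 h10
  exact ⟨u, p, h1.mono (Nat.le_of_ble_eq_true h7) h8, vr_cst ⟨h9.hz, h10⟩, h13⟩

theorem runW (h : CL R θ D ix 𝒵 l) {κ : List VC → Bool}
    (hc : WC'.runW (D.L s) T a b l κ = true) : ∃ l' φ, List.Forall₂ (VR (D.L s) (ix s) T a b) l' φ ∧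
      (∀ u ∈ φ, u ∈ Sp R θ a b T 𝒵) ∧ κ l' = true := by
  induction h generalizing κ with
  | nil => exact ⟨[], [], .nil, (fun _ h => nomatch h), hc⟩
  | cons h1 h2 _ ih =>
    obtain ⟨u, p, h3, h4, h5⟩ := H.exa h2 hc
    obtain ⟨l', φ, h6, h7, h8⟩ := ih h5
    exact ⟨_, u :: φ, .cons h4 h6, List.forall_mem_cons.2 ⟨⟨_, h1, h3⟩, h7⟩, h8⟩

theorem rc_mem (h : CV R θ D ix s x v) (hl : CL R θ D ix 𝒵 l) (hc : WC'.inC D s T k l v = true) :
    ∃ z ∈ 𝒵, Rc R θ s T (k - 3) k (x - z) 0 := by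
  obtain ⟨-, h2, -, h4⟩ := H.bnd hc
  have hb : k ≤ k - 3 + 3 := by omega
  obtain ⟨u, p, h5, h6, h7⟩ := H.exa h h4
  obtain ⟨l', φ, h8, h9, h10⟩ := H.runW hl h7
  obtain ⟨_, ⟨z, hz, h11⟩, e, he, rfl⟩ :=
    mem_sup.1 (H.cx.inB (add_zero _).symm h2 hb h8 h9 h6 h10)
  exact ⟨z, hz, (h5.sub h11).congr (by simpa using he)⟩

/-- **membership** -/
theorem mem (h : CV R θ D ix s x v) (hl : CL R θ D ix 𝒵 l) (hg : Hg R θ k T 𝒵)
    (hc : WC'.inC D s T k l v = true) : x ∈ 𝒵 ⊔ BQ 3 θ (R.deg 0) T 3 s := by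
  obtain ⟨z, hz, h1⟩ := H.rc_mem h hl hc
  obtain ⟨h2, -, h3, -⟩ := H.bnd hc
  simpa using add_mem (H.wd.mem (by omega) h3 h1 (by omega) (zero_mem _) hg) (mem_sup_left hz)

theorem memB (h : CV R θ D ix s x v) (hg : Hg R θ k T (⊥ : AddSubgroup (G 0 → Cob Laz s)))
    (hc : WC'.hiC D s T k v = true) : x ∈ BQ 3 θ (R.deg 0) T 3 s := by
  simpa using H.mem h .nil hg hc

theorem k3 (hl : CL R θ D ix 𝒵 l) (hc : WC'.k3C D s T k l = true) :
    R.K3s 3 s T k (Sp R θ (k - 2) (k + 1) T 𝒵) := by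
  obtain ⟨-, h2, -, h4⟩ := H.bnd hc
  obtain ⟨l', φ, h5, h6, h7⟩ := H.runW hl h4
  exact H.cx.k3s (add_zero _).symm h2 h5 h6 h7

theorem va (hc : WC'.vaC D s T a b = true) (h1 : a ≤ k) (h2 : k < b)
    (S : AddSubgroup (G (s + 1) → A)) : R.K3s 3 s T k S :=
  (H.cx.van (add_zero _).symm (H.bnd hc).2.1 (H.bnd hc).2.2.2 h1 h2 (Nat.zero_testBit k)).trans
    (sup_le_sup_right bot_le _)

/-- one more filtration -/
theorem step (hl : CL R θ D ix 𝒵 l) (hc : WC'.k3C D s T k l = true) (hg : Hg R θ (k + 1) T 𝒵) :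
    Hg R θ k T 𝒵 := H.wd.hi_step (by have := (H.bnd hc).1; omega) (H.bnd hc).2.2.1 (Nat.sub_le k 2)
  (by omega) le_rfl (H.k3 hl hc) hg

/-- a range of filtrations without classes -/
theorem skip (hc : WC'.vaC D s T a b = true) (hg : Hg R θ b T 𝒵) : Hg R θ a T 𝒵 :=
  H.wd.hi_from (by have := (H.bnd hc).1; omega) (H.bnd hc).2.2.1 hg fun _ h1 h2 => H.va hc h1 h2 _

theorem top (hc : WC'.vaC D s T a (T + 1) = true) : Hg R θ a T 𝒵 :=
  have h := H.bnd hc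
  H.skip hc (H.wd.hi_from (by omega) h.2.2.1 (H.wd.hi_top (by omega) h.2.2.1 le_rfl)
    fun _ h1 _ => H.cx.k3s_top (add_zero _).symm h.2.1 h1 3)

theorem kv (hc : WC'.vaC D s T a (T + 1) = true) : R.KV s T a [] := fun k h1 _ =>
  (lt_or_ge T k).elim (fun h2 => H.cx.k3s_top (add_zero _).symm (H.bnd hc).2.1 h2 3) fun h2 =>
    H.va hc h1 (Nat.lt_succ_of_le h2) _

theorem ds_skip (hc : WC'.vaC D s T a b = true) (hN : b + 2 ≤ N) : Ds R θ s a b N T :=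
  H.wd.ds_from (by have := (H.bnd hc).1; omega) (H.bnd hc).2.2.1 hN fun _ h1 h2 => H.va hc h1 h2 _

theorem ds_step (hl : CL R θ D ix 𝒵 l) (hc : WC'.k3C D s T k l = true) (hN : k + 3 ≤ N) :
    Ds R θ s k (k + 1) N T :=
  H.wd.ds_from (by have := (H.bnd hc).1; omega) (H.bnd hc).2.2.1 hN fun k' h1 h2 => by
    obtain rfl : k' = k := by omega
    exact (H.k3 hl hc).trans (sup_le_sup_right H.wd.sp_le _)

/-- **non-vanishing** modulo classes of higher filtration -/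
theorem not_mem {x : G 0 → Cob Laz (s + 1)} {𝒵 : AddSubgroup (G 0 → Cob Laz (s + 1))}
    (h : CV R θ D ix (s + 1) x v) (hd : Ds R θ s 0 (k - 2) k T)
    (hz : ∀ z ∈ 𝒵, Rc R θ (s + 1) T (k - 2) (k + 1) z 0) (hc : WC'.noC D (s + 1) T k v = true) :
    x ∉ 𝒵 ⊔ BQ 3 θ (R.deg 0) T 3 (s + 1) := fun hx => by
  obtain ⟨h1, h2, h3, h4⟩ := H.bnd hc
  have hb : k + 1 ≤ k - 2 + 3 := by omega
  obtain ⟨u, p, h5, h6, h7⟩ := H.exa h h4
  obtain ⟨h8, h9⟩ := grd_spec h7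
  obtain ⟨z, h10, e, he, rfl⟩ := mem_sup.1 hx
  refine H.cx.noB (add_zero _).symm h2 hb h6 h9 (H.wd.bd_of (by omega) h3 ?_ (by omega) hb
    (H.cx.isZ h2 hb k.le_succ h6 h8) hd he)
  simpa using h5.sub (hz z h10)

theorem ne {x : G 0 → Cob Laz (s + 1)} (h : CV R θ D ix (s + 1) x v) (hd : Ds R θ s 0 (k - 2) k T)
    (hc : WC'.noC D (s + 1) T k v = true) : x ∉ BQ 3 θ (R.deg 0) T 3 (s + 1) := by
  simpa using H.not_mem (𝒵 := ⊥) h hd (fun z hz => mem_bot.1 hz ▸ Rc.zero) hc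

/-- a class of high filtration -/
theorem high (h : CV R θ D ix s x v) (hc : WC'.hiC D s T (k + 1) v = true) :
    Rc R θ s T (k - 2) (k + 1) x 0 := by
  obtain ⟨_, rfl, h1⟩ := H.rc_mem (𝒵 := ⊥) h .nil hc
  rwa [sub_zero] at h1

theorem cy {l : List Tr} (hb : b ≤ a + 3) (hc : WC'.cyC D s T a b l = true) :
    vL (ix s) l ∈ R.Cy s T a b := by
  obtain ⟨-, h2, -, h4⟩ := H.bnd hc
  obtain ⟨T', a', b', p, ⟨h5, h6, h7, h8⟩, h9⟩ := ok_lst (H.ok s) T a b l _ h4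
  subst h5 h6 h7
  exact H.cx.cy (add_zero _).symm rfl h2 hb le_rfl (vr_cst h8.vp) h9

/-- **existence of a class with given leading term** -/
theorem lift {l : List Tr} (hc : WC'.cyC D s T k (k + 3) l = true)
    (hv : R.KV (s + 1) T (k + 3) []) : ∃ x, Rc R θ s T k (k + 1) x (vL (ix s) l) := by
  obtain ⟨x, h1, h2⟩ := H.wd.lift (H.bnd hc).1 (H.bnd hc).2.2.1 hv (H.cy le_rfl hc)
  exact ⟨x, .of h1 h2⟩

/-- improving the precision, modulo known classes -/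
theorem ext {u : G (s + 1) → A} (h : Rc R θ s T a k x u) (hu : u ∈ R.Cy s T a n)
    (hl : CL R θ D ix 𝒵 l) (hc : WC'.geC D s T a k n l = true) :
    ∃ z ∈ 𝒵, Rc R θ s T a (k + 1) (x - z) u := by
  obtain ⟨h1, h2, h3, h4⟩ := H.bnd hc
  obtain ⟨h5, h6⟩ := grd_spec h4
  obtain ⟨h7, h8⟩ := grd_spec h6
  obtain ⟨h9, h10⟩ := grd_spec h8
  have h11 : a ≤ k := Nat.le_of_ble_eq_true h5
  have h12 : k + 1 ≤ a + 3 := Nat.le_of_ble_eq_true h7
  have h13 : n ≤ a + 3 := Nat.le_of_ble_eq_true h9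
  obtain ⟨l', φ, h14, h15, h16⟩ := H.runW hl h10
  obtain ⟨_, ⟨z, hz, h17⟩, h18⟩ := H.wd.ext (by omega) h3 h h13 hu
    (H.cx.gen (add_zero _).symm h2 h11 h12 (by omega) h14 h15 h16)
  exact ⟨z, hz, by simpa using h18.sub h17⟩

theorem ext' {u : G (s + 1) → A} (h : Rc R θ s T a k x u) (hu : u ∈ R.Cy s T a n)
    (hc : WC'.geC D s T a k n [] = true) : Rc R θ s T a (k + 1) x u := by
  obtain ⟨_, rfl, h1⟩ := H.ext (𝒵 := ⊥) h hu .nil hc
  rwa [sub_zero] at h1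

theorem up (k : ℕ) (h : CV R θ D ix s x v) : CV R θ D ix s x (WC'.up D s k v) :=
  WC'.Ok.bind h fun T a b p ⟨u, h1, h2⟩ => WC'.ok_of fun h3 => by
    obtain ⟨h4, h5⟩ := grd_spec h3
    obtain ⟨h6, h7⟩ := grd_spec h5
    obtain ⟨h8, h9⟩ := grd_spec h7
    have h10 : a ≤ k := Nat.le_of_ble_eq_true h6
    have h11 : k ≤ b := Nat.le_of_ble_eq_true h8
    have h12 := h2.hb
    have h13 := (vr_cst h2.vp).up (H.cx.isZ (H.cx.hT s ▸ h2.hT) h12 h11 (vr_cst h2.vp) h9) h10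
    exact ⟨_, h13, fun _ h14 => ⟨_, H.wd.up (Nat.le_succ_of_le (Nat.le_of_ble_eq_true h4))
      (H.le h2.hT) h1 h12 h10 h11 ((H.cx.pa (add_zero _).symm).2 h13.hz), h2.hT, by omega, h14⟩⟩

end Wx

end Vale.Agent.P236EL

end
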