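import Vale.Agent.P236EL.Ops

/-!
# P236EL / Ch : infinite chains of arrows and the ring of functions on them
-/

noncomputable section

namespace Vale.Agent.P236EL

open MvPolynomial

/-- a chain `x_0 → x_1 → x_2 → …` of arrows -/
@[ext] structure Ch (L : Type) [CommRing L] (B : Type*) [CommRing B] where
  /-- structure map -/
  o : L →+* B
  /-- the first vertex -/
  x : ℕ → B
  /-- the arrows -/
  a : ℕ → ℕ → B

/-- functions on chains -/
abbrev CC (L : Type) [CommRing L] : Type := MvPolynomial (ℕ ⊕ ℕ × ℕ) L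

variable (p : ℕ) [hp : Fact p.Prime] {L : Type} [CommRing L] {A B C' : Type*}
  [CommRing A] [CommRing B] [CommRing C']

namespace Ch

/-- the vertices -/
def vtx (c : Ch L B) : ℕ → ℕ → B
  | 0 => c.x
  | k + 1 => tg p (vtx c k) (c.a k)

/-- the composite of `m` arrows starting at vertex `i` -/
def sg (c : Ch L B) (i : ℕ) : ℕ → ℕ → B
  | 0 => fun _ => 0
  | m + 1 => cm p (c.vtx p i) (sg c i m) (c.a (i + m))

/-- the composite arrow from vertex `i` to vertex `k` -/
def seg (c : Ch L B) (i k : ℕ) : ℕ → B := c.sg p i (k - i)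

theorem tg_sg (c : Ch L B) (i m : ℕ) : tg p (c.vtx p i) (c.sg p i m) = c.vtx p (i + m) := by
  induction m with
  | zero => exact tg_zero p _
  | succ m ih => rw [sg, tg_cm, ih]; rfl

theorem cm_sg (c : Ch L B) (i m l : ℕ) :
    cm p (c.vtx p i) (c.sg p i m) (c.sg p (i + m) l) = c.sg p i (m + l) := by
  induction l with
  | zero => exact cm_zero_right p _ _
  | succ l ih => rw [sg, ← tg_sg, ← cm_assoc, ih, ← add_assoc, sg, add_assoc]

theorem tg_seg (c : Ch L B) {i k : ℕ} (h : i ≤ k) : tg p (c.vtx p i) (c.seg p i k) = c.vtx p k := by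
  rw [seg, tg_sg, Nat.add_sub_cancel' h]

theorem cm_seg (c : Ch L B) {i j k : ℕ} (h : i ≤ j) (h' : j ≤ k) :
    cm p (c.vtx p i) (c.seg p i j) (c.seg p j k) = c.seg p i k := by
  have h1 := c.cm_sg p i (j - i) (k - j)
  rw [Nat.add_sub_cancel' h, show j - i + (k - j) = k - i by omega] at h1
  exact h1

theorem seg_self (c : Ch L B) (i : ℕ) : c.seg p i i = fun _ => 0 := by
  rw [seg, Nat.sub_self, sg]

theorem seg_succ (c : Ch L B) (i : ℕ) : c.seg p i (i + 1) = c.a i := by
  rw [seg, Nat.add_sub_cancel_left, sg, sg, cm_zero_left, add_zero]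

theorem seg_succ' (c : Ch L B) {i k : ℕ} (h : i ≤ k) :
    c.seg p i (k + 1) = cm p (c.vtx p i) (c.seg p i k) (c.a k) := by
  rw [← c.seg_succ p k, c.cm_seg p h (Nat.le_succ k)]

/-- restriction along a monotone map of indices -/
def res (α : ℕ → ℕ) (c : Ch L B) : Ch L B where
  o := c.o
  x := c.vtx p (α 0)
  a k := c.seg p (α k) (α (k + 1))

variable {p}

theorem vtx_res {α : ℕ → ℕ} (hα : Monotone α) (c : Ch L B) (k : ℕ) :
    (c.res p α).vtx p k = c.vtx p (α k) := by
  induction k with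
  | zero => rfl
  | succ k ih =>
    rw [vtx, ih]
    exact c.tg_seg p (hα (Nat.le_succ k))

theorem seg_res {α : ℕ → ℕ} (hα : Monotone α) (c : Ch L B) {i k : ℕ} (h : i ≤ k) :
    (c.res p α).seg p i k = c.seg p (α i) (α k) := by
  induction k, h using Nat.le_induction with
  | base => rw [seg_self, seg_self]
  | succ k hk ih =>
    rw [seg_succ' p _ hk, ih, vtx_res hα]
    exact c.cm_seg p (hα hk) (hα (Nat.le_succ k))

theorem res_res {α β : ℕ → ℕ} (hα : Monotone α) (hβ : Monotone β) (c : Ch L B) :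
    (c.res p α).res p β = c.res p (α ∘ β) := by
  ext1
  · rfl
  · exact vtx_res hα c _
  · funext k
    exact seg_res hα c (hβ (Nat.le_succ k))

theorem res_id (c : Ch L B) : c.res p id = c := by
  ext1
  · rfl
  · rfl
  · funext k
    exact c.seg_succ p k

/-- chains which agree up to vertex `n` -/
def Agree (n : ℕ) (c c' : Ch L B) : Prop := c.o = c'.o ∧ c.x = c'.x ∧ ∀ k < n, c.a k = c'.a k

theorem Agree.vtx {n : ℕ} {c c' : Ch L B} (h : Agree n c c') {k : ℕ} (hk : k ≤ n) :
    c.vtx p k = c'.vtx p k := by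
  induction k with
  | zero => exact h.2.1
  | succ k ih => rw [Ch.vtx, Ch.vtx, ih (by omega), h.2.2 k (by omega)]

theorem Agree.seg {n : ℕ} {c c' : Ch L B} (h : Agree n c c') {i k : ℕ} (hi : i ≤ k) (hk : k ≤ n) :
    c.seg p i k = c'.seg p i k := by
  induction k, hi using Nat.le_induction with
  | base => rw [seg_self, seg_self]
  | succ k hi ih =>
    rw [seg_succ' p _ hi, seg_succ' p _ hi, ih (by omega), h.vtx (by omega), h.2.2 k (by omega)]

theorem seg_of_zero {c : Ch L B} {N : ℕ} (h : ∀ k, N ≤ k → c.a k = fun _ => 0) {i k : ℕ}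
    (hi : i ≤ N) (hk : N ≤ k) : c.seg p i k = c.seg p i N := by
  induction k, hk using Nat.le_induction with
  | base => rfl
  | succ k hk ih => rw [seg_succ' p _ (hi.trans hk), h k hk, cm_zero_right, ih]

theorem seg_of_zero' {c : Ch L B} {N : ℕ} (h : ∀ k, N ≤ k → c.a k = fun _ => 0) {i k : ℕ}
    (hi : N ≤ i) (hk : i ≤ k) : c.seg p i k = fun _ => 0 := by
  rw [seg_of_zero (N := i) (fun k hk => h k (hi.trans hk)) le_rfl hk, seg_self]

theorem monotone_min (N : ℕ) : Monotone fun k : ℕ => min k N :=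
  fun _ _ h => min_le_min_right N h

theorem res_min {c : Ch L B} {N : ℕ} (h : ∀ k, N ≤ k → c.a k = fun _ => 0) :
    c.res p (fun k => min k N) = c := by
  ext1
  · rfl
  · change c.vtx p (min 0 N) = c.x
    rw [Nat.zero_min]
    rfl
  · funext k
    change c.seg p (min k N) (min (k + 1) N) = c.a k
    rcases lt_or_ge k N with hk | hk
    · rw [min_eq_left hk.le, min_eq_left hk, seg_succ]
    · rw [min_eq_right hk, min_eq_right (by omega), seg_self, h k hk]

theorem res_congr_zero {c : Ch L B} {N : ℕ} (h : ∀ k, N ≤ k → c.a k = fun _ => 0)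
    {α β : ℕ → ℕ} (hα : Monotone α) (hβ : Monotone β) (hαβ : ∀ k, min (α k) N = min (β k) N) :
    c.res p α = c.res p β := by
  conv_lhs => rw [← res_min (p := p) h, res_res (monotone_min N) hα]
  conv_rhs => rw [← res_min (p := p) h, res_res (monotone_min N) hβ]
  congr 1
  funext k
  exact hαβ k

/-- base change -/
def map (φ : B →+* C') (c : Ch L B) : Ch L C' where
  o := φ.comp c.o
  x i := φ (c.x i)
  a k i := φ (c.a k i)

theorem vtx_map (φ : B →+* C') (c : Ch L B) (k : ℕ) :
    (c.map φ).vtx p k = fun i => φ (c.vtx p k i) := by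
  induction k with
  | zero => rfl
  | succ k ih =>
    funext i
    rw [vtx, ih, vtx, map_tg]
    rfl

theorem seg_map (φ : B →+* C') (c : Ch L B) (i k : ℕ) :
    (c.map φ).seg p i k = fun j => φ (c.seg p i k j) := by
  rw [seg, seg]
  induction k - i with
  | zero => funext j; simp [sg]
  | succ m ih =>
    funext j
    rw [sg, ih, sg, map_cm, vtx_map]
    rfl

theorem res_map (φ : B →+* C') (α : ℕ → ℕ) (c : Ch L B) :
    (c.map φ).res p α = (c.res p α).map φ := by
  ext1
  · rfl
  · exact vtx_map φ c _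
  · funext k
    exact seg_map φ c _ _

variable (p) in
/-- the vertices as points -/
def pt (c : Ch L B) (k : ℕ) : AA L →+* B := eval₂Hom c.o (c.vtx p k)

@[simp] theorem pt_X (c : Ch L B) (k i : ℕ) : c.pt p k (X i) = c.vtx p k i := by simp [pt]

@[simp] theorem pt_C (c : Ch L B) (k : ℕ) (a : L) : c.pt p k (C a) = c.o a := by simp [pt]

theorem pt_map (φ : B →+* C') (c : Ch L B) (k : ℕ) : (c.map φ).pt p k = φ.comp (c.pt p k) :=
  ringHom_ext (fun a => by simp [map]) fun i => by simp [vtx_map]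

theorem pt_res {α : ℕ → ℕ} (hα : Monotone α) (c : Ch L B) (k : ℕ) :
    (c.res p α).pt p k = c.pt p (α k) := by
  rw [pt, vtx_res hα]
  rfl

theorem pt_succ (c : Ch L B) (k : ℕ) : c.pt p (k + 1) = tgt p (c.pt p k) (c.a k) :=
  ringHom_ext (fun a => by simp) fun i => by simp [vtx]

theorem Agree.pt {n : ℕ} {c c' : Ch L B} (h : Agree n c c') {k : ℕ} (hk : k ≤ n) :
    c.pt p k = c'.pt p k := by
  rw [Ch.pt, Ch.pt, h.1, h.vtx hk]

/-- evaluation of functions -/
def ev (c : Ch L B) : CC L →+* B := eval₂Hom c.o (Sum.elim c.x fun ki => c.a ki.1 ki.2)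

@[simp] theorem ev_C (c : Ch L B) (a : L) : c.ev (C a) = c.o a := by simp [ev]

@[simp] theorem ev_inl (c : Ch L B) (i : ℕ) : c.ev (X (Sum.inl i)) = c.x i := by simp [ev]

@[simp] theorem ev_inr (c : Ch L B) (k i : ℕ) : c.ev (X (Sum.inr (k, i))) = c.a k i := by
  simp [ev]

theorem comp_ev (φ : B →+* C') (c : Ch L B) : φ.comp c.ev = (c.map φ).ev :=
  ringHom_ext (fun a => by simp [map]) (by rintro (i | ⟨k, i⟩) <;> simp [map])

theorem ev_map (φ : B →+* C') (c : Ch L B) (F : CC L) : (c.map φ).ev F = φ (c.ev F) := by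
  rw [← comp_ev]
  rfl

variable (L) in
/-- the universal chain -/
def univ : Ch L (CC L) where
  o := C
  x i := X (Sum.inl i)
  a k i := X (Sum.inr (k, i))

@[simp] theorem ev_univ (F : CC L) : (univ L).ev F = F := by
  have h : (univ L).ev = RingHom.id _ :=
    ringHom_ext (fun a => by simp [univ]) (by rintro (i | ⟨k, i⟩) <;> simp [univ])
  rw [h]
  rfl

@[simp] theorem univ_map (c : Ch L B) : (univ L).map c.ev = c := by
  ext1
  · exact RingHom.ext fun a => by simp [map, univ]
  · funext i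
    simp [map, univ]
  · funext k i
    simp [map, univ]

end Ch

open Ch

variable (L) in
/-- pull back of functions along restriction of chains -/
def pb (α : ℕ → ℕ) : CC L →+* CC L := ((univ L).res p α).ev

variable {p}

theorem ev_pb (c : Ch L B) (α : ℕ → ℕ) (F : CC L) : c.ev (pb p L α F) = (c.res p α).ev F := by
  rw [pb, ← ev_map, ← res_map, univ_map]

theorem pb_pb {α β : ℕ → ℕ} (hα : Monotone α) (hβ : Monotone β) (F : CC L) :
    pb p L α (pb p L β F) = pb p L (α ∘ β) F := by
  rw [pb, ev_pb, res_res hα hβ]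
  rfl

theorem pb_id (F : CC L) : pb p L id F = F := by
  rw [pb, res_id, ev_univ]

/-- skip `j` -/
def sa (j k : ℕ) : ℕ := if k < j then k else k + 1

/-- repeat `j` -/
def dg (j k : ℕ) : ℕ := if k ≤ j then k else k - 1

omit hp in
theorem sa_mono (j : ℕ) : Monotone (sa j) := by
  intro a b h
  simp only [sa]
  split_ifs <;> omega

omit hp in
theorem dg_mono (j : ℕ) : Monotone (dg j) := by
  intro a b h
  simp only [dg]
  split_ifs <;> omega

variable (p L) in
/-- the cofaces -/
def fc (j : ℕ) : CC L →+* CC L := pb p L (sa j)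

variable (p L) in
/-- the codegeneracies -/
def sg (j : ℕ) : CC L →+* CC L := pb p L (dg j)

theorem fc_fc {i j : ℕ} (h : i ≤ j) (F : CC L) :
    fc p L (j + 1) (fc p L i F) = fc p L i (fc p L j F) := by
  rw [fc, fc, fc, pb_pb (sa_mono _) (sa_mono _), pb_pb (sa_mono _) (sa_mono _)]
  congr 2
  funext k
  simp only [Function.comp, sa]
  split_ifs <;> omega

theorem sg_fc_lt {i j : ℕ} (h : i ≤ j) (F : CC L) :
    sg p L (j + 1) (fc p L i F) = fc p L i (sg p L j F) := by
  rw [fc, sg, sg, pb_pb (dg_mono _) (sa_mono _), pb_pb (sa_mono _) (dg_mono _)]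
  congr 2
  funext k
  simp only [Function.comp, sa, dg]
  split_ifs <;> omega

theorem sg_fc_self (j : ℕ) (F : CC L) : sg p L j (fc p L j F) = F := by
  rw [fc, sg, pb_pb (dg_mono _) (sa_mono _)]
  conv_rhs => rw [← pb_id (p := p) F]
  congr 2
  funext k
  simp only [Function.comp, sa, dg, id]
  split_ifs <;> omega

variable (p L) in
/-- the alternating sum of the first `m` cofaces -/
def alt (m : ℕ) : CC L →+ CC L :=
  ∑ j ∈ Finset.range m, ((-1 : ℤ) ^ j) • (fc p L j).toAddMonoidHom

theorem alt_apply (m : ℕ) (F : CC L) :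
    alt p L m F = ∑ j ∈ Finset.range m, ((-1 : ℤ) ^ j) • fc p L j F := by
  simp [alt, AddMonoidHom.finsetSum_apply]

theorem alt_zero (F : CC L) : alt p L 0 F = 0 := by rw [alt_apply, Finset.sum_range_zero]

theorem alt_succ (m : ℕ) (F : CC L) :
    alt p L (m + 1) F = alt p L m F + ((-1 : ℤ) ^ m) • fc p L m F := by
  rw [alt_apply, alt_apply, Finset.sum_range_succ]

theorem fc_alt {m j : ℕ} (h : m ≤ j + 1) (F : CC L) :
    fc p L (j + 1) (alt p L m F) = alt p L m (fc p L j F) := by
  rw [alt_apply, alt_apply, map_sum]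
  refine Finset.sum_congr rfl fun i hi => ?_
  rw [map_zsmul, fc_fc (by have := Finset.mem_range.1 hi; omega)]

theorem alt_alt (m : ℕ) (F : CC L) : alt p L (m + 1) (alt p L m F) = 0 := by
  induction m with
  | zero => rw [alt_zero, map_zero]
  | succ m ih =>
    rw [alt_succ (m + 1), fc_alt le_rfl, alt_succ m F, map_add, ih, map_zsmul, pow_succ]
    simp

theorem sg_alt (m : ℕ) (F : CC L) :
    sg p L (m + 1) (alt p L (m + 2) F) = alt p L (m + 1) (sg p L m F) + ((-1 : ℤ) ^ (m + 1)) • F := by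
  rw [alt_succ (m + 1), map_add, map_zsmul, sg_fc_self, alt_apply, alt_apply, map_sum]
  congr 1
  refine Finset.sum_congr rfl fun i hi => ?_
  rw [map_zsmul, sg_fc_lt (by have := Finset.mem_range.1 hi; omega)]

theorem sg_alt_zero (F : CC L) : sg p L 0 (alt p L 1 F) = F := by
  rw [alt_succ, alt_zero, zero_add, pow_zero, one_smul, sg_fc_self]

end Vale.Agent.P236EL

end
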