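import Vale.Agent.P236EL.Ce
import Vale.Agent.P236F.Ds
import Vale.Agent.P236KE.S90.Ok

/-!
# P236EL / Ci : the sphere, `C α` and `Y`
-/

noncomputable section

namespace Vale.Agent.P236EL

open Vale.Agent.P251.F Vale.Agent.P251.I Vale.Agent.P236SY Vale.Agent.P236R
open Vale.Agent.P236KE Vale.Agent.P236K3 Vale.Agent.P236F AddSubgroup Vale.Agent.P236KE.S90

/-- the unit -/
def vU (T : Nat) : WC' := WC'.lst ((dS T).L 0) 0 0 3 [⟨0, 0, 0, 0, 0, 1⟩]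

/-- the listed terms generate in filtration `k` -/
def WC'.liC (D : KD) (s T k : Nat) (l : List Tr) : Bool :=
  force (Nat.sub k 2) fun a => force (Nat.succ k) fun b =>
    WC'.bnd D s T (grd (okL (D.L s) T a b l) (D.k3s s T k [vcL (D.L s) l]))

variable [hp : Fact (Nat.Prime 3)]

/-- **a line** -/
theorem Wx.line {G : ℕ → Type} [∀ q, Fintype (G q)] [DecidableEq (G 0)] {R : Rs 3 K G}
    {θ : G 0 → G 0 → Cob Laz 1} {D : KD} {ix : ∀ q, G (q + 1) → ℕ} {Tm s3 s4 s T : ℕ}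
    (H : Wx R θ D ix Tm s3 s4) (k : ℕ) (l : List Tr) (h1 : WC'.vaC D s T 0 k = true)
    (h2 : WC'.liC D s T k l = true) (h3 : WC'.vaC D s T (k + 1) (T + 1) = true) :
    ∀ x ∈ ZC 3 θ (R.deg 0) T 3 s, x ∉ BQ 3 θ (R.deg 0) T 3 s →
      ZC 3 θ (R.deg 0) T 3 s ≤ zmultiples x ⊔ BQ 3 θ (R.deg 0) T 3 s := fun _ hx hx' => by
  obtain ⟨h4, h5, h6, h7⟩ := H.bnd h2
  obtain ⟨h8, h9⟩ := grd_spec h7
  obtain ⟨u, -, hu⟩ := cx_ex H.cx (add_zero _).symm h5 h8 h9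
  refine H.wd.line (by omega) h6 (fun j _ hj => ?_) hu hx hx'
  rcases lt_or_gt_of_ne (show j ≠ k by simpa using hj) with h | h
  exacts [H.va h1 (Nat.zero_le _) h _, H.kv h3 j h List.not_mem_nil]

/-- the resolution of the sphere -/
abbrev rS : Rs 3 K sph.G := sph.rs K
/-- the resolution of `C α` -/
abbrev rA : Rs 3 K (TG sph.G (Fin 2)) := rS.cA rfl rfl
/-- the resolution of `Y` -/
abbrev rY : Rs 3 K (TG sph.G (Fin 3)) := rS.cY rfl rfl
/-- the numbers of the generators -/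
abbrev iS (q : ℕ) : sph.G (q + 1) → ℕ := Fin.val
/-- the numbers of the generators on cells -/
abbrev iT (T m q : ℕ) : TG sph.G (Fin m) (q + 1) → ℕ := tix ((dS T).L q) Fin.val Fin.val

variable {t : Cob Laz 1} {T s m : ℕ}

theorem wS (T : ℕ) (hT : T ≤ 90) : Wx rS 0 (dS T) iS T sph.s3 sph.s4 :=
  ⟨wdS ok3, cxS T (by omega), hT⟩

theorem wA (ht : IsT1 3 t) (T : ℕ) (hT : T ≤ 90) :
    Wx rA (θA t) (dA T) (iT T 2) T sph.s3 sph.s4 := ⟨wdA ok3 ht, cxA T (by omega), hT⟩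

theorem wY (ht : IsT1 3 t) (T : ℕ) (hT : T ≤ 90) :
    Wx rY (θY t) (dY T) (iT T 3) T sph.s3 sph.s4 := ⟨wdY ok3 ht, cxY T (by omega), hT⟩

/-- classes on the sphere -/
abbrev CS (T s : ℕ) (x : Fin 1 → Cob Laz s) (v : WC') : Prop := CV rS 0 (dS T) iS s x v
/-- classes on `C α` -/
abbrev CA (t : Cob Laz 1) (T s : ℕ) (x : Fin 2 → Cob Laz s) (v : WC') : Prop :=
  CV rA (θA t) (dA T) (iT T 2) s x v
/-- classes on `Y` -/
abbrev CY (t : Cob Laz 1) (T s : ℕ) (x : Fin 3 → Cob Laz s) (v : WC') : Prop :=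
  CV rY (θY t) (dY T) (iT T 3) s x v

theorem cs_one (ht : IsT1 3 t) (hT : T ≤ 90) : CS T 0 (fun _ => 1) (vU T) := by
  have h1 : (fun _ => 1) ∈ ZS 0 0 := by simpa using zs_v ht 0
  refine (wS T hT).nm (.of h1 ((Rv.self_zero h1.1).cast rfl rfl ?_))
  refine (congrArg _ (funext fun _ => (one_smul ℤ _).symm)).trans ((Ph_cells 1 fun _ => 1).trans ?_)
  rw [map_one, Rs.star_one]
  funext w
  rw [eq_g0 w]
  simp [vL, Sq.rs, P236F.g0, P236K2.mk4]

theorem CS.base {z : Cob Laz m} {v : WC'} {e : m + 0 = m} (h : CS T m (lc _ e z fun _ => 1) v) :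
    CS T m (fun _ => z) v := h.cast (funext fun _ => cupE_one z)

end Vale.Agent.P236EL

end
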