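import Vale.Agent.P236EL.Cd
import Vale.Agent.P236F.Nm

/-!
# P236EL / Ck : statements about all classes with given leading terms
-/

noncomputable section

namespace Vale.Agent.P236EL

open Vale.Agent.P251.F Vale.Agent.P251.I Vale.Agent.P236SY Vale.Agent.P236R
open Vale.Agent.P236KE Vale.Agent.P236K3 Vale.Agent.P236F AddSubgroup

/-- twice a list of terms -/
def twL (l : List Tr) : List Tr := l.map fun t => ⟨t.i, t.e1, t.e2, t.e3, t.e4, Nat.mul 2 t.c⟩

/-- the test holds for all combinations -/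
def allC (ls : List (List Tr)) : (List Tr → Bool) → Bool :=
  List.rec (motive := fun _ => (List Tr → Bool) → Bool) (fun C => C [])
    (fun l _ ih C => grd (ih C) (grd (ih fun m => C (List.append l m))
      (ih fun m => C (List.append (twL l) m)))) ls

/-- the test holds for all nontrivial combinations -/
def nzC (ls : List (List Tr)) (C : List Tr → Bool) : Bool :=
  List.rec (motive := fun _ => Bool) true
    (fun l ls ih => grd ih (grd (allC ls fun m => C (List.append l m))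
      (allC ls fun m => C (List.append (twL l) m)))) ls

namespace WC'

variable (D : KD) (s T : Nat)

/-- the cycles are generated by known classes and listed vectors -/
def geM (a k n : Nat) (l : List WC') (ls : List (List Tr)) : Bool :=
  force (Nat.succ k) fun b => bnd D s T (grd (Nat.ble a k) (grd (Nat.ble b (Nat.add a 3))
    (grd (Nat.ble n (Nat.add k 3)) (grd (ls.all (okL (D.L s) T k (Nat.add k 3)))
      (runW (D.L s) T a b l fun l => D.gen s T a k n
        (List.append l (ls.map fun m => (vcL (D.L s) m).re (D.L s) T k b)))))))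
/-- the same at one level -/
def k3M (k : Nat) (l : List WC') (ls : List (List Tr)) : Bool :=
  force (Nat.sub k 2) fun a => force (Nat.add k 3) fun n => geM D s T a k n l ls

end WC'

section span

variable {W : Type} (ix : W → ℕ)

/-- the span of listed vectors -/
def spn : List (List Tr) → AddSubgroup (W → A)
  | [] => ⊥
  | l :: ls => zmultiples (vL ix l) ⊔ spn ls

variable {ix} {ls : List (List Tr)} {C : List Tr → Bool} {u : W → A}

theorem vL_append (l m : List Tr) : vL ix (List.append l m) = vL ix l + vL ix m :=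
  funext fun g => by simp [vL]

theorem vL_twL (l : List Tr) : vL ix (twL l) = 2 • vL ix l := funext fun g => by
  rw [Pi.smul_apply, vL, vL, twL, List.map_map, List.smul_sum, List.map_map]
  refine congrArg _ (List.map_congr_left fun t _ => ?_)
  simp only [Function.comp, Nat.mul_eq, mul_smul, smul_ite, smul_zero]

theorem mem_spn {l : List Tr} (h : l ∈ ls) : vL ix l ∈ spn ix ls := by
  induction ls with
  | nil => exact nomatch h
  | cons m ls ih =>
    rcases List.mem_cons.1 h with rfl | h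
    exacts [mem_sup_left (mem_zmultiples _), mem_sup_right (ih h)]

theorem spn_le {S : AddSubgroup (W → A)} (h : ∀ l ∈ ls, vL ix l ∈ S) : spn ix ls ≤ S := by
  induction ls with
  | nil => exact bot_le
  | cons m ls ih =>
    exact sup_le (zmultiples_le_of_mem (h m List.mem_cons_self))
      (ih fun l hl => h l (List.mem_cons_of_mem _ hl))

variable [Fact (Nat.Prime 3)]

theorem spn_cons {l : List Tr} (h : u ∈ spn ix (l :: ls)) :
    ∃ v ∈ spn ix ls, u = v ∨ u = vL ix l + v ∨ u = vL ix (twL l) + v := by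
  obtain ⟨_, ⟨c, rfl⟩, v, hv, rfl⟩ := mem_sup.1 h
  have h3 : (3 : ℤ) • vL ix l = 0 := funext fun g => by
    rw [Pi.smul_apply, zsmul_eq_mul]
    exact mul_eq_zero_of_left (CharP.cast_eq_zero A 3) _
  refine ⟨v, hv, ?_⟩
  rw [vL_twL, ← Int.emod_add_mul_ediv c 3, mul_comm]
  simp only [add_smul, mul_smul, h3, smul_zero, add_zero]
  rcases (by omega : c % 3 = 0 ∨ c % 3 = 1 ∨ c % 3 = 2) with h | h | h <;> rw [h]
  exacts [.inl (by rw [zero_smul, zero_add]), .inr (.inl (by rw [one_smul])),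
    .inr (.inr (by rw [two_smul, two_smul]))]

theorem allC_spec (h : allC ls C = true) (hu : u ∈ spn ix ls) : ∃ m, C m = true ∧ vL ix m = u := by
  induction ls generalizing C u with
  | nil => exact ⟨[], h, (mem_bot.1 hu).symm⟩
  | cons l ls ih =>
    obtain ⟨h1, h2⟩ := grd_spec h
    obtain ⟨h3, h4⟩ := grd_spec h2
    obtain ⟨v, hv, rfl | rfl | rfl⟩ := spn_cons hu
    · exact ih h1 hv
    · obtain ⟨m, h5, rfl⟩ := ih h3 hv
      exact ⟨_, h5, vL_append _ _⟩
    · obtain ⟨m, h5, rfl⟩ := ih h4 hv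
      exact ⟨_, h5, vL_append _ _⟩

theorem nzC_spec (h : nzC ls C = true) (hu : u ∈ spn ix ls) :
    u = 0 ∨ ∃ m, C m = true ∧ vL ix m = u := by
  induction ls generalizing u with
  | nil => exact .inl (mem_bot.1 hu)
  | cons l ls ih =>
    obtain ⟨h1, h2⟩ := grd_spec h
    obtain ⟨h3, h4⟩ := grd_spec h2
    obtain ⟨v, hv, rfl | rfl | rfl⟩ := spn_cons hu
    · exact ih h1 hv
    · obtain ⟨m, h5, rfl⟩ := allC_spec h3 hv
      exact .inr ⟨_, h5, vL_append _ _⟩
    · obtain ⟨m, h5, rfl⟩ := allC_spec h4 hv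
      exact .inr ⟨_, h5, vL_append _ _⟩

end span

variable [hp : Fact (Nat.Prime 3)] {G : ℕ → Type} [∀ q, Fintype (G q)] {R : Rs 3 K G}
  {θ : G 0 → G 0 → Cob Laz 1} {D : KD} {ix : ∀ q, G (q + 1) → ℕ} {s T a b k n : ℕ}
  {x : G 0 → Cob Laz s} {l : List WC'} {𝒵 : AddSubgroup (G 0 → Cob Laz s)}
  {Q : (G 0 → Cob Laz s) → Prop} {ls : List (List Tr)} {C : List Tr → Bool}

variable (R θ T k Q) in
/-- all classes of level at least `k` satisfy `Q` -/
def Al : Prop := ∀ x, Rc R θ s T k k x 0 → Q x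

variable (R θ ix T a b) in
/-- the test on the leading terms of a class implies `Q` -/
def Sd (C : List Tr → Bool) (Q : (G 0 → Cob Laz s) → Prop) : Prop :=
  ∀ m x, C m = true → Rc R θ s T a b x (vL (ix s) m) → Q x

theorem rc_any (hx : x ∈ ZC 3 θ (R.deg 0) T 3 s) (hx' : x ∈ Fl p3 _ s (II 3 K ^ k)) :
    Rc R θ s T k k x 0 := .of hx (Rv.of_Fl hx.1 le_rfl hx')

theorem Al.all (h : Al R θ T 0 Q) : ∀ x ∈ ZC 3 θ (R.deg 0) T 3 s, Q x :=
  fun x hx => h x (rc_any hx (mem_Fl_zero x))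

theorem Al.hg (h : Al R θ T k (· ∈ 𝒵 ⊔ BQ 3 θ (R.deg 0) T 3 s)) : Hg R θ k T 𝒵 :=
  fun x hx hx' => h x (rc_any hx hx')

theorem Al.imp {Q' : (G 0 → Cob Laz s) → Prop} (h : Al R θ T k Q) (h' : ∀ x, Q x → Q' x) :
    Al R θ T k Q' := fun x hx => h' x (h x hx)

theorem Sd.or {C' : List Tr → Bool} (h : Sd R θ ix T a b C Q) (h' : Sd R θ ix T a b C' Q) :
    Sd R θ ix T a b (fun m => C m || C' m) Q := fun m x hc hx =>
  (Bool.or_eq_true _ _ ▸ hc).elim (h m x · hx) (h' m x · hx)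

variable [DecidableEq (G 0)] {Tm s3 s4 : ℕ}

theorem Wd.lead (H : Wd R θ) (hs : s ≤ 60) (hw : (T : ℤ) ≤ 90) (h : Rc R θ s T k k x 0)
    (hak : a ≤ k) (hn : n ≤ k + 3) {S : AddSubgroup (G (s + 1) → A)}
    (h3 : R.Cy s T k n ≤ S ⊔ R.Bd s T a (k + 1)) : ∃ u ∈ S, Rc R θ s T a (k + 1) x u := by
  obtain ⟨y, hy, h1⟩ := h.ex
  obtain ⟨u, hu, e, he, h4⟩ := mem_sup.1 (h3 (H.ic.Ph_mem_Cy (H.ok' (by omega)) hw hn h1.cw h1.fl
    (ZC_DD_Fl (sub_mem h.zc (H.bz hy)) _)))
  exact ⟨u, hu, h.zc, y, hy, (Rv.self h1.cw (Fl_mono p3 (Ideal.pow_le_pow_right hak) h1.fl)).congr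
    (by rwa [← h4, add_sub_cancel_left])⟩

namespace Wx

variable (H : Wx R θ D ix Tm s3 s4)

include H

theorem al_of (h : Hg R θ k T 𝒵) (hQ : ∀ x ∈ 𝒵 ⊔ BQ 3 θ (R.deg 0) T 3 s, Q x) : Al R θ T k Q :=
    fun x hx => by
  obtain ⟨y, hy, h1⟩ := hx.ex
  simpa using hQ x (by
    simpa using add_mem (h _ (sub_mem hx.zc (H.wd.bz hy)) h1.fl) (mem_sup_right hy))

/-- a test on computed classes -/
theorem sd {F : WC' → Bool} (hb : b ≤ a + 3) (h : ∀ x v, CV R θ D ix s x v → F v = true → Q x) :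
    Sd R θ ix T a b (fun m => F (WC'.nmv D s T a b m)) Q :=
  fun _ x hc hx => h x _ (H.nm' hx hb) hc

/-- an argument which only uses the level -/
theorem al {F : WC' → Bool} (h : ∀ x v, CV R θ D ix s x v → F v = true → Q x)
    (hc : F (WC'.nmv D s T k k []) = true) : Al R θ T k Q :=
  fun x hx => H.sd (Nat.le_add_right k 3) h [] x hc hx

theorem geM (hl : CL R θ D ix 𝒵 l) (hc : WC'.geM D s T a k n l ls = true) :
    s ≤ 59 ∧ (T : ℤ) ≤ 90 ∧ spn (ix s) ls ≤ PA 3 (R.deg (s + 1)) T (I ^ k) ∧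
      R.Cy s T k n ≤ (Sp R θ a (k + 1) T 𝒵 ⊔ spn (ix s) ls) ⊔ R.Bd s T a (k + 1) := by
  obtain ⟨h1, h2, h3, h4⟩ := H.bnd hc
  obtain ⟨h5, h6⟩ := grd_spec h4
  obtain ⟨h7, h8⟩ := grd_spec h6
  obtain ⟨h9, h10⟩ := grd_spec h8
  obtain ⟨h11, h12⟩ := grd_spec h10
  obtain ⟨l', φ, h13, h14, h15⟩ := H.runW hl h12
  have h16 := fun m hm => vr_vL (H.ok s) (List.all_eq_true.1 h11 m hm)
  have h17 : a ≤ k := Nat.le_of_ble_eq_true h5
  refine ⟨h1, h3, spn_le fun m hm => (H.cx.pa (add_zero _).symm).2 (h16 m hm).hz,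
    H.cx.gen (φ := φ ++ ls.map (vL (ix s))) (add_zero _).symm h2 h17 (Nat.le_of_ble_eq_true h7)
      (Nat.le_of_ble_eq_true h9) (List.rel_append h13 ?_) (fun u hu => ?_) h15⟩
  · rw [List.forall₂_map_left_iff, List.forall₂_map_right_iff, List.forall₂_same]
    exact fun m hm => (H.cx.re h2 le_rfl le_rfl (by omega) (h16 m hm)).low h17
  · rcases List.mem_append.1 hu with hu | hu
    · exact mem_sup_left (h14 u hu)
    · obtain ⟨m, hm, rfl⟩ := List.mem_map.1 hu
      exact mem_sup_right (mem_spn hm)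

/-- one more level, modulo known classes -/
theorem stepM (hl : CL R θ D ix 𝒵 l) (hQ : ∀ z ∈ 𝒵, ∀ x, Q (x - z) → Q x) (ls : List (List Tr))
    (h1 : WC'.k3M D s T k l ls = true) (hS : Sd R θ ix T k (k + 1) C Q) (hc : nzC ls C = true)
    (h : Al R θ T (k + 1) Q) : Al R θ T k Q := fun x hx => by
  rw [WC'.k3M, force_eq, force_eq] at h1
  obtain ⟨h2, h3, h4, h5⟩ := H.geM hl h1
  obtain ⟨_, h6, h7⟩ := H.wd.lead (by omega) h3 hx (Nat.sub_le k 2) le_rfl h5
  obtain ⟨_, ⟨z, hz, h8⟩, u, hu, rfl⟩ := mem_sup.1 h6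
  have h9 := h7.sub h8
  rw [add_sub_cancel_left] at h9
  refine hQ z hz x ?_
  rcases nzC_spec hc hu with rfl | ⟨m, h10, rfl⟩
  · exact h _ (H.wd.up (by omega) h3 h9 (by omega) (by omega) le_rfl (zero_mem _))
  · exact hS m _ h10 (H.wd.up (by omega) h3 h9 (by omega) (by omega) k.le_succ (h4 hu))

/-- one more level -/
theorem stepA (ls : List (List Tr)) (h1 : WC'.k3M D s T k [] ls = true)
    (hS : Sd R θ ix T k (k + 1) C Q) (hc : nzC ls C = true) (h : Al R θ T (k + 1) Q) :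
    Al R θ T k Q :=
  H.stepM (𝒵 := ⊥) .nil (fun z hz x h => by rwa [mem_bot.1 hz, sub_zero] at h) ls h1 hS hc h

/-- a range of levels without classes -/
theorem skipA (hc : WC'.vaC D s T a b = true) (h : Al R θ T b Q) : Al R θ T a Q := by
  obtain ⟨h1, -, h2, -⟩ := H.bnd hc
  have h3 : ∀ k, a ≤ k → k < b → R.K3s 3 s T k ⊥ := fun k h4 h5 => H.va hc h4 h5 _
  clear hc
  rcases le_total b a with h4 | h4
  · exact fun x hx => h x (hx.mono h4 h4)
  induction h4 using Nat.decreasingInduction with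
  | self => exact h
  | of_succ k hk ih =>
    intro x hx
    obtain ⟨_, rfl, h5⟩ := H.wd.lead (by omega) h2 hx (Nat.sub_le k 2) le_rfl (h3 k le_rfl hk)
    exact ih (fun j hj => h3 j (by omega)) x
      (H.wd.up (by omega) h2 h5 (by omega) (by omega) le_rfl (zero_mem _))

/-- all levels from `a` on -/
theorem topA (hc : WC'.vaC D s T a (T + 1) = true) (hQ : ∀ x ∈ BQ 3 θ (R.deg 0) T 3 s, Q x) :
    Al R θ T a Q := H.al_of (𝒵 := ⊥) (H.top hc) fun x hx => hQ x (by simpa using hx)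

/-- improving the precision with undetermined coefficients -/
theorem extM (hl : CL R θ D ix 𝒵 l) (hQ : ∀ z ∈ 𝒵, ∀ x, Q (x - z) → Q x) (ls : List (List Tr))
    (h1 : WC'.geM D s T a b (a + 3) l ls = true) (hS : Sd R θ ix T a (b + 1) C Q) :
    Sd R θ ix T a b (fun m => grd (WC'.cyC D s T a (a + 3) m)
      (allC ls fun m' => C (List.append m m'))) Q := fun m x hc hx => by
  obtain ⟨h2, h3, -, h5⟩ := H.geM hl h1
  obtain ⟨h6, h7⟩ := grd_spec hc
  obtain ⟨_, h8, h9⟩ := H.wd.ext (by omega) h3 hx le_rfl (H.cy le_rfl h6) h5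
  obtain ⟨_, ⟨z, hz, h10⟩, u, hu, rfl⟩ := mem_sup.1 h8
  obtain ⟨m', h11, rfl⟩ := allC_spec h7 hu
  refine hQ z hz x (hS _ _ h11 ?_)
  have h12 := h9.sub h10
  rwa [add_left_comm, add_sub_cancel_left, ← vL_append] at h12

theorem extA (ls : List (List Tr)) (h1 : WC'.geM D s T a b (a + 3) [] ls = true)
    (hS : Sd R θ ix T a (b + 1) C Q) : Sd R θ ix T a b (fun m => grd (WC'.cyC D s T a (a + 3) m)
      (allC ls fun m' => C (List.append m m'))) Q :=
  H.extM (𝒵 := ⊥) .nil (fun z hz x h => by rwa [mem_bot.1 hz, sub_zero] at h) ls h1 hS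

end Wx

end Vale.Agent.P236EL

end
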