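import Vale.Agent.P236EL.Ck

/-!
# P236EL / Cl : existence of classes from non-vanishing in the next degree
-/

noncomputable section

namespace Vale.Agent.P236EL

open Vale.Agent.P251.F Vale.Agent.P251.I Vale.Agent.P236SY Vale.Agent.P236R
open Vale.Agent.P236KE Vale.Agent.P236K3 Vale.Agent.P236F AddSubgroup

variable [hp : Fact (Nat.Prime 3)] {G : ℕ → Type} [∀ q, Fintype (G q)] {R : Rs 3 K G}
  {θ : G 0 → G 0 → Cob Laz 1} {D : KD} {ix : ∀ q, G (q + 1) → ℕ} {s T a b k : ℕ}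
  {ls : List (List Tr)} {C : List Tr → Bool}

variable (R θ s T a) in
/-- no differential of length at least three hits the levels from `a` on -/
def Nz : Prop := ∀ k, a ≤ k → ∀ x ∈ BQ 3 θ (R.deg 0) T 3 s, x ∈ Fl p3 _ s (II 3 K ^ k) →
  Ph p3 R s x ∈ R.Bd s T (k - 2) (k + 1)

theorem Nz.of_succ (h : Nz R θ s T (k + 1)) (h' : ∀ x ∈ BQ 3 θ (R.deg 0) T 3 s,
    x ∈ Fl p3 _ s (II 3 K ^ k) → Ph p3 R s x ∈ R.Bd s T (k - 2) (k + 1)) : Nz R θ s T k :=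
  fun j hj => hj.eq_or_lt.elim (· ▸ h') (h j)

variable [DecidableEq (G 0)] {Tm s3 s4 : ℕ}

namespace Wx

variable (H : Wx R θ D ix Tm s3 s4)

include H

theorem nz_k3 (hs : s ≤ 59) (hw : (T : ℤ) ≤ 90) {S : AddSubgroup (G (s + 1) → A)}
    (h : R.K3s 3 s T k S) {x : G 0 → Cob Laz s} (hx : x ∈ BQ 3 θ (R.deg 0) T 3 s)
    (hx' : x ∈ Fl p3 _ s (II 3 K ^ k)) : Ph p3 R s x ∈ S ⊔ R.Bd s T (k - 2) (k + 1) :=
  h (H.wd.ic.Ph_mem_Cy (H.wd.ok' (by omega)) hw le_rfl (H.wd.bz hx).1 hx' (ZC_DD_Fl (H.wd.bz hx) _))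

theorem nzTop (hc : WC'.vaC D s T a (T + 1) = true) : Nz R θ s T a := fun k hk x hx hx' => by
  simpa using H.nz_k3 (H.bnd hc).1 (H.bnd hc).2.2.1 (H.kv hc k hk List.not_mem_nil) hx hx'

theorem nzSkip (hc : WC'.vaC D s T a b = true) (h : Nz R θ s T b) : Nz R θ s T a :=
  fun k hk x hx hx' => (lt_or_ge k b).elim (fun h1 => by
    simpa using H.nz_k3 (H.bnd hc).1 (H.bnd hc).2.2.1 (H.va hc hk h1 ⊥) hx hx')
    fun h1 => h k h1 x hx hx'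

theorem geN {n : ℕ} (hc : WC'.geM D s T a k n [] ls = true) :
    R.Cy s T k n ≤ spn (ix s) ls ⊔ R.Bd s T a (k + 1) := by
  obtain ⟨-, h2, -, h4⟩ := H.bnd hc
  obtain ⟨h5, h6⟩ := grd_spec h4
  obtain ⟨h7, h8⟩ := grd_spec h6
  obtain ⟨h9, h10⟩ := grd_spec h8
  obtain ⟨h11, h12⟩ := grd_spec h10
  have h17 : a ≤ k := Nat.le_of_ble_eq_true h5
  refine H.cx.gen (φ := ls.map (vL (ix s))) (add_zero _).symm h2 h17 (Nat.le_of_ble_eq_true h7)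
    (Nat.le_of_ble_eq_true h9) ?_ (fun u hu => ?_) h12
  · change List.Forall₂ _ (ls.map _) _
    rw [List.forall₂_map_left_iff, List.forall₂_map_right_iff, List.forall₂_same]
    exact fun m hm => (H.cx.re h2 le_rfl le_rfl (by omega)
      (vr_vL (H.ok s) (List.all_eq_true.1 h11 m hm))).low h17
  · obtain ⟨m, hm, rfl⟩ := List.mem_map.1 hu
    exact mem_spn hm

/-- the classes of level `k` are detected by an operation -/
theorem nzStep (ls : List (List Tr)) (h1 : WC'.k3M D s T k [] ls = true)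
    (hS : Sd R θ ix T k (k + 1) C (· ∉ BQ 3 θ (R.deg 0) T 3 s)) (hc : nzC ls C = true)
    (h : Nz R θ s T (k + 1)) : Nz R θ s T k := h.of_succ fun x hx hx' => by
  rw [WC'.k3M, force_eq, force_eq] at h1
  obtain ⟨h2, h3, h4, -⟩ := H.geM (𝒵 := ⊥) .nil h1
  obtain ⟨u, hu, e, he, h7⟩ := mem_sup.1 (H.nz_k3 h2 h3 (H.geN h1) hx hx')
  rcases nzC_spec hc hu with rfl | ⟨m, h10, rfl⟩
  · rwa [← h7, zero_add]
  · exact (hS m x h10 (H.wd.up (by omega) h3 (.of (H.wd.bz hx) ((Rv.self (H.wd.bz hx).1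
      (Fl_mono p3 (Ideal.pow_le_pow_right (Nat.sub_le k 2)) hx')).congr (by
        rwa [← h7, add_sub_cancel_left]))) (by omega) (by omega) k.le_succ (h4 hu)) hx).elim

/-- the level `k` is not hit -/
theorem nzDs (hs : s ≤ 58) (hw : (T : ℤ) ≤ 90) (hd : Ds R θ s 0 (k - 2) k T)
    (h : Nz R θ (s + 1) T (k + 1)) : Nz R θ (s + 1) T k := h.of_succ fun x hx hx' =>
  H.wd.bd_of (by omega) hw (.of (H.wd.bz hx) (Rv.self (H.wd.bz hx).1
    (Fl_mono p3 (Ideal.pow_le_pow_right (Nat.sub_le k 2)) hx'))) (by omega) (by omega)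
    (Ph_mem_ZA (inv_II.pow k) hx') hd hx

/-- coboundaries of level `k + 2` are coboundaries of cochains of level `k` -/
theorem nz_ker (hs : s ≤ 59) (hw : (T : ℤ) ≤ 90) (h : Nz R θ (s + 1) T (k + 2))
    {x : G 0 → Cob Laz s} (hx : x ∈ CW 3 Laz (R.deg 0) T s)
    (h2 : DD θ s x ∈ Fl p3 _ (s + 1) (II 3 K ^ (k + 2))) : ∃ y ∈ CW 3 Laz (R.deg 0) T s,
      y ∈ Fl p3 _ s (II 3 K ^ k) ∧ x - y ∈ ZC 3 θ (R.deg 0) T 3 s := by
  obtain ⟨_, rfl, _, ⟨y, hy, rfl⟩, h5⟩ := H.wd.ic.ker (H.wd.ok' (n := s + 1) (by omega)) (by omega)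
    hw H.wd.bz le_sup_left bot_le (m := 1) rfl (H.wd.hj hw) (fun k' hk _ x hx hx' =>
      mem_RP.2 ⟨0, zero_mem _, zero_mem _, by rw [map_zero, sub_zero]; exact h k' hk x hx hx'⟩)
    (mem_sup_left ⟨x, hx, rfl⟩) h2
  have h6 : y ∈ CW 3 Laz (R.deg 0) T s := hy.1
  exact ⟨y, h6, hy.2, mem_ZC'.2 ⟨sub_mem hx h6, by rwa [map_sub, ← sub_zero (DD θ s x)]⟩⟩

/-- leading terms of coboundaries -/
theorem nz_ds (hs : s ≤ 59) (hw : (T : ℤ) ≤ 90) (h : Nz R θ (s + 1) T (k + 2)) {N : ℕ}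
    (hN : k + 2 ≤ N) : Ds R θ s a k N T := fun y h1 _ h3 => by
  obtain ⟨y', h4, h5, h6⟩ := H.nz_ker hs hw h h1 (Fl_mono p3 (Ideal.pow_le_pow_right hN) h3)
  exact ⟨y', h4, h5, map_sub (DD θ s) y y' ▸ ZC_DD_Fl h6 _⟩

/-- **existence of a class with given leading term** -/
theorem liftN {l : List Tr} (hc : WC'.cyC D s T k (k + 3) l = true)
    (h : Nz R θ (s + 1) T (k + 3)) : ∃ x, Rc R θ s T k (k + 1) x (vL (ix s) l) := by
  obtain ⟨hs, -, hw, -⟩ := H.bnd hc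
  have hu := H.cy le_rfl hc
  obtain ⟨x, hx, h1, h2, u', hu', h4⟩ := H.wd.ic.surj (H.wd.ok' (n := s + 1) (by omega)) hw
    (inv_II.pow k) (inv_II.pow (k + 3)) (by rw [pow_add]) hu.1 hu.2
  obtain ⟨y, -, h5, h6⟩ := H.nz_ker (k := k + 1) hs hw h hx h2
  refine ⟨x - y, .of h6 ⟨h6.1, sub_mem h1 (Fl_mono p3 (Ideal.pow_le_pow_right k.le_succ) h5),
    Rs.mem_Bd.2 ⟨u', hu', ?_⟩⟩⟩
  rw [map_sub, sub_right_comm _ (Ph p3 R s y), sub_right_comm _ (Ph p3 R s y)]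
  exact sub_mem (Rs.ZA_mono (Ideal.pow_le_pow_right (show k + 1 ≤ k + 3 by omega)) h4)
    (Ph_mem_ZA (inv_II.pow _) h5)

theorem namedN (T k : ℕ) (l : List Tr) (hc : WC'.cyC D s T k (k + 3) l = true)
    (h : Nz R θ (s + 1) T (k + 3)) :
    ∃ x, x ∈ ZC 3 θ (R.deg 0) T 3 s ∧ CV R θ D ix s x (WC'.nmv D s T k (k + 1) l) :=
  (H.liftN hc h).imp fun _ h => ⟨h.zc, H.nm' h (by omega)⟩

end Wx

end Vale.Agent.P236EL

end
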