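import Vale.Agent.P236EL.Grk

/-!
# P236EL / Cls : cohomology classes and their representatives in a window
-/

noncomputable section

namespace Vale.Agent.P236EL

open Vale.Agent.P251.F Vale.Agent.P251.F.F3 Vale.Agent.P257.H80 LawRing MvPolynomial Ch
open Vale.Agent.P251.I Vale.Agent.P236SY Vale.Agent.P236F Vale.Agent.P236R AddSubgroup

variable [hp : Fact (Nat.Prime 3)] {G : ℕ → Type} [∀ q, Fintype (G q)]
  (R : Rs 3 (ZMod 3) G) (θ : G 0 → G 0 → Cob Laz 1)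

/-- the class of the cocycle `x` has filtration `a` and is represented by `u` modulo
filtration `b` -/
structure Rc (s : ℕ) (w : ℤ) (a b : ℕ) (x : G 0 → Cob Laz s) (u : G (s + 1) → AA (ZMod 3)) :
    Prop where
  zc : x ∈ ZC 3 θ (R.deg 0) w 3 s
  ex : ∃ y ∈ BQ 3 θ (R.deg 0) w 3 s, Rv p3 R s w a b (x - y) u

variable {R θ} {s a b k n j M N a' b' : ℕ} {w w' : ℤ} {x x' : G 0 → Cob Laz s}
  {u u' : G (s + 1) → AA (ZMod 3)} {𝒵 𝒵' : AddSubgroup (G 0 → Cob Laz s)}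

namespace Rc

theorem of (hx : x ∈ ZC 3 θ (R.deg 0) w 3 s) (h : Rv p3 R s w a b x u) : Rc R θ s w a b x u :=
  ⟨hx, 0, zero_mem _, by rwa [sub_zero]⟩

theorem zero : Rc R θ s w a b 0 0 := of (zero_mem _) Rv.zero

theorem add (h : Rc R θ s w a b x u) (h' : Rc R θ s w a b x' u') :
    Rc R θ s w a b (x + x') (u + u') := by
  obtain ⟨y, hy, h1⟩ := h.ex
  obtain ⟨y', hy', h2⟩ := h'.ex
  exact ⟨add_mem h.zc h'.zc, _, add_mem hy hy', add_sub_add_comm x x' y y' ▸ h1.add h2⟩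

theorem zsmul (h : Rc R θ s w a b x u) (c : ℤ) : Rc R θ s w a b (c • x) (c • u) := by
  obtain ⟨y, hy, h1⟩ := h.ex
  exact ⟨zsmul_mem h.zc c, _, zsmul_mem hy c, smul_sub c x y ▸ h1.zsmul c⟩

theorem nsmul (h : Rc R θ s w a b x u) (c : ℕ) : Rc R θ s w a b (c • x) (c • u) := by
  simpa using h.zsmul c

theorem neg (h : Rc R θ s w a b x u) : Rc R θ s w a b (-x) (-u) := by simpa using h.zsmul (-1)

theorem sub (h : Rc R θ s w a b x u) (h' : Rc R θ s w a b x' u') :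
    Rc R θ s w a b (x - x') (u - u') := by simpa only [sub_eq_add_neg] using h.add h'.neg

theorem mono (h : Rc R θ s w a b x u) (ha : a' ≤ a) (hb : b' ≤ b) : Rc R θ s w a' b' x u :=
  ⟨h.zc, h.ex.imp fun _ h => ⟨h.1, h.2.mono ha hb⟩⟩

theorem congr (h : Rc R θ s w a b x u) (h' : u - u' ∈ R.Bd s w a b) : Rc R θ s w a b x u' :=
  ⟨h.zc, h.ex.imp fun _ h => ⟨h.1, h.2.congr h'⟩⟩

/-- maps which preserve cocycles and coboundaries -/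
theorem map {G' : ℕ → Type} [∀ q, Fintype (G' q)] {R' : Rs 3 (ZMod 3) G'}
    {θ' : G' 0 → G' 0 → Cob Laz 1} {s' : ℕ} (f : (G 0 → Cob Laz s) →+ (G' 0 → Cob Laz s'))
    {v : G' (s' + 1) → AA (ZMod 3)} (h : Rc R θ s w a b x u)
    (hz : f x ∈ ZC 3 θ' (R'.deg 0) w' 3 s')
    (hb : ∀ y ∈ BQ 3 θ (R.deg 0) w 3 s, f y ∈ BQ 3 θ' (R'.deg 0) w' 3 s')
    (hv : ∀ y ∈ BQ 3 θ (R.deg 0) w 3 s, Rv p3 R s w a b (x - y) u →
      Rv p3 R' s' w' a' b' (f (x - y)) v) : Rc R' θ' s' w' a' b' (f x) v := by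
  obtain ⟨y, hy, h1⟩ := h.ex
  exact ⟨hz, _, hb y hy, map_sub f x y ▸ hv y hy h1⟩

end Rc

variable (R θ 𝒵 w a b) in
/-- the vectors which represent elements of `𝒵` -/
def Sp : AddSubgroup (G (s + 1) → AA (ZMod 3)) where
  carrier := {u | ∃ z ∈ 𝒵, Rc R θ s w a b z u}
  zero_mem' := ⟨0, zero_mem _, Rc.zero⟩
  add_mem' := fun ⟨_, h1, h2⟩ ⟨_, h3, h4⟩ => ⟨_, add_mem h1 h3, h2.add h4⟩
  neg_mem' := fun ⟨_, h1, h2⟩ => ⟨_, neg_mem h1, h2.neg⟩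

variable (R θ 𝒵 w k) in
/-- the cocycles of filtration `k` are generated by `𝒵` -/
def Hg : Prop := ∀ x ∈ ZC 3 θ (R.deg 0) w 3 s, x ∈ Fl p3 _ s (II 3 (ZMod 3) ^ k) →
  x ∈ 𝒵 ⊔ BQ 3 θ (R.deg 0) w 3 s

theorem Hg.mono (h : Hg R θ k w 𝒵) (h1 : 𝒵 ≤ 𝒵' ⊔ BQ 3 θ (R.deg 0) w 3 s) (h2 : k ≤ n) :
    Hg R θ n w 𝒵' := fun x hx hx' =>
  sup_le h1 le_sup_right (h x hx (Fl_mono p3 (Ideal.pow_le_pow_right h2) hx'))

theorem mem_Fl_zero {ι : Type} (x : ι → Cob Laz s) : x ∈ Fl p3 ι s (II 3 (ZMod 3) ^ 0) := by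
  rw [pow_zero, Ideal.one_eq_top]
  exact mem_Fl_top p3 x

theorem Hg.le (h : Hg R θ 0 w 𝒵) : ZC 3 θ (R.deg 0) w 3 s ≤ 𝒵 ⊔ BQ 3 θ (R.deg 0) w 3 s :=
  fun x hx => h x hx (mem_Fl_zero x)

theorem Hg.van (h : Hg R θ 0 w (⊥ : AddSubgroup (G 0 → Cob Laz s))) :
    ZC 3 θ (R.deg 0) w 3 s ≤ BQ 3 θ (R.deg 0) w 3 s := by simpa using h.le

variable (R θ s w N a b) in
/-- the vectors which represent cochains whose differential has filtration `N` -/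
def Sl : AddSubgroup (G (s + 1) → AA (ZMod 3)) where
  carrier := {u | ∃ y, Rv p3 R s w a b y u ∧ DD θ s y ∈ Fl p3 _ (s + 1) (II 3 (ZMod 3) ^ N)}
  zero_mem' := ⟨0, Rv.zero, by rw [map_zero]; exact zero_mem _⟩
  add_mem' := fun ⟨_, h1, h2⟩ ⟨_, h3, h4⟩ => ⟨_, h1.add h3, by rw [map_add]; exact add_mem h2 h4⟩
  neg_mem' := fun ⟨_, h1, h2⟩ => ⟨_, h1.neg, by rw [map_neg]; exact neg_mem h2⟩

variable (R θ s w j M N) in
/-- the leading terms of coboundaries of filtration `N` from filtration `j` come from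
filtration `M` -/
def Ds : Prop := ∀ y ∈ CW 3 Laz (R.deg 0) w s, y ∈ Fl p3 _ s (II 3 (ZMod 3) ^ j) →
  DD θ s y ∈ Fl p3 _ (s + 1) (II 3 (ZMod 3) ^ N) → ∃ y' ∈ CW 3 Laz (R.deg 0) w s,
    y' ∈ Fl p3 _ s (II 3 (ZMod 3) ^ M) ∧
      DD θ s y - DD θ s y' ∈ Fl p3 _ (s + 1) (II 3 (ZMod 3) ^ (N + 1))

theorem Ds.refl (h : M ≤ j) : Ds R θ s j M N w := fun y h1 h2 _ =>
  ⟨y, h1, Fl_mono p3 (Ideal.pow_le_pow_right h) h2, by rw [sub_self]; exact zero_mem _⟩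

theorem Ds.trans (h : Ds R θ s j k N w) (h' : Ds R θ s k M N w) : Ds R θ s j M N w :=
    fun y h1 h2 h3 => by
  obtain ⟨y', h4, h5, h6⟩ := h y h1 h2 h3
  obtain ⟨y'', h7, h8, h9⟩ := h' y' h4 h5 (by
    simpa using sub_mem h3 (Fl_mono p3 (Ideal.pow_le_pow_right N.le_succ) h6))
  exact ⟨y'', h7, h8, by simpa using add_mem h6 h9⟩

variable [DecidableEq (G 0)]

namespace Wd

variable (H : Wd R θ)

include H

theorem bz : BQ 3 θ (R.deg 0) w 3 s ≤ ZC 3 θ (R.deg 0) w 3 s := H.ic.BQ_le_ZC dvd_rfl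

theorem cong (h : Rc R θ s w a b x u) (h' : x' - x ∈ BQ 3 θ (R.deg 0) w 3 s) :
    Rc R θ s w a b x' u := by
  obtain ⟨y, hy, h1⟩ := h.ex
  exact ⟨by simpa using add_mem (H.bz h') h.zc, _, add_mem h' hy, by
    rwa [← sub_sub, sub_sub_cancel]⟩

theorem sp_le : Sp R θ a b w 𝒵 ≤ Sl R θ s a b N w := by
  rintro u ⟨z, -, h1, y, hy, h2⟩
  exact ⟨_, h2, ZC_DD_Fl (sub_mem h1 (H.bz hy)) _⟩

variable (hs : s ≤ 60) (hw : w ≤ 90)

include hs hw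

theorem fl (h : Rc R θ s w a b x u) (hb : b ≤ a + 3) (hk : k ≤ b)
    (hu : u ∈ ZA _ (II 3 (ZMod 3) ^ k)) : ∃ y ∈ BQ 3 θ (R.deg 0) w 3 s,
      x - y ∈ Fl p3 _ s (II 3 (ZMod 3) ^ k) ∧ Rv p3 R s w a b (x - y) u := by
  obtain ⟨y, hy, h1⟩ := h.ex
  obtain ⟨e, he, h2, h3⟩ := h1.raise H.ic (H.ok' (by omega)) hw hb hk hu
    (ZC_DD_Fl (sub_mem h.zc (H.bz hy)) _)
  rw [sub_sub] at h2 h3
  exact ⟨_, add_mem hy (mem_sup_left (BF_le_BC p3 _ _ _ _ _ he)), h2, h3⟩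

/-- **membership** -/
theorem mem (h : Rc R θ s w a b x u) (hb : b ≤ a + 3) (hu : u ∈ Sp R θ a b w 𝒵 ⊔ R.Bd s w a b)
    (hi : Hg R θ b w 𝒵) : x ∈ 𝒵 ⊔ BQ 3 θ (R.deg 0) w 3 s := by
  obtain ⟨_, ⟨z, hz, h1⟩, e, he, rfl⟩ := mem_sup.1 hu
  have h2 := (h.sub h1).congr (u' := 0) (by simpa using he)
  obtain ⟨y, hy, h3, -⟩ := H.fl hs hw h2 hb le_rfl (zero_mem _)
  simpa using add_mem (add_mem (hi _ (sub_mem h2.zc (H.bz hy)) h3) (mem_sup_right hy))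
    (mem_sup_left hz)

theorem hi_step (hak : a ≤ k) (hk : k + 1 ≤ a + 3) (hn : n ≤ k + 3)
    (h : R.Cy s w k n ≤ Sp R θ a (k + 1) w 𝒵 ⊔ R.Bd s w a (k + 1)) (hi : Hg R θ (k + 1) w 𝒵) :
    Hg R θ k w 𝒵 := fun x hx hx' =>
  H.mem hs hw (.of hx (Rv.self hx.1 (Fl_mono p3 (Ideal.pow_le_pow_right hak) hx'))) hk
    (h (H.ic.Ph_mem_Cy (H.ok' (by omega)) hw hn hx.1 hx' (ZC_DD_Fl hx _))) hi

theorem hi_top (hk : 92 ≤ k) : Hg R θ k w 𝒵 := fun x hx hx' => by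
  obtain ⟨_, rfl, b, hb, h1⟩ := H.ic.ker (H.ok' (n := s) (by omega)) (by omega) hw le_rfl
    (le_sup_left.trans H.bz) bot_le (m := 1) rfl (H.hj hw) (k₀ := k)
    (fun k h1 h2 => by omega) hx hx'
  simpa [BQ] using mem_sup_right (S := 𝒵) (add_mem (mem_sup_right h1)
    (mem_sup_left (BF_le_BC p3 _ _ _ _ _ hb)))

theorem hi_from (hi : Hg R θ b w 𝒵)
    (h : ∀ k, a ≤ k → k < b → R.K3s 3 s w k (Sp R θ (k - 2) (k + 1) w 𝒵)) : Hg R θ a w 𝒵 := by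
  rcases le_total b a with h1 | h1
  · exact hi.mono le_sup_left h1
  induction h1 using Nat.decreasingInduction with
  | self => exact hi
  | of_succ k hk ih =>
    exact H.hi_step hs hw (Nat.sub_le k 2) (by omega) le_rfl (h k le_rfl hk)
      (ih fun k' h1 => h k' (by omega))

/-- **generators in high filtration** -/
theorem hi_kv {l : List ℕ} (h : R.KV s w a l)
    (h' : ∀ k ∈ l, R.K3s 3 s w k (Sp R θ (k - 2) (k + 1) w 𝒵)) : Hg R θ a w 𝒵 :=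
  H.hi_from hs hw (H.hi_top hs hw le_rfl) fun k hk _ => (em (k ∈ l)).elim (h' k) fun h1 =>
    (h k hk h1).trans (sup_le_sup_right bot_le _)

/-- raising the filtration -/
theorem up (h : Rc R θ s w a b x u) (hb : b ≤ a + 3) (hak : a ≤ k) (hk : k ≤ b)
    (hu : u ∈ PA 3 (R.deg (s + 1)) w (II 3 (ZMod 3) ^ k)) : Rc R θ s w k b x u := by
  obtain ⟨y, hy, h1⟩ := h.ex
  have h2 := sub_mem h.zc (H.bz hy)
  obtain ⟨z, hz, h3, h4, v, hv, h5⟩ := H.ic.surj (H.ok' (n := s + 1) (by omega)) hw (inv_II.pow k)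
    (inv_II.pow b) (by rw [← pow_add]; exact Ideal.pow_le_pow_right (by omega)) hu (by
      simpa using sub_mem (Ph_mem_ZA (hQ := p3) (R := R) (inv_II.pow b) (ZC_DD_Fl h2 _))
        (h1.DD H.ic (H.ok' (by omega)) hw hb))
  have h6 : Rv p3 R s w k b z u := ⟨hz, h3, Rs.mem_Bd.2 ⟨v, hv, h5⟩⟩
  obtain ⟨e, he, h7, h8⟩ := (h1.sub (h6.mono hak le_rfl)).raise H.ic (H.ok' (by omega)) hw hb le_rfl
    (by rw [sub_self]; exact zero_mem _) (by rw [map_sub]; exact sub_mem (ZC_DD_Fl h2 _) h4)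
  refine ⟨h.zc, _, add_mem hy (mem_sup_left (BF_le_BC p3 _ _ _ _ _ he)), h6.of_sub hk ?_ ?_⟩
  · rw [← sub_sub]
    simpa [sub_right_comm _ z] using add_mem h8.cw hz
  · rwa [← sub_sub, sub_right_comm]

/-- improving the precision -/
theorem ext (h : Rc R θ s w a b x u) (hn : n ≤ a + 3) (hu : u ∈ R.Cy s w a n)
    {S : AddSubgroup (G (s + 1) → AA (ZMod 3))} (h3 : R.Cy s w b n ≤ S ⊔ R.Bd s w a b') :
    ∃ v ∈ S, Rc R θ s w a b' x (u + v) := by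
  obtain ⟨y, hy, h1⟩ := h.ex
  obtain ⟨v, hv, h2⟩ := h1.refine H.ic (H.ok' (by omega)) hw hn hu
    (ZC_DD_Fl (sub_mem h.zc (H.bz hy)) _) h3
  exact ⟨v, hv, h.zc, y, hy, h2⟩

theorem ds_step (hak : a ≤ j) (hk : j + 1 ≤ a + 3) (hn : n ≤ j + 3) (hN : n ≤ N) (hj : j < N)
    (h : R.Cy s w j n ≤ Sl R θ s a (j + 1) (N + 1) w ⊔ R.Bd s w a (j + 1)) :
    Ds R θ s j (j + 1) N w := fun y h1 h2 h3 => by
  obtain ⟨_, ⟨z, h4, hz⟩, e, he, h5⟩ := mem_sup.1 (h (H.ic.Ph_mem_Cy (H.ok' (by omega)) hw hn h1 h2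
    (Fl_mono p3 (Ideal.pow_le_pow_right hN) h3)))
  obtain ⟨b, hb, h6, h7⟩ := (((Rv.self h1 (Fl_mono p3 (Ideal.pow_le_pow_right hak) h2)).sub
    h4).congr (u' := 0) (by rwa [← h5, add_sub_cancel_left, sub_zero])).raise H.ic
      (H.ok' (by omega)) hw hk le_rfl (zero_mem _) (by
        rw [map_sub]
        exact sub_mem (Fl_mono p3 (Ideal.pow_le_pow_right hj) h3)
          (Fl_mono p3 (Ideal.pow_le_pow_right (by omega)) hz))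
  refine ⟨_, h7.cw, h6, ?_⟩
  rw [map_sub, map_sub, sub_sub, sub_sub_cancel]
  exact add_mem hz (H.ic.DD_BC (BF_le_BC p3 _ _ _ _ _ hb))

theorem ds_from (hM : M + 2 ≤ N)
    (h : ∀ k, j ≤ k → k < M → R.K3s 3 s w k (Sl R θ s (k - 2) (k + 1) (N + 1) w)) :
    Ds R θ s j M N w := by
  induction M with
  | zero => exact .refl (Nat.zero_le j)
  | succ M ih =>
    rcases le_or_gt j M with h1 | h1
    · exact (ih (by omega) fun k h2 h3 => h k h2 (by omega)).trans (H.ds_step hs hw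
        (Nat.sub_le M 2) (by omega) le_rfl (by omega) (by omega) (h M h1 M.lt_succ_self))
    · exact .refl h1

/-- **detection of coboundaries** -/
theorem bd_of {x : G 0 → Cob Laz (s + 1)} {u : G (s + 2) → AA (ZMod 3)}
    (h : Rc R θ (s + 1) w a (k + 1) x u) (hs' : s < 60) (hk : k + 1 ≤ a + 3)
    (hu : u ∈ ZA _ (II 3 (ZMod 3) ^ k)) (hd : Ds R θ s 0 a k w)
    (hx : x ∈ BQ 3 θ (R.deg 0) w 3 (s + 1)) : u ∈ R.Bd (s + 1) w a (k + 1) := by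
  obtain ⟨e, he, h1, h2⟩ := H.fl hs' hw h hk k.le_succ hu
  obtain ⟨y, hy, v, hv, h3⟩ := mem_BQ_succ.1 (sub_mem hx he)
  have h4 : ∀ K, x - e - DD θ s y ∈ Fl p3 _ (s + 1) K := fun K =>
    QW_le_Fl K (mem_QW.2 ⟨v, hv, by rw [← h3, add_sub_cancel_left]⟩)
  obtain ⟨y', h5, h6, h7⟩ := hd y hy (mem_Fl_zero y) (by simpa using sub_mem h1 (h4 _))
  have h8 := add_mem (Rs.Bd_mono le_rfl hk (H.ic.Ph_DD_mem_Bd (H.ok' (by omega)) hw h5 h6))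
    (Rs.mem_Bd_of_ZA (Ph_mem_ZA (R := R) (inv_II.pow _) (add_mem (h4 _) h7)))
  rw [← map_add, sub_add_sub_cancel, add_sub_cancel] at h8
  simpa using sub_mem h8 h2.bd

end Wd

end Vale.Agent.P236EL

end
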