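import Vale.Agent.P236EL.Cb

/-!
# P236EL / Cm : the maps of cohomology groups and their computation
-/

noncomputable section

namespace Vale.Agent.P236EL

open Vale.Agent.P251.F Vale.Agent.P251.I Vale.Agent.P236SY Vale.Agent.P236R
open Vale.Agent.P236KE Vale.Agent.P236K3 Vale.Agent.P236F AddSubgroup Vale.Agent.P236KE.S90

variable [hp : Fact (Nat.Prime 3)]

section conn

variable {ι κ μ : Type} [Fintype ι] [Fintype κ] [Fintype μ] {θ : κ → κ → Cob Laz 1}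
  {ρ : κ → ι → ℤ} {σ : μ → κ → ℤ} {θ₁ : ι → ι → Cob Laz 1} {θ₂ : μ → μ → Cob Laz 1}
  {i : ι → κ → ℤ} {f : κ → μ → ℤ} (H : S0 θ ρ σ θ₁ θ₂ i f) {d : κ → ℤ} {d₁ : ι → ℤ} {d₂ : μ → ℤ}
  {ω ω' w w' : ℤ} (hw : ∀ c c', Cob.IsWt ((((3 : ℕ) : ℤ) - 1) * (d c - d c')) (θ c c'))
  (hρ : Dg ρ d d₁ ω) (hσ : Dg σ d₂ d ω') (e : w + ω' + ω = w') {s : ℕ} {x : μ → Cob Laz s}

include hw hρ hσ e

omit hp

omit [Fintype ι] in
theorem cn_cw (h : x ∈ CW 3 Laz d₂ w s) : cn θ ρ σ s x ∈ CW 3 Laz d₁ w' (s + 1) :=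
  e ▸ zm_mem_CW hρ (DD_mem_CW hw (zm_mem_CW hσ h))

omit [Fintype ι] in
theorem cn_qw (h : x ∈ QW 3 Laz d₂ w 3 s) : cn θ ρ σ s x ∈ QW 3 Laz d₁ w' 3 (s + 1) := by
  obtain ⟨y, hy, rfl⟩ := h
  exact ⟨_, cn_cw hw hρ hσ e hy, (map_nsmul _ _ _).symm⟩

include H

theorem cn_zc (h : x ∈ ZC 3 θ₂ d₂ w 3 s) : cn θ ρ σ s x ∈ ZC 3 θ₁ d₁ w' 3 (s + 1) := by
  refine ⟨cn_cw hw hρ hσ e h.1, ?_⟩
  have h4 := neg_mem (cn_qw hw hρ hσ e h.2)
  rwa [H.anti, map_neg, neg_neg] at h4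

theorem cn_bq (h : x ∈ BQ 3 θ₂ d₂ w 3 s) : cn θ ρ σ s x ∈ BQ 3 θ₁ d₁ w' 3 (s + 1) := by
  obtain ⟨e', he, z, hz, rfl⟩ := mem_BQ.1 h
  rw [map_add]
  refine add_mem (mem_sup_left ?_) (mem_sup_right (cn_qw hw hρ hσ e ⟨z, hz, rfl⟩))
  rcases s with _ | s
  · rw [mem_bot.1 he, map_zero]
    exact zero_mem _
  · obtain ⟨y, hy', rfl⟩ := he
    exact ⟨_, neg_mem (cn_cw hw hρ hσ e hy'), (H.anti y).symm⟩

end conn

variable {G G' G'' : ℕ → Type} [∀ q, Fintype (G q)] [∀ q, Fintype (G' q)] [∀ q, Fintype (G'' q)]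
  {R : Rs 3 K G} {θ : G 0 → G 0 → Cob Laz 1} {R' : Rs 3 K G'} {θ' : G' 0 → G' 0 → Cob Laz 1}
  {R'' : Rs 3 K G''} {θ'' : G'' 0 → G'' 0 → Cob Laz 1} {s T s' T' s'' T'' : ℕ} {t : Cob Laz 1}

theorem bk_ex (hθ : MC θ) (z : Zk R θ s T) : ∃ c : Zk R θ (s + 1) T, DD θ s z.1 = 3 • c.1 := by
  obtain ⟨c, hc, e⟩ := mem_QW.1 z.2.2
  have h1 : DD θ (s + 1) c = 0 := funext fun i => by
    have h2 := congrFun (DD_DD hθ z.1) i
    rw [← e, map_nsmul, Pi.smul_apply, nsmul_eq_mul] at h2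
    exact (mul_eq_zero.1 h2).resolve_left (by norm_num)
  exact ⟨⟨c, mem_ZC'.2 ⟨hc, h1 ▸ zero_mem _⟩⟩, e.symm⟩

omit hp in
theorem three_inj {ι : Type} {x y : ι → Cob Laz s} (h : 3 • x = 3 • y) : x = y := funext fun i => by
  have h1 := congrFun h i
  rw [Pi.smul_apply, Pi.smul_apply, nsmul_eq_mul, nsmul_eq_mul] at h1
  exact mul_left_cancel₀ (by norm_num) h1

namespace Mp

/-- a map given on cochains -/
def of (f : (G 0 → Cob Laz s) → G' 0 → Cob Laz s') (g : (G 0 → Cob Laz s) →+ G' 0 → Cob Laz s')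
    (e : ∀ x, g x = f x) (hz : ∀ x ∈ Zk R θ s T, g x ∈ Zk R' θ' s' T')
    (hb : ∀ x ∈ Bk R θ s T, g x ∈ Bk R' θ' s' T') : Mp R θ R' θ' s T s' T' where
  f := AddMonoidHom.mk' (fun z => ⟨f z.1, e _ ▸ hz _ z.2⟩) fun z z' =>
    Subtype.ext (by simp only [← e, AddSubgroup.coe_add, map_add])
  hb z h := by
    change f z.1 ∈ _
    exact e _ ▸ hb _ h

/-- the composite -/
def comp (E : Mp R' θ' R'' θ'' s' T' s'' T'') (F : Mp R θ R' θ' s T s' T') :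
    Mp R θ R'' θ'' s T s'' T'' := ⟨E.f.comp F.f, fun z h => E.hb _ (F.hb z h)⟩

/-- the identity -/
def one : Mp R θ R θ s T s T := ⟨AddMonoidHom.id _, fun _ h => h⟩

/-- the sum -/
def add (E F : Mp R θ R' θ' s T s' T') : Mp R θ R' θ' s T s' T' :=
  ⟨E.f + F.f, fun z h => add_mem (E.hb z h) (F.hb z h)⟩

/-- the multiplication by a cocycle -/
def lc (hθ : MC θ) {m ω : ℕ} {z : Cob Laz m} (hz : (fun _ => z) ∈ ZS ω m) (e : m + s = s')
    (e' : ω + T = T') : Mp R θ R θ s T s' T' :=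
  of (P236EL.lc _ e z) _ (fun _ => rfl) (fun _ => lcZ hθ e hz (by omega))
    fun _ => lcB hθ e hz (by omega)

/-- a cellular map -/
def zm {f : ∀ q, G q → G' q → ℤ} {ω : ℤ} (hf : Hm R R' f ω)
    (hθ : ∀ c k', ∑ k, f 0 c k • θ' k k' = ∑ c', f 0 c' k' • θ c c') (e : T + ω = T')
    (φ : (G 0 → Cob Laz s) → G' 0 → Cob Laz s) (e' : ∀ x, P236EL.zm _ (f 0) x = φ x) :
    Mp R θ R' θ' s T s T' :=
  of φ _ e' (fun _ h => by simpa only [e] using zm_mem_ZC hθ (hf.dg 0) h)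
    fun _ h => by simpa only [e] using zm_mem_BQ hθ (hf.dg 0) h

/-- the Bockstein map -/
def bk (hθ : MC θ) : Mp R θ R θ s T (s + 1) T where
  f := AddMonoidHom.mk' (fun z => (bk_ex hθ z).choose) fun z z' => Subtype.ext (three_inj (by
    rw [← (bk_ex hθ _).choose_spec, AddSubgroup.coe_add, AddSubgroup.coe_add, smul_add,
      ← (bk_ex hθ _).choose_spec, ← (bk_ex hθ _).choose_spec, map_add]))
  hb z h := by
    obtain ⟨b, hb, u, hu, e⟩ := mem_BQ.1 h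
    have h1 : DD θ s b = 0 := by
      rcases s with _ | s
      · rw [mem_bot.1 hb, map_zero]
      · obtain ⟨y, -, rfl⟩ := hb
        exact DD_DD hθ y
    refine mem_sup_left ⟨u, hu, three_inj ?_⟩
    change _ = 3 • (bk_ex hθ z).choose.1
    rw [← (bk_ex hθ z).choose_spec, ← e, map_add, h1, zero_add, map_nsmul]

theorem bk_dd (hθ : MC θ) (z : Zk R θ s T) : DD θ s z.1 = 3 • ((bk hθ).f z).1 :=
  (bk_ex hθ z).choose_spec

theorem bk_eq (hθ : MC θ) (z : Zk R θ s T) {c} (h : DD θ s z.1 = 3 • c) : ((bk hθ).f z).1 = c :=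
  three_inj ((bk_dd hθ z).symm.trans h)

def iA : Mp rS 0 rA (θA t) s T s T := zm hm_iA nat_iA (add_zero _)
  (fun x : Fin 1 → _ => ![x 0, 0]) fun x : Fin 1 → _ => funext fun c : Fin 2 => by
    change ∑ a : Fin 1, (if c = 0 then 1 else 0 : ℤ) • x a = _
    fin_cases c <;> simp

def e0 : Mp rS 0 rY (θY t) s T s T := zm hm_e0 nat_e0 (add_zero _)
  (fun x : Fin 1 → _ => ![x 0, 0, 0]) fun x : Fin 1 → _ => funext fun c : Fin 3 => by
    change ∑ a : Fin 1, (if c = 0 then 1 else 0 : ℤ) • x a = _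
    fin_cases c <;> simp

def ee : Mp rA (θA t) rY (θY t) s T s T := zm hm_ee nat_ee (add_zero _)
  (fun x : Fin 2 → _ => ![x 0, x 1, 0]) fun x : Fin 2 → _ => funext fun c : Fin 3 => by
    change ∑ i, sf 2 3 0 0 i c • x i = _
    fin_cases c <;> simp [sf]

def jA (e : T' + 1 = T) : Mp rA (θA t) rS 0 s T s T' :=
  zm hm_jA nat_jA (by omega) (fun (x : Fin 2 → _) _ => x 1) fun x => funext (zm_pf_zero _ x)

def jy (e : T' + 2 = T) : Mp rY (θY t) rS 0 s T s T' :=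
  zm hm_top nat_jy (by omega) (fun (x : Fin 3 → _) _ => x 2) fun x => funext (zm_pf_zero _ x)

def qq (e : T' + 1 = T) : Mp rY (θY t) rA (θA t) s T s T' :=
  zm hm_qq nat_qq (by omega) (fun x : Fin 3 → _ => ![x 1, x 2])
    fun x : Fin 3 → _ => funext fun c : Fin 2 => by
    change ∑ i, sf 3 2 1 0 i c • x i = _
    fin_cases c <;> simp [sf, Fin.sum_univ_succ]

/-- the operation `P` -/
def pp (e : T' + 1 = T) : Mp rY (θY t) rY (θY t) s T s T' := ee.comp (qq e)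

variable (ht : IsT1 3 t)

def at' (e : T + 2 = T') : Mp rS 0 rA (θA t) s T (s + 1) T' :=
  of (fun (x : Fin 1 → _) (j : Fin 2) => Cob.cup (x 0) (![2 * t ^ 2, 2 * t] j))
    (((-1 : ℤ) ^ (s + 1)) • cn _ _ _ s) cn_A
    (fun _ h => zsmul_mem (cn_zc (s0_A ht) (wY ht 0 (by decide)).wd.ic.wt (ses_A.hρ 0)
      (ses_A.hσ 0) (by omega) h) _) fun _ h => zsmul_mem (cn_bq (s0_A ht)
      (wY ht 0 (by decide)).wd.ic.wt (ses_A.hρ 0) (ses_A.hσ 0) (by omega) h) _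

def ab (e : T + 1 = T') : Mp rA (θA t) rS 0 s T (s + 1) T' :=
  of (fun (x : Fin 2 → _) _ => Cob.cup (x 0) (2 * t) + Cob.cup (x 1) (2 * t ^ 2))
    (((-1 : ℤ) ^ (s + 1)) • cn _ _ _ s) cn_S
    (fun _ h => zsmul_mem (cn_zc (s0_S ht) (wY ht 0 (by decide)).wd.ic.wt (ses_S.hρ 0)
      (ses_S.hσ 0) (by omega) h) _) fun _ h => zsmul_mem (cn_bq (s0_S ht)
      (wY ht 0 (by decide)).wd.ic.wt (ses_S.hρ 0) (ses_S.hσ 0) (by omega) h) _

/-- the right multiplication by `α` -/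
def al (e : T + 1 = T') : Mp rS 0 rS 0 s T (s + 1) T' :=
  (jA rfl).comp (at' (T' := T' + 1) ht (by omega))

variable (F : Mp R θ R' θ' s T s' T') (D : KD) (ix : ∀ q, G (q + 1) → ℕ) (D' : KD)
  (jx : ∀ q, G' (q + 1) → ℕ)

/-- the program computes the map -/
def Cv (o : WC' → WC') : Prop :=
  ∀ z v, CV R θ D ix s z.1 v → CV R' θ' D' jx s' (F.f z).1 (o v)

variable {F D ix D' jx} {o o' : WC' → WC'}

theorem Cv.comp {E : Mp R' θ' R'' θ'' s' T' s'' T''} {D'' : KD} {kx : ∀ q, G'' (q + 1) → ℕ}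
    (h' : E.Cv D' jx D'' kx o') (h : F.Cv D ix D' jx o) :
    (E.comp F).Cv D ix D'' kx fun v => o' (o v) := fun z v hv => h' _ _ (h z v hv)

theorem cv_lc {hθ : MC θ} {m ω : ℕ} {z : Cob Laz m} {hz : (fun _ => z) ∈ ZS ω m} {e : m + s = s'}
    {e' : ω + T = T'} (h : ∀ x v, CV R θ D ix s x v → CV R θ D ix s' (P236EL.lc _ e z x) (o v)) :
    (lc hθ hz e e' : Mp R θ R θ s T s' T').Cv D ix D ix o := fun _ _ hv => h _ _ hv

theorem cv_one : (one : Mp R θ R θ s T s T).Cv D ix D ix id := fun _ _ h => h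

variable {Tm : ℕ} (hT : Tm ≤ 90)

include hT

theorem cv_jA {e} : (jA (t := t) (s := s) (T := T) (T' := T') e).Cv
    (dA Tm) (iT Tm 2) (dS Tm) iS (WC'.cjA Tm s) :=
  fun _ _ h => CA.jA hT h
theorem cv_jy {e} : (jy (t := t) (s := s) (T := T) (T' := T') e).Cv
    (dY Tm) (iT Tm 3) (dS Tm) iS (WC'.cjy Tm s) :=
  fun _ _ h => CY.jy hT h

include ht

theorem cv_iA : (iA (t := t) (s := s) (T := T)).Cv (dS Tm) iS (dA Tm) (iT Tm 2) (WC'.ciA Tm s) :=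
  fun _ _ h => CS.iA ht hT h
theorem cv_e0 : (e0 (t := t) (s := s) (T := T)).Cv (dS Tm) iS (dY Tm) (iT Tm 3) (WC'.ce0 Tm s) :=
  fun _ _ h => CS.e0 ht hT h
theorem cv_ee : (ee (t := t) (s := s) (T := T)).Cv
    (dA Tm) (iT Tm 2) (dY Tm) (iT Tm 3) (WC'.cee Tm s) :=
  fun _ _ h => CA.ee ht hT h
theorem cv_qq {e} : (qq (t := t) (s := s) (T := T) (T' := T') e).Cv
    (dY Tm) (iT Tm 3) (dA Tm) (iT Tm 2) (WC'.cqq Tm s) :=
  fun _ _ h => CY.qq ht hT h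
theorem cv_pp {e} : (pp (t := t) (s := s) (T := T) (T' := T') e).Cv
    (dY Tm) (iT Tm 3) (dY Tm) (iT Tm 3)
    fun v => (v.cqq Tm s).cee Tm s := fun _ _ h => CY.pp ht hT h
theorem cv_at {e} : (at' (s := s) (T := T) (T' := T') ht e).Cv
    (dS Tm) iS (dA Tm) (iT Tm 2) (WC'.cat Tm s) :=
  fun _ _ h => CS.at ht hT h
theorem cv_ab {e} : (ab (s := s) (T := T) (T' := T') ht e).Cv
    (dA Tm) (iT Tm 2) (dS Tm) iS (WC'.cab Tm s) :=
  fun _ _ h => CA.ab ht hT h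
theorem cv_al {e} : (al (s := s) (T := T) (T' := T') ht e).Cv (dS Tm) iS (dS Tm) iS
    fun v => (v.cat Tm s).cjA Tm (s + 1) := fun _ _ h => CS.al ht hT h

end Mp

variable [DecidableEq (G 0)] [DecidableEq (G' 0)] {D D' : KD} {ix ix₀ : ∀ q, G (q + 1) → ℕ}
  {jx jx₀ : ∀ q, G' (q + 1) → ℕ} {Tm s3 s4 n n' k : ℕ} {bl bl' : List Be}

theorem Wb.cv {R9 : Rs 3 K9 G} {E : KB} (H : Wb R R9 θ D E ix Tm s3 s4) {hθ : MC θ} :
    (Mp.bk hθ : Mp R θ R θ s T _ _).Cv D ix D ix (WC'.cbk D E s T) :=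
  fun z _ h => H.bock h T ((Mp.bk hθ).f z).2 (Mp.bk_dd hθ z)

/-- the lists of level `k` -/
def lvK (k : Nat) (bl : List Be) : List (List Tr) := (bl.filter fun e => Nat.beq e.k k).map Be.l

/-- the listed terms generate in every level -/
def WC'.gnC (D : KD) (s T : Nat) (bl : List Be) : Bool :=
  WC'.bnd D s T ((List.range (Nat.succ T)).all fun k => WC'.k3M D s T k [] (lvK k bl))

omit [DecidableEq (G' 0)] in
/-- **generators** -/
theorem Wx.gn (H : Wx R θ D ix Tm s3 s4) (e : ix = ix₀) (hc : WC'.gnC D s T bl = true) :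
    Gn R θ ix₀ s T bl := fun 𝒵 h => by
  subst e
  obtain ⟨h1, h2, h3, h4⟩ := H.bnd hc
  refine H.wd.hi_from (by omega) h3 (H.wd.hi_top (by omega) h3 le_rfl) fun k _ _ => ?_
  rcases lt_or_ge T k with h5 | h5
  · exact H.cx.k3s_top (add_zero _).symm h2 h5 3
  have h6 := List.all_eq_true.1 h4 k (List.mem_range.2 (Nat.lt_succ_of_le h5))
  rw [WC'.k3M, force_eq, force_eq] at h6
  refine (H.geN h6).trans (sup_le_sup_right (spn_le fun l hl => ?_) _)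
  obtain ⟨a, ha, rfl⟩ := List.mem_map.1 hl
  obtain ⟨h7, h8⟩ := List.mem_filter.1 ha
  exact Nat.eq_of_beq_eq_true h8 ▸ h a h7

/-- **a row of the matrix** -/
theorem Bs.rw (H : Wx R θ D ix Tm s3 s4) (H' : Wx R' θ' D' jx Tm s3 s4) (e : ix = ix₀)
    (e' : jx = jx₀) (B : Bs R θ ix₀ s T n bl) (B' : Bs R' θ' jx₀ s' T' n' bl')
    {F : Mp R θ R' θ' s T s' T'} {o : WC' → WC'} (h : F.Cv D ix D' jx o) {i : ℕ} (b : ℕ)
    {zs : List Be} (hz : ∀ e ∈ zs, Rb R' θ' jx₀ s' T' 0 e) {r : List ℕ}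
    (hc : WC'.rowC D' s' T' b bl' zs r (o (WC'.nmB D s T (gB bl i))) = true) : B.Rw B' F i r :=
  fun hi => H'.row e' B' (h _ _ (H.nmB (e ▸ B.rc ⟨i, hi⟩))) b hz hc

/-- the check of all rows -/
def WC'.rwsC (D D' : KD) (s T s' T' : Nat) (o : WC' → WC') (bl' zs bl : List Be) :
    List (Nat × List Nat) → Bool :=
  List.rec (motive := fun _ => List (Nat × List Nat) → Bool) (fun _ => true)
    (fun e _ ih M => List.rec (motive := fun _ => Bool) true (fun r M _ => grd (ih M)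
      (Bool.rec (motive := fun _ => Bool) (WC'.rowC D' s' T' r.1 bl' zs r.2 (o (WC'.nmB D s T e)))
        true (r.2.all (Nat.ble 3)))) M) bl

/-- **the matrix** -/
theorem Bs.pac (H : Wx R θ D ix Tm s3 s4) (H' : Wx R' θ' D' jx Tm s3 s4) (e : ix = ix₀)
    (e' : jx = jx₀) (B : Bs R θ ix₀ s T n bl) (B' : Bs R' θ' jx₀ s' T' n' bl')
    {F : Mp R θ R' θ' s T s' T'} {o : WC' → WC'} (h : F.Cv D ix D' jx o) {zs : List Be}
    (hz : ∀ e ∈ zs, Rb R' θ' jx₀ s' T' 0 e) (M : List (ℕ × List ℕ)) (hn : M.length = n)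
    (hc : WC'.rwsC D D' s T s' T' o bl' zs bl M = true) : Pa (B.mx B' F) (M.map Prod.snd) := by
  have h1 : ∀ (bl : List Be) (M : List (ℕ × List ℕ)) (i : ℕ), i < bl.length →
      WC'.rwsC D D' s T s' T' o bl' zs bl M = true → ∀ y : Zk R θ s T,
      Rb R θ ix₀ s T y (gB bl i) → Ag ((M.map Prod.snd).getD i []) (B'.co (F.f y)) := fun bl => by
    induction bl with
    | nil => exact fun _ _ h => absurd h (Nat.not_lt_zero _)
    | cons a bl ih =>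
      rintro (_ | ⟨r, M⟩) i hi hc y hy
      · exact fun j hj => absurd hj (by simp [en])
      obtain ⟨h2, h3⟩ := grd_spec hc
      rcases i with _ | i
      · cases h4 : r.2.all (Nat.ble 3)
        · rw [h4] at h3
          exact H'.row e' B' (h _ _ (H.nmB (e ▸ hy))) r.1 hz h3
        · intro j hj
          change en r.2 j < 3 at hj
          rcases lt_or_ge j.1 r.2.length with h5 | h5
          · rw [en, List.getD_eq_getElem _ _ h5] at hj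
            exact absurd (Nat.le_of_ble_eq_true (List.all_eq_true.1 h4 _ (List.getElem_mem _)))
              hj.not_ge
          · rw [en, List.getD_eq_default _ _ h5] at hj
            exact absurd hj (lt_irrefl _)
      · exact ih M i (Nat.lt_of_succ_lt_succ hi) h2 y hy
  exact pa_of (by simpa using hn) fun i =>
    B.mx_single B' F i ▸ h1 bl M i (B.len ▸ i.2) hc _ (B.rc i)

end Vale.Agent.P236EL

end
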