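import Vale.Agent.P236EL.Res

/-!
# P236EL / Cmp : the rows of the double complex are exact
-/

noncomputable section

namespace Vale.Agent.P236EL

open MvPolynomial Ch

variable {p : ℕ} [hp : Fact p.Prime] {L : Type} [CommRing L] {B : Type*} [CommRing B]

variable (p) in
/-- the operator of a matrix of functionals at the point `x` -/
def dx {ι κ : Type} [Fintype ι] (x : AA L →+* B) (y : ι → κ → (ℕ →₀ ℕ) → AA L) :
    (ι → MvPolynomial ℕ B) →ₗ[B] (κ → MvPolynomial ℕ B) where
  toFun a k := ∑ i, Dop p x (y i k) (a i)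
  map_add' a b := by funext k; simp [Finset.sum_add_distrib]
  map_smul' c a := by funext k; simp [Finset.smul_sum]

theorem dx_apply {ι κ : Type} [Fintype ι] (x : AA L →+* B) (y : ι → κ → (ℕ →₀ ℕ) → AA L)
    (a : ι → MvPolynomial ℕ B) (k : κ) : dx p x y a k = ∑ i, Dop p x (y i k) (a i) := rfl

variable (p) in
/-- the matrix of `dx` -/
def My {ι κ : Type} (y : ι → κ → (ℕ →₀ ℕ) → AA L) : Mx ι κ (AA L) :=
  fun i E k => Dop p (RingHom.id _) (y i k) (monomial E 1)

theorem op_My {ι κ : Type} [Fintype ι] (x : AA L →+* B) (y : ι → κ → (ℕ →₀ ℕ) → AA L)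
    (a : ι → MvPolynomial ℕ B) : op x (My p y) a = dx p x y a := by
  classical
  refine lin_congr fun i E _ => ?_
  funext k
  rw [op_bs, dx_apply, Finset.sum_eq_single i]
  · simp only [My]
    rw [map_Dop, RingHom.comp_id, map_monomial, map_one, bs, Pi.single_eq_same]
  · intro j _ hj
    rw [bs, Pi.single_eq_of_ne hj, map_zero]
  · simp

omit hp in
theorem monomial_one_mem (E : ℕ →₀ ℕ) :
    (monomial E 1 : GG L) ∈ ext p (WA p L) (Finsupp.weight (wz p) E) :=
  monomial_mem_ext (by rw [sub_self]; exact SetLike.one_mem_graded _)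

theorem homM_My {ι κ : Type} {d : ι → ℤ} {d' : κ → ℤ} {y : ι → κ → (ℕ →₀ ℕ) → AA L}
    (hy : ∀ i k, HomR p (d i - d' k) (y i k)) : HomM p d d' (My p y) := fun i E k => by
  have h := grPt_id.Dop (hy i k) (monomial_one_mem E)
  rwa [← add_sub_assoc] at h

open Classical in
/-- the matrix of the augmentation -/
def Me {ι κ : Type} (e : ι → κ → GG L) : Mx ι κ (AA L) :=
  fun i E k => if E = 0 then e i k else 0

omit hp in
theorem op_Me {ι κ : Type} [Fintype ι] (x : AA L →+* B) (e : ι → κ → GG L)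
    (a : ι → MvPolynomial ℕ B) (k : κ) :
    op x (Me e) a k = ∑ i, C (coeff 0 (a i)) * map x (e i k) := by
  rw [op_apply]
  refine Finset.sum_congr rfl fun i _ => ?_
  rw [Finset.sum_eq_single 0, Me, if_pos rfl]
  · intro E _ hE
    rw [Me, if_neg hE, map_zero, mul_zero]
  · intro h
    rw [notMem_support_iff.1 h, map_zero, zero_mul]

omit hp in
theorem homM_Me {ι κ : Type} {d : ι → ℤ} {d' : κ → ℤ} {e : ι → κ → GG L}
    (he : ∀ i k, e i k ∈ ext p (WA p L) (d i - d' k)) : HomM p d d' (Me e) := fun i E k => by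
  rw [Me]
  split_ifs with h
  · rw [h, map_zero, zero_add]
    exact he i k
  · exact zero_mem _

open Classical in
variable (L) in
/-- the projection onto polynomials without constant term -/
def M0 (ι : Type) : Mx ι ι (AA L) := fun i E k => if E = 0 then 0 else bs (AA L) i E k

omit hp in
theorem op_M0 {ι : Type} [Fintype ι] (x : AA L →+* B) (a : ι → MvPolynomial ℕ B) (k : ι) :
    op x (M0 L ι) a k = a k - C (coeff 0 (a k)) := by
  classical
  have h : op x (M0 L ι) a = (LinearMap.id - LinearMap.pi fun k =>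
      (monomial 0).comp ((lcoeff B 0).comp (LinearMap.proj k)) : _ →ₗ[B] _) a := by
    refine lin_congr fun i E _ => ?_
    funext k
    simp only [op_bs, M0]
    by_cases hk : k = i
    · subst hk
      split_ifs with h
      · simp [h, bs]
      · simp [h, bs, coeff_monomial]
    · split_ifs with h <;> simp [bs, hk]
  rw [h]
  simp

omit hp in
theorem homM_M0 {ι : Type} (d : ι → ℤ) : HomM p d d (M0 L ι) := fun i E k => by
  classical
  rw [M0]
  split_ifs with h
  · exact zero_mem _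
  · by_cases hk : k = i
    · subst hk
      rw [bs, Pi.single_eq_same, add_sub_cancel_right]
      exact monomial_one_mem E
    · rw [bs, Pi.single_eq_of_ne hk]
      exact zero_mem _

theorem gen_mem_Pc {ι : Type} (n : ℕ) {d : ι → ℤ} {w : ℤ} {K : Ideal (AA L)} {m : ℕ}
    {F : ι → CC L} (hF : F ∈ PW p d w K m) : (fun i => ((univ L).gen n).ev (F i)) ∈
      Pc p (WC p L) (pb p L fun k => min k n) (Fil p K) d w := fun i =>
  ⟨gen_mem_ext n (hF i).2.1, MvPolynomial.ext _ _ fun E => by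
    rw [coeff_map]
    exact coeff_gen_mem_Loc n (F i) E, coeff_gen_mem_Fil n (hF i).2.2⟩

theorem coeff_mem_Loc_of_Pc {ι : Type} {n : ℕ} {d : ι → ℤ} {w : ℤ} {J : Ideal (CC L)}
    {a : ι → MvPolynomial ℕ (CC L)} (ha : a ∈ Pc p (WC p L) (pb p L fun k => min k n) J d w)
    (i : ι) (E : ℕ →₀ ℕ) : coeff E (a i) ∈ Loc p L n := by
  rw [mem_Loc, ← coeff_map, (ha i).2.1]

theorem back_mem_PW {ι : Type} {n : ℕ} {d : ι → ℤ} {w : ℤ} {K : Ideal (AA L)}
    {a : ι → MvPolynomial ℕ (CC L)}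
    (ha : a ∈ Pc p (WC p L) (pb p L fun k => min k n) (Fil p K) d w) :
    (fun i => back L n (a i)) ∈ PW p d w K (n + 1) := fun i =>
  ⟨(back_spec (coeff_mem_Loc_of_Pc ha i)).1, back_mem_WC n (ha i).1, back_mem_ideal n (ha i).2.2⟩

theorem coeff_mem_PW {ι : Type} {n : ℕ} {d : ι → ℤ} {w : ℤ} {K : Ideal (AA L)}
    {a : ι → MvPolynomial ℕ (CC L)}
    (ha : a ∈ Pc p (WC p L) (pb p L fun k => min k n) (Fil p K) d w) :
    (fun i => coeff 0 (a i)) ∈ PW p d w K n := fun i =>
  ⟨coeff_mem_Loc_of_Pc ha i 0, by simpa using (ha i).1 0, (ha i).2.2 0⟩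

theorem mem_ZW_of_gen {ι : Type} {n : ℕ} {K : Ideal (AA L)} {F : ι → CC L}
    (hF : ∀ i, F i ∈ Loc p L (n + 1))
    (h : (fun i => ((univ L).gen n).ev (F i)) ∈ Zc ι (Fil p K)) : F ∈ ZW p ι K := fun i => by
  rw [← back_gen (hF i)]
  exact back_mem_ideal n (h i)

theorem gen_tw {ι κ : Type} [Fintype ι] {n : ℕ} (e : ι → κ → GG L) {F : ι → CC L}
    (hF : ∀ i, F i ∈ Loc p L n) (k : κ) : ((univ L).gen n).ev (tw p n e F k) =
      ∑ i, C (F i) * map ((univ L).pt p n) (e i k) := by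
  rw [tw_apply, map_sum]
  refine Finset.sum_congr rfl fun i _ => ?_
  rw [map_mul, fc_of_Loc (hF i) (Nat.lt_succ_self n), gen_ev_Loc (hF i), ev_univ, ev_arr, arr_gen]

theorem row_exact_CC {ι κ μ : Type} [Fintype ι] [Fintype κ] [Fintype μ] {F : Type} [Field F]
    {π : L →+* F} (hπ : Function.Surjective π) (hπ' : RingHom.ker π ≤ Ideal.span {(p : L)})
    {d₁ : ι → ℤ} {d₂ : κ → ℤ} {d₃ : μ → ℤ} {M₁ : Mx ι κ (AA L)}
    {M₂ : Mx κ μ (AA L)} (h₁ : HomM p d₁ d₂ M₁) (h₂ : HomM p d₂ d₃ M₂) {T : ℤ}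
    (hex : ExF p π d₁ d₂ M₁ M₂ T) (n : ℕ) {K K' : Ideal (AA L)} {r : ℕ}
    (hKK : K * II p L ^ r ≤ K') {w : ℤ} (hw : w ≤ T)
    (hsq : ∀ b ∈ Pc p (WC p L) (pb p L fun k => min k n) (Fil p K) d₁ w,
      op ((univ L).pt p n) M₂ (op ((univ L).pt p n) M₁ b) ∈ Zc μ (Fil p K'))
    {a : κ → MvPolynomial ℕ (CC L)}
    (ha : a ∈ Pc p (WC p L) (pb p L fun k => min k n) (Fil p K) d₂ w)
    (ha' : op ((univ L).pt p n) M₂ a ∈ Zc μ (Fil p K')) :
    ∃ b ∈ Pc p (WC p L) (pb p L fun k => min k n) (Fil p K) d₁ w,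
      a - op ((univ L).pt p n) M₁ b ∈ Zc κ (Fil p K') := by
  have h := row_exact hπ h₁ h₂ hex (fun _ hn _ hb => WC_neg hn hb) (grCh_univ.pt n)
    (φ := pb p L fun k => min k n) (RingHom.ext fun a => pt_mem_Loc n a)
    (fun k => Fil p (K * II p L ^ k))
    (fun k => Fil_mono (by rw [pow_zero, mul_one]; exact Ideal.mul_le_left))
    (fun k => by
      rw [pow_succ, ← mul_assoc, Fil_mul (K * II p L ^ k)]
      exact Ideal.mul_mono_right ((Ideal.map_mono (ker_red_le hπ')).trans (inv_II.pt _ n)))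
    (Fil_mono hKK) hw (J' := Fil p K') (a := a)
  simp only [pow_zero, mul_one] at h
  exact h hsq ha ha'

namespace Rs

variable {G : ℕ → Type} [∀ q, Fintype (G q)] (R : Rs p L G)

/-- exactness over the residue field, at `G q` for `q ≤ Q`, in weights at most `T` -/
structure K2 {F : Type} [Field F] (π : L →+* F) (Q : ℕ) (T : ℤ) : Prop where
  inj : ∀ b : G 0 → F, (∀ w, ∑ c, C (b c) * map (red π) (R.e c w) = 0) → b = 0
  aug : ∀ e ≤ T, ∀ a ∈ HV p F (R.deg 1) e, dx p (red π) (R.y 0) a = 0 →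
    ∃ b : G 0 → F, (∀ c, b c ≠ 0 → R.deg 0 c = e) ∧
      ∀ w, ∑ c, C (b c) * map (red π) (R.e c w) = a w
  ex : ∀ q, q + 1 < Q → ∀ e ≤ T, ∀ a ∈ HV p F (R.deg (q + 2)) e,
    dx p (red π) (R.y (q + 1)) a = 0 →
      ∃ b ∈ HV p F (R.deg (q + 1)) e, dx p (red π) (R.y q) b = a

theorem gen_dd (n q : ℕ) (x : G (q + 1) → CC L) :
    op ((univ L).pt p n) (My p (R.y q)) (fun i => ((univ L).gen n).ev (x i)) =
      fun k => ((univ L).gen n).ev (R.dd (n + 1) (q + 1) x k) := by
  funext k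
  rw [op_My, dx_apply, dd_succ, mat_apply, map_sum]
  simp only [ev_gen_par]

variable {R} {F : Type} [Field F] {π : L →+* F} {Q : ℕ} {T : ℤ} {r : ℕ} {w : ℤ}
  {K K' : Ideal (AA L)}

theorem ex_dc (hπ : Function.Surjective π) (hπ' : RingHom.ker π ≤ Ideal.span {(p : L)})
    (h1 : R.K1 (II p L ^ r) Q T) (h2 : R.K2 π Q T) (hw : w ≤ T) (hK : Inv p K) (hK' : Inv p K')
    (hKK : K * II p L ^ r ≤ K') : (R.dc w hK hK').Ex Q := by
  intro n q x hq hx hx'
  have hsq := R.sq_dc (inv_II.pow r) h1 hw hK hK' hKK (n + 1) q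
  replace hx : x ∈ PW p (R.deg (q + 1)) w K (n + 1) := hx
  have h3 : op ((univ L).pt p n) (My p (R.y q)) (fun i => ((univ L).gen n).ev (x i)) ∈
      Zc _ (Fil p K') := by
    rw [gen_dd]
    exact fun k => coeff_gen_mem_Fil n (hx' k)
  rcases q with _ | q
  · have h4 : ∀ b ∈ Pc p (WC p L) (pb p L fun k => min k n) (Fil p K) (R.deg 0) w,
        op ((univ L).pt p n) (Me R.e) b =
          fun k => ((univ L).gen n).ev (tw p n R.e (fun c => coeff 0 (b c)) k) := fun b hb => by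
      funext k
      rw [op_Me, gen_tw _ fun i => (coeff_mem_PW hb i).1]
    obtain ⟨b, hb, h5⟩ := row_exact_CC hπ hπ' (homM_Me R.he) (homM_My (R.hy 0)) (T := T)
      (fun e he a ha h => by
        rw [op_My] at h
        obtain ⟨b, hb, hb'⟩ := h2.aug e he a ha h
        refine ⟨fun c => C (b c), fun c => ?_, funext fun k => by simp [op_Me, hb']⟩
        by_cases h0 : b c = 0
        · simp only [h0, map_zero]
          exact isWeightedHomogeneous_zero _ _ _
        · rw [hb c h0, sub_self]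
          exact isWeightedHomogeneous_C _ _) n hKK hw
      (fun b hb => by
        rw [h4 b hb, gen_dd]
        exact fun k => coeff_gen_mem_Fil n (hsq _ hq (coeff_mem_PW hb) k))
      (gen_mem_Pc n hx) h3
    refine ⟨_, coeff_mem_PW hb, mem_ZW_of_gen (fun i => sub_mem (hx i).1
      (tw_mem_PW hK R.he (coeff_mem_PW hb) i).1) ?_⟩
    rw [h4 b hb] at h5
    simp only [Pi.sub_apply, map_sub]
    exact h5
  · have h4 : ∀ b ∈ Pc p (WC p L) (pb p L fun k => min k n) (Fil p K) (R.deg (q + 1)) w,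
        op ((univ L).pt p n) (My p (R.y q)) b = fun k => ((univ L).gen n).ev
          (R.dd (n + 1) (q + 1) (fun i => back L n (b i)) k) := fun b hb => by
      rw [← gen_dd]
      congr 1
      exact funext fun i => (back_spec (coeff_mem_Loc_of_Pc hb i)).2.symm
    obtain ⟨b, hb, h5⟩ := row_exact_CC hπ hπ' (homM_My (R.hy q)) (homM_My (R.hy (q + 1))) (T := T)
      (fun e he a ha h => by
        rw [op_My] at h
        simpa only [op_My] using h2.ex q hq e he a ha h) n hKK hw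
      (fun b hb => by
        rw [h4 b hb, gen_dd]
        exact fun k => coeff_gen_mem_Fil n (hsq _ hq (back_mem_PW hb) k))
      (gen_mem_Pc n hx) h3
    refine ⟨_, back_mem_PW hb, mem_ZW_of_gen (fun i => sub_mem (hx i).1
      (R.dd_mem_WW hK w (n + 1) (q + 1) (back_mem_PW hb) i).1) ?_⟩
    rw [h4 b hb] at h5
    simp only [Pi.sub_apply, map_sub]
    exact h5

theorem in_dc (hπ : Function.Surjective π) (hπ' : RingHom.ker π ≤ Ideal.span {(p : L)})
    (h2 : R.K2 π Q T) (hK : Inv p K) (hK' : Inv p K')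
    (hKK : K * II p L ^ r ≤ K') : (R.dc w hK hK').In := by
  intro n x hx hx'
  replace hx : x ∈ PW p (R.deg 0) w K n := hx
  obtain ⟨b, -, h5⟩ := row_exact_CC hπ hπ' (homM_M0 (R.deg 0)) (homM_Me R.he) (T := w)
    (fun e _ a ha h => by
      have h3 := h2.inj (fun c => coeff 0 (a c)) fun k => by rw [← op_Me, h]; rfl
      refine ⟨a, ha, funext fun k => ?_⟩
      rw [op_M0, show coeff 0 (a k) = 0 from congrFun h3 k, map_zero, sub_zero]) n hKK le_rfl
    (fun b _ k E => by simp [op_Me, op_M0]) (a := fun c => C (x c))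
    (fun c => ⟨C_mem_ext (hx c).2.1, by rw [map_C, (hx c).1]; rfl, fun E => by
      classical
      rw [coeff_C]
      split_ifs
      · exact (hx c).2.2
      · exact zero_mem _⟩)
    (fun k E => by
      have h3 := coeff_gen_mem_Fil n (hx' k) E
      rw [op_Me]
      simp only [coeff_zero_C]
      rwa [← gen_tw _ fun i => (hx i).1])
  intro c
  simpa [op_M0] using h5 c 0

end Rs

end Vale.Agent.P236EL

end
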