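import Vale.Agent.P236EL.Cl
import Vale.Agent.P236K3.Bk6

/-!
# P236EL / Cn : non-vanishing at one level, identification of leading terms
-/

noncomputable section

namespace Vale.Agent.P236EL

open Vale.Agent.P251.F Vale.Agent.P251.I Vale.Agent.P236SY Vale.Agent.P236R
open Vale.Agent.P236KE Vale.Agent.P236K3 Vale.Agent.P236F AddSubgroup Vale.Agent.P236KE.S90

namespace WC'

variable (D : KD) (s T : Nat)

/-- zero below the level `k` and not a boundary in level `k` -/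
def nbC (k : Nat) (v : WC') : Bool := force (Nat.sub k 2) fun a => force (Nat.succ k) fun b =>
  bnd D s T (exa (D.L s) T a b v fun p =>
    grd (D.inB s T a k [] ((cst' p).re (D.L s) T a k)) (D.noB s T a b (cst' p)))
/-- the leading terms are the listed ones -/
def idC (k b : Nat) (l : List Tr) (v : WC') : Bool := force (Nat.sub b 3) fun a =>
  bnd D s T (grd (Nat.ble a k) (grd (Nat.ble k b) (grd (okL (D.L s) T k (Nat.add k 3) l)
    (exa (D.L s) T a b v fun p =>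
      D.inB s T a b [] ((cst' p).add ((vcL (D.L s) l).re (D.L s) T k b).neg)))))

end WC'

variable [hp : Fact (Nat.Prime 3)] {G : ℕ → Type} [∀ q, Fintype (G q)] {R : Rs 3 K G}
  {θ : G 0 → G 0 → Cob Laz 1} {D : KD} {ix : ∀ q, G (q + 1) → ℕ} {s s' T a b k : ℕ}
  {ls : List (List Tr)} {C : List Tr → Bool} {x : G 0 → Cob Laz s} {v : WC'}

variable (R θ s T k) in
/-- no differential of length at least three hits the level `k` -/
def Nb : Prop := ∀ x ∈ BQ 3 θ (R.deg 0) T 3 s, x ∈ Fl p3 _ s (II 3 K ^ k) →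
  Ph p3 R s x ∈ R.Bd s T (k - 2) (k + 1)

theorem Nz.nb (h : Nz R θ s T a) (hk : a ≤ k) : Nb R θ s T k := h k hk

theorem Nb.nz (h : Nb R θ s T k) (h' : Nz R θ s T (k + 1)) : Nz R θ s T k := h'.of_succ h

variable [DecidableEq (G 0)] {Tm s3 s4 : ℕ}

namespace Wx

variable (H : Wx R θ D ix Tm s3 s4)

include H

theorem nbDs (hs : s ≤ 58) (hw : (T : ℤ) ≤ 90) (hd : Ds R θ s 0 (k - 2) k T) :
    Nb R θ (s + 1) T k := fun x hx hx' =>
  H.wd.bd_of (by omega) hw (.of (H.wd.bz hx) (Rv.self (H.wd.bz hx).1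
    (Fl_mono p3 (Ideal.pow_le_pow_right (Nat.sub_le k 2)) hx'))) (by omega) (by omega)
    (Ph_mem_ZA (inv_II.pow k) hx') hd hx

theorem nbLow (hs : s ≤ 58) (hw : (T : ℤ) ≤ 90) (hk : k ≤ 2) : Nb R θ (s + 1) T k :=
  H.nbDs hs hw (.refl (by omega))

theorem nbStep (ls : List (List Tr)) (h1 : WC'.k3M D s T k [] ls = true)
    (hS : Sd R θ ix T k (k + 1) C (· ∉ BQ 3 θ (R.deg 0) T 3 s)) (hc : nzC ls C = true) :
    Nb R θ s T k := fun x hx hx' => by
  rw [WC'.k3M, force_eq, force_eq] at h1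
  obtain ⟨h2, h3, h4, -⟩ := H.geM (𝒵 := ⊥) .nil h1
  obtain ⟨u, hu, e, he, h7⟩ := mem_sup.1 (H.nz_k3 h2 h3 (H.geN h1) hx hx')
  rcases nzC_spec hc hu with rfl | ⟨m, h10, rfl⟩
  · rwa [← h7, zero_add]
  · exact (hS m x h10 (H.wd.up (by omega) h3 (.of (H.wd.bz hx) ((Rv.self (H.wd.bz hx).1
      (Fl_mono p3 (Ideal.pow_le_pow_right (Nat.sub_le k 2)) hx')).congr (by
        rwa [← h7, add_sub_cancel_left]))) (by omega) (by omega) k.le_succ (h4 hu)) hx).elim

/-- **non-vanishing** modulo classes of higher level -/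
theorem notN {𝒵 : AddSubgroup (G 0 → Cob Laz s)} (h : CV R θ D ix s x v) (hn : Nb R θ s T k)
    (hz : ∀ z ∈ 𝒵, Rc R θ s T (k - 2) (k + 1) z 0) (hc : WC'.nbC D s T k v = true) :
    x ∉ 𝒵 ⊔ BQ 3 θ (R.deg 0) T 3 s := fun hx => by
  obtain ⟨h1, h2, h3, h4⟩ := H.bnd hc
  have hb : k + 1 ≤ k - 2 + 3 := by omega
  obtain ⟨u, p, h5, h6, h7⟩ := H.exa h h4
  obtain ⟨h8, h9⟩ := grd_spec h7
  obtain ⟨z, h10, e, he, rfl⟩ := mem_sup.1 hx
  obtain ⟨y, hy, h11⟩ := Rs.mem_Bd.1 (H.cx.inB' (add_zero _).symm h2 (by omega)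
    (H.cx.re h2 hb le_rfl k.le_succ h6) h8)
  have h12 : R.sd s y ∈ R.Bd s T (k - 2) (k + 1) := mem_sup_left ⟨y, hy, rfl⟩
  have h13 := (h5.sub (hz z h10)).congr (u' := u - R.sd s y) (by simpa using h12)
  rw [add_sub_cancel_left] at h13
  obtain ⟨e', he', h14, h15⟩ := H.wd.fl (by omega) h3 h13 hb k.le_succ h11
  refine H.cx.noB (add_zero _).symm h2 hb h6 h9 ?_
  simpa using add_mem (sub_mem (hn _ (sub_mem he he') h14) h15.bd) h12

theorem neN (h : CV R θ D ix s x v) (hn : Nb R θ s T k) (hc : WC'.nbC D s T k v = true) :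
    x ∉ BQ 3 θ (R.deg 0) T 3 s := by
  simpa using H.notN (𝒵 := ⊥) h hn (fun z hz => mem_bot.1 hz ▸ Rc.zero) hc

/-- **identification of the leading terms** -/
theorem ident (h : CV R θ D ix s x v) (l : List Tr) (hc : WC'.idC D s T k b l v = true) :
    Rc R θ s T k b x (vL (ix s) l) := by
  rw [WC'.idC, force_eq] at hc
  obtain ⟨h1, h2, h3, h4⟩ := H.bnd hc
  obtain ⟨h5, h6⟩ := grd_spec h4
  obtain ⟨h7, h8⟩ := grd_spec h6
  obtain ⟨h9, h10⟩ := grd_spec h8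
  have h11 : b - 3 ≤ k := Nat.le_of_ble_eq_true h5
  have h12 : k ≤ b := Nat.le_of_ble_eq_true h7
  have h13 := vr_vL (H.ok s) h9
  obtain ⟨u, p, h14, h15, h16⟩ := H.exa h h10
  have hb : b ≤ b - 3 + 3 := by omega
  exact H.wd.up (by omega) h3 (h14.congr (sub_eq_add_neg u _ ▸ H.cx.inB' (add_zero _).symm h2 hb
    (h15.add ((H.cx.re h2 le_rfl le_rfl (by omega) h13).low h11).neg) h16)) hb h11 h12
    ((H.cx.pa (add_zero _).symm).2 h13.hz)

/-! ### the zero class -/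

theorem z_of (h : CV R θ D ix s x v) (T : ℕ) (hx : x ∈ BQ 3 θ (R.deg 0) T 3 s) :
    CV R θ D ix s 0 (v.at' T) := H.cong h T (by simpa using hx)

theorem z_ne (h : CV R θ D ix s 0 v) (hn : Nb R θ s T k) (hc : WC'.nbC D s T k v = true) : False :=
  H.neN h hn hc (zero_mem _)

end Wx

omit [DecidableEq (G 0)] in
theorem CV.z {m : ℕ} {e : m + s' = s} {z : Cob Laz m} (h : CV R θ D ix s (lc _ e z 0) v) :
    CV R θ D ix s 0 v := h.cast (map_zero _)

theorem Wb.zbock {R' : Rs 3 K9 G} {E : KB} (H : Wb R R' θ D E ix Tm s3 s4)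
    (h : CV R θ D ix s 0 v) (T : ℕ) : CV R θ D ix (s + 1) 0 (WC'.cbk D E s T v) :=
  H.bock h T (zero_mem _) (by rw [map_zero, smul_zero])

variable {t : Cob Laz 1} (ht : IsT1 3 t) (hT : T ≤ 90)

include hT

theorem CA.zjA (h : CA t T s 0 v) : CS T s 0 (v.cjA T s) := h.jA hT
theorem CY.zjy (h : CY t T s 0 v) : CS T s 0 (v.cjy T s) := h.jy hT

include ht

theorem CS.ziA (h : CS T s 0 v) : CA t T s 0 (v.ciA T s) :=
  (h.iA ht hT).cast (funext fun c => by fin_cases c <;> rfl)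
theorem CS.ze0 (h : CS T s 0 v) : CY t T s 0 (v.ce0 T s) :=
  (h.e0 ht hT).cast (funext fun c => by fin_cases c <;> rfl)
theorem CA.zee (h : CA t T s 0 v) : CY t T s 0 (v.cee T s) :=
  (h.ee ht hT).cast (funext fun c => by fin_cases c <;> rfl)
theorem CY.zqq (h : CY t T s 0 v) : CA t T s 0 (v.cqq T s) :=
  (h.qq ht hT).cast (funext fun c => by fin_cases c <;> rfl)
theorem CS.zat (h : CS T s 0 v) : CA t T (s + 1) 0 (v.cat T s) :=
  (h.at ht hT).cast (funext fun c => by simp [Cob.cup])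
theorem CA.zab (h : CA t T s 0 v) : CS T (s + 1) 0 (v.cab T s) :=
  (h.ab ht hT).cast (funext fun c => by simp [Cob.cup])

end Vale.Agent.P236EL

end
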