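import Vale.Agent.P236EL.Cn

/-!
# P236EL / Co : leading terms independent of the layout
-/

noncomputable section

namespace Vale.Agent.P236EL

open Vale.Agent.P251.F Vale.Agent.P251.I Vale.Agent.P236SY Vale.Agent.P236R
open Vale.Agent.P236KE Vale.Agent.P236K3 Vale.Agent.P236F AddSubgroup Vale.Agent.P236KE.S90

theorem iT_eq (T m : ℕ) : iT T m = iT 0 m := rfl

variable [hp : Fact (Nat.Prime 3)] {t : Cob Laz 1} {s T w a b : ℕ} {l : List Tr}

/-- a class on the sphere with given leading terms -/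
abbrev LS' (s w a b : ℕ) (l : List Tr) (x : Fin 1 → Cob Laz s) : Prop :=
  Rc rS 0 s w a b x (vL (iS s) l)
/-- a class on `C α` with given leading terms -/
abbrev LA' (t : Cob Laz 1) (s w a b : ℕ) (l : List Tr) (x : Fin 2 → Cob Laz s) : Prop :=
  Rc rA (θA t) s w a b x (vL (iT 0 2 s) l)
/-- a class on `Y` with given leading terms -/
abbrev LY' (t : Cob Laz 1) (s w a b : ℕ) (l : List Tr) (x : Fin 3 → Cob Laz s) : Prop :=
  Rc rY (θY t) s w a b x (vL (iT 0 3 s) l)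

section

variable {G : ℕ → Type} [∀ q, Fintype (G q)] {R : Rs 3 K G} {θ : G 0 → G 0 → Cob Laz 1} {D : KD}
  {ix ix' : ∀ q, G (q + 1) → ℕ} [DecidableEq (G 0)] {Tm s3 s4 : ℕ} {x : G 0 → Cob Laz s} {v : WC'}

theorem Wx.nmE (H : Wx R θ D ix Tm s3 s4) (e : ix = ix') (h : Rc R θ s w a b x (vL (ix' s) l))
    (hb : b ≤ a + 3) : CV R θ D ix s x (WC'.nmv D s w a b l) := H.nm' (e ▸ h) hb

theorem Wx.identE (H : Wx R θ D ix Tm s3 s4) (e : ix = ix') (h : CV R θ D ix s x v) (l : List Tr)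
    (hc : WC'.idC D s w a b l v = true) : Rc R θ s w a b x (vL (ix' s) l) := e ▸ H.ident h l hc

theorem Wx.liftE (H : Wx R θ D ix Tm s3 s4) (e : ix = ix') (l : List Tr)
    (hc : WC'.cyC D s w a (a + 3) l = true) (h : Nz R θ (s + 1) w (a + 3)) :
    ∃ x, Rc R θ s w a (a + 1) x (vL (ix' s) l) := e ▸ H.liftN hc h

/-- one more level of precision, modulo known classes -/
theorem Wx.extE (H : Wx R θ D ix Tm s3 s4) (e : ix = ix') (h : Rc R θ s w a b x (vL (ix' s) l))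
    {𝒵 : AddSubgroup (G 0 → Cob Laz s)} {l' : List WC'} (hl : CL R θ D ix 𝒵 l')
    (hc : WC'.cyC D s w a (a + 3) l = true) (hg : WC'.geC D s w a b (a + 3) l' = true) :
    ∃ x, Rc R θ s w a (b + 1) x (vL (ix' s) l) := by
  subst e
  obtain ⟨z, -, h1⟩ := H.ext h (H.cy le_rfl hc) hl hg
  exact ⟨_, h1⟩

theorem Wb.bock' {R' : Rs 3 K9 G} {E : KB} (H : Wb R R' θ D E ix Tm s3 s4)
    (h : CV R θ D ix s x v) (hx : x ∈ ZC 3 θ (R.deg 0) w 3 s) : ∃ c, DD θ s x = 3 • c ∧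
      c ∈ ZC 3 θ (R.deg 0) w 3 (s + 1) ∧ CV R θ D ix (s + 1) c (WC'.cbk D E s w v) := by
  obtain ⟨c, hc, e⟩ := mem_QW.1 hx.2
  have h1 : DD θ (s + 1) c = 0 := funext fun i => by
    have h2 := congrFun (DD_DD H.wx.wd.mc x) i
    rw [← e, map_nsmul, Pi.smul_apply, nsmul_eq_mul] at h2
    exact (mul_eq_zero.1 h2).resolve_left (by norm_num)
  have h3 : c ∈ ZC 3 θ (R.deg 0) w 3 (s + 1) := mem_ZC'.2 ⟨hc, h1 ▸ zero_mem _⟩
  exact ⟨c, e.symm, h3, H.bock h w h3 e.symm⟩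

end

end Vale.Agent.P236EL

end
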