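import Vale.Agent.P236EL.Line

/-!
# P236EL / Comm : graded commutativity of the cup product
-/

noncomputable section

namespace Vale.Agent.P236EL

open Vale.Agent.P251.F Vale.Agent.P251.F.F3 LawRing
open Vale.Agent.P257.H93 (dS dS_apply)

section seq

variable {W M : Type*} [AddCommGroup M]

/-- prepend a term -/
def cns (a : W) (G : ℕ → W) : ℕ → W
  | 0 => a
  | k + 1 => G k

/-- drop the first term -/
def tl (G : ℕ → W) (k : ℕ) : W := G (k + 1)

theorem cns_tl (G : ℕ → W) : cns (G 0) (tl G) = G := by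
  funext k
  cases k <;> rfl

/-- the sign of the reversal -/
def eps : ℕ → ℤ
  | 0 => 1
  | n + 1 => (-1) ^ (n + 1) * eps n

theorem eps_add (a b : ℕ) : eps (a + b) = (-1) ^ (a * b) * (eps a * eps b) := by
  induction b with
  | zero => simp [eps]
  | succ b ih => rw [← add_assoc, eps, eps, ih]; ring

theorem eps_mul_self (a : ℕ) : eps a * eps a = 1 := by
  induction a with
  | zero => rfl
  | succ a ih => rw [eps, mul_mul_mul_comm, ih, ← mul_pow]; simp

/-- alternating sum of the first `m` faces -/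
def dT (m : ℕ) (X : (ℕ → W) → M) (G : ℕ → W) : M :=
  ∑ j ∈ Finset.range m, ((-1 : ℤ) ^ j) • X (del j G)

theorem dT_succ (m : ℕ) (X : (ℕ → W) → M) (G : ℕ → W) :
    dT (m + 1) X G = X (tl G) - dT m (fun H => X (cns (G 0) H)) (tl G) := by
  have h : ∀ j, del (j + 1) G = cns (G 0) (del j (tl G)) := fun j => by
    funext k
    rcases k with _ | k
    · simp [del, cns]
    · simp [del, cns, tl]
  rw [dT, dT, Finset.sum_range_succ', add_comm, sub_eq_add_neg, ← Finset.sum_neg_distrib]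
  simp only [h, pow_succ, mul_neg, mul_one, neg_smul, pow_zero, one_smul]
  rfl

theorem dT_sub (m : ℕ) (c : ℤ) (X Y : (ℕ → W) → M) (G : ℕ → W) :
    dT m (fun H => c • X H - Y H) G = c • dT m X G - dT m Y G := by
  simp only [dT, smul_sub, Finset.sum_sub_distrib, Finset.smul_sum, smul_comm c]

/-- the vertices of the prism -/
def pv : ℕ → ℕ → ℕ → ℕ
  | 0, _ => fun _ => 0
  | m + 1, 0 => cns 0 fun k => m - k
  | m + 1, i + 1 => cns 0 fun k => pv m i k + 1

/-- the signs of the prism -/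
def ps : ℕ → ℕ → ℤ
  | 0, _ => 0
  | m + 1, 0 => eps m
  | m + 1, i + 1 => -ps m i

theorem pv_le : ∀ (m i k : ℕ), i ≤ m → pv (m + 1) i k ≤ m
  | _, 0, 0, _ => Nat.zero_le _
  | _, 0, _ + 1, _ => Nat.sub_le _ _
  | _, _ + 1, 0, _ => Nat.zero_le _
  | m + 1, i + 1, k + 1, h => Nat.succ_le_succ (pv_le m i k (by omega))

/-- the prism operator -/
def pQ (m : ℕ) (X : (ℕ → W) → M) (G : ℕ → W) : M :=
  ∑ i ∈ Finset.range m, ps m i • X (G ∘ pv m i)

theorem pQ_succ (m : ℕ) (X : (ℕ → W) → M) (G : ℕ → W) : pQ (m + 1) X G =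
    eps m • X (cns (G 0) (G ∘ fun k => m - k)) - pQ m (fun H => X (cns (G 0) H)) (tl G) := by
  have h : ∀ i, G ∘ pv (m + 1) (i + 1) = cns (G 0) (tl G ∘ pv m i) := fun i => by
    funext k
    cases k <;> rfl
  have h' : G ∘ pv (m + 1) 0 = cns (G 0) (G ∘ fun k => m - k) := by
    funext k
    cases k <;> rfl
  rw [pQ, pQ, Finset.sum_range_succ', add_comm, sub_eq_add_neg, ← Finset.sum_neg_distrib]
  simp only [h, h', ps, neg_smul]

theorem pQ_sub (m : ℕ) (X Y : (ℕ → W) → M) (G : ℕ → W) :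
    pQ m (fun H => X H - Y H) G = pQ m X G - pQ m Y G := by
  simp only [pQ, smul_sub, Finset.sum_sub_distrib]

theorem dT_rev (n : ℕ) {X : (ℕ → W) → M} (hX : ∀ G G' : ℕ → W, (∀ k ≤ n, G k = G' k) → X G = X G')
    (G : ℕ → W) : eps (n + 1) • dT (n + 2) X (G ∘ fun k => n + 1 - k) =
      eps n • dT (n + 2) (fun H => X (H ∘ fun k => n - k)) G := by
  rw [dT, dT, ← Finset.sum_range_reflect, Finset.smul_sum, Finset.smul_sum]
  refine Finset.sum_congr rfl fun j hj => ?_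
  have hj' := Finset.mem_range.1 hj
  rw [hX _ (del j G ∘ fun k => n - k), smul_smul, smul_smul, eps]
  · obtain ⟨i, hi⟩ : ∃ i, n + 1 = i + j := ⟨n + 1 - j, by omega⟩
    rw [show n + 2 - 1 - j = i by omega, hi, pow_add, mul_right_comm, mul_right_comm _ _ ((-1) ^ i),
      ← mul_pow, mul_comm (eps n)]
    simp
  · intro k hk
    simp only [del, Function.comp]
    split_ifs <;> first | omega | (congr 1; omega)

/-- the reversal is homotopic to the identity -/
theorem prism (n : ℕ) {X : (ℕ → W) → M} (hX : ∀ G G' : ℕ → W, (∀ k ≤ n, G k = G' k) → X G = X G')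
    (G : ℕ → W) : pQ (n + 1) (dT (n + 2) X) G + dT (n + 1) (pQ n X) G =
      eps n • X (G ∘ fun k => n - k) - X G := by
  induction n generalizing X G with
  | zero =>
    rw [pQ_succ, dT_succ, dT_succ, dT_succ, hX (cns _ _) G fun k hk => by rw [Nat.le_zero.1 hk]; rfl]
    simp [pQ, dT, eps]
    rfl
  | succ n ih =>
    have h1 : ∀ H H' : ℕ → W, (∀ k ≤ n, H k = H' k) → X (cns (G 0) H) = X (cns (G 0) H') :=
      fun H H' h => hX _ _ fun k hk => by
        rcases k with _ | k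
        · rfl
        · exact h k (by omega)
    have h2 := ih h1 (tl G)
    have h3 := dT_rev n h1 G
    have h4 : ∀ H, dT (n + 3) X (cns (G 0) H) = X H - dT (n + 2) (fun H => X (cns (G 0) H)) H :=
      fun H => dT_succ _ _ _
    have h5 : ∀ H, pQ (n + 1) X (cns (G 0) H) = eps n • X (cns (G 0) (cns (G 0) H ∘ fun k => n - k))
        - pQ n (fun H => X (cns (G 0) H)) H := fun H => pQ_succ _ _ _
    rw [dT_succ (n + 1) _ G] at h3
    rw [cns_tl] at h2
    rw [pQ_succ, dT_succ (n + 1) _ G]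
    simp only [h4, h5]
    rw [pQ_sub, dT_sub, smul_sub, h3, smul_sub, eq_sub_of_add_eq h2]
    abel

end seq

variable {N : Type} [CommRing N] [LawRing N] {ι : Type} [Fintype ι] [DecidableEq ι]
  {θ : ι → ι → Cob N 1} {a b n : ℕ}

variable (θ) in
/-- the reversal of charts -/
def rv (n : ℕ) : (ι → Cob N n) →+ (ι → Cob N n) :=
  opr θ n n (fun k => n - k) fun _ _ => Nat.sub_le _ _

variable (θ) in
/-- the prism operator on charts -/
def pC (n : ℕ) : (ι → Cob N (n + 1)) →+ (ι → Cob N n) :=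
  ∑ i : Fin (n + 1), ps (n + 1) i • opr θ (n + 1) n (pv (n + 1) i)
    fun k _ => pv_le n i k (Nat.le_of_lt_succ i.2)

theorem XH_pC (hθ : MC θ) (F : ι → Cob N (n + 1)) {B : Type} [CommRing B] (x : N →+* B)
    (G : ℕ → strict B) (g : strict B) :
    XH θ n x G g (pC θ n F) = pQ (n + 1) (fun G => XH θ (n + 1) x G g F) G := by
  rw [pC, pQ, Finset.sum_range, AddMonoidHom.finsetSum_apply, map_sum]
  simp only [AddMonoidHom.smul_apply, map_zsmul, XH_opr hθ]

theorem rv_zero (hθ : MC θ) (F : ι → Cob N 0) : rv θ 0 F = F :=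
  ext_XH hθ fun _ _ x G g => by
    rw [rv, XH_opr hθ]
    exact XH_congr F x g _ _ fun k hk => by rw [Nat.le_zero.1 hk]; rfl

theorem rv_succ (hθ : MC θ) (F : ι → Cob N (n + 1)) :
    eps (n + 1) • rv θ (n + 1) F - F = pC θ (n + 1) (DD θ (n + 1) F) + DD θ n (pC θ n F) :=
  ext_XH hθ fun _ _ x G g => by
    simp only [map_add, map_sub, map_zsmul, XH_pC hθ, XH_DD hθ, rv, XH_opr hθ]
    exact (prism (n + 1) (XH_congr F x g) G).symm

variable {p q : ℕ} {d : ι → ℤ} {w ω : ℤ}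
  (hw : ∀ c c', Cob.IsWt (((p : ℤ) - 1) * (d c - d c')) (θ c c'))

include hw

omit [DecidableEq ι] in
theorem BQ_le_ZC (hθ : MC θ) : BQ p θ d w q n ≤ ZC p θ d w q n := by
  refine sup_le ?_ (QW_le_ZC hw)
  rcases n with _ | n
  · exact bot_le
  · rintro _ ⟨y, hy, rfl⟩
    exact mem_ZC'.2 ⟨DD_mem_CW hw hy, by rw [DD_DD hθ]; exact zero_mem _⟩

theorem pC_mem_CW {F : ι → Cob N (n + 1)} (hF : F ∈ CW p N d w (n + 1)) :
    pC θ n F ∈ CW p N d w n := by
  rw [pC, AddMonoidHom.finsetSum_apply]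
  exact sum_mem fun i _ => zsmul_mem (opr_mem_CW hw _ hF) _

theorem rv_sub_mem (hθ : MC θ) {F : ι → Cob N n} (hF : F ∈ ZC p θ d w q n) :
    eps n • rv θ n F - F ∈ BQ p θ d w q n := by
  rcases n with _ | n
  · rw [rv_zero hθ, eps, one_smul, sub_self]
    exact zero_mem _
  · obtain ⟨c, hc, h⟩ := (mem_ZC.1 hF).2
    rw [rv_succ hθ, ← h, map_nsmul, add_comm (q • _)]
    exact mem_BQ_succ.2 ⟨_, pC_mem_CW hw hF.1, _, pC_mem_CW hw hc, rfl⟩

omit hw in
variable (θ) in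
/-- right multiplication as a biadditive map -/
def rcH (h : a + b = n) : (ι → Cob N a) →+ Cob N b →+ (ι → Cob N n) :=
  AddMonoidHom.mk' (fun F => AddMonoidHom.mk' (rc θ h F) fun t t' => by
      rw [rc, rc, rc, ← map_add]
      exact congrArg _ (funext₂ fun _ _ => add_mul _ _ _))
    fun F F' => AddMonoidHom.ext fun t => by
      change rc θ h (F + F') t = rc θ h F t + rc θ h F' t
      rw [rc, map_add, AddMonoidHom.add_apply, rc, rc]

omit hw in
theorem rcH_apply (h : a + b = n) (F : ι → Cob N a) (t : Cob N b) : rcH θ h F t = rc θ h F t := rfl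

theorem rc_mem_QW (h : a + b = n) {F : ι → Cob N a} (hF : F ∈ QW p N d w q a) {t : Cob N b}
    (ht : Cob.IsWt (((p : ℤ) - 1) * ω) t) : rc θ h F t ∈ QW p N d (w + ω) q n := by
  obtain ⟨u, hu, rfl⟩ := mem_QW.1 hF
  exact mem_QW.2 ⟨_, rc_mem_CW hw h hu ht, by rw [← rcH_apply, ← rcH_apply, map_nsmul]; rfl⟩

theorem rc_nsmul_mem (h : a + b = n) {F : ι → Cob N a} (hF : F ∈ CW p N d w a) {t : Cob N b}
    (ht : Cob.IsWt (((p : ℤ) - 1) * ω) t) : rc θ h F (q • t) ∈ QW p N d (w + ω) q n :=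
  mem_QW.2 ⟨_, rc_mem_CW hw h hF ht, by rw [← rcH_apply, ← rcH_apply, map_nsmul]⟩

theorem rc_mem_ZC (hθ : MC θ) (h : a + b = n) {F : ι → Cob N a} (hF : F ∈ ZC p θ d w q a)
    {t : Cob N b} (ht : Cob.IsWt (((p : ℤ) - 1) * ω) t) {t' : Cob N (b + 1)}
    (ht' : Cob.IsWt (((p : ℤ) - 1) * ω) t') (hd : Cob.d b t = q • t') :
    rc θ h F t ∈ ZC p θ d (w + ω) q n := by
  refine mem_ZC'.2 ⟨rc_mem_CW hw h hF.1 ht, ?_⟩
  rw [DD_rc hθ, hd]
  exact add_mem (rc_mem_QW hw _ hF.2 ht) (zsmul_mem (rc_nsmul_mem hw _ hF.1 ht') _)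

theorem rc_mem_BQ (hθ : MC θ) (h : a + b = n) {F : ι → Cob N a} (hF : F ∈ BQ p θ d w q a)
    {t : Cob N b} (ht : Cob.IsWt (((p : ℤ) - 1) * ω) t) {t' : Cob N (b + 1)}
    (ht' : Cob.IsWt (((p : ℤ) - 1) * ω) t') (hd : Cob.d b t = q • t') :
    rc θ h F t ∈ BQ p θ d (w + ω) q n := by
  obtain ⟨e, he, u, hu, rfl⟩ := mem_BQ.1 hF
  rw [← rcH_apply, map_add, AddMonoidHom.add_apply]
  refine add_mem ?_ (AddSubgroup.mem_sup_right (rc_mem_QW hw h (mem_QW.2 ⟨u, hu, rfl⟩) ht))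
  rcases a with _ | a
  · rw [AddSubgroup.mem_bot.1 he, map_zero]
    exact zero_mem _
  · obtain ⟨y, hy, rfl⟩ := he
    obtain rfl : n = a + b + 1 := by omega
    rw [rcH_apply, ← sub_eq_iff_eq_add.2 (DD_rc hθ rfl y t), hd]
    refine sub_mem (AddSubgroup.mem_sup_left ?_)
      (AddSubgroup.mem_sup_right (zsmul_mem (rc_nsmul_mem hw _ hy ht') _))
    exact ⟨_, rc_mem_CW hw rfl hy ht, rfl⟩

theorem rc_d_mem_BQ (hθ : MC θ) (h : a + (b + 1) = n) {F : ι → Cob N a} (hF : F ∈ ZC p θ d w q a)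
    {t : Cob N b} (ht : Cob.IsWt (((p : ℤ) - 1) * ω) t) :
    rc θ h F (Cob.d b t) ∈ BQ p θ d (w + ω) q n := by
  subst h
  have h1 := congrArg (((-1 : ℤ) ^ a) • ·) (sub_eq_iff_eq_add'.2 (DD_rc hθ rfl F t))
  simp only [neg_one_smul_smul] at h1
  rw [← h1]
  refine zsmul_mem (sub_mem (AddSubgroup.mem_sup_left ?_)
    (AddSubgroup.mem_sup_right (rc_mem_QW hw _ hF.2 ht))) _
  exact ⟨_, rc_mem_CW hw rfl hF.1 ht, rfl⟩

/-- **graded commutativity** -/
theorem lc_sub_rc (hθ : MC θ) (h : a + b = n) (h' : b + a = n) {t : Cob N a}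
    (ht : Cob.IsWt (((p : ℤ) - 1) * ω) t) {t' : Cob N (a + 1)}
    (ht' : Cob.IsWt (((p : ℤ) - 1) * ω) t') (hd : Cob.d a t = q • t') {F : ι → Cob N b}
    (hF : F ∈ ZC p θ d w q b) :
    lc ι h t F - ((-1 : ℤ) ^ (a * b)) • rc θ h' F t ∈ BQ p θ d (w + ω) q n := by
  have h0 : ∀ {k : ℕ} {y : Cob N k}, (fun _ : Unit => y) ∈ CW p N (fun _ => 0) ω k ↔
      Cob.IsWt (((p : ℤ) - 1) * ω) y := ⟨fun h => sub_zero ω ▸ h (), fun h _ => (sub_zero ω).symm ▸ h⟩
  have h1 : (fun _ : Unit => t) ∈ ZC p 0 (fun _ => 0) ω q a :=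
    mem_ZC.2 ⟨h0.2 ht, fun _ => t', h0.2 ht', funext fun _ => by rw [DD_zero, hd]; rfl⟩
  have h2 := rv_sub_mem (θ := 0) (d := fun _ => 0) (fun _ _ => Cob.isWt_zero _) mc_zero h1
  have h3 : rv θ n (lc ι h t F) = rc θ h' (rv θ b F) (rv 0 a (fun _ : Unit => t) ()) := by
    refine ext_XH hθ fun B _ x G g => ?_
    have h4 := congrFun (XH_opr (mc_zero (ι := Unit)) (α := fun k => a - k)
      (fun _ _ => Nat.sub_le _ _) (fun _ => t) x (sq b G) (sq b G a)) ()
    rw [XH_apply, XX_self mc_zero] at h4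
    rw [rv, XH_opr hθ, XH_lc, XH_rc hθ, rv, rv, XH_opr hθ, h4]
    congr 1
    · simp only [XH_apply, XX, TH, Fintype.sum_unique, Pi.zero_apply, map_zero, if_true, add_zero,
        mul_one]
      rw [ofSeq_congr (n := a) (G := G ∘ fun k => n - k) (G' := sq b G ∘ fun k => a - k)
        fun k hk => congrArg G (show n - k = b + (a - k) by omega)]
    · exact congrArg (fun G => XH θ b x G g F)
        (funext fun k => congrArg G (show n - (a + k) = b - k by omega))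
  have h4 := rv_sub_mem hw hθ (lc_mem_ZC hθ h ht ht' hd hF)
  rw [add_comm, h3, (congrArg eps h).symm.trans (eps_add a b)] at h4
  have h5 := rc_mem_BQ hw hθ h' (rv_sub_mem hw hθ hF) ht ht' hd
  have h6 : eps b • rv θ b F ∈ ZC p θ d w q b := by
    simpa using add_mem (BQ_le_ZC hw hθ (rv_sub_mem hw hθ hF)) hF
  have h7 : rc θ h' (eps b • rv θ b F) (eps a • rv 0 a (fun _ : Unit => t) () - t) ∈
      BQ p θ d (w + ω) q n := by
    obtain ⟨e, he, u, hu, h8⟩ := mem_BQ.1 h2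
    rw [show eps a • rv 0 a (fun _ : Unit => t) () - t = e () + q • u () from (congrFun h8 ()).symm,
      ← rcH_apply, map_add]
    refine add_mem ?_ (AddSubgroup.mem_sup_right (rc_nsmul_mem hw h' h6.1 (h0.1 hu)))
    rcases a with _ | a
    · rw [AddSubgroup.mem_bot.1 he, Pi.zero_apply, map_zero]
      exact zero_mem _
    · obtain ⟨y, hy, rfl⟩ := he
      rw [DD_zero]
      exact rc_d_mem_BQ hw hθ h' h6 (h0.1 hy)
  have h8 := sub_mem (zsmul_mem (add_mem h5 h7) ((-1 : ℤ) ^ (a * b))) h4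
  simp only [← rcH_apply, map_sub, map_zsmul, AddMonoidHom.sub_apply, AddMonoidHom.smul_apply,
    smul_smul] at h8 ⊢
  convert h8 using 1
  simp only [smul_add, smul_sub, smul_smul]
  abel

omit hw [Fintype ι] [DecidableEq ι] in
theorem lc_lc {c k l : ℕ} (h1 : a + b = k) (h2 : k + c = n) (h3 : b + c = l) (h4 : a + l = n)
    (x : Cob N a) (y : Cob N b) (F : ι → Cob N c) :
    lc ι h2 (cupE h1 x y) F = lc ι h4 x (lc ι h3 y F) := funext fun _ => cupE_assoc h1 h2 h3 h4 _ _ _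

omit hw [DecidableEq ι] in
/-- multiplication by a coboundary -/
theorem lc_of_BQ (hθ : MC θ) (h : a + b = n) {κ : Type} [Fintype κ] [Unique κ] {d' : κ → ℤ}
    (h0 : d' default = 0) {z : κ → Cob N a} (hz : z ∈ BQ p 0 d' ω q a) {F : ι → Cob N b}
    (hF : F ∈ ZC p θ d w q b) : lc ι h (z default) F ∈ BQ p θ d (ω + w) q n := by
  obtain ⟨e, he, u, hu, rfl⟩ := mem_BQ.1 hz
  have h1 : ∀ {k : ℕ} {y : κ → Cob N k}, y ∈ CW p N d' ω k →
      Cob.IsWt (((p : ℤ) - 1) * ω) (y default) := fun hy => by simpa [h0] using hy default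
  rw [Pi.add_apply, map_add, AddMonoidHom.add_apply, Pi.smul_apply, map_nsmul]
  refine add_mem ?_ (AddSubgroup.mem_sup_right (mem_QW.2 ⟨_, lc_mem_CW h (h1 hu) hF.1, rfl⟩))
  rcases a with _ | a
  · rw [AddSubgroup.mem_bot.1 he, Pi.zero_apply, map_zero]
    exact zero_mem _
  · obtain ⟨y, hy, rfl⟩ := he
    rw [DD_zero]
    exact lc_d_mem_BQ hθ h (h1 hy) hF

omit hw in
/-- graded commutativity for the sphere -/
theorem lc_comm [Unique ι] (h0 : d default = 0) (h : a + b = n) (h' : b + a = n)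
    {x : ι → Cob N a} (hx : x ∈ ZC p 0 d ω q a) {y : ι → Cob N b} (hy : y ∈ ZC p 0 d w q b) :
    lc ι h (x default) y - ((-1 : ℤ) ^ (a * b)) • lc ι h' (y default) x ∈ BQ p 0 d (ω + w) q n := by
  obtain ⟨h1, c, hc, h2⟩ := mem_ZC.1 hx
  have h3 := lc_sub_rc (θ := 0) (fun _ _ => Cob.isWt_zero _) mc_zero h h' (ω := ω)
    (t := x default) (t' := c default) (by simpa [h0] using h1 default)
    (by simpa [h0] using hc default) (by rw [← DD_zero, ← h2]; rfl) hy
  rwa [add_comm, show rc 0 h' y (x default) = lc ι h' (y default) x from funext fun i => by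
    rw [rc_zero, lc_apply, Subsingleton.elim i default]] at h3

end Vale.Agent.P236EL

end
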