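import Vale.Agent.P236EL.Sm

/-!
# P236EL / Cup : cup products on the left
-/

noncomputable section

namespace Vale.Agent.P236EL

open MvPolynomial Ch

variable {p : ℕ} [hp : Fact p.Prime] {L : Type} [CommRing L]

omit hp in
theorem add_mono (m : ℕ) : Monotone fun k : ℕ => m + k := fun _ _ h => Nat.add_le_add_left h m

variable (p L) in
/-- forget the first `m` arrows -/
def sh (m : ℕ) : CC L →+* CC L := pb p L fun k => m + k

theorem sh_zero (F : CC L) : sh p L 0 F = F := by
  rw [sh, show (fun k => 0 + k) = id from funext fun k => Nat.zero_add k, pb_id]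

theorem sh_sh (m n : ℕ) (F : CC L) : sh p L m (sh p L n F) = sh p L (m + n) F := by
  rw [sh, sh, pb_pb (add_mono m) (add_mono n), sh]
  congr 2
  funext k
  exact (add_assoc _ _ _).symm

theorem sh_pt (m k : ℕ) (a : AA L) : sh p L m ((univ L).pt p k a) = (univ L).pt p (m + k) a :=
  pb_pt (add_mono m) k a

theorem sh_arr (m k : ℕ) (g : GG L) : sh p L m ((univ L).arr p k g) = (univ L).arr p (m + k) g :=
  pb_arr (add_mono m) rfl g

theorem fc_sh_le {j m : ℕ} (h : j ≤ m) (F : CC L) : fc p L j (sh p L m F) = sh p L (m + 1) F := by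
  rw [fc, sh, sh, pb_pb (sa_mono j) (add_mono m)]
  congr 2
  funext k
  simp only [Function.comp, sa]
  split_ifs <;> omega

theorem fc_sh (m j : ℕ) (F : CC L) : fc p L (m + j) (sh p L m F) = sh p L m (fc p L j F) := by
  rw [fc, fc, sh, pb_pb (sa_mono _) (add_mono m), pb_pb (add_mono m) (sa_mono _)]
  congr 2
  funext k
  simp only [Function.comp, sa]
  split_ifs <;> omega

theorem sg_sh (m j : ℕ) (F : CC L) : sg p L (m + j) (sh p L m F) = sh p L m (sg p L j F) := by
  rw [sg, sg, sh, pb_pb (dg_mono _) (add_mono m), pb_pb (add_mono m) (dg_mono _)]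
  congr 2
  funext k
  simp only [Function.comp, dg]
  split_ifs <;> omega

theorem itg_sh (m n : ℕ) (r : (ℕ →₀ ℕ) → AA L) (F : CC L) :
    itg p (m + n) r (sh p L m F) = sh p L m (itg p n r F) :=
  itg_pb (add_mono m) (n := n) (Nat.lt_succ_self _) r F

theorem sg_of_Loc {n j : ℕ} {F : CC L} (hF : F ∈ Loc p L n) (h : n ≤ j) : sg p L j F = F := by
  rw [sg, pb_congr_Loc hF (dg_mono j) monotone_id fun k hk => if_pos (by omega), pb_id]

theorem alt_mul_sh {m : ℕ} {θ : CC L} (hθ : θ ∈ Loc p L m) (s : ℕ) (F : CC L) :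
    alt p L (m + s + 1) (θ * sh p L m F) = alt p L (m + 2) θ * sh p L (m + 1) F +
      ((-1 : ℤ) ^ m) • (θ * sh p L m (alt p L (s + 1) F)) := by
  induction s with
  | zero =>
    have h1 : alt p L (m + 1) (θ * sh p L m F) = alt p L (m + 1) θ * sh p L (m + 1) F := by
      rw [alt_apply, alt_apply, Finset.sum_mul]
      refine Finset.sum_congr rfl fun j hj => ?_
      rw [map_mul, fc_sh_le (by have := Finset.mem_range.1 hj; omega), smul_mul_assoc]
    rw [h1, alt_succ (m + 1), alt_succ 0, alt_zero, fc_of_Loc hθ (Nat.lt_succ_self m), zero_add,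
      pow_zero, one_smul, ← fc_sh, fc_sh_le (by omega), pow_succ]
    simp [add_mul, mul_assoc]
  | succ s ih =>
    rw [← add_assoc, alt_succ, ih, alt_succ (s + 1), map_mul, fc_of_Loc hθ (by omega), add_assoc m,
      fc_sh, map_add, map_zsmul, mul_add, smul_add, mul_smul_comm, smul_smul, ← pow_add, add_assoc]

variable (p) in
/-- the cup product -/
def cup (ι : Type) (m : ℕ) (θ : CC L) : (ι → CC L) →+ (ι → CC L) :=
  pw ι ((AddMonoidHom.mulLeft θ).comp (sh p L m).toAddMonoidHom)

theorem cup_apply {ι : Type} (m : ℕ) (θ : CC L) (F : ι → CC L) (i : ι) :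
    cup p ι m θ F i = θ * sh p L m (F i) := rfl

theorem cup_add {ι : Type} (m : ℕ) (θ θ' : CC L) (F : ι → CC L) :
    cup p ι m (θ + θ') F = cup p ι m θ F + cup p ι m θ' F := funext fun _ => add_mul _ _ _

theorem cup_sub {ι : Type} (m : ℕ) (θ θ' : CC L) (F : ι → CC L) :
    cup p ι m (θ - θ') F = cup p ι m θ F - cup p ι m θ' F := funext fun _ => sub_mul _ _ _

theorem cup_zero {ι : Type} (m : ℕ) (F : ι → CC L) : cup p ι m 0 F = 0 :=
  funext fun i => zero_mul (sh p L m (F i))

theorem cup_cup {ι : Type} (m n : ℕ) (θ θ' : CC L) (F : ι → CC L) :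
    cup p ι m θ (cup p ι n θ' F) = cup p ι (m + n) (θ * sh p L m θ') F := by
  funext i
  rw [cup_apply, cup_apply, cup_apply, map_mul, sh_sh, mul_assoc]

theorem cup_mem_ZW {ι : Type} {K K' : Ideal (AA L)} (hK' : Inv p K') (m : ℕ) {θ : CC L}
    (hθ : θ ∈ Fil p K) {F : ι → CC L} (hF : F ∈ ZW p ι K') : cup p ι m θ F ∈ ZW p ι (K * K') :=
  fun i => by
    rw [Fil_mul]
    exact Ideal.mul_mem_mul hθ (pb_mem_Fil hK' (add_mono m) (hF i))

theorem cup_mem_PW {ι : Type} {K K' : Ideal (AA L)} (hK' : Inv p K') {m : ℕ} {θ : CC L} {ω : ℤ}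
    (h1 : θ ∈ Loc p L m) (h2 : θ ∈ WC p L ω) (h3 : θ ∈ Fil p K) {d : ι → ℤ} {w : ℤ} {s : ℕ}
    {F : ι → CC L} (hF : F ∈ PW p d w K' s) : cup p ι m θ F ∈ PW p d (ω + w) (K * K') (m + s) :=
  fun i => ⟨mul_mem (Loc_mono (Nat.le_add_right m s) h1) (pb_mem_Loc (hF i).1 (add_mono m) le_rfl),
    by
      rw [add_sub_assoc]
      exact SetLike.mul_mem_graded h2 (pb_mem_WC _ (hF i).2.1),
    cup_mem_ZW hK' m h3 (fun i => (hF i).2.2) i⟩

theorem tw_cup {ι κ : Type} [Fintype ι] {m : ℕ} {θ : CC L} (hθ : θ ∈ Loc p L m) (s : ℕ)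
    (g : ι → κ → GG L) (F : ι → CC L) :
    tw p (m + s) g (cup p ι m θ F) = cup p κ m θ (tw p s g F) := by
  funext k
  rw [tw_apply, cup_apply, tw_apply, map_sum, Finset.mul_sum]
  refine Finset.sum_congr rfl fun i _ => ?_
  rw [cup_apply, map_mul, map_mul, fc_of_Loc hθ (by omega), add_assoc, fc_sh, sh_arr, mul_assoc]

/-- the Leibniz rule -/
theorem cD_cup {ι : Type} [Fintype ι] {m : ℕ} {θ : CC L} (hθ : θ ∈ Loc p L m) (s : ℕ)
    (th : ι → ι → GG L) (F : ι → CC L) :
    cD p th (m + s) (cup p ι m θ F) = cup p ι (m + 1) (alt p L (m + 2) θ) F +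
      ((-1 : ℤ) ^ m) • cup p ι m θ (cD p th s F) := by
  funext c
  rw [cD_apply, tw_cup hθ, cup_apply, alt_mul_sh hθ, Pi.add_apply, Pi.smul_apply, cup_apply,
    cup_apply, cup_apply, cD_apply, map_add, map_zsmul, mul_add, smul_add, mul_smul_comm, smul_smul,
    ← pow_add, add_assoc, add_assoc]

theorem zig_comm {E : ℕ → Type} [∀ q, AddCommGroup (E q)] (f : ℕ → (q : ℕ) → E q →+ E (q + 1))
    (g : (q : ℕ) → E q → E q) (m : ℕ) (h : ∀ n q x, f (m + n) q (g q x) = g (q + 1) (f n q x))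
    (n q s s' : ℕ) (h1 : q + n = s) (h2 : s + m = s') (x : E q) :
    zig f (m + n) q s' (by omega) (g q x) = zig f m s s' h2 (g s (zig f n q s h1 x)) := by
  induction n generalizing q with
  | zero =>
    obtain rfl : q = s := h1
    rfl
  | succ n ih =>
    rw [zig_succ, ← ih]
    exact congrArg (zig f (m + n) (q + 1) s' (by omega)) (h n q x)

namespace Rs

variable {G : ℕ → Type} [∀ q, Fintype (G q)] (R : Rs p L G)

theorem st_succ (n q : ℕ) (x : G (q + 1) → CC L) (w' : G (q + 2)) :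
    R.st n (q + 1) x w' = ∑ w, itg p n (R.y q w w') (x w) := by
  change sg p L n (∑ w, par p (n + 1) (R.y q w w') (x w)) = _
  simp only [map_sum, sg_par]

theorem st_cup {m : ℕ} {θ : CC L} (hθ : θ ∈ Loc p L m) (n q : ℕ) (x : G q → CC L) :
    R.st (m + n) q (cup p _ m θ x) = cup p _ m θ (R.st n q x) := by
  funext w'
  rcases q with _ | q
  · change sg p L (m + n) (tw p (m + n) R.e (cup p _ m θ x) w') =
      θ * sh p L m (sg p L n (tw p n R.e x w'))
    rw [tw_cup hθ, cup_apply, map_mul, sg_of_Loc hθ (Nat.le_add_right m n), sg_sh]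
  · rw [st_succ, cup_apply, st_succ, map_sum, Finset.mul_sum]
    refine Finset.sum_congr rfl fun w _ => ?_
    rw [cup_apply, itg_mul (Loc_mono (Nat.le_add_right m n) hθ), itg_sh]

/-- the action of a cochain of degree `m` on the small complex -/
def star (m q s : ℕ) (h : q + m = s) (θ : CC L) : (G q → AA L) →+ (G s → AA L) :=
  (down _).comp ((R.TT m q s h).comp ((cup p _ m θ).comp (up p _)))

theorem star_apply (m q s : ℕ) (h : q + m = s) (θ : CC L) (u : G q → AA L) :
    R.star m q s h θ u = down _ (R.TT m q s h (cup p _ m θ (up p _ u))) := rfl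

variable {R}

theorem Phi_cup {m : ℕ} {θ : CC L} (hθ : θ ∈ Loc p L m) {s : ℕ} {w : ℤ} {x : G 0 → CC L}
    (hx : x ∈ PW p (R.deg 0) w ⊤ s) :
    R.Phi (m + s) (cup p _ m θ x) = R.star m (s + 1) (m + s + 1) (by omega) θ (R.Phi s x) := by
  rw [star_apply, up_Phi inv_top hx, Phi_apply]
  exact congrArg (down _) (zig_comm (E := fun q => G q → CC L) R.st (fun q => cup p (G q) m θ) m
    (R.st_cup hθ) (s + 1) 0 (s + 1) (m + s + 1) (by omega) (by omega) x)

variable (R)

theorem star_add (m q s : ℕ) (h : q + m = s) (θ θ' : CC L) (u : G q → AA L) :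
    R.star m q s h (θ + θ') u = R.star m q s h θ u + R.star m q s h θ' u := by
  rw [star_apply, cup_add, map_add, map_add, star_apply, star_apply]

theorem star_sub (m q s : ℕ) (h : q + m = s) (θ θ' : CC L) (u : G q → AA L) :
    R.star m q s h (θ - θ') u = R.star m q s h θ u - R.star m q s h θ' u := by
  rw [star_apply, cup_sub, map_sub, map_sub, star_apply, star_apply]

theorem star_zero' (m q s : ℕ) (h : q + m = s) (u : G q → AA L) : R.star m q s h 0 u = 0 := by
  rw [star_apply, cup_zero, map_zero, map_zero]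

theorem star_sum {ι : Type*} (t : Finset ι) (m q s : ℕ) (h : q + m = s) (θ : ι → CC L)
    (u : G q → AA L) : R.star m q s h (∑ i ∈ t, θ i) u = ∑ i ∈ t, R.star m q s h (θ i) u := by
  classical
  induction t using Finset.induction_on with
  | empty => rw [Finset.sum_empty, Finset.sum_empty, star_zero']
  | insert i t hi ih => rw [Finset.sum_insert hi, Finset.sum_insert hi, star_add, ih]

theorem star_mem_ZA {K K' : Ideal (AA L)} (hK : Inv p K) (hK' : Inv p K') (m q s : ℕ)
    (h : q + m = s) {θ : CC L} (hθ : θ ∈ Fil p K) {u : G q → AA L} (hu : u ∈ ZA _ K') :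
    R.star m q s h θ u ∈ ZA _ (K * K') :=
  down_mem_ZA ((R.dc 0 (hK.mul hK') (hK.mul hK')).TZ m q s h (cup_mem_ZW hK' m hθ (up_mem_ZW hu)))

theorem star_pt (q : ℕ) (h : q + 0 = q) (a : AA L) (u : G q → AA L) :
    R.star 0 q q h ((univ L).pt p 0 a) u = fun i => a * u i := by
  funext i
  change (cst L).ev ((univ L).pt p 0 a * sh p L 0 ((univ L).pt p 0 (u i))) = _
  rw [sh_zero, map_mul, cst_ev_pt, cst_ev_pt]

/-- the twisted differential `u ↦ φ (g * η_R u)` -/
def dl (q : ℕ) (g : GG L) (u : G (q + 1) → AA L) : G (q + 2) → AA L :=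
  fun w' => ∑ w, rAp (RingHom.id _) (R.y q w w') (g * etaR p L (u w))

theorem star_succ {m : ℕ} {θ : CC L} (hθ : θ ∈ Loc p L m) (q s : ℕ) (h : q + 1 + (m + 1) = s)
    (g : GG L) (u : G (q + 1) → AA L) :
    R.star (m + 1) (q + 1) s h (θ * (univ L).arr p m g) u =
      R.star m (q + 2) s (by omega) θ (R.dl q g u) := by
  rw [star_apply, star_apply, TT, zig_succ]
  congr 2
  funext w'
  rw [st_succ, cup_apply, up_apply, sh_pt, dl, map_sum, Finset.mul_sum]
  refine Finset.sum_congr rfl fun w _ => ?_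
  rw [cup_apply, up_apply, sh_pt, mul_assoc, itg_mul hθ, add_zero, ← arr_etaR, ← map_mul, itg_arr,
    add_zero]

theorem sg_arr (n : ℕ) (g : GG L) :
    sg p L n ((univ L).arr p n g) = (univ L).pt p n (constantCoeff g) := by
  have h0 : dg n n = n := if_pos le_rfl
  have h1 : dg n (n + 1) = n := if_neg (by omega)
  have h : ((univ L).res p (dg n)).arr p n = ((univ L).pt p n).comp constantCoeff := by
    refine ringHom_ext (fun a => by simp [pt_res (dg_mono n), h0]) fun i => ?_
    rw [arr_X]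
    change (univ L).seg p (dg n n) (dg n (n + 1)) i = _
    rw [h0, h1, seg_self]
    simp
  rw [sg, pb, ev_arr, h]
  rfl

theorem Phi_zero (u : G 0 → AA L) (w : G 1) :
    R.Phi 0 (up p _ u) w = ∑ c, u c * constantCoeff (R.e c w) := by
  change (cst L).ev (sg p L 0 (tw p 0 R.e (up p _ u) w)) = _
  simp only [tw_apply, map_sum, map_mul, sg_fc_succ, sg_arr, up_apply, cst_ev_pt]

/-- the comparison map on a cochain supported on explicit cells -/
theorem Phi_cup_up {m : ℕ} {θ : CC L} (hθ : θ ∈ Loc p L m) (u : G 0 → AA L) :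
    R.Phi m (cup p _ m θ (up p _ u)) = R.star m 1 (m + 1) (by omega) θ
      fun w => ∑ c, u c * constantCoeff (R.e c w) := by
  rw [← funext (R.Phi_zero u), star_apply, Phi_apply, Phi_apply, up_down]
  · exact congrArg (down _) (zig_comm (E := fun q => G q → CC L) R.st (fun q => cup p (G q) m θ) m
      (R.st_cup hθ) 1 0 1 (m + 1) (by omega) (by omega) _)
  · intro w
    change sg p L 0 (tw p 0 R.e (up p _ u) w) ∈ _
    simp only [tw_apply, map_sum, map_mul, sg_fc_succ, sg_arr, up_apply]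
    exact sum_mem fun c _ => mul_mem (pt_mem_Loc 0 _) (pt_mem_Loc 0 _)

end Rs

end Vale.Agent.P236EL

end
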