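import Vale.Agent.P236EL.Cmp

/-!
# P236EL / Sm : the small complex and the comparison theorem
-/

noncomputable section

namespace Vale.Agent.P236EL

open MvPolynomial Ch

variable {p : ℕ} [hp : Fact p.Prime] {L : Type} [CommRing L]

variable (L) in
/-- the constant chain -/
def cst : Ch L (AA L) := ⟨C, X, fun _ _ => 0⟩

theorem cst_pt (k : ℕ) : (cst L).pt p k = RingHom.id _ := by
  have h : ∀ k, (cst L).vtx p k = X := by
    intro k
    induction k with
    | zero => rfl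
    | succ k ih => rw [vtx, ih]; exact tg_zero p _
  exact ringHom_ext (fun a => by simp [cst]) fun i => by simp [h]

theorem cst_ev_pt (k : ℕ) (a : AA L) : (cst L).ev ((univ L).pt p k a) = a := by
  rw [ev_pt, cst_pt, RingHom.id_apply]

theorem pt_cst_ev {F : CC L} (hF : F ∈ Loc p L 0) : (univ L).pt p 0 ((cst L).ev F) = F := by
  rw [← ev_map, ev_congr_Loc hF (c' := univ L), ev_univ]
  exact ⟨RingHom.ext fun a => by simp [Ch.map, cst], funext fun i => by simp [Ch.map, cst, vtx],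
    fun k hk => absurd hk (Nat.not_lt_zero k)⟩

omit hp in
theorem grCh_cst : GrCh p (WA p L) (cst L) :=
  ⟨fun a => isWeightedHomogeneous_C _ a, fun i => isWeightedHomogeneous_X L _ i,
    fun _ _ => zero_mem _⟩

theorem cst_ev_mem {K : Ideal (AA L)} {F : CC L} (hF : F ∈ Fil p K) : (cst L).ev F ∈ K := by
  have h := ev_mem_map (cst L) hF
  rwa [cst_pt, Ideal.map_id] at h

variable (p) in
/-- small cochains of weight `w` and filtration `K` -/
def PA {ι : Type} (d : ι → ℤ) (w : ℤ) (K : Ideal (AA L)) : AddSubgroup (ι → AA L) where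
  carrier := {u | ∀ i, u i ∈ WA p L (w - d i) ∧ u i ∈ K}
  zero_mem' _ := ⟨zero_mem _, zero_mem _⟩
  add_mem' ha hb i := ⟨add_mem (ha i).1 (hb i).1, add_mem (ha i).2 (hb i).2⟩
  neg_mem' ha i := ⟨neg_mem (ha i).1, neg_mem (ha i).2⟩

/-- small cochains of filtration `K` -/
def ZA (ι : Type) (K : Ideal (AA L)) : AddSubgroup (ι → AA L) where
  carrier := {u | ∀ i, u i ∈ K}
  zero_mem' _ := zero_mem _
  add_mem' ha hb i := add_mem (ha i) (hb i)
  neg_mem' ha i := neg_mem (ha i)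

variable (p) in
/-- small cochains as functions on chains -/
def up (ι : Type) : (ι → AA L) →+ (ι → CC L) := pw ι ((univ L).pt p 0).toAddMonoidHom

/-- restriction to the constant chain -/
def down (ι : Type) : (ι → CC L) →+ (ι → AA L) := pw ι (cst L).ev.toAddMonoidHom

theorem up_apply {ι : Type} (u : ι → AA L) (i : ι) : up p ι u i = (univ L).pt p 0 (u i) := rfl

omit hp in
theorem down_apply {ι : Type} (F : ι → CC L) (i : ι) : down ι F i = (cst L).ev (F i) := rfl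

theorem down_up {ι : Type} (u : ι → AA L) : down ι (up p ι u) = u :=
  funext fun i => cst_ev_pt 0 (u i)

theorem up_down {ι : Type} {F : ι → CC L} (hF : ∀ i, F i ∈ Loc p L 0) :
    up p ι (down ι F) = F := by
  funext i
  rw [up_apply, down_apply, pt_cst_ev (hF i)]

theorem up_mem_PW {ι : Type} {d : ι → ℤ} {w : ℤ} {K : Ideal (AA L)} {u : ι → AA L}
    (hu : u ∈ PA p d w K) : up p ι u ∈ PW p d w K 0 := fun i =>
  ⟨pt_mem_Loc 0 _, grCh_univ.pt 0 _ _ (hu i).1, Ideal.mem_map_of_mem _ (hu i).2⟩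

theorem up_mem_ZW {ι : Type} {K : Ideal (AA L)} {u : ι → AA L} (hu : u ∈ ZA ι K) :
    up p ι u ∈ ZW p ι K := fun i => Ideal.mem_map_of_mem _ (hu i)

theorem down_mem_PA {ι : Type} {d : ι → ℤ} {w : ℤ} {K : Ideal (AA L)} {n : ℕ} {F : ι → CC L}
    (hF : F ∈ PW p d w K n) : down ι F ∈ PA p d w K := fun i =>
  ⟨grCh_cst.ev (hF i).2.1, cst_ev_mem (hF i).2.2⟩

theorem down_mem_ZA {ι : Type} {K : Ideal (AA L)} {F : ι → CC L} (hF : F ∈ ZW p ι K) :
    down ι F ∈ ZA ι K := fun i => cst_ev_mem (hF i)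

theorem PW_mono {ι : Type} {d : ι → ℤ} {w : ℤ} {K K' : Ideal (AA L)} (h : K ≤ K') {n : ℕ}
    {F : ι → CC L} (hF : F ∈ PW p d w K n) : F ∈ PW p d w K' n := fun i =>
  ⟨(hF i).1, (hF i).2.1, Fil_mono h (hF i).2.2⟩

theorem PW_of_ZW {ι : Type} {d : ι → ℤ} {w : ℤ} {K K' : Ideal (AA L)} {n : ℕ}
    {F : ι → CC L} (hF : F ∈ PW p d w K n) (hF' : F ∈ ZW p ι K') : F ∈ PW p d w K' n := fun i =>
  ⟨(hF i).1, (hF i).2.1, hF' i⟩

variable (p) in
/-- the cocycle condition for a coaction matrix -/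
def Coc {ι : Type} [Fintype ι] (th : ι → ι → GG L) : Prop :=
  ∀ c c'', Del p L (th c c'') = ∑ c', C (th c c') * map (etaR p L) (th c' c'')

theorem cD_cD {ι : Type} [Fintype ι] {th : ι → ι → GG L} (h : Coc p th) (s : ℕ) (F : ι → CC L) :
    cD p th (s + 1) (cD p th s F) = 0 := by
  funext c
  rw [cD_apply, tw_cD s h, pw_apply, cD_apply, map_add, alt_alt, map_zsmul, pow_succ _ (s + 1)]
  simp

namespace Rs

variable {G : ℕ → Type} [∀ q, Fintype (G q)] (R : Rs p L G)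

/-- the differential of the small complex -/
def sd : (q : ℕ) → (G q → AA L) →+ (G (q + 1) → AA L)
  | 0 => 0
  | q + 1 => mat fun w w' =>
      (rAp (RingHom.id _) (R.y q w w')).toAddMonoidHom.comp (etaR p L).toAddMonoidHom

theorem sd_apply (q : ℕ) (u : G (q + 1) → AA L) (w' : G (q + 2)) :
    R.sd (q + 1) u w' = ∑ w, rAp (RingHom.id _) (R.y q w w') (etaR p L (u w)) := rfl

theorem dd_up (q : ℕ) (u : G q → AA L) : R.dd 0 q (up p _ u) = up p _ (R.sd q u) := by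
  rcases q with _ | q
  · exact (map_zero _).symm
  · funext w'
    change ∑ w, par p 0 (R.y q w w') ((univ L).pt p 0 (u w)) = (univ L).pt p 0 (R.sd (q + 1) u w')
    simp only [par_pt, sd_apply, map_sum]

/-- one step of the comparison map -/
def st (n q : ℕ) : (G q → CC L) →+ (G (q + 1) → CC L) :=
  (pw (G (q + 1)) (sg p L n).toAddMonoidHom).comp (R.dd (n + 1) q)

/-- iterated integration -/
def TT (n q s : ℕ) (h : q + n = s) : (G q → CC L) →+ (G s → CC L) :=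
  zig (E := fun q => G q → CC L) R.st n q s h

/-- the comparison map from cobar cochains of degree `s` to the small complex -/
def Phi (s : ℕ) : (G 0 → CC L) →+ (G (s + 1) → AA L) :=
  (down _).comp (R.TT (s + 1) 0 (s + 1) (by omega))

theorem Phi_apply (s : ℕ) (F : G 0 → CC L) :
    R.Phi s F = down _ (R.TT (s + 1) 0 (s + 1) (by omega) F) := rfl

variable {R} {F : Type} [Field F] {π : L →+* F} {Q : ℕ} {T : ℤ} {r : ℕ} {w : ℤ}
  {K K' : Ideal (AA L)}

theorem TT_mem (hK : Inv p K) {s : ℕ} {x : G 0 → CC L} (hx : x ∈ PW p (R.deg 0) w K s) :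
    R.TT (s + 1) 0 (s + 1) (by omega) x ∈ PW p (R.deg (s + 1)) w K 0 :=
  (R.dc w hK hK).TW (s + 1) 0 (s + 1) (by omega) hx

theorem up_Phi (hK : Inv p K) {s : ℕ} {x : G 0 → CC L} (hx : x ∈ PW p (R.deg 0) w K s) :
    up p _ (R.Phi s x) = R.TT (s + 1) 0 (s + 1) (by omega) x :=
  up_down fun i => (TT_mem hK hx i).1

theorem Phi_mem (hK : Inv p K) {s : ℕ} {x : G 0 → CC L} (hx : x ∈ PW p (R.deg 0) w K s) :
    R.Phi s x ∈ PA p (R.deg (s + 1)) w K := down_mem_PA (TT_mem hK hx)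

theorem Phi_mem_ZA (hK : Inv p K) (s : ℕ) {x : G 0 → CC L} (hx : x ∈ ZW p (G 0) K) :
    R.Phi s x ∈ ZA _ K := down_mem_ZA ((R.dc 0 hK hK).TZ (s + 1) 0 (s + 1) (by omega) hx)

theorem up_mem_WW {q : ℕ} {u : G q → AA L} (hu : u ∈ PA p (R.deg q) w K) :
    up p _ u ∈ R.WW w K 0 q := by
  cases q <;> exact up_mem_PW hu

theorem down_mem_of_WW {q : ℕ} {u : G q → CC L} (hu : u ∈ R.WW w K 0 q) :
    down _ u ∈ PA p (R.deg q) w K ∧ up p _ (down _ u) = u := by
  cases q <;> exact ⟨down_mem_PA hu, up_down fun i => (hu i).1⟩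

/-- `Phi` is a chain map modulo the curvature -/
theorem Phi_chain {KR : Ideal (AA L)} (hR : Inv p KR) {s : ℕ} (h1 : R.K1 KR (s + 1) T)
    (hw : w ≤ T) (hK : Inv p K) {x : G 0 → CC L} (hx : x ∈ PW p (R.deg 0) w K s) :
    R.Phi (s + 1) (cD p R.th s x) - R.sd (s + 1) (R.Phi s x) ∈ ZA _ (K * KR) := by
  have h := down_mem_ZA (DC.chain (R.sq_dc hR h1 hw hK (hK.mul hR) le_rfl) (s + 1) 0 (by omega) hx)
  rw [← down_up (p := p) (R.sd (s + 1) (R.Phi s x)), ← dd_up, up_Phi hK hx, Phi_apply, ← map_sub]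
  exact h

/-- all the hypotheses on the resolution -/
structure Ok (R : Rs p L G) (π : L →+* F) (r Q : ℕ) (T : ℤ) : Prop where
  surj : Function.Surjective π
  ker : RingHom.ker π ≤ Ideal.span {(p : L)}
  k1 : R.K1 (II p L ^ r) Q T
  k2 : R.K2 π Q T

theorem Ok.mono {Q' : ℕ} {T' : ℤ} (h : R.Ok π r Q T) (hQ : Q' ≤ Q) (hT : T' ≤ T) :
    R.Ok π r Q' T' :=
  ⟨h.surj, h.ker, ⟨h.k1.aug, fun q hq w w'' E hE => h.k1.sq q (by omega) w w'' E (by omega)⟩,
    h.k2.inj, fun e he => h.k2.aug e (by omega), fun q hq e he => h.k2.ex q (by omega) e (by omega)⟩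

/-- `Phi` is injective on the cohomology of a window -/
theorem Phi_inj {s : ℕ} (h : R.Ok π r s T) (hw : w ≤ T) (hK : Inv p K) (hK' : Inv p K')
    (hKK : K * II p L ^ r ≤ K') {x : G 0 → CC L} (hx : x ∈ PW p (R.deg 0) w K s)
    (h1 : cD p R.th s x ∈ ZW p _ K') {u : G s → AA L} (hu : u ∈ PA p (R.deg s) w K)
    (h2 : R.Phi s x - R.sd s u ∈ ZA _ K') :
    ∃ y ∈ PW p (R.deg 0) w K (s - 1), x - R.dv s 0 y ∈ ZW p _ K' := by
  refine DC.inj (R.sq_dc (inv_II.pow r) h.k1 hw hK hK' hKK)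
    (ex_dc h.surj h.ker h.k1 h.k2 hw hK hK' hKK) (in_dc h.surj h.ker h.k2 hK hK' hKK) hx h1
    (up_mem_WW hu) ?_
  have h3 := up_mem_ZW (p := p) h2
  rw [map_sub, up_Phi hK hx, ← dd_up] at h3
  exact h3

/-- `Phi` is surjective on the cohomology of a window -/
theorem Phi_surj {s : ℕ} (h : R.Ok π r (s + 1) T) (hw : w ≤ T) (hK : Inv p K) (hK' : Inv p K')
    (hKK : K * II p L ^ r ≤ K') {u : G (s + 1) → AA L} (hu : u ∈ PA p (R.deg (s + 1)) w K)
    (h1 : R.sd (s + 1) u ∈ ZA _ K') :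
    ∃ x ∈ PW p (R.deg 0) w K s, cD p R.th s x ∈ ZW p _ K' ∧
      ∃ u' ∈ PA p (R.deg s) w K, R.Phi s x - u - R.sd s u' ∈ ZA _ K' := by
  obtain ⟨x, hx, h2, u', hu', h3⟩ := DC.surj
    ((R.sq_dc (inv_II.pow r) h.k1 hw hK hK' hKK).mono (Nat.le_succ s))
    (ex_dc h.surj h.ker h.k1 h.k2 hw hK hK' hKK) (in_dc h.surj h.ker h.k2 hK hK' hKK)
    (up_mem_WW hu) (by
      have h3 := up_mem_ZW (p := p) h1
      rw [← dd_up] at h3
      exact h3)
  obtain ⟨h4, h5⟩ := down_mem_of_WW hu'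
  refine ⟨x, hx, h2, _, h4, ?_⟩
  have h6 := down_mem_ZA h3
  rw [← h5] at h6
  change down _ (R.TT _ _ _ _ x - up p _ u - R.dd 0 s (up p _ _)) ∈ _ at h6
  rwa [dd_up, map_sub, map_sub, down_up, down_up] at h6

/-- the cone of `Phi` is exact in a window -/
theorem Phi_cone {s : ℕ} (h : R.Ok π r (s + 1) T) (hw : w ≤ T) (hK : Inv p K) (hK' : Inv p K')
    (hKK : K * II p L ^ r ≤ K') {x : G 0 → CC L} (hx : x ∈ PW p (R.deg 0) w K (s + 1))
    (h1 : cD p R.th (s + 1) x ∈ ZW p _ K') {u : G (s + 1) → AA L}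
    (hu : u ∈ PA p (R.deg (s + 1)) w K) (h2 : R.Phi (s + 1) x - R.sd (s + 1) u ∈ ZA _ K') :
    ∃ y ∈ PW p (R.deg 0) w K s, x - cD p R.th s y ∈ ZW p _ K' ∧
      ∃ u' ∈ PA p (R.deg s) w K, u - R.Phi s y - R.sd s u' ∈ ZA _ K' := by
  obtain ⟨y, hy, h2, u', hu', h3⟩ := DC.cone (R.sq_dc (inv_II.pow r) h.k1 hw hK hK' hKK)
    (ex_dc h.surj h.ker h.k1 h.k2 hw hK hK' hKK) (in_dc h.surj h.ker h.k2 hK hK' hKK) hx h1
    (up_mem_WW hu) (by
      have h3 := up_mem_ZW (p := p) h2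
      rw [map_sub, up_Phi hK hx, ← dd_up] at h3
      exact h3)
  obtain ⟨h4, h5⟩ := down_mem_of_WW hu'
  refine ⟨y, hy, h2, _, h4, ?_⟩
  have h6 := down_mem_ZA h3
  rw [← h5] at h6
  change down _ (up p _ u - R.TT _ _ _ _ y - R.dd 0 s (up p _ _)) ∈ _ at h6
  rwa [dd_up, map_sub, map_sub, down_up, down_up] at h6

theorem dv_mem (hK : Inv p K) {s : ℕ} {y : G 0 → CC L} (hy : y ∈ PW p (R.deg 0) w K (s - 1)) :
    R.dv s 0 y ∈ PW p (R.deg 0) w K s := by
  rcases s with _ | s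
  · exact zero_mem _
  · exact cD_mem_PW hK R.hth hy

theorem cD_dv (hc : Coc p R.th) (s : ℕ) (y : G 0 → CC L) : cD p R.th s (R.dv s 0 y) = 0 := by
  rcases s with _ | s
  · exact map_zero _
  · exact cD_cD hc s y

/-- the finite check at filtration `k` -/
def K3 (R : Rs p L G) (r s : ℕ) (w : ℤ) (𝒵 : AddSubgroup (G 0 → CC L)) (k : ℕ) : Prop :=
  ∀ u ∈ PA p (R.deg (s + 1)) w (II p L ^ k), R.sd (s + 1) u ∈ ZA _ (II p L ^ (k + r)) →
    ∃ y ∈ PA p (R.deg s) w (II p L ^ (k + 1 - r)), ∃ z ∈ 𝒵,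
      z ∈ PW p (R.deg 0) w (II p L ^ (k + 1 - r)) s ∧
        u - R.sd s y - R.Phi s z ∈ ZA _ (II p L ^ (k + 1))

/-- cocycles are spanned by `𝒵` modulo coboundaries and high filtration -/
theorem span_of_K3 {s : ℕ} (h : R.Ok π r (s + 1) T) (hr : 1 ≤ r) (hc : Coc p R.th) (hw : w ≤ T)
    {𝒵 : AddSubgroup (G 0 → CC L)} (h𝒵 : ∀ z ∈ 𝒵, cD p R.th s z = 0) {k₀ N : ℕ} (hN : k₀ ≤ N)
    (h3 : ∀ k, k₀ ≤ k → k < N → R.K3 r s w 𝒵 k) {x : G 0 → CC L}
    (hx : x ∈ PW p (R.deg 0) w (II p L ^ k₀) s) (hx' : cD p R.th s x = 0) :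
    ∃ y ∈ PW p (R.deg 0) w (II p L ^ (k₀ + 1 - r)) (s - 1), ∃ z ∈ 𝒵,
      x - R.dv s 0 y - z ∈ PW p (R.deg 0) w (II p L ^ N) s := by
  induction N, hN using Nat.le_induction with
  | base => exact ⟨0, zero_mem _, 0, zero_mem _, by simpa using hx⟩
  | succ k hk ih =>
    obtain ⟨y, hy, z, hz, h4⟩ := ih fun j hj hj' => h3 j hj (by omega)
    have h5 : cD p R.th s (x - R.dv s 0 y - z) = 0 := by
      rw [map_sub, map_sub, hx', cD_dv hc, h𝒵 z hz, sub_zero, sub_zero]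
    have h6 := Phi_chain (inv_II.pow r) h.k1 hw (inv_II.pow k) h4
    rw [h5, map_zero, zero_sub, neg_mem_iff, ← pow_add] at h6
    obtain ⟨u, hu, z', hz', h7, h8⟩ := h3 k hk (Nat.lt_succ_self k) _ (Phi_mem (inv_II.pow k) h4) h6
    have h9 := sub_mem (PW_mono (Ideal.pow_le_pow_right (by omega)) h4) h7
    obtain ⟨y', hy', h10⟩ := Phi_inj (h.mono (Nat.le_succ s) le_rfl) hw (inv_II.pow _)
      (inv_II.pow (k + 1)) (by rw [← pow_add]; exact Ideal.pow_le_pow_right (by omega)) h9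
      (by rw [map_sub, h5, h𝒵 z' hz', sub_zero]; exact zero_mem _) hu
      (by rwa [map_sub, sub_right_comm])
    refine ⟨y + y', add_mem hy (PW_mono (Ideal.pow_le_pow_right (by omega)) hy'), z + z',
      add_mem hz hz', ?_⟩
    have h11 := PW_of_ZW (sub_mem h9 (dv_mem (inv_II.pow _) hy')) h10
    rw [map_add]
    convert h11 using 1
    abel

end Rs

/-! ### the filtration is finite in each weight -/

omit hp in
theorem weight_wC_nonneg (m : (ℕ ⊕ ℕ × ℕ) →₀ ℕ) : 0 ≤ Finsupp.weight (wC p) m := by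
  rw [Finsupp.weight_apply, Finsupp.sum]
  exact Finset.sum_nonneg fun i _ => nsmul_nonneg
    (by rcases i with i | ⟨k, i⟩ <;> exact Int.natCast_nonneg _) _

variable (p L) in
/-- functions all of whose monomials have weight at least `j` -/
def Hi (j : ℕ) : Ideal (CC L) where
  carrier := {F | ∀ m, Finsupp.weight (wC p) m < j → coeff m F = 0}
  zero_mem' _ _ := rfl
  add_mem' ha hb m hm := by rw [coeff_add, ha m hm, hb m hm, add_zero]
  smul_mem' c F hF m hm := by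
    classical
    rw [smul_eq_mul, coeff_mul]
    refine Finset.sum_eq_zero fun ab hab => ?_
    rw [← Finset.HasAntidiagonal.mem_antidiagonal.1 hab, map_add] at hm
    rw [hF _ (by have := weight_wC_nonneg (p := p) ab.1; omega), mul_zero]

omit hp in
theorem Hi_mul (i j : ℕ) : Hi p L i * Hi p L j ≤ Hi p L (i + j) := by
  classical
  refine Ideal.mul_le.2 fun F hF F' hF' m hm => ?_
  rw [coeff_mul]
  refine Finset.sum_eq_zero fun ab hab => ?_
  rw [← Finset.HasAntidiagonal.mem_antidiagonal.1 hab, map_add] at hm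
  by_cases h : Finsupp.weight (wC p) ab.1 < i
  · rw [hF _ h, zero_mul]
  · rw [hF' _ (by push_cast at hm; omega), mul_zero]

omit hp in
theorem Hi_pow (j : ℕ) : Hi p L 1 ^ j ≤ Hi p L j := by
  induction j with
  | zero => exact fun F _ m hm => absurd (weight_wC_nonneg (p := p) m) (by simpa using hm)
  | succ j ih => exact (pow_succ _ j).trans_le ((Ideal.mul_mono_left ih).trans (Hi_mul j 1))

theorem Fil_II_le : Fil p (II p L) ≤ Ideal.span {(p : CC L)} ⊔ Hi p L 1 := by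
  rw [Fil, II, Ideal.map_span, Ideal.span_le]
  rintro _ ⟨a, rfl | ⟨i, rfl⟩, rfl⟩
  · rw [map_natCast]
    exact Ideal.mem_sup_left (Ideal.mem_span_singleton_self _)
  · refine Ideal.mem_sup_right fun m hm => ?_
    by_contra h
    have h1 := (grCh_univ (p := p) (L := L)).pt 0 _ _ (isWeightedHomogeneous_X L (wz p) i) h
    have h2 := wt_pos p i
    rw [wz] at h1
    omega

theorem coeff_mem_of_Fil {m j : ℕ} {w : ℤ} (hw : w < j) {F : CC L} (hF : F ∈ WC p L w)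
    (hF' : F ∈ Fil p (II p L ^ (m + j))) : F ∈ (Ideal.span {(p : L) ^ m}).map C := by
  rw [Fil, Ideal.map_pow] at hF'
  obtain ⟨a, ha, b, hb, rfl⟩ := Submodule.mem_sup.1
    (Ideal.sup_pow_add_le_pow_sup_pow (Ideal.pow_right_mono Fil_II_le _ hF'))
  rw [mem_map_C_iff]
  intro E
  by_cases h : coeff E (a + b) = 0
  · rw [h]
    exact zero_mem _
  · have h1 : a ∈ (Ideal.span {(p : L) ^ m}).map C := by
      rwa [Ideal.map_span, Set.image_singleton, map_pow, map_natCast, ← Ideal.span_singleton_pow]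
    rw [coeff_add, Hi_pow j hb E (by rw [hF h]; exact hw), add_zero]
    exact mem_map_C_iff.1 h1 E

theorem eq_zero_of_PW {ι : Type} {d : ι → ℤ} {w : ℤ} {m j n : ℕ} (hm : (p : L) ^ m = 0)
    (hw : ∀ i, w - d i < j) {F : ι → CC L} (hF : F ∈ PW p d w (II p L ^ (m + j)) n) : F = 0 := by
  funext i
  have h := coeff_mem_of_Fil (hw i) (hF i).2.1 (hF i).2.2
  rwa [hm, Ideal.span_singleton_zero, Ideal.map_bot, Ideal.mem_bot] at h

end Vale.Agent.P236EL

end
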