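import Vale.Agent.P236EL.Line
import Vale.Agent.P236K.EB

/-!
# P236EL / EA : the sphere, and the cohomology modulo three in degree two and weight `18`
-/

noncomputable section

namespace Vale.Agent.P236EL

open Vale.Agent.P251.F Vale.Agent.P251.F.F3 Vale.Agent.P257.H80 LawRing Vale.Agent.P251.I
open Vale.Agent.P236K Vale.Agent.P236Z.Det

section sph

variable {p : ℕ} {ι : Type} [Fintype ι] [Unique ι] {d : ι → ℤ} {w W : ℤ} {q s : ℕ}

theorem mem_ZC_sph (h0 : d default = 0) (hW : W = ((p : ℤ) - 1) * w) {y : Cob Laz s} :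
    (fun _ => y) ∈ ZC p (0 : ι → ι → Cob Laz 1) d w q s ↔
      Cob.IsWt W y ∧ (q : Cob Laz (s + 1)) ∣ Cob.d s y := by
  have h1 : ∀ c, ((p : ℤ) - 1) * (w - d c) = W := fun c => by
    rw [Subsingleton.elim c default, h0, sub_zero, hW]
  constructor
  · rintro ⟨h2, c, -, h3⟩
    refine ⟨h1 default ▸ h2 default, c default, ?_⟩
    rw [← nsmul_eq_mul, ← DD_zero (fun _ : ι => y) default]
    exact (congrFun h3 default).symm
  · rintro ⟨h2, c, h3⟩
    have h4 : (fun _ => y) ∈ CW p Laz d w s := fun c => (h1 c).symm ▸ h2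
    refine mem_ZC'.2 ⟨h4, mem_QW_of_rq (DD_mem_CW (fun _ _ => Cob.isWt_zero _) h4) fun c' => ?_⟩
    rw [DD_zero]
    exact rq_eq_zero_iff.2 ⟨c, by rw [h3, nsmul_eq_mul]⟩

theorem of_mem_BQ_sph (h0 : d default = 0) (hW : W = ((p : ℤ) - 1) * w) {x : ι → Cob Laz (s + 1)}
    (h : x ∈ BQ p (0 : ι → ι → Cob Laz 1) d w q (s + 1)) :
    ∃ y, Cob.IsWt W y ∧ (q : Cob Laz (s + 1)) ∣ x default - Cob.d s y := by
  obtain ⟨y, hy, u, -, rfl⟩ := mem_BQ_succ.1 h
  refine ⟨y default, ?_, u default, ?_⟩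
  · have h1 := hy default
    rwa [h0, sub_zero, ← hW] at h1
  · rw [Pi.add_apply, DD_zero, add_sub_cancel_left, Pi.smul_apply, nsmul_eq_mul]

end sph

theorem three_dvd_d_Bt {t : Cob Laz 1} (ht : IsT1 3 t) (j : ℕ) :
    (3 : Cob Laz 3) ∣ Cob.d 2 (Bt t j) := by
  obtain ⟨r, hr⟩ := d_t1_pow ht j
  have h1 := congrArg (Cob.d 2) hr
  rw [Cob.d_d, show -3 * Bt t j + 9 * r = (3 : ℕ) • ((3 : ℕ) • r - Bt t j) by ring, map_nsmul,
    map_sub, map_nsmul] at h1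
  refine ⟨Cob.d 2 r, three_cancel ?_⟩
  simp only [nsmul_eq_mul, Nat.cast_ofNat] at h1
  linear_combination h1

theorem PP_bK : PP (bK 0) = 2 := by decide +kernel

theorem bK_cube (a b c : ZMod 3) : bK a b c =
    (b - a) ^ 3 * ((c - b) ^ 3 * (c - b) ^ 3) + (b - a) ^ 3 * ((b - a) ^ 3 * (c - b) ^ 3) := by
  revert a b c
  decide +kernel

section ev

variable {B : Type} [CommRing B] [Algebra (ZMod 3) B] {ε : B} (h : ε ^ 13 = 0) (a b c : ZMod 3)

include h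

theorem ev_ch_e01 (z : Cob Laz 1) : Cob.ev (ch ε ![a, b, c]) (e01 z) = Cob.ev (ch ε ![a, b]) z := by
  rw [e01, Cob.ev_map_res, ch_res ε h]
  congr 3
  funext i
  fin_cases i <;> rfl

theorem ev_ch_e12 (z : Cob Laz 1) : Cob.ev (ch ε ![a, b, c]) (e12 z) = Cob.ev (ch ε ![b, c]) z := by
  rw [e12, Cob.ev_map_res, ch_res ε h]
  rfl

theorem ev_ch_d (z : Cob Laz 1) : Cob.ev (ch ε ![a, b, c]) (Cob.d 1 z) =
    Cob.ev (ch ε ![b, c]) z + -Cob.ev (ch ε ![a, c]) z + Cob.ev (ch ε ![a, b]) z := by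
  rw [d_one_eq, map_add, map_sub, ev_ch_e01 h, ev_ch_e12 h, Cob.ev_map_res, ch_res ε h,
    sub_eq_add_neg]
  congr 6
  funext i
  fin_cases i <;> rfl

theorem ev_ch_Bt {t : Cob Laz 1} (ht : IsT1 3 t) :
    Cob.ev (ch ε ![a, b, c]) (Bt t 1) = algebraMap _ B (bK a b c) * (8 * ε) ^ 9 := by
  have h1 : ∀ a b, Cob.ev (ch ε ![a, b]) t = algebraMap _ B (b - a) * (8 * ε) := fun a b =>
    ev_ch_t ε ht _
  rw [Bt, bK_cube, pow_one]
  simp only [map_add, map_mul, map_pow, ev_ch_e01 h, ev_ch_e12 h, h1]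
  ring

end ev

/-- `b_1` is not a coboundary modulo three -/
theorem Bt_one_ne {t : Cob Laz 1} (ht : IsT1 3 t) (y : Cob Laz 1) :
    ¬ (3 : Cob Laz 2) ∣ Bt t 1 - Cob.d 1 y := by
  rintro ⟨r, hr⟩
  let B := AdjoinRoot (Polynomial.X ^ 13 : Polynomial (ZMod 3))
  let ε : B := AdjoinRoot.root _
  have h0 : ∀ k, ε ^ k = AdjoinRoot.mk _ (Polynomial.X ^ k) := fun k => by
    rw [map_pow, AdjoinRoot.mk_X]
  have h : ε ^ 13 = 0 := (h0 13).trans AdjoinRoot.mk_self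
  let ψ : ZMod 3 →+ B :=
    (AddMonoidHom.mulRight ((8 * ε) ^ 9)).comp (algebraMap (ZMod 3) B).toAddMonoidHom
  have h1 : ∀ a b, ψ (bK 0 a b) = Cob.ev (ch ε ![a, b]) y + -Cob.ev (ch ε ![0, b]) y +
      Cob.ev (ch ε ![0, a]) y := fun a b => by
    have h2 := congrArg (Cob.ev (ch ε ![0, a, b])) hr
    rwa [map_sub, map_mul, map_ofNat, three_alg, zero_mul, sub_eq_zero, ev_ch_d h,
      ev_ch_Bt h _ _ _ ht] at h2
  have h2 : PP (fun a b => Cob.ev (ch ε ![a, b]) y) = 0 := by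
    have h3 : ∀ a b : ZMod 3, ch ε ![a, a + b] = ch ε ![0, b] := fun a b => by
      ext1
      · rfl
      · funext i
        fin_cases i
        · exact congrArg (P236K.GG ε) ((sub_self _).trans (sub_self _).symm)
        · exact congrArg (P236K.GG ε) ((add_sub_cancel_left _ _).trans (sub_zero _).symm)
    have h4 : ∀ a : ZMod 3, ch ε ![a, a] = ch ε ![0, 0] := fun a => by rw [← h3 a, add_zero]
    rw [PP_apply, Finset.sum_congr rfl fun a _ => by rw [h3, h4], Finset.sum_const,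
      Finset.card_univ, ZMod.card, nsmul_eq_mul, Nat.cast_ofNat, three_alg, zero_mul]
  have h3 : ψ 2 = 0 := by
    rw [← PP_bK, ← PP_map, funext₂ h1, PP_add, PP_fst, PP_add, h2, PP_snd, add_zero, add_zero]
  have h4 : ε ^ 9 = 0 := by
    change algebraMap (ZMod 3) B 2 * (8 * ε) ^ 9 = 0 at h3
    rw [map_ofNat, show (8 : B) = -1 by linear_combination 3 * three_alg (B := B)] at h3
    linear_combination h3 + ε ^ 9 * three_alg (B := B)
  rw [h0, AdjoinRoot.mk_eq_zero] at h4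
  have h5 := Polynomial.natDegree_le_of_dvd h4 (pow_ne_zero _ Polynomial.X_ne_zero)
  rw [Polynomial.natDegree_X_pow, Polynomial.natDegree_X_pow] at h5
  omega

/-- **`EA` from the finite checks** -/
theorem ea_of [Fact (Nat.Prime 3)] {G : ℕ → Type} [∀ q, Fintype (G q)] [Unique (G 0)]
    (R : Rs 3 (ZMod 3) G) (h0 : R.deg 0 default = 0) (h1 : R.th default default = 1)
    {F : Type} [Field F] {π : ZMod 3 →+* F} {r : ℕ} {T : ℤ} (h : R.Ok π r 3 T) (hr : 1 ≤ r)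
    (hT : 9 ≤ T) (h3 : ∀ k < 11, k ≠ 0 → R.K3s r 2 9 k ⊥) {φ : G 3 → AA (ZMod 3)}
    (h4 : R.K3s r 2 9 0 (AddSubgroup.zmultiples φ)) : EA := by
  classical
  intro t ht y hy hd
  have hW : (18 : ℤ) = (((3 : ℕ) : ℤ) - 1) * 9 := by norm_num
  have h5 := (IC.sph (hQ := ploc_zmod_one Nat.prime_three) R h1).line h hr hT (by decide) (j := 10)
    (fun c => by rw [Subsingleton.elim c default, h0]; norm_num) h3 h4
    ((mem_ZC_sph h0 hW).2 ⟨isWt_Bt ht 1, three_dvd_d_Bt ht 1⟩)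
    (fun h => by
      obtain ⟨y, -, h⟩ := of_mem_BQ_sph h0 hW h
      exact Bt_one_ne ht y h)
    ((mem_ZC_sph h0 hW).2 ⟨hy, hd⟩)
  obtain ⟨_, ⟨c, rfl⟩, b, hb, h6⟩ := AddSubgroup.mem_sup.1 h5
  obtain ⟨y', h7, h8⟩ := of_mem_BQ_sph h0 hW hb
  refine ⟨c, y', h7, ?_⟩
  have h9 : c • Bt t 1 + b default = y := congrFun h6 default
  rwa [← h9, zsmul_eq_mul, add_sub_cancel_left]

end Vale.Agent.P236EL

end
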