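import Vale.Agent.P236EL.SC
import Vale.Agent.P236R.Alg
import Vale.Agent.P236KE.Sph

/-!
# P236EL / Wd : the comparison theorems in the window of the computation
-/

noncomputable section

namespace Vale.Agent.P236EL

open Vale.Agent.P251.F Vale.Agent.P251.F.F3 Vale.Agent.P257.H80 LawRing MvPolynomial Ch
open Vale.Agent.P251.I Vale.Agent.P236SY Vale.Agent.P236F Vale.Agent.P236R Vale.Agent.P236KE
open AddSubgroup

variable [hp : Fact (Nat.Prime 3)]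

section Wd

variable {G : ℕ → Type} [∀ q, Fintype (G q)] [DecidableEq (G 0)]

/-- a resolution modulo three which is correct in the window of the computation -/
structure Wd (R : Rs 3 (ZMod 3) G) (θ : G 0 → G 0 → Cob Laz 1) : Prop where
  ic : IC p3 R θ
  ok : R.Ok (RingHom.id _) 3 61 90
  nn : ∀ c, 0 ≤ R.deg 0 c
  mc : MC θ

namespace Wd

variable {R : Rs 3 (ZMod 3) G} {θ : G 0 → G 0 → Cob Laz 1} (H : Wd R θ) {s k a b n : ℕ}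
  {w ω w' : ℤ} {φ u : G (s + 1) → AA (ZMod 3)} {x : G 0 → Cob Laz s} {t : Cob Laz 1}

include H

theorem hj (hw : w ≤ 90) (c : G 0) : w - R.deg 0 c < (91 : ℕ) := by
  have := H.nn c
  omega

theorem ok' (hn : n ≤ 61) : R.Ok (RingHom.id _) 3 n 90 := H.ok.mono hn le_rfl

theorem van (hs : s ≤ 60) (hw : w ≤ 90) (h : R.KV s w 0 []) :
    ZC 3 θ (R.deg 0) w 3 s ≤ BQ 3 θ (R.deg 0) w 3 s :=
  H.ic.van (H.ok' (by omega)) (by omega) hw (m := 1) rfl (H.hj hw) fun k _ =>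
    h k (Nat.zero_le k) List.not_mem_nil

theorem line (hs : s ≤ 60) (hw : w ≤ 90) (h : R.KV s w 0 [k]) (h' : R.KL s w k φ)
    (hx : x ∈ ZC 3 θ (R.deg 0) w 3 s) (hx' : x ∉ BQ 3 θ (R.deg 0) w 3 s) :
    ZC 3 θ (R.deg 0) w 3 s ≤ zmultiples x ⊔ BQ 3 θ (R.deg 0) w 3 s :=
  H.ic.line (H.ok' (by omega)) (by omega) hw rfl (H.hj hw)
    (fun k' _ hk => h k' (Nat.zero_le _) (by simpa using hk)) h' hx hx'

theorem line_rep (hs : s ≤ 60) (hw : w ≤ 90) (h : R.KV s w 0 [k]) (h' : R.KL s w k φ)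
    (hx : x ∈ ZC 3 θ (R.deg 0) w 3 s) (hx' : x ∉ BQ 3 θ (R.deg 0) w 3 s) :
    ∃ e ∈ BQ 3 θ (R.deg 0) w 3 s, ∃ c : ℤ, ¬ ((3 : ℕ) : ℤ) ∣ c ∧
      x - e ∈ Fl p3 _ s (II 3 (ZMod 3) ^ k) ∧ Rv p3 R s w (k + 1 - 3) (k + 1) (x - e) (c • φ) :=
  H.ic.line_rep (H.ok' (by omega)) (by omega) hw rfl (H.hj hw)
    (fun k' hk => h k' (Nat.zero_le _) (by simpa using hk)) h' hx hx'

theorem lift (hs : s ≤ 59) (hw : w ≤ 90) (h : R.KV (s + 1) w (k + 3) [])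
    (hu : u ∈ R.Cy s w k (k + 3)) : ∃ z ∈ ZC 3 θ (R.deg 0) w 3 s, Rv p3 R s w k (k + 1) z u :=
  H.ic.exists_Rv (H.ok' (by omega)) (by omega) hw (m := 1) rfl (H.hj hw)
    (fun k' hk _ => h k' hk List.not_mem_nil) hu

theorem lift2 (hs : s ≤ 59) (hw : w ≤ 90) (h : R.KV (s + 1) w (k + 3) [])
    (h' : R.Cy s w (k + 1) (k + 3) ≤ R.Bd s w k (k + 2)) (hu : u ∈ R.Cy s w k (k + 3)) :
    ∃ z ∈ ZC 3 θ (R.deg 0) w 3 s, Rv p3 R s w k (k + 2) z u :=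
  H.ic.exists_Rv2 (H.ok' (by omega)) (by omega) hw (m := 1) rfl (H.hj hw)
    (fun k' hk => h k' hk List.not_mem_nil) h' hu

theorem gen (hs : s ≤ 60) (hw : w ≤ 90) {l : List ℕ} (h : R.KV s w 0 l)
    {𝒵 : AddSubgroup (G 0 → Cob Laz s)} (h𝒵 : 𝒵 ≤ ZC 3 θ (R.deg 0) w 3 s)
    (h' : ∀ k ∈ l, ∃ φ, R.KL s w k φ ∧ ∃ z ∈ 𝒵, Rv p3 R s w (k + 1 - 3) (k + 1) z φ) :
    ZC 3 θ (R.deg 0) w 3 s ≤ 𝒵 ⊔ BQ 3 θ (R.deg 0) w 3 s :=
  H.ic.gen_of (H.ok' (by omega)) (by omega) hw h𝒵 (m := 1) rfl (H.hj hw) fun k =>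
    (em (k ∈ l)).elim (fun hk => .inr (h' k hk)) fun hk => .inl (h k (Nat.zero_le k) hk)

theorem ne (hs : s ≤ 61) (hw : w ≤ 90) (h : Rv p3 R s w a b x u) (hb : b ≤ 3)
    (hu : u ∉ R.Bd s w 0 b) : x ∉ BQ 3 θ (R.deg 0) w 3 s := fun hx =>
  hu (h.of_BQ_zero H.ic (H.ok' hs) hw hb hx)

theorem tm (ht : IsT1 3 t) (hs : s ≤ 60) (hw : w' ≤ 90) (hz : (fun _ => t ^ k) ∈ ZS ω 1)
    (e : ω + w = w') (e' : 1 + s = s + 1) (hb : b ≤ a + 3) (h : Rv p3 R s w a b x u) :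
    Rv p3 R (s + 1) w' a b (lc _ e' (t ^ k) x) (R.tm s k u) :=
  e ▸ h.lc_arr (H.ok' (by omega)) (e ▸ hw) e' hb (zs_iff.1 hz).1
    (by rw [map_pow, rs_t1 p3 rfl ht, map_pow]) (zs_iff.1 hz).2

theorem vm (ht : IsT1 3 t) (hs : s ≤ 61) (hw : w' ≤ 90) (e : k + w = w') (e' : 0 + s = s)
    (hb : b ≤ a + 3) (h : Rv p3 R s w a b x u) :
    Rv p3 R s w' (k + a) (k + b) (lc _ e' (v1 ^ k) x) (vm k u) :=
  e ▸ h.lc_pt (H.ok' hs) (e ▸ hw) e' hb (zs_iff.1 (zs_v ht k)).1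
    (by rw [map_pow, v1, rs_v1 p3 rfl, map_pow]) (zs_iff.1 (zs_v ht k)).2

theorem bm (ht : IsT1 3 t) (hs : s ≤ 59) (hw : w' ≤ 90) (e : 3 + w = w') (e' : 2 + s = s + 2)
    (hb : b ≤ a + 3) (h : Rv p3 R s w a b x u) :
    Rv p3 R (s + 2) w' a b (lc _ e' (bb t) x) (R.bm s 1 u) := by
  refine e ▸ h.lc_bm (H.ok' (by omega)) (e ▸ hw) e' hb (zs_iff.1 (zs_bb ht)).1 ?_
    (zs_iff.1 (zs_bb ht)).2
  have h3 : (3 : CC (ZMod 3)) = 0 := by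
    rw [← map_ofNat (C : ZMod 3 →+* _) 3]
    exact map_zero C
  rw [bb, map_add, rs_cup p3 (a := 1) (b := 1), rs_cup p3 (a := 1) (b := 1)]
  simp only [map_mul, map_pow, map_ofNat, rs_t1 p3 rfl ht, sh_arr]
  linear_combination ((univ (ZMod 3)).arr 3 0 (X 0) ^ 2 * (univ (ZMod 3)).arr 3 1 (X 0) +
    (univ (ZMod 3)).arr 3 0 (X 0) * (univ (ZMod 3)).arr 3 1 (X 0) ^ 2) * h3

omit H in
theorem single (ht : IsT1 3 t) {c : G 0} (hx : Pi.single c (t ^ k) ∈ CW 3 Laz (R.deg 0) w 1) :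
    Rv p3 R 1 w 0 b (Pi.single c (t ^ k)) (R.tm 0 k (R.un c)) :=
  (Rv.self_zero hx).cast rfl rfl (Ph_single (by rw [map_pow, rs_t1 p3 rfl ht, map_pow]) c)

/-- the product with a cocycle `z = t ^ k + …` is injective on a line of level one -/
theorem inj (ht : IsT1 3 t) (hs : s ≤ 60) (hw : w ≤ 90) (hw' : w' ≤ 90) (h : R.KV s w 0 [1])
    (h' : R.KL s w 1 φ) (hφ : R.tm s k φ ∉ R.Bd (s + 1) w' 0 2) (hk : (fun _ => t ^ k) ∈ ZS ω 1)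
    (e : ω + w = w') (e' : 1 + s = s + 1) {z : Cob Laz 1} (hz : (fun _ => z) ∈ ZS ω 1)
    (hz' : rs p3 1 (z - t ^ k) ∈ Fil 3 (II 3 (ZMod 3) ^ 1)) (hx : x ∈ ZC 3 θ (R.deg 0) w 3 s)
    (hx' : lc _ e' z x ∈ BQ 3 θ (R.deg 0) w' 3 (s + 1)) : x ∈ BQ 3 θ (R.deg 0) w 3 s := by
  by_contra h1
  obtain ⟨y, hy, c, hc, h2, h3⟩ := H.line_rep hs hw h h' hx h1
  have h4 := (H.tm ht hs hw' hk e e' (by omega) h3).of_sub (x' := lc _ e' z (x - y)) (by omega)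
    (e ▸ lc_mem_CW e' (zs_iff.1 hz).1 h3.cw) (by
      rw [← AddMonoidHom.sub_apply, ← map_sub, pow_add]
      exact lc_mem_Fl e' (inv_II.pow 1) hz' h2)
  refine H.ne (by omega) hw' h4 (by omega) (fun h5 => hφ (mem_of_zsmul rfl hc ?_))
    (by rw [map_sub]; exact sub_mem hx' (lcB H.mc e' hz e hy))
  rwa [Rs.tm, ← Rs.star_arr, map_zsmul, Rs.star_arr] at h5

end Wd

end Wd

variable {S : Sq} (hR : (S.rs (ZMod 3)).Ok (RingHom.id _) 3 61 90) {t : Cob Laz 1}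

include hR

theorem wdS : Wd (S.rs (ZMod 3)) 0 := ⟨IC.sph _ rfl, hR, fun _ => le_rfl, mc_zero⟩

theorem wdA (ht : IsT1 3 t) : Wd ((S.rs (ZMod 3)).cA rfl rfl) (θA t) :=
  ⟨IC.ga _ rfl rfl _ rfl ht (d_t ht) (wt_t ht) (wt_A ht) (rq_A p3),
    hR.tens fun _ => sub_le_self _ (Int.natCast_nonneg _), fun _ => Int.natCast_nonneg _, mc_A ht⟩

theorem wdY (ht : IsT1 3 t) : Wd ((S.rs (ZMod 3)).cY rfl rfl) (θY t) :=
  ⟨IC.ga _ rfl rfl _ rfl ht (d_t ht) (wt_t ht) (wt_Y ht) (rq_Y p3 rfl),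
    hR.tens fun _ => sub_le_self _ (Int.natCast_nonneg _), fun _ => Int.natCast_nonneg _, mc_Y ht⟩

omit hR in
theorem rv_t (ht : IsT1 3 t) {k b : ℕ} :
    Rv p3 (S.rs (ZMod 3)) 1 k 0 b (fun _ => t ^ k) ((S.rs (ZMod 3)).tm 0 k 1) := by
  have e : (Pi.single default (t ^ k) : S.G 0 → _) = fun _ => t ^ k := funext fun c => by
    rw [Subsingleton.elim c default, Pi.single_eq_same]
  have h1 : (S.rs (ZMod 3)).un default = 1 := funext fun _ => map_one constantCoeff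
  rw [← e, ← h1]
  refine Wd.single ht fun c => ?_
  rw [e]
  exact P236Z.Det.isWt_cast ((wt_t ht).pow k) (by
    change _ = (((3 : ℕ) : ℤ) - 1) * (k - 0)
    omega)

omit hR hp in
theorem cw_single (ht : IsT1 3 t) {n : ℕ} (c : Fin n) (k : ℕ) {w : ℤ} (e : (k : ℤ) + c = w) :
    Pi.single c (t ^ k) ∈ CW 3 Laz (dF n) w 1 := fun c' => by
  rcases eq_or_ne c' c with rfl | h
  · rw [Pi.single_eq_same]
    exact P236Z.Det.isWt_cast ((wt_t ht).pow k) (by simp only [dF]; omega)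
  · rw [Pi.single_eq_of_ne h]
    exact Cob.isWt_zero _

omit hR in
theorem single_mem_Fl {ι : Type} [DecidableEq ι] {s : ℕ} {K : Ideal (AA (ZMod 3))} (c : ι)
    {z : Cob Laz s} (hz : rs p3 s z ∈ Fil 3 K) : Pi.single c z ∈ Fl p3 ι s K := fun c' => by
  rw [rsP_apply]
  rcases eq_or_ne c' c with rfl | h
  · rwa [Pi.single_eq_same]
  · rw [Pi.single_eq_of_ne h, map_zero]
    exact zero_mem _

omit hR in
/-- the top cell of `Y` -/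
theorem hm_top : Hm ((S.rs (ZMod 3)).cY rfl rfl) (S.rs (ZMod 3)) (pf S.G (2 : Fin 3)) (-2) :=
  Hm.top fun c => by fin_cases c <;> simp [Ga.cm, Ga.ent, Ga.three]

omit hR hp in
theorem top_BQ {w w' : ℤ} {s : ℕ} (e : w' + 2 = w) {x : Fin 3 → Cob Laz s} (hx : x ∈ BY t w s) :
    (fun _ => x 2) ∈ BS w' s := by
  have h1 := zm_mem_BQ (f := fun (c : Fin 3) (_ : Fin 1) => if c = 2 then 1 else 0) (θ' := 0)
    (d' := fun _ => 0) (ω := -2) (fun c k => by fin_cases c <;> simp [θY])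
    (fun c k => by fin_cases c <;> simp [dF]) hx
  rwa [← e, add_neg_cancel_right, show zm _ _ x = fun _ => x 2 from funext fun _ => by
    simp [zm_apply]] at h1

end Vale.Agent.P236EL

end
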