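import Vale.Agent.P236EL.Ext
import Vale.Agent.P236EL.Wd

/-!
# P236EL / Grk : the second Greek letter family at the prime three and its action
-/

noncomputable section

namespace Vale.Agent.P236EL

open Vale.Agent.P251.F Vale.Agent.P251.F.F3 Vale.Agent.P257.H80 LawRing MvPolynomial Ch
open Vale.Agent.P251.I Vale.Agent.P236SY Vale.Agent.P236F Vale.Agent.P236R

variable [hp : Fact (Nat.Prime 3)]

theorem tg_two {B : Type*} [CommRing B] (v t : ℕ → B) : tg 3 v t 1 =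
    v 1 + v 0 * (t 0 ^ 3 - v 0 ^ 2 * t 0) + 3 * (t 1 - v 0 ^ 3 * t 0) -
      9 * (2 * v 0 ^ 2 * t 0 ^ 2 + 4 * v 0 * t 0 ^ 3 + 3 * t 0 ^ 4) := by
  have key : ∀ v t : ℕ → MvPolynomial (ℕ ⊕ ℕ) ℤ, tg 3 v t 1 =
      v 1 + v 0 * (t 0 ^ 3 - v 0 ^ 2 * t 0) + 3 * (t 1 - v 0 ^ 3 * t 0) -
        9 * (2 * v 0 ^ 2 * t 0 ^ 2 + 4 * v 0 * t 0 ^ 3 + 3 * t 0 ^ 4) := fun v t => by
    have h := lam_tg 3 v t 2
    simp only [lam_succ, lam_zero, Finset.sum_range_succ, Finset.sum_range_zero,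
      one1_zero, one1_succ] at h
    refine mul_left_cancel₀ (a := 3) (by norm_num) ?_
    norm_num at h
    rw [tg_one, lam_zero] at h
    push_cast at h
    linear_combination h
  have h := congrArg (ev2 v t) (key (fun i => X (Sum.inl i)) fun i => X (Sum.inr i))
  simpa [map_tg, map_ofNat] using h

variable (L : Type) [CommRing L]

/-- `t ^ 3 - v_1 ^ 2 t` -/
def tT : GG L := X 0 ^ 3 - C (X 0 ^ 2) * X 0

/-- the error of the right unit -/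
def εF : ℕ → GG L
  | 0 => X 1 - C (X 0 ^ 3) * X 0
  | f + 1 => C (X 0 ^ 3 ^ f * X 1 ^ 3 ^ f) * tT L ^ 3 ^ f * etaR 3 L (X 1 ^ 3 ^ f)

/-- the error of the invariant element -/
def αF : ℕ → GG L
  | 0 => X 0
  | _ + 1 => 0

/-- the error of the primitive element -/
def δF : ℕ → CC L
  | 0 => (univ L).arr 3 0 (X 0 ^ 2) * (univ L).arr 3 1 (X 0) +
      (univ L).arr 3 0 (X 0) * (univ L).arr 3 1 (X 0 ^ 2) -
        (univ L).arr 3 0 (C (X 0) * X 0) * (univ L).arr 3 1 (X 0)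
  | f + 1 => (univ L).arr 3 0 ((tT L ^ 3 ^ f) ^ 2) * (univ L).arr 3 1 (tT L ^ 3 ^ f) +
      (univ L).arr 3 0 (tT L ^ 3 ^ f) * (univ L).arr 3 1 ((tT L ^ 3 ^ f) ^ 2)

/-- the cocycle of `β_(3^f k / 3^f)` modulo three, in degree one -/
def gF (f k : ℕ) : GG L := gk 3 (tT L ^ 3 ^ f) (X 1 ^ 3 ^ f) k

/-- the cocycle of `β_(3^f k / 3^f)` -/
def hF (f k : ℕ) : CC L := hk 3 (tT L ^ 3 ^ f) (εF L f) (αF L f) (δF L f) (X 1 ^ 3 ^ f) k

variable {L}

theorem fc_t : fc 3 L 1 ((univ L).arr 3 0 (X 0)) = (univ L).arr 3 0 (X 0) + (univ L).arr 3 1 (X 0) := by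
  rw [fc_arr 0, Del_t1]
  simp [arr2]

theorem Gd.frob (h9 : (9 : L) = 0) {a b : AA L} {τ ε α : GG L} {δ : CC L}
    (h : Gd 3 a b τ ε α δ) : Gd 3 (a ^ 3) (b ^ 3) (τ ^ 3) (C (a * b) * τ * etaR 3 L b) 0
      ((univ L).arr 3 0 (τ ^ 2) * (univ L).arr 3 1 τ +
        (univ L).arr 3 0 τ * (univ L).arr 3 1 (τ ^ 2)) := by
  have h1 : (9 : GG L) = 0 := by rw [← map_ofNat (C.comp C : L →+* GG L), h9, map_zero]
  have h2 : (9 : CC L) = 0 := by rw [← map_ofNat (C : L →+* CC L), h9, map_zero]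
  obtain ⟨h3, h4, h5⟩ := h
  refine ⟨?_, ?_, ?_⟩
  · rw [map_pow, eq_add_of_sub_eq h3, map_pow, map_pow, map_mul, Nat.cast_ofNat]
    linear_combination ((C a * τ + C b) ^ 2 * ε + 3 * (C a * τ + C b) * ε ^ 2 + 3 * ε ^ 3 -
      C a * C b * τ * ε) * h1
  · rw [map_pow, h4, map_pow, Nat.cast_ofNat]
    linear_combination (C a ^ 2 * α + 3 * C a * α ^ 2 + 3 * α ^ 3) * h1
  · rw [map_pow, map_pow, h5, map_pow, map_pow, map_pow, Nat.cast_ofNat]
    generalize (univ L).arr 3 0 τ = x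
    generalize (univ L).arr 3 1 τ = y
    linear_combination ((x + y) ^ 2 * δ + 3 * (x + y) * δ ^ 2 + 3 * δ ^ 3) * h2

theorem gd (h9 : (9 : L) = 0) (f : ℕ) :
    Gd 3 (X 0 ^ 3 ^ f) (X 1 ^ 3 ^ f) (tT L ^ 3 ^ f) (εF L f) (αF L f) (δF L f) := by
  induction f with
  | zero =>
    have h1 : (9 : GG L) = 0 := by rw [← map_ofNat (C.comp C : L →+* GG L), h9, map_zero]
    have h2 : (9 : CC L) = 0 := by rw [← map_ofNat (C : L →+* CC L), h9, map_zero]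
    simp only [pow_zero, pow_one]
    refine ⟨?_, etaR_v1 3 L, ?_⟩
    · have h := tg_two (fun i => (C (X i) : GG L)) X
      rw [show etaR 3 L (X 1) = tg 3 (fun i => (C (X i) : GG L)) X 1 by simp [etaR, etax], h, εF,
        tT]
      simp only [map_pow, Nat.cast_ofNat, h1]
      ring
    · have h := congrArg ((univ L).arr 3 0) (etaR_v1 3 L)
      simp only [tT, δF, map_sub, map_add, map_mul, map_pow, fc_t, arr_C, arr_etaR, fc_pt,
        Nat.cast_ofNat, map_ofNat, zero_add] at h ⊢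
      rw [h, show sa 1 0 = 0 from rfl]
      generalize (univ L).arr 3 0 (X 0) = x
      generalize (univ L).arr 3 1 (X 0) = y
      linear_combination ((univ L).pt 3 0 (X 0) * x * y + x ^ 2 * y) * h2
  | succ f ih =>
    rw [pow_succ, pow_mul, pow_mul, pow_mul]
    exact ih.frob h9

section bc

variable {L' : Type} [CommRing L'] (ψ : L →+* L') (f k : ℕ)

theorem bc_etaR (a : AA L) : map (map ψ) (etaR 3 L a) = etaR 3 L' (map ψ a) := by
  have h : (map (map ψ)).comp (etaR 3 L) = (etaR 3 L').comp (map ψ) :=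
    ringHom_ext (fun a => by simp [etaR, etax]) fun i => by simp [etaR, etax, map_tg]
  exact congrArg (fun f : _ →+* _ => f a) h

omit hp in
theorem bc_tT : map (map ψ) (tT L) = tT L' := by simp [tT]

theorem bc_εF : map (map ψ) (εF L f) = εF L' f := by
  rcases f with _ | f <;> simp [εF, bc_etaR, bc_tT]

omit hp in
theorem bc_αF : map (map ψ) (αF L f) = αF L' f := by rcases f with _ | f <;> simp [αF]

theorem bc_δF : map ψ (δF L f) = δF L' f := by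
  rcases f with _ | f <;>
    simp only [δF, map_add, map_sub, map_mul (map ψ), bc_arr, map_mul (map (map ψ)),
      map_pow (map (map ψ)), map_X, map_C, bc_tT]

theorem bc_gF : map (map ψ) (gF L f k) = gF L' f k := by
  simp only [gF, gk, map_mul, map_h2, map_pow, bc_tT, map_C, map_X, bc_etaR]

theorem bc_hF : map ψ (hF L f k) = hF L' f k := by
  simp only [hF, hk, map_sub, map_mul (map ψ), map_h2, map_h3, bc_arr, bc_pt, bc_δF, bc_εF, bc_αF,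
    map_mul (map (map ψ)), map_pow (map (map ψ)), map_pow (map ψ), map_X, bc_tT]

end bc

theorem gF_wt (f k : ℕ) : (univ L).arr 3 0 (gF L f k) ∈ WC 3 L (3 ^ f * (4 * k - 1)) := by
  rcases k with _ | k
  · rw [gF, gk, h2, mul_zero, map_zero]
    exact zero_mem _
  have h0 : ∀ j i n, (univ L).pt 3 j (X i ^ n) ∈ WC 3 L (n • wz 3 i) := fun j i n =>
    grCh_univ.pt j _ _ (SetLike.pow_mem_graded n (isWeightedHomogeneous_X L _ i))
  have h1 : (univ L).arr 3 0 (X 0) ∈ WC 3 L 1 := by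
    rw [arr_X]
    exact (grCh_univ (p := 3)).a 0 0
  have h3 : (univ L).arr 3 0 (tT L) ∈ WC 3 L 3 := by
    rw [tT, map_sub, map_mul, map_pow, arr_C]
    exact sub_mem (SetLike.pow_mem_graded 3 h1) (SetLike.mul_mem_graded (h0 0 0 2) h1)
  have h4 := SetLike.mul_mem_graded (SetLike.pow_mem_graded (3 ^ f) h3)
    (h2_mem_graded _ (h0 0 1 (3 ^ f)) (h0 1 1 (3 ^ f)) k)
  rw [gF, gk, map_mul, map_h2, map_pow, arr_C, arr_etaR]
  refine (congrArg (_ ∈ WC 3 L ·) ?_).mp h4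
  rw [show wz 3 1 = 4 from rfl]
  simp only [nsmul_eq_mul]
  push_cast
  ring

theorem pt_X_mem (j i n : ℕ) : (univ L).pt 3 j (X i ^ n) ∈ Fil 3 (II 3 L) ^ n := by
  rw [map_pow]
  exact Ideal.pow_mem_pow (pt_mem_Fil inv_II j
    (Ideal.subset_span (Set.mem_insert_of_mem _ (Set.mem_range_self i)))) n

theorem Fil_pow (K : Ideal (AA L)) (n : ℕ) : Fil 3 (K ^ n) = Fil 3 K ^ n := Ideal.map_pow _ _ _

theorem gF_fil (f k : ℕ) :
    (univ L).arr 3 0 (gF L f (k + 1)) ∈ Fil 3 (II 3 L ^ (3 ^ f * k)) := by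
  rw [gF, gk, map_mul, map_h2, arr_C, arr_etaR, Fil_pow, pow_mul]
  exact Ideal.mul_mem_left _ _ (h2_mem (pt_X_mem 0 1 _) (pt_X_mem 1 1 _) k)

theorem hF_fil_zero (k : ℕ) : hF L 0 (k + 2) ∈ Fil 3 (II 3 L ^ k) := by
  rw [hF, hk, Fil_pow, ← one_mul k, pow_mul, one_mul]
  exact sub_mem (Ideal.mul_mem_left _ _
    (h3_mem (pt_X_mem 0 1 1) (pt_X_mem 1 1 1) (pt_X_mem 2 1 1) k)) (Ideal.mul_mem_left _ _
      (Ideal.pow_le_pow_right (Nat.le_succ k) (h2_mem (pt_X_mem 0 1 1) (pt_X_mem 2 1 1) _)))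

theorem εF_fil (j f : ℕ) : (univ L).arr 3 j (εF L (f + 1)) ∈ Fil 3 (II 3 L) ^ 3 ^ (f + 1) := by
  rw [εF, map_mul, map_mul, arr_C, arr_etaR, map_mul, show 3 ^ (f + 1) = 3 ^ f + 3 ^ f + 3 ^ f by
    omega, pow_add, pow_add]
  exact Ideal.mul_mem_mul (Ideal.mul_mem_right _ _
    (Ideal.mul_mem_mul (pt_X_mem _ 0 _) (pt_X_mem _ 1 _))) (pt_X_mem _ 1 _)

theorem hF_fil_succ (f k : ℕ) : hF L (f + 1) (k + 1) ∈ Fil 3 (II 3 L ^ (3 ^ (f + 1) * k)) := by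
  rcases k with _ | k
  · rw [mul_zero, pow_zero, Ideal.one_eq_top, Fil_top]
    trivial
  rw [hF, hk, Fil_pow, pow_mul, αF, zero_mul, map_zero, zero_mul, sub_zero]
  refine sub_mem ?_ (Ideal.mul_mem_left _ _ (h2_mem (pt_X_mem 0 1 _) (pt_X_mem 2 1 _) _))
  rw [pow_succ' _ k]
  exact Ideal.mul_mem_mul (sub_mem (Ideal.mul_mem_right _ _ (εF_fil 0 f))
    (Ideal.mul_mem_left _ _ (εF_fil 1 f)))
      (h3_mem (pt_X_mem 0 1 _) (pt_X_mem 1 1 _) (pt_X_mem 2 1 _) k)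

/-- the level of `β_(3^f k / 3^f)` -/
def lv : ℕ → ℕ → ℕ
  | 0, k => k - 2
  | f + 1, k => 3 ^ (f + 1) * (k - 1)

theorem gF_lev (f k : ℕ) : (univ L).arr 3 0 (gF L f k) ∈ Fil 3 (II 3 L ^ (3 ^ f * (k - 1))) := by
  rcases k with _ | k
  · rw [gF, gk, h2, mul_zero, map_zero]
    exact zero_mem _
  · exact gF_fil f k

theorem hF_lev (f k : ℕ) : hF L f k ∈ Fil 3 (II 3 L ^ lv f k) := by
  have h0 : ∀ F : CC L, F ∈ Fil 3 (II 3 L ^ 0) := fun F => by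
    rw [pow_zero, Ideal.one_eq_top, Fil_top]
    trivial
  rcases f with _ | f
  · rcases k with _ | _ | k
    exacts [h0 _, h0 _, hF_fil_zero k]
  · rcases k with _ | k
    exacts [h0 _, hF_fil_succ f k]

/-- `x` represents `β_(3^f k / 3^f)` on the Moore spectrum, and `c` on the sphere -/
structure Grk (f k : ℕ) (x : Cob Laz 1) (c : Cob Laz 2) : Prop where
  wx : Cob.IsWt (2 * (3 ^ f * (4 * k - 1))) x
  wc : Cob.IsWt (2 * (3 ^ f * (4 * k - 1))) c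
  d : Cob.d 1 x = 3 • c
  rx : rs p3 1 x = (univ _).arr 3 0 (gF (ZMod 3) f k)
  rc : rs p3 2 c = hF (ZMod 3) f k

omit hp in
theorem p9 : PLoc 3 (ZMod 9) := ploc_zmod Nat.prime_three 2

theorem exists_grk (f k : ℕ) : ∃ x c, Grk f k x c := by
  obtain ⟨x, c, h1, h2, h3, h4, h5⟩ := exists_bock (s := 1) p9 p3 rfl
    (ZMod.castHom (by norm_num) (ZMod 3)) (arr_mem_Loc 0 (gF _ f k)) (gF_wt f k)
    ((gd rfl f).alt k)
  exact ⟨x, c, h1, h2, h3, by rw [h4, bc_arr, bc_gF], h5.trans (bc_hF _ f k)⟩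

namespace Grk

variable {f k : ℕ} {x : Cob Laz 1} {c : Cob Laz 2} (h : Grk f k x c) {ω : ℤ}

include h

theorem dc : Cob.d 2 c = 0 := by
  have h1 := Cob.d_d x
  rw [h.d, map_nsmul, nsmul_eq_mul] at h1
  exact (mul_eq_zero.1 h1).resolve_left (by norm_num)

theorem zx (e : 3 ^ f * (4 * k - 1) = ω) : (fun _ => x) ∈ ZS ω 1 :=
  zs_iff.2 ⟨e ▸ h.wx, c, by rw [h.d, nsmul_eq_mul, Nat.cast_ofNat]⟩

theorem zc (e : 3 ^ f * (4 * k - 1) = ω) : (fun _ => c) ∈ ZS ω 2 :=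
  zs_iff.2 ⟨e ▸ h.wc, h.dc ▸ dvd_zero _⟩

end Grk

namespace Wd

variable {G : ℕ → Type} [∀ q, Fintype (G q)] [DecidableEq (G 0)] {R : Rs 3 (ZMod 3) G}
  {θ : G 0 → G 0 → Cob Laz 1} (H : Wd R θ) {s a b m n j f k : ℕ} {w ω w' : ℤ}
  {u : G (s + 1) → AA (ZMod 3)} {y : G 0 → Cob Laz s} {x : Cob Laz 1} {c : Cob Laz 2}

include H

/-- the product with a cocycle -/
theorem lc (hn : n ≤ 61) (hw : w' ≤ 90) {z : Cob Laz m} (hz : (fun _ => z) ∈ ZS ω m)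
    (hj : rs p3 m z ∈ Fil 3 (II 3 (ZMod 3) ^ j)) (e : ω + w = w') (e' : m + s = n)
    (hb : b ≤ a + 3) (h : Rv p3 R s w a b y u) : Rv p3 R n w' (j + a) (j + b) (lc _ e' z y)
      (R.star m (s + 1) (n + 1) (by omega) (rs p3 m z) u) :=
  e ▸ h.lc (H.ok' hn) (e ▸ hw) e' hb (zs_iff.1 hz).1 hj (rs_of_dvd (zs_iff.1 hz).2 _)

theorem gm (hx : Grk f k x c) (hs : s ≤ 60) (hw : w' ≤ 90) (e : 3 ^ f * (4 * k - 1) + w = w')
    (e' : 1 + s = s + 1) (ej : 3 ^ f * (k - 1) = j) (hb : b ≤ a + 3) (h : Rv p3 R s w a b y u) :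
    Rv p3 R (s + 1) w' (j + a) (j + b) (P236EL.lc _ e' x y) (R.dl s (gF _ f k) u) := by
  have h1 := H.lc (by omega) hw (hx.zx rfl) (hx.rx ▸ ej ▸ gF_lev f k) e e' hb h
  rwa [hx.rx, Rs.star_arr] at h1

theorem bk (hx : Grk f k x c) (hs : s ≤ 59) (hw : w' ≤ 90) (e : 3 ^ f * (4 * k - 1) + w = w')
    (e' : 2 + s = s + 2) (ej : lv f k = j) (hb : b ≤ a + 3) (h : Rv p3 R s w a b y u) :
    Rv p3 R (s + 2) w' (j + a) (j + b) (P236EL.lc _ e' c y)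
      (R.star 2 (s + 1) (s + 3) rfl (hF _ f k) u) := by
  have h1 := H.lc (by omega) hw (hx.zc rfl) (hx.rc ▸ ej ▸ hF_lev f k) e e' hb h
  rwa [hx.rc] at h1

end Wd

end Vale.Agent.P236EL

end
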