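import Vale.Agent.P236EL.Wg
import Vale.Agent.P236EL.Cls
import Vale.Agent.P236R.Fx

/-!
# P236EL / Cv : cohomology classes and the computation of their representatives
-/

noncomputable section

namespace Vale.Agent.P236EL

open Vale.Agent.P251.F Vale.Agent.P251.I Vale.Agent.P236SY Vale.Agent.P236R MvPolynomial
open Vale.Agent.P236KE Vale.Agent.P236K3 Vale.Agent.P236F AddSubgroup

namespace WC'

def at' (T₀ : Nat) (v : WC') : WC' := v.bind fun T a b p => of T a b (Nat.beq T T₀) (cst' p)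
def op (L : LD) (s ω ω' j : Nat) (o : WC' → WC') (v : WC') : WC' := v.bind fun T a b p =>
  ⟨fun k => grd (grd (Nat.ble s 59) (Nat.ble ω' (Nat.add T ω))) ((fit L (Nat.sub (Nat.add T ω) ω')
    (Nat.add j a) (Nat.add j b) (o (pure T a b p))).run k)⟩
def exa (L : LD) (T a b : Nat) (v : WC') (k : P → Bool) : Bool :=
  (fit L T a b v).run fun _ _ b' p => grd (Nat.beq b' b) (k p)
def runW (L : LD) (T a b : Nat) (l : List WC') : (List VC → Bool) → Bool :=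
  List.rec (motive := fun _ => (List VC → Bool) → Bool) (fun k => k [])
    (fun v _ ih k => exa L T a b v fun p => ih fun l => k (cst' p :: l)) l

variable (D : KD) (Tm s : Nat)

def cvm (k : Nat) : WC' → WC' := op (D.L s) s k 0 k (mul Tm k k 0)
def ctm (k : Nat) : WC' → WC' := op (D.L (Nat.succ s)) s k 0 0 (tm D s k)
def cbm : WC' → WC' := op (D.L (Nat.succ (Nat.succ s))) s 3 0 0 (bm D s 1)
def cgm (n k : Nat) : WC' → WC' :=
  op (D.L (Nat.succ s)) s (Nat.mul n (Nat.add (Nat.mul 4 k) 3)) 0 (Nat.mul n k) (gm D Tm s n k)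
def cb0 (k : Nat) : WC' → WC' :=
  op (D.L (Nat.succ (Nat.succ s))) s (Nat.add (Nat.mul 4 k) 7) 0 k (b0 D Tm s k)
def cb1 (n k : Nat) : WC' → WC' := op (D.L (Nat.succ (Nat.succ s))) s
  (Nat.mul (Nat.mul n 3) (Nat.add (Nat.mul 4 k) 7)) 0 (Nat.mul (Nat.mul n 3) (Nat.succ k))
  (b1 D Tm s n k)
def cb2 (n : Nat) : WC' → WC' := op (D.L (Nat.succ (Nat.succ s))) s (Nat.mul n 9) 0 0
  fun v => (d1 D Tm s n v).neg

end WC'

variable [hp : Fact (Nat.Prime 3)] {G G' : ℕ → Type} [∀ q, Fintype (G q)] [∀ q, Fintype (G' q)]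
  (R : Rs 3 K G) (θ : G 0 → G 0 → Cob Laz 1) (D : KD) (ix : ∀ q, G (q + 1) → ℕ)

/-- the value represents the class of `x` -/
def CP (s : ℕ) (x : G 0 → Cob Laz s) (T a b : ℕ) (p : P) : Prop :=
  ∃ u, Rc R θ s T a b x u ∧ WP (D.L s) (ix s) u T a b p

/-- the computation represents the class of `x` -/
def CV (s : ℕ) (x : G 0 → Cob Laz s) (v : WC') : Prop := v.Ok (CP R θ D ix s x)

/-- the computations represent elements of `𝒵` -/
inductive CL {s : ℕ} (𝒵 : AddSubgroup (G 0 → Cob Laz s)) : List WC' → Prop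
  | nil : CL 𝒵 []
  | cons {z v l} : z ∈ 𝒵 → CV R θ D ix s z v → CL 𝒵 l → CL 𝒵 (v :: l)

/-- a resolution together with its data -/
structure Wx [DecidableEq (G 0)] (Tm s3 s4 : ℕ) : Prop where
  wd : Wd R θ
  cx : Cx R 0 Tm s3 s4 D ix
  hT : Tm ≤ 90

variable {R θ D ix} {s s' T a b k n : ℕ} {x x' : G 0 → Cob Laz s} {v v' : WC'}
  {𝒵 : AddSubgroup (G 0 → Cob Laz s)}

namespace CV

theorem neg (h : CV R θ D ix s x v) : CV R θ D ix s (-x) v.neg :=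
  WC'.Ok.bind h fun _ _ _ _ ⟨_, h1, h2⟩ => WC'.ok_of fun _ =>
    ⟨_, (vr_cst h2.vp).neg, fun _ h3 => ⟨_, h1.neg, h2.hT, h2.hb, h3⟩⟩

theorem sm (c : ℕ) (h : CV R θ D ix s x v) : CV R θ D ix s (c • x) (v.sm c) :=
  WC'.Ok.bind h fun _ _ _ _ ⟨_, h1, h2⟩ => WC'.ok_of fun _ =>
    ⟨_, (vr_cst h2.vp).sm c, fun _ h3 => ⟨_, h1.nsmul c, h2.hT, h2.hb, h3⟩⟩

theorem cast (h : CV R θ D ix s x v) (e : x = x') : CV R θ D ix s x' v := e ▸ h

/-- operations on classes -/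
theorem op {R' : Rs 3 K G'} {θ' : G' 0 → G' 0 → Cob Laz 1} {D' : KD} {ix' : ∀ q, G' (q + 1) → ℕ}
    (hL : (D'.L s').Ok (ix' s')) {y : G' 0 → Cob Laz s'} {ω ω' j : ℕ} {o : WC' → WC'}
    {f : (G (s + 1) → A) → G' (s' + 1) → A} (ho : OP (D.L s) (ix s) (D'.L s') (ix' s') o f)
    (hr : ∀ (T T' a b : ℕ) u, s ≤ 59 → (T' : ℤ) = T + ω - ω' → T' ≤ (D'.L s').T → b ≤ a + 3 →
      Rc R θ s T a b x u → Rc R' θ' s' T' (j + a) (j + b) y (f u))
    (h : CV R θ D ix s x v) : CV R' θ' D' ix' s' y (WC'.op (D'.L s') s ω ω' j o v) :=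
  WC'.Ok.bind h fun T a b p ⟨u, h1, h2⟩ k hk => by
    obtain ⟨h3, h4⟩ := grd_spec hk
    obtain ⟨h5, h6⟩ := grd_spec h3
    have h7 := h2.hb
    obtain ⟨_, _, b', p', ⟨rfl, rfl, h8, h9⟩, h10⟩ := (ho _ _ (WC'.ok_pure h2)).fit hL
      (show j + b ≤ j + a + 3 by omega) k h4
    refine ⟨_, _, b', p', ⟨_, (hr T _ a b u (Nat.le_of_ble_eq_true h5) ?_ h9.hT h7 h1).mono le_rfl
      h8, h9⟩, h10⟩
    have h11 : ω' ≤ T + ω := Nat.le_of_ble_eq_true h6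
    change ((T + ω - ω' : ℕ) : ℤ) = _
    omega

end CV

variable [DecidableEq (G 0)] {Tm s3 s4 : ℕ}

namespace Wx

variable (H : Wx R θ D ix Tm s3 s4)

include H

theorem ok (s : ℕ) : (D.L s).Ok (ix s) := (H.cx.st s).ok

theorem le (h : T ≤ (D.L s).T) : (T : ℤ) ≤ 90 := by
  have := H.cx.hT s
  have := H.hT
  omega

theorem add (h : CV R θ D ix s x v) (h' : CV R θ D ix s x' v') :
    CV R θ D ix s (x + x') (v.add (D.L s) v') := WC'.Ok.bind h fun T a b _ ⟨_, h1, h2⟩ =>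
  WC'.Ok.bind h' fun _ a' b' _ ⟨_, h3, h4⟩ => WC'.ok_of fun h5 => by
    obtain rfl := Nat.eq_of_beq_eq_true h5
    have h6 := h2.hb
    have h7 := h4.hb
    rw [mn_eq, mn_eq]
    exact ⟨_, (vr_cut (H.ok s) h2.hT h6 h2.vp (min_le_left _ _) (min_le_left _ _)).add
      (vr_cut (H.ok s) h4.hT h7 h4.vp (min_le_right _ _) (min_le_right _ _)), fun _ h8 =>
        ⟨_, (h1.mono (min_le_left _ _) (min_le_left _ _)).add
          (h3.mono (min_le_right _ _) (min_le_right _ _)), h2.hT, by omega, h8⟩⟩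

theorem sub (h : CV R θ D ix s x v) (h' : CV R θ D ix s x' v') :
    CV R θ D ix s (x - x') (v.sub (D.L s) v') := sub_eq_add_neg x x' ▸ H.add h h'.neg

theorem cong (h : CV R θ D ix s x v) (T : ℕ) (h' : x' - x ∈ BQ 3 θ (R.deg 0) T 3 s) :
    CV R θ D ix s x' (v.at' T) := WC'.Ok.bind h fun _ _ _ _ ⟨_, h1, h2⟩ => WC'.ok_of fun h3 => by
  obtain rfl := Nat.eq_of_beq_eq_true h3
  exact ⟨_, vr_cst h2.vp, fun _ h4 => ⟨_, H.wd.cong h1 h', h2.hT, h2.hb, h4⟩⟩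

/-- a class with given leading terms -/
theorem nm {l : List Tr} (h : Rc R θ s T a b x (vL (ix s) l)) :
    CV R θ D ix s x (WC'.lst (D.L s) T a b l) :=
  (ok_lst (H.ok s) T a b l).mono fun _ _ _ _ ⟨h1, h2, h3, h4⟩ => ⟨_, h1 ▸ h2 ▸ h3 ▸ h, h4⟩

theorem lc {m : ℕ} {z : Cob Laz m} {ω j : ℕ} (hz : (fun _ => z) ∈ ZS ω m) (e : m + s = s')
    {o : WC' → WC'} {f : (G (s + 1) → A) → G (s' + 1) → A}
    (ho : OP (D.L s) (ix s) (D.L s') (ix s') o f)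
    (hr : ∀ (w w' : ℤ) a b y u, s ≤ 59 → w' ≤ 90 → ω + w = w' → b ≤ a + 3 → Rv p3 R s w a b y u →
      Rv p3 R s' w' (j + a) (j + b) (P236EL.lc _ e z y) (f u)) (h : CV R θ D ix s x v) :
    CV R θ D ix s' (P236EL.lc _ e z x) (WC'.op (D.L s') s ω 0 j o v) :=
  h.op (H.ok s') ho fun T T' _ _ _ h1 h2 h3 h4 h5 =>
    have h6 : (ω : ℤ) + T = T' := by omega
    h5.map _ (lcZ H.wd.mc e hz h6 h5.zc) (fun _ => lcB H.wd.mc e hz h6) fun _ _ =>
      hr _ _ _ _ _ _ h1 (H.le h3) h6 h4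

variable {t : Cob Laz 1} (ht : IsT1 3 t)

include ht

theorem vm (k : ℕ) (e : 0 + s = s) (h : CV R θ D ix s x v) :
    CV R θ D ix s (P236EL.lc _ e (v1 ^ k) x) (WC'.cvm D Tm s k v) :=
  H.lc (zs_v ht k) e (fun _ _ hv => hv.v1 (H.cx.hT s) k)
    (fun _ _ _ _ _ _ h1 h2 h3 => H.wd.vm ht (by omega) h2 h3 e) h

theorem v1 (e : 0 + s = s) (h : CV R θ D ix s x v) :
    CV R θ D ix s (P236EL.lc _ e v1 x) (WC'.cvm D Tm s 1 v) :=
  (H.vm ht 1 e h).cast (by rw [pow_one])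

theorem tm (k : ℕ) (hz : (fun _ => t ^ k) ∈ ZS k 1) (e : 1 + s = s') (h : CV R θ D ix s x v) :
    CV R θ D ix s' (P236EL.lc _ e (t ^ k) x) (WC'.ctm D s k v) := by
  obtain rfl : s' = s + 1 := by omega
  exact H.lc hz e (op_tm H.cx k) (fun _ _ _ _ _ _ h1 h2 h3 h4 h5 => by
    simpa only [zero_add] using H.wd.tm ht (by omega) h2 hz h3 e h4 h5) h

theorem t1 (e : 1 + s = s') (h : CV R θ D ix s x v) :
    CV R θ D ix s' (P236EL.lc _ e t x) (WC'.ctm D s 1 v) :=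
  (H.tm ht 1 (by rw [pow_one]; exact zs_t ht) e h).cast (by rw [pow_one])

theorem bm (e : 2 + s = s') (h : CV R θ D ix s x v) :
    CV R θ D ix s' (lb t s e x) (WC'.cbm D s v) := by
  obtain rfl : s' = s + 2 := by omega
  exact H.lc (ω := 3) (zs_bb ht) e (op_bm H.cx 1) (fun _ _ _ _ _ _ h1 h2 h3 h4 h5 => by
    simpa only [zero_add] using H.wd.bm ht h1 h2 h3 e h4 h5) h

omit ht

variable {f : ℕ} {z : Cob Laz 1} {c : Cob Laz 2}

theorem gm (hz : Grk f (k + 1) z c) (e : 1 + s = s') (h : CV R θ D ix s x v) :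
    CV R θ D ix s' (P236EL.lc _ e z x) (WC'.cgm D Tm s (3 ^ f) k v) := by
  obtain rfl : s' = s + 1 := by omega
  have h0 : (3 : ℤ) ^ f * (4 * (k + 1 : ℕ) - 1) = (3 ^ f * (4 * k + 3) : ℕ) := by
    push_cast
    ring
  exact H.lc (hz.zx h0) e (op_gm H.cx f k)
    (fun _ _ _ _ _ _ h1 h2 h3 => H.wd.gm hz (by omega) h2 (h0 ▸ h3) e rfl) h

theorem b0 (hz : Grk 0 (k + 2) z c) (e : 2 + s = s') (h : CV R θ D ix s x v) :
    CV R θ D ix s' (P236EL.lc _ e c x) (WC'.cb0 D Tm s k v) := by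
  obtain rfl : s' = s + 2 := by omega
  have h0 : (3 : ℤ) ^ 0 * (4 * (k + 2 : ℕ) - 1) = (4 * k + 7 : ℕ) := by
    push_cast
    ring
  exact H.lc (hz.zc h0) e (op_b0 H.cx k)
    (fun _ _ _ _ _ _ h1 h2 h3 => H.wd.bk hz h1 h2 (h0 ▸ h3) e rfl) h

theorem b1 (hz : Grk (f + 1) (k + 2) z c) (e : 2 + s = s') (h : CV R θ D ix s x v) :
    CV R θ D ix s' (P236EL.lc _ e c x) (WC'.cb1 D Tm s (3 ^ f) k v) := by
  obtain rfl : s' = s + 2 := by omega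
  have h0 : (3 : ℤ) ^ (f + 1) * (4 * (k + 2 : ℕ) - 1) = (3 ^ f * 3 * (4 * k + 7) : ℕ) := by
    push_cast
    ring
  exact H.lc (hz.zc h0) e (op_b1 H.cx f k)
    (fun _ _ _ _ _ _ h1 h2 h3 => H.wd.bk hz h1 h2 (h0 ▸ h3) e rfl) h

theorem b2 (hz : Grk (f + 1) 1 z c) (e : 2 + s = s') (h : CV R θ D ix s x v) :
    CV R θ D ix s' (P236EL.lc _ e c x) (WC'.cb2 D Tm s (3 ^ f) v) := by
  obtain rfl : s' = s + 2 := by omega
  have h0 : (3 : ℤ) ^ (f + 1) * (4 * (1 : ℕ) - 1) = (3 ^ f * 9 : ℕ) := by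
    push_cast
    ring
  exact H.lc (hz.zc h0) e (op_b1' H.cx f)
    (fun _ _ _ _ _ _ h1 h2 h3 => H.wd.bk hz h1 h2 (h0 ▸ h3) e rfl) h

end Wx

end Vale.Agent.P236EL

end
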