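import Mathlib.Algebra.Group.Subgroup.Basic
import Mathlib.Algebra.Module.Basic
import Mathlib.Algebra.Ring.Int.Defs
import Mathlib.Algebra.Group.Hom.End
import Mathlib.Tactic.Abel
import Mathlib.Tactic.Ring

/-!
# P236EL / Dbl : the zigzag in a double complex, modulo a subcomplex

`W n q` is the group in bidegree `(n, q)`; everything is computed modulo `Z n q`.  The column `q = 0`
is the complex to be resolved (shifted by one), the row `n = 0` is the small complex.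
-/

namespace Vale.Agent.P236EL

/-- a double complex with contractible columns -/
structure DC (E : ℕ → Type) [∀ q, AddCommGroup (E q)] where
  /-- the groups -/
  W : ℕ → (q : ℕ) → AddSubgroup (E q)
  /-- the negligible elements -/
  Z : (q : ℕ) → AddSubgroup (E q)
  /-- vertical differential -/
  δ : ℕ → (q : ℕ) → E q →+ E q
  /-- contraction -/
  σ : ℕ → (q : ℕ) → E q →+ E q
  /-- horizontal differential -/
  d : ℕ → (q : ℕ) → E q →+ E (q + 1)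
  δW : ∀ n q x, x ∈ W n q → δ n q x ∈ W (n + 1) q
  δZ : ∀ n q x, x ∈ Z (q + 1) → δ n (q + 1) x ∈ Z (q + 1)
  dW : ∀ n q x, x ∈ W n q → d n q x ∈ W n (q + 1)
  dZ : ∀ n q x, x ∈ Z q → d n q x ∈ Z (q + 1)
  σW : ∀ n q x, x ∈ W (n + 1) (q + 1) → σ n (q + 1) x ∈ W n (q + 1)
  σZ : ∀ n q x, x ∈ Z (q + 1) → σ n (q + 1) x ∈ Z (q + 1)
  δδ : ∀ n q x, δ (n + 1) (q + 1) (δ n (q + 1) x) = 0
  σ0 : ∀ q x, σ 0 (q + 1) (δ 0 (q + 1) x) = x
  σδ : ∀ n q x, σ (n + 1) (q + 1) (δ (n + 1) (q + 1) x) =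
    δ n (q + 1) (σ n (q + 1) x) + ((-1 : ℤ) ^ (n + 1)) • x
  dδ : ∀ n q x, x ∈ W n q → d (n + 1) q (δ n q x) = δ n (q + 1) (d n q x)

/-- the iterated zigzag -/
def zig {E : ℕ → Type} [∀ q, AddCommGroup (E q)] (f : ℕ → (q : ℕ) → E q →+ E (q + 1)) :
    (n q s : ℕ) → q + n = s → E q →+ E s
  | 0, _, _, h => h ▸ AddMonoidHom.id _
  | n + 1, q, s, h => (zig f n (q + 1) s (by omega)).comp (f n q)

theorem zig_zero {E : ℕ → Type} [∀ q, AddCommGroup (E q)] (f : ℕ → (q : ℕ) → E q →+ E (q + 1))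
    (q : ℕ) (h : q + 0 = q) (x : E q) : zig f 0 q q h x = x := rfl

theorem zig_succ {E : ℕ → Type} [∀ q, AddCommGroup (E q)] (f : ℕ → (q : ℕ) → E q →+ E (q + 1))
    (n q s : ℕ) (h : q + (n + 1) = s) (x : E q) :
    zig f (n + 1) q s h x = zig f n (q + 1) s (by omega) (f n q x) := rfl

theorem neg_one_smul_smul {M : Type*} [AddCommGroup M] (n : ℕ) (x : M) :
    ((-1 : ℤ) ^ n) • ((-1 : ℤ) ^ n) • x = x := by
  rw [smul_smul, ← mul_pow]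
  simp

namespace DC

variable {E : ℕ → Type} [∀ q, AddCommGroup (E q)] (D : DC E)

/-- one step of the zigzag -/
def st (n q : ℕ) : E q →+ E (q + 1) := (D.σ n (q + 1)).comp (D.d (n + 1) q)

/-- the comparison map -/
def T (n q s : ℕ) (h : q + n = s) : E q →+ E s := zig D.st n q s h

theorem T_succ (n q s : ℕ) (h : q + (n + 1) = s) (x : E q) :
    D.T (n + 1) q s h x = D.T n (q + 1) s (by omega) (D.σ n (q + 1) (D.d (n + 1) q x)) := rfl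

theorem TW (n q s : ℕ) (h : q + n = s) {x : E q} (hx : x ∈ D.W n q) : D.T n q s h x ∈ D.W 0 s := by
  induction n generalizing q with
  | zero =>
    obtain rfl : q = s := h
    exact hx
  | succ n ih => exact ih _ _ (D.σW _ _ _ (D.dW _ _ _ hx))

theorem TZ (n q s : ℕ) (h : q + n = s) {x : E q} (hx : x ∈ D.Z q) : D.T n q s h x ∈ D.Z s := by
  induction n generalizing q with
  | zero =>
    obtain rfl : q = s := h
    exact hx
  | succ n ih => exact ih _ _ (D.σZ _ _ _ (D.dZ _ _ _ hx))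

/-- `d ∘ d` is negligible up to column `Q` -/
def Sq (Q : ℕ) : Prop :=
  ∀ n q x, q < Q → x ∈ D.W n q → D.d n (q + 1) (D.d n q x) ∈ D.Z (q + 2)

/-- the rows are exact up to column `Q` -/
def Ex (Q : ℕ) : Prop :=
  ∀ n q x, q < Q → x ∈ D.W (n + 1) (q + 1) → D.d (n + 1) (q + 1) x ∈ D.Z (q + 2) →
    ∃ a ∈ D.W (n + 1) q, x - D.d (n + 1) q a ∈ D.Z (q + 1)

variable {D} {Q : ℕ}

theorem Sq.mono {Q' : ℕ} (h : D.Sq Q) (hQ : Q' ≤ Q) : D.Sq Q' :=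
  fun n q x hq => h n q x (by omega)

theorem Ex.mono {Q' : ℕ} (h : D.Ex Q) (hQ : Q' ≤ Q) : D.Ex Q' :=
  fun n q x hq => h n q x (by omega)

theorem chain {s : ℕ} (hS : D.Sq s) (n q : ℕ) (h : q + n = s) {a : E q} (ha : a ∈ D.W n q) :
    D.T (n + 1) q (s + 1) (by omega) (D.δ n q a) - D.d 0 s (D.T n q s h a) ∈ D.Z (s + 1) := by
  induction n generalizing q with
  | zero =>
    obtain rfl : q = s := h
    rw [T_succ, D.dδ _ _ _ ha, D.σ0]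
    change D.d 0 q a - D.d 0 q a ∈ _
    rw [sub_self]
    exact (D.Z _).zero_mem
  | succ n ih =>
    rw [T_succ, D.dδ _ _ _ ha, D.σδ, map_add, add_sub_right_comm, map_zsmul]
    refine (D.Z _).add_mem (ih (q + 1) (by omega) (D.σW _ _ _ (D.dW _ _ _ ha)))
      ((D.Z _).zsmul_mem ?_ _)
    rw [T_succ]
    exact D.TZ _ _ _ _ (D.σZ _ _ _ (hS _ _ _ (by omega) ha))

theorem sub_δσ {n q : ℕ} {x : E (q + 1)} (hx : D.δ (n + 1) (q + 1) x ∈ D.Z (q + 1)) :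
    x - D.δ n (q + 1) (((-1 : ℤ) ^ n) • D.σ n (q + 1) x) ∈ D.Z (q + 1) := by
  have h := (D.Z _).zsmul_mem (D.σZ (n + 1) _ _ hx) ((-1 : ℤ) ^ (n + 1))
  rw [D.σδ, smul_add, neg_one_smul_smul, pow_succ, mul_neg_one, neg_smul, ← map_zsmul] at h
  convert h using 1
  abel

theorem inj_aux {s : ℕ} (hS : D.Sq s) (hE : D.Ex s) {u : E s} (hu : u ∈ D.W 0 s) (n q : ℕ)
    (h : q + n = s) {a : E q} (ha : a ∈ D.W (n + 1) q)
    (h1 : D.δ (n + 1) (q + 1) (D.d (n + 1) q a) ∈ D.Z (q + 1))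
    (h2 : D.T (n + 1) q (s + 1) (by omega) a - D.d 0 s u ∈ D.Z (s + 1)) :
    ∃ b ∈ D.W n q, D.d (n + 1) q a - D.δ n (q + 1) (D.d n q b) ∈ D.Z (q + 1) := by
  induction n generalizing q with
  | zero =>
    obtain rfl : q = s := h
    refine ⟨u, hu, ?_⟩
    have h3 := (D.Z _).add_mem (sub_δσ h1) (D.δZ 0 _ _ h2)
    rw [pow_zero, one_smul, map_sub] at h3
    convert h3 using 1
    exact (sub_add_sub_cancel _ _ _).symm
  | succ n ih =>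
    have hx := D.dW _ _ _ ha
    have hz := D.σW _ _ _ hx
    have h3 := sub_δσ h1
    obtain ⟨b₁, hb₁, h4⟩ := ih (q + 1) (by omega) hz (by
      have h5 := (D.Z _).zsmul_mem ((D.Z _).sub_mem (hS _ _ _ (by omega) ha) (D.dZ (n + 1 + 1) _ _ h3))
        ((-1 : ℤ) ^ (n + 1))
      rwa [map_sub, sub_sub_cancel, map_zsmul, map_zsmul, neg_one_smul_smul, D.dδ _ _ _ hz] at h5) h2
    obtain ⟨b, hb, h5⟩ := hE n q _ (by omega) ((D.W _ _).sub_mem hz (D.δW _ _ _ hb₁))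
      (by rwa [map_sub, D.dδ _ _ _ hb₁])
    refine ⟨((-1 : ℤ) ^ (n + 1)) • b, (D.W _ _).zsmul_mem hb _, ?_⟩
    have h6 := (D.Z _).add_mem h3 ((D.Z _).zsmul_mem (D.δZ (n + 1) _ _ h5) ((-1 : ℤ) ^ (n + 1)))
    rw [map_sub, map_sub, D.δδ, sub_zero, smul_sub, map_zsmul] at h6
    rw [map_zsmul, map_zsmul]
    convert h6 using 1
    abel

theorem surj_aux {s : ℕ} (hS : D.Sq s) (hE : D.Ex (s + 1)) {u : E (s + 1)}
    (hu : u ∈ D.W 0 (s + 1)) (h1 : D.d 0 (s + 1) u ∈ D.Z (s + 2)) (n q : ℕ) (h : q + n = s) :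
    ∃ a ∈ D.W (n + 1) q, D.δ (n + 1) (q + 1) (D.d (n + 1) q a) ∈ D.Z (q + 1) ∧
      ∃ u' ∈ D.W 0 s, D.T (n + 1) q (s + 1) (by omega) a - u - D.d 0 s u' ∈ D.Z (s + 1) := by
  induction n generalizing q with
  | zero =>
    obtain rfl : q = s := h
    obtain ⟨a, ha, h2⟩ := hE 0 q _ (by omega) (D.δW _ _ _ hu)
      (by rw [D.dδ _ _ _ hu]; exact D.δZ _ _ _ h1)
    refine ⟨a, ha, ?_, 0, (D.W _ _).zero_mem, ?_⟩
    · have h3 := (D.Z _).neg_mem (D.δZ 1 _ _ h2)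
      rwa [map_sub, D.δδ, zero_sub, neg_neg] at h3
    · have h3 := (D.Z _).neg_mem (D.σZ 0 _ _ h2)
      rw [map_sub, D.σ0, neg_sub] at h3
      rw [map_zero, sub_zero]
      exact h3
  | succ n ih =>
    obtain ⟨a₁, ha₁, h2, u', hu', h3⟩ := ih (q + 1) (by omega)
    obtain ⟨a, ha, h4⟩ := hE (n + 1) q _ (by omega) (D.δW _ _ _ ha₁) (by rwa [D.dδ _ _ _ ha₁])
    have hz := D.σW _ _ _ ha₁
    refine ⟨((-1 : ℤ) ^ (n + 1)) • a, (D.W _ _).zsmul_mem ha _, ?_,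
      u' + ((-1 : ℤ) ^ (n + 1)) • D.T n (q + 1) s (by omega) (D.σ n (q + 1) a₁),
      (D.W _ _).add_mem hu' ((D.W _ _).zsmul_mem (D.TW _ _ _ _ hz) _), ?_⟩
    · have h5 := (D.Z _).neg_mem (D.δZ (n + 1 + 1) _ _ h4)
      rw [map_sub, D.δδ, zero_sub, neg_neg] at h5
      rw [map_zsmul, map_zsmul]
      exact (D.Z _).zsmul_mem h5 _
    · have h5 := D.TZ (n + 1) (q + 1) (s + 1) (by omega) (D.σZ (n + 1) _ _ h4)
      rw [map_sub, D.σδ, map_sub, map_add, map_zsmul, ← T_succ _ _ _ _ (by omega)] at h5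
      have h6 := (D.Z _).add_mem h3 ((D.Z _).zsmul_mem
        ((D.Z _).sub_mem (chain hS n (q + 1) (by omega) hz) h5) ((-1 : ℤ) ^ (n + 1)))
      rw [map_zsmul, map_add, map_zsmul]
      rw [smul_sub, smul_sub, smul_sub, smul_add, neg_one_smul_smul] at h6
      convert h6 using 1
      abel

/-- the augmentation is injective -/
def In (D : DC E) : Prop := ∀ n x, x ∈ D.W (n + 1) 0 → D.d (n + 1) 0 x ∈ D.Z 1 → x ∈ D.Z 0

theorem inj {s : ℕ} (hS : D.Sq s) (hE : D.Ex s) (hI : D.In) {F : E 0} (hF : F ∈ D.W (s + 1) 0)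
    (h1 : D.δ (s + 1) 0 F ∈ D.Z 0) {u : E s} (hu : u ∈ D.W 0 s)
    (h2 : D.T (s + 1) 0 (s + 1) (by omega) F - D.d 0 s u ∈ D.Z (s + 1)) :
    ∃ G ∈ D.W s 0, F - D.δ s 0 G ∈ D.Z 0 := by
  obtain ⟨G, hG, h3⟩ := inj_aux hS hE hu s 0 (by omega) hF
    (by rw [← D.dδ _ _ _ hF]; exact D.dZ _ _ _ h1) h2
  refine ⟨G, hG, hI s _ ((D.W _ _).sub_mem hF (D.δW _ _ _ hG)) ?_⟩
  rwa [map_sub, D.dδ _ _ _ hG]

theorem surj {s : ℕ} (hS : D.Sq s) (hE : D.Ex (s + 1)) (hI : D.In) {u : E (s + 1)}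
    (hu : u ∈ D.W 0 (s + 1)) (h1 : D.d 0 (s + 1) u ∈ D.Z (s + 2)) :
    ∃ F ∈ D.W (s + 1) 0, D.δ (s + 1) 0 F ∈ D.Z 0 ∧
      ∃ u' ∈ D.W 0 s, D.T (s + 1) 0 (s + 1) (by omega) F - u - D.d 0 s u' ∈ D.Z (s + 1) := by
  obtain ⟨F, hF, h2, h3⟩ := surj_aux hS hE hu h1 s 0 (by omega)
  refine ⟨F, hF, hI _ _ (D.δW _ _ _ hF) ?_, h3⟩
  rwa [D.dδ _ _ _ hF]

/-- the cone of the comparison map is exact -/
theorem cone {s : ℕ} (hS : D.Sq (s + 1)) (hE : D.Ex (s + 1)) (hI : D.In) {F : E 0}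
    (hF : F ∈ D.W (s + 2) 0) (h1 : D.δ (s + 2) 0 F ∈ D.Z 0) {u : E (s + 1)}
    (hu : u ∈ D.W 0 (s + 1))
    (h2 : D.T (s + 2) 0 (s + 2) (by omega) F - D.d 0 (s + 1) u ∈ D.Z (s + 2)) :
    ∃ G ∈ D.W (s + 1) 0, F - D.δ (s + 1) 0 G ∈ D.Z 0 ∧
      ∃ u' ∈ D.W 0 s, u - D.T (s + 1) 0 (s + 1) (by omega) G - D.d 0 s u' ∈ D.Z (s + 1) := by
  obtain ⟨G₀, hG₀, h3⟩ := inj hS hE hI hF h1 hu h2
  obtain ⟨G₁, hG₁, h4, u', hu', h5⟩ := surj (hS.mono (Nat.le_succ s)) hE hI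
    ((D.W _ _).sub_mem hu (D.TW (s + 1) 0 (s + 1) (by omega) hG₀)) (by
      have h4 := (D.Z _).sub_mem ((D.Z _).add_mem (D.TZ (s + 2) 0 (s + 2) (by omega) h3)
        (chain hS (s + 1) 0 (by omega) hG₀)) h2
      rw [map_sub] at h4 ⊢
      convert h4 using 1
      abel)
  refine ⟨G₀ + G₁, (D.W _ _).add_mem hG₀ hG₁, ?_, -u', (D.W _ _).neg_mem hu', ?_⟩
  · rw [map_add, ← sub_sub]
    exact (D.Z _).sub_mem h3 h4
  · have h6 := (D.Z _).neg_mem h5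
    rw [map_add, map_neg]
    convert h6 using 1
    abel

end DC

end Vale.Agent.P236EL
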