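import Vale.Agent.P236EL.Red
import Vale.Agent.P236EL.Bc

/-!
# P236EL / Ext : exact lifts of cocycles, divided differences and their Bockstein classes
-/

noncomputable section

namespace Vale.Agent.P236EL

open Vale.Agent.P251.F Vale.Agent.P251.F.F3 Vale.Agent.P257.H80 LawRing MvPolynomial Ch

variable {p : ℕ} [hp : Fact p.Prime]

section lift

variable {G : ℕ → Type} [∀ q, Fintype (G q)] [DecidableEq (G 0)] {Q : ℕ} {hQ : PLoc p (ZMod Q)}
  {R : Rs p (ZMod Q) G} {θ : G 0 → G 0 → Cob Laz 1} {s : ℕ} {w : ℤ} {K : Ideal (AA (ZMod Q))}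

theorem IC.exists_ext (hC : IC hQ R θ) {y : G 0 → CC (ZMod Q)} (hy : y ∈ PW p (R.deg 0) w K s) :
    ∃ x ∈ CW p Laz (R.deg 0) w s, rsP hQ _ s x = y ∧ ∀ c, rq Q (s + 1) (DD θ s x c) =
      extT (fun a b => rq Q 1 (θ a b)) (rpQZ hQ) (s + 1) (cD p R.th s y) c := by
  choose x hx hx' using fun c => exists_lift_rq
    (isWt_extT (rpQZ hQ) (n := s) hC.cell.wt (fun c => (hy c).2.1) c)
  refine ⟨x, hx, funext fun c => ?_, fun c => ?_⟩
  · rw [rsP_apply, rs_apply, hx', resC_extT _ hC.cell.mc fun c => (hy c).1]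
  · rw [mapRing_DD (isLawHom_mkZ Q), funext hx', DD_extT _ hC.cell.mc hC.cell.lk fun c => (hy c).1]

/-- every cocycle is the restriction of a cocycle -/
theorem IC.exists_ZC (hC : IC hQ R θ) {y : G 0 → CC (ZMod Q)} (hy : y ∈ PW p (R.deg 0) w K s)
    (hd : cD p R.th s y = 0) : ∃ x ∈ ZC p θ (R.deg 0) w Q s, rsP hQ _ s x = y := by
  obtain ⟨x, hx, h1, h2⟩ := hC.exists_ext hy
  exact ⟨x, mem_ZC'.2 ⟨hx, mem_QW_of_rq (DD_mem_CW hC.wt hx) fun c => by
    simp [h2, hd, extT]⟩, h1⟩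

theorem d_extC {L N : Type} [CommRing L] [CommRing N] [LawRing N] (hR : Rp p N L) {y : CC L}
    (hy : y ∈ Loc p L s) : Cob.d s (extC hR s y) = extC hR (s + 1) (alt p L (s + 2) y) :=
  ext_ofSeq fun B _ x V => by
    rw [ev_ofSeq_extC hR _ _ (alt_mem_Loc hy _)]
    simp only [ev_d_ofSeq, ev_ofSeq_extC hR _ _ hy, alt_apply, map_sum, map_zsmul, fc, ev_pb,
      tyC_res hR x V (sa_mono _), del_eq]

/-- a cochain modulo `p ^ 2` whose differential is divisible by `p` -/
theorem exists_bock (hQ : PLoc p (ZMod Q)) (hP : PLoc p (ZMod p)) (hq : Q = p * p)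
    (ψ : ZMod Q →+* ZMod p) {y h : CC (ZMod Q)} (h1 : y ∈ Loc p (ZMod Q) s)
    (h2 : y ∈ WC p (ZMod Q) w) (hd : alt p _ (s + 2) y = p * h) :
    ∃ x c, Cob.IsWt (((p : ℤ) - 1) * w) x ∧ Cob.IsWt (((p : ℤ) - 1) * w) c ∧ Cob.d s x = p • c ∧
      rs hP s x = map ψ y ∧ rs hP (s + 1) c = map ψ h := by
  obtain ⟨x, hx, h3⟩ := exists_lift_rq (isWt_extC (rpQZ hQ) s h2)
  have h4 : rs hQ s x = y := by rw [rs_apply, h3, resC_extC _ h1]
  obtain ⟨e, he⟩ := Cob.mapRing_surjective (n := s + 1)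
    (Ideal.Quotient.mk_surjective (I := Ideal.span {(Q : Laz)})) (extC (rpQZ hQ) (s + 1) h)
  obtain ⟨e', h5⟩ := (rq_eq_zero_iff (q := Q) (z := Cob.d s x - p • e)).1 (by
    rw [map_sub, Cob.mapRing_d (isLawHom_mkZ Q), h3, d_extC _ h1, hd, map_nsmul, he, map_mul,
      map_natCast, nsmul_eq_mul, sub_self])
  obtain ⟨c, hc, h6⟩ := exists_wt_of_rq hx.d ((rq_eq_zero_iff (q := p)).2
    ⟨e + p • e', by rw [smul_add, smul_smul, ← hq, ← h5, add_sub_cancel]⟩)
  refine ⟨x, c, hx, hc, h6, by rw [← bc_rs hQ hP ψ, h4], ?_⟩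
  rw [← bc_rs hQ hP ψ, ← sub_eq_zero, ← map_sub]
  ext m
  rw [coeff_map]
  refine (zmod_ker hq ψ hp.out.ne_zero _).2 ?_
  rw [← coeff_C_mul, map_natCast, mul_sub, ← hd, ← h4, ← rs_d, h6, map_nsmul, nsmul_eq_mul,
    sub_self, coeff_zero]

end lift

section sym

variable {B B' : Type*} [CommRing B] [CommRing B']

/-- the complete symmetric polynomial of degree `k - 1` in two variables -/
def h2 (x y : B) : ℕ → B
  | 0 => 0
  | k + 1 => x ^ k + h2 x y k * y

/-- the complete symmetric polynomial of degree `k - 2` in three variables -/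
def h3 (x y z : B) : ℕ → B
  | 0 => 0
  | k + 1 => h2 x y k + h3 x y z k * z

theorem h2_mul (x y : B) (k : ℕ) : (y - x) * h2 x y k = y ^ k - x ^ k := by
  induction k with
  | zero => simp [h2]
  | succ k ih => rw [h2]; linear_combination y * ih

theorem h2_sub (x y z : B) (k : ℕ) : h2 y z k - h2 x z k = (y - x) * h3 x y z k := by
  induction k with
  | zero => simp [h2, h3]
  | succ k ih => rw [h2, h2, h3]; linear_combination z * ih - h2_mul x y k

theorem h2_sub' (x y z : B) (k : ℕ) : h2 x y k - h2 x z k = (y - z) * h3 x y z k := by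
  induction k with
  | zero => simp [h2, h3]
  | succ k ih => rw [h2, h2, h3]; linear_combination z * ih

theorem map_h2 (f : B →+* B') (x y : B) (k : ℕ) : f (h2 x y k) = h2 (f x) (f y) k := by
  induction k with
  | zero => exact map_zero f
  | succ k ih => rw [h2, h2, map_add, map_mul, map_pow, ih]

theorem map_h3 (f : B →+* B') (x y z : B) (k : ℕ) : f (h3 x y z k) = h3 (f x) (f y) (f z) k := by
  induction k with
  | zero => exact map_zero f
  | succ k ih => rw [h3, h3, map_add, map_mul, map_h2, ih]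

theorem h2_mem {J : Ideal B} {x y : B} (hx : x ∈ J) (hy : y ∈ J) (k : ℕ) :
    h2 x y (k + 1) ∈ J ^ k := by
  induction k with
  | zero => simp
  | succ k ih => exact add_mem (Ideal.pow_mem_pow hx _) (pow_succ J k ▸ Ideal.mul_mem_mul ih hy)

theorem h3_mem {J : Ideal B} {x y z : B} (hx : x ∈ J) (hy : y ∈ J) (hz : z ∈ J) (k : ℕ) :
    h3 x y z (k + 2) ∈ J ^ k := by
  induction k with
  | zero => simp
  | succ k ih => exact add_mem (h2_mem hx hy _) (pow_succ J k ▸ Ideal.mul_mem_mul ih hz)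

theorem h2_mem_graded (𝒜 : ℤ → AddSubgroup B) [SetLike.GradedMonoid 𝒜] {x y : B} {n : ℤ}
    (hx : x ∈ 𝒜 n) (hy : y ∈ 𝒜 n) (k : ℕ) : h2 x y (k + 1) ∈ 𝒜 (k * n) := by
  induction k with
  | zero => simpa [h2] using SetLike.one_mem_graded 𝒜
  | succ k ih =>
    refine add_mem (nsmul_eq_mul (k + 1) n ▸ SetLike.pow_mem_graded _ hx) ?_
    rw [Nat.cast_succ, add_one_mul]
    exact SetLike.mul_mem_graded ih hy

end sym

variable {L : Type} [CommRing L]

variable (p) in
/-- the divided difference `(η b ^ k - b ^ k) / a` -/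
def gk (τ : GG L) (b : AA L) (k : ℕ) : GG L := τ * h2 (C b) (etaR p L b) k

variable (p) in
/-- its differential divided by `p` -/
def hk (τ ε α : GG L) (δ : CC L) (b : AA L) (k : ℕ) : CC L :=
  ((univ L).arr p 0 ε * (univ L).arr p 1 τ - (univ L).arr p 0 τ * (univ L).arr p 1 ε -
    (univ L).arr p 0 (α * τ) * (univ L).arr p 1 τ) *
      h3 ((univ L).pt p 0 b) ((univ L).pt p 1 b) ((univ L).pt p 2 b) k -
    δ * h2 ((univ L).pt p 0 b) ((univ L).pt p 2 b) k

variable (p) in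
/-- `η b - b = a τ + p ε`, `η a - a = p α`, and `τ` is primitive up to `p δ` -/
structure Gd (a b : AA L) (τ ε α : GG L) (δ : CC L) : Prop where
  hb : etaR p L b - C b = C a * τ + (p : GG L) * ε
  ha : etaR p L a = C a + (p : GG L) * α
  hτ : fc p L 1 ((univ L).arr p 0 τ) = (univ L).arr p 0 τ + (univ L).arr p 1 τ + p * δ

theorem fc_zero_arr (g : GG L) : fc p L 0 ((univ L).arr p 0 g) = (univ L).arr p 1 g :=
  pb_arr (sa_mono 0) rfl g

theorem fc_pt (j k : ℕ) (a : AA L) : fc p L j ((univ L).pt p k a) = (univ L).pt p (sa j k) a :=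
  pb_pt (sa_mono j) k a

theorem alt_three (g : GG L) : alt p L 3 ((univ L).arr p 0 g) =
    (univ L).arr p 1 g - fc p L 1 ((univ L).arr p 0 g) + (univ L).arr p 0 g := by
  rw [alt_succ, alt_succ, alt_succ, alt_zero, fc_zero_arr, fc_of_Loc (arr_mem_Loc 0 g) one_lt_two]
  simp [sub_eq_add_neg]

theorem Gd.alt {a b : AA L} {τ ε α : GG L} {δ : CC L} (h : Gd p a b τ ε α δ) (k : ℕ) :
    alt p L 3 ((univ L).arr p 0 (gk p τ b k)) = p * hk p τ ε α δ b k := by
  have h1 := congrArg ((univ L).arr p 0) h.hb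
  have h2' := congrArg ((univ L).arr p 1) h.hb
  have h3' := congrArg ((univ L).arr p 0) h.ha
  simp only [map_sub, map_add, map_mul, arr_etaR, arr_C, map_natCast] at h1 h2' h3'
  rw [alt_three, hk]
  simp only [gk, map_mul, map_h2, arr_C, arr_etaR, fc_pt, h.hτ]
  change _ * h2 _ ((univ L).pt p 2 b) k - _ * h2 ((univ L).pt p 0 b) ((univ L).pt p 2 b) k +
    _ * h2 _ ((univ L).pt p 1 b) k = _
  have h5 := h2_sub ((univ L).pt p 0 b) ((univ L).pt p 1 b) ((univ L).pt p 2 b) k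
  have h6 := h2_sub' ((univ L).pt p 0 b) ((univ L).pt p 1 b) ((univ L).pt p 2 b) k
  generalize h3 ((univ L).pt p 0 b) ((univ L).pt p 1 b) ((univ L).pt p 2 b) k = S at h5 h6 ⊢
  linear_combination (univ L).arr p 1 τ * h5 + (univ L).arr p 0 τ * h6 +
    S * (univ L).arr p 1 τ * h1 - S * (univ L).arr p 0 τ * h2' -
    S * (univ L).arr p 0 τ * (univ L).arr p 1 τ * h3'

/-- the operator of `θ h2 (b_0, b_m)` -/
def H2 {ι κ : Type} (b : AA L) (f : (ι → AA L) → κ → AA L) : ℕ → (ι → AA L) → κ → AA L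
  | 0, _ => 0
  | k + 1, u => b ^ k • f u + H2 b f k (b • u)

/-- the operator of `[g | g'] h3 (b_0, b_1, b_2)` -/
def H3 {ι κ μ : Type} (b : AA L) (f : (κ → AA L) → μ → AA L) (f' : (ι → AA L) → κ → AA L) :
    ℕ → (ι → AA L) → μ → AA L
  | 0, _ => 0
  | k + 1, u => H2 b f k (f' u) + H3 b f f' k (b • u)

namespace Rs

variable {G : ℕ → Type} [∀ q, Fintype (G q)] (R : Rs p L G) {m q s : ℕ} {θ : CC L}

theorem dl_sub (g g' : GG L) (u : G (q + 1) → AA L) :
    R.dl q (g - g') u = R.dl q g u - R.dl q g' u := by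
  rw [eq_sub_iff_add_eq, ← dl_add, sub_add_cancel]

theorem dl_C_mul (a : AA L) (g : GG L) (u : G (q + 1) → AA L) :
    R.dl q (C a * g) u = a • R.dl q g u := by
  funext w'
  simp only [dl, mul_assoc, rAp_C_mul, Pi.smul_apply, smul_eq_mul, Finset.mul_sum]

theorem dl_mul_etaR (a : AA L) (g : GG L) (u : G (q + 1) → AA L) :
    R.dl q (g * etaR p L a) u = R.dl q g (a • u) := by
  funext w'
  simp only [dl, mul_assoc, Pi.smul_apply, smul_eq_mul, map_mul]

theorem star_mul_pt (e : q + m = s) (θ : CC L) (a : AA L) (u : G q → AA L) :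
    R.star m q s e (θ * (univ L).pt p m a) u = R.star m q s e θ (a • u) := by
  rw [star_apply, star_apply]
  congr 2
  funext i
  simp only [cup_apply, up_apply, sh_pt, Pi.smul_apply, smul_eq_mul, map_mul, add_zero, mul_assoc]

theorem star_pt_mul (e : q + 1 + m = s + 1) (hθ : θ ∈ Loc p L m) (a : AA L)
    (u : G (q + 1) → AA L) :
    R.star m (q + 1) (s + 1) e ((univ L).pt p 0 a * θ) u = a • R.star m (q + 1) (s + 1) e θ u := by
  have h := R.star_mul (pt_mem_Loc 0 a) hθ q s (s + 1) e rfl u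
  rw [sh_zero, star_pt] at h
  obtain rfl : s = q + m := by omega
  convert h using 3
  exacts [(zero_add m).symm, rfl]

theorem star_h2 (e : q + 1 + m = s + 1) (hθ : θ ∈ Loc p L m) (b : AA L) (k : ℕ)
    (u : G (q + 1) → AA L) :
    R.star m (q + 1) (s + 1) e (θ * h2 ((univ L).pt p 0 b) ((univ L).pt p m b) k) u =
      H2 b (R.star m (q + 1) (s + 1) e θ) k u := by
  induction k generalizing u with
  | zero => rw [h2, mul_zero, star_zero', H2]
  | succ k ih =>
    rw [h2, mul_add, star_add, ← mul_assoc, star_mul_pt, ih, ← map_pow, mul_comm,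
      R.star_pt_mul e hθ, H2]

theorem dl_gk (τ : GG L) (b : AA L) (k : ℕ) (u : G (q + 1) → AA L) :
    R.dl q (gk p τ b k) u = H2 b (R.dl q τ) k u := by
  rw [← star_arr, gk, map_mul, map_h2, arr_C, arr_etaR, R.star_h2 rfl (arr_mem_Loc 0 τ),
    funext (R.star_arr q τ)]

theorem star_h3 (g g' : GG L) (b : AA L) (k : ℕ) (u : G (q + 1) → AA L) :
    R.star 2 (q + 1) (q + 3) rfl ((univ L).arr p 0 g * (univ L).arr p 1 g' *
      h3 ((univ L).pt p 0 b) ((univ L).pt p 1 b) ((univ L).pt p 2 b) k) u =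
        H3 b (R.dl (q + 1) g) (R.dl q g') k u := by
  induction k generalizing u with
  | zero => rw [h3, mul_zero, star_zero', H3]
  | succ k ih =>
    rw [h3, mul_add, star_add, ← mul_assoc, star_mul_pt, ih, H3, ← dl_gk, ← star_arr2, gk, map_mul,
      map_h2, arr_C, arr_etaR, mul_right_comm]

theorem star_hk (τ ε α : GG L) {δ : CC L} (hδ : δ ∈ Loc p L 2) (b : AA L) (k : ℕ)
    (u : G (q + 1) → AA L) : R.star 2 (q + 1) (q + 3) rfl (hk p τ ε α δ b k) u =
      H3 b (R.dl (q + 1) ε) (R.dl q τ) k u - H3 b (R.dl (q + 1) τ) (R.dl q ε) k u -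
        H3 b (R.dl (q + 1) (α * τ)) (R.dl q τ) k u - H2 b (R.star 2 (q + 1) (q + 3) rfl δ) k u := by
  have key : ∀ A B C S : CC L, (A - B - C) * S = A * S - B * S - C * S := fun _ _ _ _ => by ring
  rw [hk, key, star_sub, star_sub, star_sub, R.star_h2 (q := q) (s := q + 2) rfl hδ,
    R.star_h3 ε τ, R.star_h3 τ ε, R.star_h3 (α * τ) τ]

end Rs

end Vale.Agent.P236EL

end
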