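import Vale.Agent.P236EL.Wd
import Vale.Agent.P236SY.CY

/-!
# P236EL / FRof : the finite checks imply the facts `FR` and `EA`
-/

noncomputable section

namespace Vale.Agent.P236EL

open Vale.Agent.P251.F Vale.Agent.P251.F.F3 Vale.Agent.P257.H80 LawRing MvPolynomial Ch
open Vale.Agent.P251.I Vale.Agent.P236SY Vale.Agent.P236F Vale.Agent.P236R Vale.Agent.P236KE
open AddSubgroup

variable [hp : Fact (Nat.Prime 3)] {S : Sq} (hR : (S.rs (ZMod 3)).Ok (RingHom.id _) 3 61 90)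
  {t : Cob Laz 1} (h : SC (S.rs (ZMod 3)) rfl rfl)

theorem single_sub_mem {z : Cob Laz 1} (hz : Th t z) : Pi.single 0 z - Pi.single 0 (t ^ 27) ∈
    Fl p3 (Fin 2) 1 (II 3 (ZMod 3) ^ 1) := by
  rw [← Pi.single_sub]
  exact single_mem_Fl _ (hz.2 0)

theorem αt_sub_mem (K : Ideal (AA (ZMod 3))) : -![2 * t ^ 2, 2 * t] -
    (Pi.single (0 : Fin 2) (t ^ 2) + Pi.single (1 : Fin 2) (t ^ 1)) ∈ Fl p3 (Fin 2) 1 K :=
    fun c => by
  refine rs_of_dvd ?_ _
  fin_cases c
  · exact ⟨-t ^ 2, by simp; ring⟩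
  · exact ⟨-t, by simp; ring⟩

include hR h

theorem SC.ea' : P236K.EA := by
  obtain ⟨h1, φ, h2⟩ := h.ea
  exact ea_of (S.rs (ZMod 3)) rfl rfl (hR.mono (by omega) le_rfl) (by omega) (by omega)
    (fun k _ hk => h1 k (Nat.zero_le k) (by simpa using hk)) h2

theorem SC.ft' (ht : IsT1 3 t) : FT t := by
  obtain ⟨h1, h2, u, hu, h3⟩ := h.ft
  obtain ⟨z, hz, h4⟩ := (wdS hR).lift (s := 1) (k := 6) (by omega) (by omega) h1 hu
  rw [zs_eta z] at hz h4
  refine ⟨_, hz, (h4.mono (a' := 1) (by omega) le_rfl).fl, (wdS hR).gen (s := 7) (by omega)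
    (by omega) h2 (zmultiples_le_of_mem (b3_mem ht hz)) fun k hk => ?_⟩
  obtain rfl := List.mem_singleton.1 hk
  exact ⟨_, h3, _, mem_zmultiples _, ((wdS hR).bm (s := 5) ht (by omega) (by omega) rfl rfl
    (by omega) ((wdS hR).bm (s := 3) (w' := 33) ht (by omega) (by omega) rfl rfl (by omega)
      ((wdS hR).bm (s := 1) (w' := 30) ht (by omega) (by omega) rfl rfl (by omega) h4))).mono
        (by omega) le_rfl⟩

theorem SC.g142' (ht : IsT1 3 t) : G142 t := by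
  obtain ⟨h1, h2⟩ := h.g142
  have h3 := (rv_t (S := S) (k := 1) (b := 3) ht).cast (w' := 1) (x' := fun _ => t) rfl
    (funext fun _ => pow_one t) rfl
  have h4 := (wdS hR).tm (s := 1) (w' := 28) ht (by omega) (by omega) (zs_27 ht) rfl rfl
    (by omega) h3
  have h5 := (wdS hR).vm (k := 8) (w' := 36) ht (by omega) (by omega) rfl rfl (by omega) h4
  have h6 := lcZ mc_zero (show 0 + 2 = 2 from rfl) (zs_v ht 8) (w := 28) (w' := 36) rfl
    (lcZ mc_zero (show 1 + 1 = 2 from rfl) (zs_27 ht) (w := 1) rfl (zs_t ht))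
  refine (wdS hR).gen (s := 2) (by omega) (by omega) h1 (zmultiples_le_of_mem h6) fun k hk => ?_
  obtain rfl := List.mem_singleton.1 hk
  exact ⟨_, h2, _, mem_zmultiples _, h5.mono (by omega) (by omega)⟩

theorem SC.g139' (ht : IsT1 3 t) : G139 t := fun z hz => by
  obtain ⟨h1, h2, h3⟩ := h.g139
  have h4 : Pi.single 0 z ∈ ZT t 27 1 := single_ZC (c₀ := 0) θA_zero rfl hz.1
  have h5 : ![2 * t ^ 2, 2 * t] ∈ ZT t 2 1 :=
    mem_ZC'.2 ⟨Cx.cw_αt ht, by rw [Cx.dd_αt ht]; exact zero_mem _⟩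
  have h6 : ∀ (c : Fin 2) (k : ℕ) (w : ℤ), (k : ℤ) + c = w →
      Rv p3 ((S.rs (ZMod 3)).cA rfl rfl) 1 w 0 1 (Pi.single c (t ^ k))
        (((S.rs (ZMod 3)).cA rfl rfl).tm 0 k (((S.rs (ZMod 3)).cA rfl rfl).un c)) :=
    fun c k w e => Wd.single ht (cw_single ht c k e)
  have h7 := (h6 0 27 27 rfl).of_sub (by omega) h4.1 (single_sub_mem hz)
  have h8 := ((h6 0 2 2 rfl).add (h6 1 1 2 rfl)).of_sub (by omega) (neg_mem h5.1) (αt_sub_mem _)
  have h9 := (wdA hR ht).vm (k := 8) (w' := 35) ht (by omega) (by omega) rfl rfl (by omega) h7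
  have h10 := ((wdA hR ht).vm (k := 33) (w' := 35) ht (by omega) (by omega) rfl rfl (by omega)
    h8).cast rfl (map_neg _ _) rfl
  have h11 := lcZ (mc_A ht) (show 0 + 1 = 1 from rfl) (zs_v ht 8) (w := 27) (w' := 35) rfl h4
  have h12 := lcZ (mc_A ht) (show 0 + 1 = 1 from rfl) (zs_v ht 33) (w := 2) (w' := 35) rfl h5
  refine (wdA hR ht).gen (s := 1) (by omega) (by omega) h1
    ((closure_le _).2 (Set.pair_subset h11 h12)) fun k hk => ?_
  rcases List.mem_pair.1 hk with rfl | rfl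
  · exact ⟨_, h2, _, subset_closure (Set.mem_insert _ _), h9.mono (by omega) le_rfl⟩
  · exact ⟨_, h3, _, neg_mem (subset_closure (Set.mem_insert_of_mem _ rfl)),
      h10.mono (by omega) le_rfl⟩

theorem SC.u173' (ht : IsT1 3 t) : U173 t := by
  obtain ⟨h1, h2, h3, h4, u, hu, Ω, hΩ, z, h5, h6, h7⟩ := h.u173
  obtain ⟨x, hx, h8⟩ := (wdS hR).lift2 (s := 7) (k := 0) (by omega) (by omega) h1 h2 hu
  obtain ⟨y, hy, h9⟩ := (wdY hR ht).lift2 (s := 7) (k := 0) (by omega) (by omega) h3 h4 hΩ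
  refine ⟨x default, zs_eta x ▸ hx, y, hy, fun h10 => ?_⟩
  have h12 := ((h9.zm hm_top).cast (w' := 38) rfl (funext (zm_pf_zero _ _))
    (funext (zm_pf _ _))).congr h6
  have h13 := Rv.yon h5 (wdS hR).ic rfl ((wdS hR).ok' (by omega)) ((wdS hR).ok' (by omega))
    le_rfl le_rfl (by omega) (by omega) h8 (ZC_DD_Fl hx _) (h12.cast rfl rfl (funext fun w => by
      simp only [fa_apply, Pi.one_apply, map_one]; rfl)) (e := 2) (by omega) le_rfl le_rfl le_rfl
  have h14 := (wdS hR).vm (k := 1) (w' := 84) ht (by omega) (by omega) rfl rfl (by omega) h13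
  rw [pow_one] at h14
  exact (wdS hR).ne (by omega) (by omega) h14 le_rfl h7 (top_BQ (w' := 84) rfl h10)

/-- **The finite checks imply all facts.** -/
theorem SC.fr (ht : IsT1 3 t) : FR t where
  van a ha := (wdY hR ht).van (by revert a; decide) (by revert a; decide) (h.van a ha)
  ft := h.ft' hR ht
  g142 := h.g142' hR ht
  g139 := h.g139' hR ht
  n138 z hz F hF h1 := by
    obtain ⟨h2, φ, h3, h4⟩ := h.n138
    exact (wdA hR ht).inj ht (by omega) (by omega) (by omega) h2 h3 h4 (zs_27 ht) rfl rfl hz.1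
      (hz.2 0) hF h1
  n177 F hF h1 := by
    obtain ⟨h2, φ, h3, h4⟩ := h.n177
    exact (wdY hR ht).inj ht (by omega) (by omega) (by omega) h2 h3 h4 (zs_nine ht) rfl rfl
      (zs_nine ht) (by rw [sub_self, map_zero]; exact zero_mem _) hF h1
  l177 z hz hz' := h.l177.2.elim fun _ h1 =>
    (wdY hR ht).line (by omega) (by omega) h.l177.1 h1 hz hz'
  u173 := h.u173' hR ht
  l330 z hz hz' := h.l330.2.elim fun _ h1 =>
    (wdY hR ht).line (by omega) (by omega) h.l330.1 h1 hz hz'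

end Vale.Agent.P236EL

end
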