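import Vale.Agent.P236EL.Alg

/-!
# P236EL / Fact : from finite checks in the small complex to statements about integral charts
-/

noncomputable section

namespace Vale.Agent.P236EL

open Vale.Agent.P251.F Vale.Agent.P251.F.F3 Vale.Agent.P257.H80 LawRing MvPolynomial

variable {p : ℕ} [hp : Fact p.Prime]

namespace Rs

variable {L : Type} [CommRing L] {G : ℕ → Type} [∀ q, Fintype (G q)] (R : Rs p L G)

/-- small cochains in `I ^ k` whose differential lies in `I ^ n` -/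
def Cy (s : ℕ) (w : ℤ) (k n : ℕ) : AddSubgroup (G (s + 1) → AA L) :=
  PA p (R.deg (s + 1)) w (II p L ^ k) ⊓ (ZA _ (II p L ^ n)).comap (R.sd (s + 1))

/-- differentials of small cochains in `I ^ k`, modulo `I ^ n` -/
def Bd (s : ℕ) (w : ℤ) (k n : ℕ) : AddSubgroup (G (s + 1) → AA L) :=
  (PA p (R.deg s) w (II p L ^ k)).map (R.sd s) ⊔ ZA _ (II p L ^ n)

/-- the finite check: cycles are in `S` modulo boundaries -/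
def K3s (r s : ℕ) (w : ℤ) (k : ℕ) (S : AddSubgroup (G (s + 1) → AA L)) : Prop :=
  R.Cy s w k (k + r) ≤ S ⊔ R.Bd s w (k + 1 - r) (k + 1)

variable {R} {s : ℕ} {w : ℤ} {k n k' n' : ℕ} {u : G (s + 1) → AA L}

theorem mem_Cy : u ∈ R.Cy s w k n ↔
    u ∈ PA p (R.deg (s + 1)) w (II p L ^ k) ∧ R.sd (s + 1) u ∈ ZA _ (II p L ^ n) := Iff.rfl

theorem mem_Bd : u ∈ R.Bd s w k n ↔
    ∃ y ∈ PA p (R.deg s) w (II p L ^ k), u - R.sd s y ∈ ZA _ (II p L ^ n) := by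
  rw [Bd, AddSubgroup.mem_sup]
  constructor
  · rintro ⟨_, ⟨y, hy, rfl⟩, z, hz, rfl⟩
    exact ⟨y, hy, by rwa [add_sub_cancel_left]⟩
  · rintro ⟨y, hy, h⟩
    exact ⟨_, ⟨y, hy, rfl⟩, _, h, add_sub_cancel _ _⟩

omit hp in
theorem PA_mono {ι : Type} {d : ι → ℤ} {K K' : Ideal (AA L)} (h : K ≤ K') :
    PA p d w K ≤ PA p d w K' := fun _ hu i => ⟨(hu i).1, h (hu i).2⟩

omit hp in
theorem ZA_mono {ι : Type} {K K' : Ideal (AA L)} (h : K ≤ K') : ZA ι K ≤ ZA ι K' :=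
  fun _ hu i => h (hu i)

theorem Bd_mono (h : k' ≤ k) (h' : n' ≤ n) : R.Bd s w k n ≤ R.Bd s w k' n' :=
  sup_le_sup (AddSubgroup.map_mono (PA_mono (Ideal.pow_le_pow_right h)))
    (ZA_mono (Ideal.pow_le_pow_right h'))

theorem Cy_mono (h : k' ≤ k) (h' : n' ≤ n) : R.Cy s w k n ≤ R.Cy s w k' n' :=
  inf_le_inf (PA_mono (Ideal.pow_le_pow_right h))
    (AddSubgroup.comap_mono (ZA_mono (Ideal.pow_le_pow_right h')))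

theorem mem_Bd_of_ZA (h : u ∈ ZA _ (II p L ^ n)) : u ∈ R.Bd s w k n := AddSubgroup.mem_sup_right h

/-- no generators of small weight -/
theorem K3s_of_lt {r : ℕ} (h : ∀ g, w < R.deg (s + 1) g) (S : AddSubgroup (G (s + 1) → AA L)) :
    R.K3s r s w k S := fun u hu => by
  rw [show u = 0 from funext fun g => WA_neg (by have := h g; omega) (hu.1 g).1]
  exact zero_mem _

end Rs

section charts

variable {N : Type} [CommRing N] [LawRing N] {ι : Type}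

variable (p N) in
/-- multiples of `q` -/
def QW (d : ι → ℤ) (w : ℤ) (q s : ℕ) : AddSubgroup (ι → Cob N s) :=
  (CW p N d w s).map (nsmulAddMonoidHom q)

omit hp in
theorem mem_QW {d : ι → ℤ} {w : ℤ} {q s : ℕ} {x : ι → Cob N s} :
    x ∈ QW p N d w q s ↔ ∃ u ∈ CW p N d w s, q • u = x := Iff.rfl

omit hp in
theorem QW_le_CW {d : ι → ℤ} {w : ℤ} {q s : ℕ} : QW p N d w q s ≤ CW p N d w s := by
  rintro _ ⟨u, hu, rfl⟩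
  exact nsmul_mem hu q

omit hp in
theorem QW_mono {d : ι → ℤ} {w : ℤ} {q q' s : ℕ} (h : q ∣ q') :
    QW p N d w q' s ≤ QW p N d w q s := by
  obtain ⟨e, rfl⟩ := h
  rintro _ ⟨u, hu, rfl⟩
  exact ⟨e • u, nsmul_mem hu e, (mul_smul q e u).symm⟩

variable [Fintype ι]

variable (p) in
/-- cocycles modulo `q` -/
def ZC (θ : ι → ι → Cob N 1) (d : ι → ℤ) (w : ℤ) (q s : ℕ) : AddSubgroup (ι → Cob N s) :=
  CW p N d w s ⊓ (QW p N d w q (s + 1)).comap (DD θ s)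

variable (p) in
/-- coboundaries modulo `q` -/
def BQ (θ : ι → ι → Cob N 1) (d : ι → ℤ) (w : ℤ) (q s : ℕ) : AddSubgroup (ι → Cob N s) :=
  BC p θ d w s ⊔ QW p N d w q s

variable {θ : ι → ι → Cob N 1} {d : ι → ℤ} {w : ℤ} {q s : ℕ}

omit hp in
theorem mem_ZC {x : ι → Cob N s} : x ∈ ZC p θ d w q s ↔
    x ∈ CW p N d w s ∧ ∃ c ∈ CW p N d w (s + 1), q • c = DD θ s x := Iff.rfl

omit hp in
theorem mem_ZC' {x : ι → Cob N s} : x ∈ ZC p θ d w q s ↔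
    x ∈ CW p N d w s ∧ DD θ s x ∈ QW p N d w q (s + 1) := Iff.rfl

omit hp in
theorem mem_BQ {x : ι → Cob N s} : x ∈ BQ p θ d w q s ↔
    ∃ b ∈ BC p θ d w s, ∃ u ∈ CW p N d w s, b + q • u = x := by
  rw [BQ, AddSubgroup.mem_sup]
  exact ⟨by rintro ⟨b, hb, _, ⟨u, hu, rfl⟩, h⟩; exact ⟨b, hb, u, hu, h⟩,
    by rintro ⟨b, hb, u, hu, h⟩; exact ⟨b, hb, _, ⟨u, hu, rfl⟩, h⟩⟩

omit hp in
theorem mem_BQ_succ {x : ι → Cob N (s + 1)} : x ∈ BQ p θ d w q (s + 1) ↔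
    ∃ y ∈ CW p N d w s, ∃ u ∈ CW p N d w (s + 1), DD θ s y + q • u = x := by
  rw [mem_BQ]
  exact ⟨by rintro ⟨_, ⟨y, hy, rfl⟩, h⟩; exact ⟨y, hy, h⟩,
    by rintro ⟨y, hy, h⟩; exact ⟨_, ⟨y, hy, rfl⟩, h⟩⟩

omit hp in
theorem QW_le_ZC (hθ : ∀ c c', Cob.IsWt (((p : ℤ) - 1) * (d c - d c')) (θ c c')) :
    QW p N d w q s ≤ ZC p θ d w q s := by
  rintro _ ⟨u, hu, rfl⟩
  exact ⟨nsmul_mem hu q, _, DD_mem_CW hθ hu, (map_nsmul _ _ _).symm⟩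

end charts

variable {Q : ℕ} {hQ : PLoc p (ZMod Q)}

omit hp in
theorem mem_QW_of_rq {ι : Type} {d : ι → ℤ} {w : ℤ} {s : ℕ} {x : ι → Cob Laz s}
    (hx : x ∈ CW p Laz d w s) (h : ∀ c, rq Q s (x c) = 0) : x ∈ QW p Laz d w Q s := by
  choose u hu hu' using fun c => exists_wt_of_rq (hx c) (h c)
  exact ⟨u, hu, (funext hu').symm⟩

theorem QW_le_Fl {ι : Type} {d : ι → ℤ} {w : ℤ} {s : ℕ} (K : Ideal (AA (ZMod Q))) :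
    QW p Laz d w Q s ≤ Fl hQ ι s K := by
  rintro _ ⟨u, -, rfl⟩
  refine nsmul_mem_Fl' hQ ?_ u
  rw [← map_natCast C, ZMod.natCast_self, map_zero]
  exact zero_mem _

variable {G : ℕ → Type} [∀ q, Fintype (G q)] [DecidableEq (G 0)] {R : Rs p (ZMod Q) G}
  {θ : G 0 → G 0 → Cob Laz 1} {F : Type} [Field F] {π : ZMod Q →+* F} {r s : ℕ} {T w : ℤ}

variable (hQ R) in
/-- small cochains represented by elements of `𝒵` at filtration `k` -/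
def RP (r s : ℕ) (w : ℤ) (𝒵 : AddSubgroup (G 0 → Cob Laz s)) (k : ℕ) :
    AddSubgroup (G (s + 1) → AA (ZMod Q)) :=
  (𝒵 ⊓ Fl hQ _ s (II p (ZMod Q) ^ (k + 1 - r))).map (Ph hQ R s) ⊔ R.Bd s w (k + 1 - r) (k + 1)

omit [DecidableEq (G 0)] in
theorem mem_RP {𝒵 : AddSubgroup (G 0 → Cob Laz s)} {k : ℕ} {u : G (s + 1) → AA (ZMod Q)} :
    u ∈ RP hQ R r s w 𝒵 k ↔ ∃ z ∈ 𝒵, z ∈ Fl hQ _ s (II p (ZMod Q) ^ (k + 1 - r)) ∧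
      u - Ph hQ R s z ∈ R.Bd s w (k + 1 - r) (k + 1) := by
  rw [RP, AddSubgroup.mem_sup]
  constructor
  · rintro ⟨_, ⟨z, hz, rfl⟩, e, he, rfl⟩
    exact ⟨z, hz.1, hz.2, by rwa [add_sub_cancel_left]⟩
  · rintro ⟨z, hz, hz', h⟩
    exact ⟨_, ⟨z, ⟨hz, hz'⟩, rfl⟩, _, h, add_sub_cancel _ _⟩

omit [DecidableEq (G 0)] in
theorem RP_mono {𝒵 𝒵' : AddSubgroup (G 0 → Cob Laz s)} (h : 𝒵 ≤ 𝒵') (k : ℕ) :
    RP hQ R r s w 𝒵 k ≤ RP hQ R r s w 𝒵' k :=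
  sup_le_sup_right (AddSubgroup.map_mono (inf_le_inf_right _ h)) _

omit [DecidableEq (G 0)] in
theorem Rs.K3s.le_RP {𝒵 : AddSubgroup (G 0 → Cob Laz s)} {k : ℕ}
    {S : AddSubgroup (G (s + 1) → AA (ZMod Q))} (h : R.K3s r s w k S)
    (hS : S ≤ RP hQ R r s w 𝒵 k) : R.Cy s w k (k + r) ≤ RP hQ R r s w 𝒵 k :=
  h.trans (sup_le hS le_sup_right)

omit [DecidableEq (G 0)] in
theorem ZC_DD_Fl {x : G 0 → Cob Laz s} (hx : x ∈ ZC p θ (R.deg 0) w Q s)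
    (K : Ideal (AA (ZMod Q))) : DD θ s x ∈ Fl hQ _ (s + 1) K := QW_le_Fl K hx.2

namespace IC

theorem DD_DD_mem (hC : IC hQ R θ) {y : G 0 → Cob Laz s} (hy : y ∈ CW p Laz (R.deg 0) w s) :
    DD θ (s + 1) (DD θ s y) ∈ QW p Laz (R.deg 0) w Q (s + 2) :=
  mem_QW_of_rq (DD_mem_CW hC.wt (DD_mem_CW hC.wt hy)) fun c => by
    rw [mapRing_DD (isLawHom_mkZ Q), funext (mapRing_DD (isLawHom_mkZ Q) θ s y),
      DD_DD hC.cell.mc, Pi.zero_apply]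

theorem BQ_le_ZC (hC : IC hQ R θ) {q : ℕ} (hq : q ∣ Q) :
    BQ p θ (R.deg 0) w q s ≤ ZC p θ (R.deg 0) w q s := by
  refine sup_le ?_ (QW_le_ZC hC.wt)
  rcases s with _ | s
  · exact bot_le
  · rintro _ ⟨y, hy, rfl⟩
    exact ⟨DD_mem_CW hC.wt hy, QW_mono hq (hC.DD_DD_mem hy)⟩

theorem Ph_mem_Cy (hC : IC hQ R θ) (h : R.Ok π r (s + 1) T) (hw : w ≤ T) {k n : ℕ}
    (hn : n ≤ k + r) {x : G 0 → Cob Laz s} (hx : x ∈ CW p Laz (R.deg 0) w s)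
    (hx' : x ∈ Fl hQ _ s (II p (ZMod Q) ^ k))
    (h1 : DD θ s x ∈ Fl hQ _ (s + 1) (II p (ZMod Q) ^ n)) : Ph hQ R s x ∈ R.Cy s w k n :=
  ⟨Ph_mem (inv_II.pow k) hx hx', hC.sd_Ph h hw (inv_II.pow k) (inv_II.pow n)
    (by rw [← pow_add]; exact Ideal.pow_le_pow_right hn) hx hx' h1⟩

theorem Ph_DD_mem_Bd (hC : IC hQ R θ) (h : R.Ok π r (s + 1) T) (hw : w ≤ T) {k : ℕ}
    {x : G 0 → Cob Laz s} (hx : x ∈ CW p Laz (R.deg 0) w s)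
    (hx' : x ∈ Fl hQ _ s (II p (ZMod Q) ^ k)) :
    Ph hQ R (s + 1) (DD θ s x) ∈ R.Bd (s + 1) w k (k + r) :=
  Rs.mem_Bd.2 ⟨_, Ph_mem (inv_II.pow k) hx hx', by
    rw [pow_add]; exact hC.Ph_DD h hw (inv_II.pow k) hx hx'⟩

theorem Ph_BF (hC : IC hQ R θ) (h : R.Ok π r s T) (hw : w ≤ T) {k : ℕ} {b : G 0 → Cob Laz s}
    (hb : b ∈ BF hQ θ (R.deg 0) w (II p (ZMod Q) ^ k) s) : Ph hQ R s b ∈ R.Bd s w k (k + r) := by
  rcases s with _ | s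
  · rw [AddSubgroup.mem_bot.1 hb, map_zero]
    exact zero_mem _
  · obtain ⟨y, hy, rfl⟩ := hb
    exact hC.Ph_DD_mem_Bd h hw hy.1 hy.2

theorem spanI (hC : IC hQ R θ) (h : R.Ok π r s T) (hr : 1 ≤ r) (hw : w ≤ T)
    {𝒳 𝒵 : AddSubgroup (G 0 → Cob Laz s)} (h𝒳 : 𝒳 ≤ CW p Laz (R.deg 0) w s)
    (hℬ : BC p θ (R.deg 0) w s ≤ 𝒳) (h𝒵 : 𝒵 ≤ 𝒳) {k₀ M : ℕ} (hM : k₀ ≤ M)
    (hd : ∀ x ∈ 𝒳, DD θ s x ∈ Fl hQ _ (s + 1) (II p (ZMod Q) ^ M))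
    (h3 : ∀ k, k₀ ≤ k → k < M → ∀ x ∈ 𝒳, x ∈ Fl hQ _ s (II p (ZMod Q) ^ k) →
      Ph hQ R s x ∈ RP hQ R r s w 𝒵 k)
    {x : G 0 → Cob Laz s} (hx : x ∈ 𝒳) (hx' : x ∈ Fl hQ _ s (II p (ZMod Q) ^ k₀)) :
    ∃ b ∈ BF hQ θ (R.deg 0) w (II p (ZMod Q) ^ (k₀ + 1 - r)) s, ∃ z ∈ 𝒵,
      x - b - z ∈ Fl hQ _ s (II p (ZMod Q) ^ M) := by
  refine hC.span h hw (𝒦 := fun k => II p (ZMod Q) ^ k) (𝓛 := fun k => II p (ZMod Q) ^ (k + 1 - r))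
    (fun k => inv_II.pow k) (fun k => inv_II.pow _) (fun k => Ideal.pow_le_pow_right (by omega))
    (fun k => by rw [← pow_add]; exact Ideal.pow_le_pow_right (by omega)) h𝒳
    ((BF_le_BC hQ _ _ _ _ _).trans hℬ) h𝒵 hM
    (fun k hk => BF_mono hQ _ _ _ (Ideal.pow_le_pow_right (by omega)) _)
    (fun x hx k hk => Fl_mono hQ (Ideal.pow_le_pow_right hk) (hd x hx)) (fun k hk hk' x hx hx' => ?_)
    hx hx'
  obtain ⟨z, hz, h1, h2⟩ := mem_RP.1 (h3 k hk hk' x hx hx')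
  obtain ⟨y, hy, h4⟩ := Rs.mem_Bd.1 h2
  exact ⟨y, hy, z, hz, h1, by rwa [sub_right_comm]⟩

/-- **the general form: a subgroup `𝒳` of cocycles is generated by `𝒵` and coboundaries** -/
theorem ker (hC : IC hQ R θ) (h : R.Ok π r s T) (hr : 1 ≤ r) (hw : w ≤ T)
    {𝒳 𝒵 : AddSubgroup (G 0 → Cob Laz s)} (h𝒳 : 𝒳 ≤ ZC p θ (R.deg 0) w Q s)
    (hℬ : BC p θ (R.deg 0) w s ≤ 𝒳) (h𝒵 : 𝒵 ≤ 𝒳) {m j k₀ : ℕ} (hm : (p : ZMod Q) ^ m = 0)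
    (hj : ∀ c, w - R.deg 0 c < j)
    (h3 : ∀ k, k₀ ≤ k → k < m + j → ∀ x ∈ 𝒳, x ∈ Fl hQ _ s (II p (ZMod Q) ^ k) →
      Ph hQ R s x ∈ RP hQ R r s w 𝒵 k)
    {x : G 0 → Cob Laz s} (hx : x ∈ 𝒳) (hx' : x ∈ Fl hQ _ s (II p (ZMod Q) ^ k₀)) :
    ∃ z ∈ 𝒵, ∃ b ∈ BF hQ θ (R.deg 0) w (II p (ZMod Q) ^ (k₀ + 1 - r)) s,
      x - z - b ∈ QW p Laz (R.deg 0) w Q s := by
  obtain ⟨b, hb, z, hz, h1⟩ : ∃ b ∈ BF hQ θ (R.deg 0) w (II p (ZMod Q) ^ (k₀ + 1 - r)) s, ∃ z ∈ 𝒵,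
      x - b - z ∈ Fl hQ _ s (II p (ZMod Q) ^ (m + j)) := by
    rcases le_total k₀ (m + j) with hk | hk
    · exact hC.spanI h hr hw (fun x hx => (h𝒳 hx).1) hℬ h𝒵 hk
        (fun x hx => ZC_DD_Fl (h𝒳 hx) _) h3 hx hx'
    · exact ⟨0, zero_mem _, 0, zero_mem _, by
        simpa using Fl_mono hQ (Ideal.pow_le_pow_right hk) hx'⟩
  obtain ⟨h2, c, hc, h4⟩ := h𝒳 (sub_mem (sub_mem hx (hℬ (BF_le_BC hQ _ _ _ _ _ hb))) (h𝒵 hz))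
  obtain ⟨b', hb', u, hu, h5⟩ := hC.fin dvd_rfl hm hj h2 (Fl_mono hQ le_sup_left h1) hc h4.symm
  refine ⟨z, hz, b + b', add_mem hb (BF_mono hQ _ _ _ bot_le _ hb'), u, hu, ?_⟩
  change Q • u = _
  rw [← sub_sub, sub_right_comm x z, h5, add_sub_cancel_left]

/-- **the cohomology is generated by `𝒵`** -/
theorem gen (hC : IC hQ R θ) (h : R.Ok π r (s + 1) T) (hr : 1 ≤ r) (hw : w ≤ T)
    {𝒵 : AddSubgroup (G 0 → Cob Laz s)} (h𝒵 : 𝒵 ≤ ZC p θ (R.deg 0) w Q s) {m j : ℕ}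
    (hm : (p : ZMod Q) ^ m = 0) (hj : ∀ c, w - R.deg 0 c < j)
    (h3 : ∀ k < m + j, R.Cy s w k (k + r) ≤ RP hQ R r s w 𝒵 k) :
    ZC p θ (R.deg 0) w Q s ≤ 𝒵 ⊔ BQ p θ (R.deg 0) w Q s := fun x hx => by
  obtain ⟨z, hz, b, hb, h1⟩ := hC.ker (h.mono (Nat.le_succ s) le_rfl) hr hw le_rfl
    (le_sup_left.trans (hC.BQ_le_ZC dvd_rfl)) h𝒵 hm hj (k₀ := 0)
    (fun k _ hk x hx hx' => h3 k hk (hC.Ph_mem_Cy h hw le_rfl hx.1 hx' (ZC_DD_Fl hx _))) hx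
    (by rw [pow_zero, Ideal.one_eq_top]; exact mem_Fl_top hQ x)
  have h2 := add_mem (AddSubgroup.mem_sup_left (T := BQ p θ (R.deg 0) w Q s) hz)
    (AddSubgroup.mem_sup_right (add_mem (AddSubgroup.mem_sup_left (BF_le_BC hQ _ _ _ _ _ hb))
      (AddSubgroup.mem_sup_right h1)))
  rwa [add_sub_cancel, add_sub_cancel] at h2

/-- **vanishing** -/
theorem van (hC : IC hQ R θ) (h : R.Ok π r (s + 1) T) (hr : 1 ≤ r) (hw : w ≤ T) {m j : ℕ}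
    (hm : (p : ZMod Q) ^ m = 0) (hj : ∀ c, w - R.deg 0 c < j)
    (h3 : ∀ k < m + j, R.K3s r s w k ⊥) : ZC p θ (R.deg 0) w Q s ≤ BQ p θ (R.deg 0) w Q s := by
  have h1 := hC.gen h hr hw bot_le hm hj fun k hk => (h3 k hk).le_RP bot_le
  rwa [bot_sup_eq] at h1

/-- **cycles of the small complex lift if the cohomology vanishes in higher filtration** -/
theorem lift (hC : IC hQ R θ) (h : R.Ok π r (s + 2) T) (hr : 1 ≤ r) (hw : w ≤ T) {m j k : ℕ}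
    (hm : (p : ZMod Q) ^ m = 0) (hj : ∀ c, w - R.deg 0 c < j)
    (h3 : ∀ k', k + r ≤ k' → k' < m + j → R.K3s r (s + 1) w k' ⊥) {u : G (s + 1) → AA (ZMod Q)}
    (hu : u ∈ R.Cy s w k (k + r)) : ∃ z ∈ ZC p θ (R.deg 0) w Q s,
      z ∈ Fl hQ _ s (II p (ZMod Q) ^ k) ∧ u - Ph hQ R s z ∈ R.Bd s w k (k + 1) := by
  obtain ⟨x, hx, h1, h2, u', hu', h4⟩ := hC.surj (h.mono (Nat.le_succ _) le_rfl) hw (inv_II.pow k)
    (inv_II.pow (k + r)) (by rw [pow_add]) hu.1 hu.2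
  obtain ⟨_, rfl, _, ⟨y, hy, rfl⟩, h5⟩ := hC.ker (h.mono (Nat.le_succ _) le_rfl) hr hw le_rfl
    (le_sup_left.trans (hC.BQ_le_ZC dvd_rfl)) bot_le hm hj
    (fun k' hk hk' x hx hx' => (h3 k' hk hk').le_RP bot_le
      (hC.Ph_mem_Cy h hw le_rfl hx.1 hx' (ZC_DD_Fl hx _)))
    (hC.BQ_le_ZC dvd_rfl (AddSubgroup.mem_sup_left ⟨x, hx, rfl⟩)) h2
  rw [show k + r + 1 - r = k + 1 by omega] at hy
  refine ⟨x - y, mem_ZC'.2 ⟨sub_mem hx hy.1, by rwa [map_sub, ← sub_zero (DD θ s x)]⟩,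
    sub_mem h1 (Fl_mono hQ (Ideal.pow_le_pow_right (Nat.le_succ k)) hy.2),
    Rs.mem_Bd.2 ⟨-u', neg_mem hu', ?_⟩⟩
  have h6 := sub_mem (Ph_mem_ZA (R := R) (inv_II.pow _) hy.2)
    (Rs.ZA_mono (Ideal.pow_le_pow_right (show k + 1 ≤ k + r by omega)) h4)
  convert h6 using 1
  rw [map_sub, map_neg]
  abel

theorem lift_RP (hC : IC hQ R θ) (h : R.Ok π r (s + 2) T) (hr : 1 ≤ r) (hw : w ≤ T) {m j k : ℕ}
    (hm : (p : ZMod Q) ^ m = 0) (hj : ∀ c, w - R.deg 0 c < j)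
    (h3 : ∀ k', k + r ≤ k' → k' < m + j → R.K3s r (s + 1) w k' ⊥) :
    R.Cy s w k (k + r) ≤ RP hQ R r s w (ZC p θ (R.deg 0) w Q s) k := fun u hu => by
  obtain ⟨z, hz, h1, h2⟩ := hC.lift h hr hw hm hj h3 hu
  exact mem_RP.2 ⟨z, hz, Fl_mono hQ (Ideal.pow_le_pow_right (by omega)) h1,
    Rs.Bd_mono (by omega) le_rfl h2⟩

variable (hQ R θ) in
/-- cycles of filtration less than `M` with differential in `I ^ N` are permanent -/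
def Perm (r s : ℕ) (w : ℤ) (M N : ℕ) : Prop :=
  ∀ k < M, R.Cy s w k (min (k + r) N) ≤ RP hQ R r s w (ZC p θ (R.deg 0) w Q s) k

/-- **coboundaries of filtration `N` come from filtration `M`** -/
theorem desc (hC : IC hQ R θ) (h : R.Ok π r (s + 1) T) (hr : 1 ≤ r) (hw : w ≤ T) {M N : ℕ}
    (hM : M ≤ N) (h3 : Perm hQ R θ r s w M N) {x : G 0 → Cob Laz (s + 1)}
    (hx : x ∈ BQ p θ (R.deg 0) w Q (s + 1)) (hx' : x ∈ Fl hQ _ (s + 1) (II p (ZMod Q) ^ N)) :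
    ∃ b ∈ BF hQ θ (R.deg 0) w (II p (ZMod Q) ^ M) (s + 1),
      x - b ∈ QW p Laz (R.deg 0) w Q (s + 1) := by
  obtain ⟨y, hy, u, hu, rfl⟩ := mem_BQ_succ.1 hx
  have h1 : DD θ s y ∈ Fl hQ _ (s + 1) (II p (ZMod Q) ^ N) := by
    have h2 := sub_mem hx' (QW_le_Fl _ ⟨u, hu, rfl⟩)
    rwa [nsmulAddMonoidHom_apply, add_sub_cancel_right] at h2
  obtain ⟨b, hb, z, hz, h2⟩ := hC.spanI (h.mono (Nat.le_succ s) le_rfl) hr hw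
    (𝒳 := CW p Laz (R.deg 0) w s ⊓ (Fl hQ _ (s + 1) (II p (ZMod Q) ^ N)).comap (DD θ s))
    (𝒵 := ZC p θ (R.deg 0) w Q s) inf_le_left
    (fun b hb => ⟨BC_le_CW hC.wt w s hb, hC.DD_BC hb⟩) (fun z hz => ⟨hz.1, ZC_DD_Fl hz _⟩) (Nat.zero_le M)
    (fun x hx => Fl_mono hQ (Ideal.pow_le_pow_right hM) hx.2)
    (fun k _ hk x hx hx' => h3 k hk (hC.Ph_mem_Cy h hw (min_le_left _ _) hx.1 hx'
      (Fl_mono hQ (Ideal.pow_le_pow_right (min_le_right _ _)) hx.2))) ⟨hy, h1⟩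
    (by rw [pow_zero, Ideal.one_eq_top]; exact mem_Fl_top hQ y)
  have h4 := hC.BQ_le_ZC dvd_rfl (AddSubgroup.mem_sup_left (BF_le_BC hQ _ _ _ _ _ hb))
  refine ⟨_, ⟨y - b - z, AddSubgroup.mem_inf.2 ⟨sub_mem (sub_mem hy (mem_ZC'.1 h4).1)
    (mem_ZC'.1 hz).1, h2⟩, rfl⟩, ?_⟩
  have h5 := add_mem (add_mem (mem_ZC'.1 h4).2 (mem_ZC'.1 hz).2) (mem_QW.2 ⟨u, hu, rfl⟩)
  convert h5 using 1
  rw [map_sub, map_sub]
  abel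

/-- **detection of coboundaries in the small complex** -/
theorem Ph_BQ (hC : IC hQ R θ) (h : R.Ok π r (s + 1) T) (hr : 1 ≤ r) (hw : w ≤ T) {M N : ℕ}
    (hM : M ≤ N) (h3 : Perm hQ R θ r s w M N) {x : G 0 → Cob Laz (s + 1)}
    (hx : x ∈ BQ p θ (R.deg 0) w Q (s + 1)) (hx' : x ∈ Fl hQ _ (s + 1) (II p (ZMod Q) ^ N)) :
    Ph hQ R (s + 1) x ∈ R.Bd (s + 1) w M (M + r) := by
  obtain ⟨b, hb, h1⟩ := hC.desc h hr hw hM h3 hx hx'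
  have h2 := add_mem (hC.Ph_BF h hw hb)
    (Rs.mem_Bd_of_ZA (Ph_mem_ZA (hQ := hQ) (R := R) (inv_II.pow _) (QW_le_Fl _ h1)))
  rwa [← map_add, add_sub_cancel] at h2

omit [DecidableEq (G 0)] in
theorem perm_of {N : ℕ} (h : ∀ k, k + r ≤ N → R.Cy s w k (k + r) ≤
    RP hQ R r s w (ZC p θ (R.deg 0) w Q s) k) : Perm hQ R θ r s w (N + 1 - r) N :=
  fun k hk => by rw [min_eq_left (by omega)]; exact h k (by omega)

end IC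

end Vale.Agent.P236EL

end
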