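import Vale.Agent.P236EL.Int
import Mathlib.RingTheory.Polynomial.Basic

/-!
# P236EL / Fil : invariant ideals, filtrations and weights of functions on chains
-/

noncomputable section

namespace Vale.Agent.P236EL

open MvPolynomial Ch

variable {p : ℕ} [hp : Fact p.Prime] {L : Type} [CommRing L] {B C' : Type*}
  [CommRing B] [CommRing C']

omit hp in
theorem lam_of_zero (n : ℕ) (hp : p ≠ 0) : lam p (fun _ => (0 : B)) (n + 1) = 0 := by
  rw [lam_succ]
  exact Finset.sum_eq_zero fun i _ => by rw [zero_pow (pow_ne_zero _ hp), mul_zero]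

theorem tg_zero_mem (n : ℕ) : tg p (fun _ => 0) (X : ℕ → MvPolynomial ℕ ℤ) n ∈
    Ideal.span {(p : MvPolynomial ℕ ℤ)} := by
  set w := tg p (fun _ => 0) (X : ℕ → MvPolynomial ℕ ℤ) with hw
  have h1 : ∀ m, lam p w m = (p : MvPolynomial ℕ ℤ) ^ m * one1 X m := by
    intro m
    rw [hw, lam_tg, Finset.sum_range_succ, Nat.sub_self, lam_zero, pow_zero, pow_one, mul_one,
      Finset.sum_eq_zero, zero_add]
    intro j hj
    obtain ⟨k, hk⟩ : ∃ k, m - j = k + 1 := ⟨m - j - 1, by have := Finset.mem_range.1 hj; omega⟩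
    rw [hk, lam_of_zero _ hp.out.ne_zero, mul_zero, zero_mul]
  induction n using Nat.strong_induction_on with
  | _ n ih =>
    have h2 := lam_succ p w n
    rw [h1, Finset.sum_range_succ', h1] at h2
    have h3 : ∀ i ∈ Finset.range n, (p : MvPolynomial ℕ ℤ) ^ (n - (i + 1)) * lam p w (i + 1) *
        w (n - (i + 1)) ^ p ^ (i + 1) =
        (p : MvPolynomial ℕ ℤ) ^ n * (X i * w (n - (i + 1)) ^ p ^ (i + 1)) := by
      intro i hi
      rw [h1, ← mul_assoc, ← pow_add, show n - (i + 1) + (i + 1) = n by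
        have := Finset.mem_range.1 hi; omega, one1_succ, mul_assoc]
    rw [Finset.sum_congr rfl h3, ← Finset.mul_sum] at h2
    have h4 : w n = (p : MvPolynomial ℕ ℤ) * X n -
        ∑ i ∈ Finset.range n, X i * w (n - (i + 1)) ^ p ^ (i + 1) := by
      have h0 : (p : MvPolynomial ℕ ℤ) ≠ 0 := Nat.cast_ne_zero.2 hp.out.ne_zero
      apply mul_left_cancel₀ (pow_ne_zero n h0)
      simp only [one1_succ, one1_zero, pow_zero, Nat.sub_zero, mul_one, pow_one] at h2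
      linear_combination -h2
    rw [h4]
    refine Ideal.sub_mem _ (Ideal.mul_mem_right _ _ (Ideal.mem_span_singleton_self _))
      (Ideal.sum_mem _ fun i hi => Ideal.mul_mem_left _ _ (Ideal.pow_mem_of_mem _
        (ih _ (by have := Finset.mem_range.1 hi; omega)) _ (pow_pos hp.out.pos _)))

theorem tg_mem_ideal {J : Ideal B} (hJ : (p : B) ∈ J) {v : ℕ → B} (hv : ∀ i, v i ∈ J) (t : ℕ → B)
    (n : ℕ) : tg p v t n ∈ J := by
  rw [← Ideal.Quotient.eq_zero_iff_mem, map_tg]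
  obtain ⟨a, ha⟩ := Ideal.mem_span_singleton'.1 (tg_zero_mem (p := p) n)
  have h := congrArg (evA fun i => Ideal.Quotient.mk J (t i)) ha
  rw [map_tg, map_mul, map_natCast, ← map_natCast (Ideal.Quotient.mk J),
    Ideal.Quotient.eq_zero_iff_mem.2 hJ, mul_zero] at h
  simp only [map_zero, evA_X] at h
  simp only [Ideal.Quotient.eq_zero_iff_mem.2 (hv _)]
  exact h.symm

variable (p) in
/-- invariant ideals -/
def Inv (K : Ideal (AA L)) : Prop := K.map (etaR p L) ≤ K.map C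

theorem inv_II : Inv p (II p L) := by
  rw [Inv, II, Ideal.map_span, Ideal.span_le]
  have h0 : (p : GG L) ∈ (II p L).map C := by
    rw [← map_natCast C]
    exact Ideal.mem_map_of_mem _ (Ideal.subset_span (Set.mem_insert _ _))
  rintro _ ⟨a, rfl | ⟨i, rfl⟩, rfl⟩
  · rw [map_natCast]
    exact h0
  · rw [etaR, etax, tgt_X]
    exact tg_mem_ideal h0 (fun i => Ideal.mem_map_of_mem _
      (Ideal.subset_span (Set.mem_insert_of_mem _ ⟨i, rfl⟩))) _ _

theorem Inv.mul {K K' : Ideal (AA L)} (h : Inv p K) (h' : Inv p K') : Inv p (K * K') := by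
  rw [Inv, Ideal.map_mul, Ideal.map_mul]
  exact Ideal.mul_mono h h'

theorem inv_top : Inv p (⊤ : Ideal (AA L)) := by
  rw [Inv, Ideal.map_top, Ideal.map_top]

theorem inv_bot : Inv p (⊥ : Ideal (AA L)) := by
  rw [Inv, Ideal.map_bot, Ideal.map_bot]

theorem Inv.sup {K K' : Ideal (AA L)} (h : Inv p K) (h' : Inv p K') : Inv p (K ⊔ K') := by
  rw [Inv, Ideal.map_sup, Ideal.map_sup]
  exact sup_le_sup h h'

theorem Inv.pow {K : Ideal (AA L)} (h : Inv p K) (n : ℕ) : Inv p (K ^ n) := by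
  rw [Inv, Ideal.map_pow, Ideal.map_pow]
  exact Ideal.pow_right_mono h n

theorem inv_C (a : L) : Inv p (Ideal.span {(C a : AA L)}) := by
  rw [Inv, Ideal.map_span, Ideal.map_span, Set.image_singleton, Set.image_singleton, etaR, etax,
    tgt_C]
  rfl

theorem Inv.etax {K : Ideal (AA L)} (h : Inv p K) (x : AA L →+* B) :
    K.map (etax p x) ≤ (K.map x).map C := by
  have h1 : P236EL.etax p x = (map x).comp (etaR p L) := RingHom.ext (etax_eq p x)
  have h2 : (map x).comp (C : AA L →+* GG L) = C.comp x := RingHom.ext fun a => by simp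
  rw [h1, ← Ideal.map_map, Ideal.map_map x, ← h2, ← Ideal.map_map]
  exact Ideal.map_mono h

theorem Inv.pt {K : Ideal (AA L)} (h : Inv p K) (c : Ch L B) (k : ℕ) :
    K.map (c.pt p k) ≤ K.map (c.pt p 0) := by
  induction k with
  | zero => exact le_rfl
  | succ k ih =>
    refine le_trans ?_ ih
    have h2 : (c.arr p k).comp C = c.pt p k := RingHom.ext fun a => by simp
    rw [← arr_comp_etaR, ← h2, ← Ideal.map_map, ← Ideal.map_map]
    exact Ideal.map_mono h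

variable (p) in
/-- the filtration of functions on chains -/
def Fil (K : Ideal (AA L)) : Ideal (CC L) := K.map ((univ L).pt p 0)

theorem Fil_mono {K K' : Ideal (AA L)} (h : K ≤ K') : Fil p K ≤ Fil p K' := Ideal.map_mono h

theorem Fil_mul (K K' : Ideal (AA L)) : Fil p (K * K') = Fil p K * Fil p K' := Ideal.map_mul _ _ _

theorem Fil_top : Fil p (⊤ : Ideal (AA L)) = ⊤ := Ideal.map_top _

theorem Fil_bot : Fil p (⊥ : Ideal (AA L)) = ⊥ := Ideal.map_bot

theorem pt_mem_Fil {K : Ideal (AA L)} (h : Inv p K) (k : ℕ) {a : AA L} (ha : a ∈ K) :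
    (univ L).pt p k a ∈ Fil p K := h.pt _ k (Ideal.mem_map_of_mem _ ha)

theorem ev_mem_map {K : Ideal (AA L)} (c : Ch L B) {F : CC L} (hF : F ∈ Fil p K) :
    c.ev F ∈ K.map (c.pt p 0) := by
  have h := Ideal.mem_map_of_mem c.ev hF
  rwa [Fil, Ideal.map_map, ← pt_map, univ_map] at h

theorem mem_of_pt_mem_Fil {K : Ideal (AA L)} {a : AA L} (ha : (univ L).pt p 0 a ∈ Fil p K) :
    a ∈ K := by
  let c : Ch L (AA L) := ⟨C, X, fun _ _ => 0⟩
  have h1 : c.pt p 0 = RingHom.id _ := ringHom_ext (fun a => by simp [c]) fun i => by simp [c, vtx]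
  have h := ev_mem_map c ha
  rwa [ev_pt, h1, Ideal.map_id] at h

theorem pb_mem_Fil {K : Ideal (AA L)} (h : Inv p K) {α : ℕ → ℕ} (hα : Monotone α) {F : CC L}
    (hF : F ∈ Fil p K) : pb p L α F ∈ Fil p K := by
  have h1 := ev_mem_map ((univ L).res p α) hF
  rw [pt_res hα] at h1
  exact h.pt _ _ h1

theorem alt_mem_Fil {K : Ideal (AA L)} (h : Inv p K) (m : ℕ) {F : CC L} (hF : F ∈ Fil p K) :
    alt p L m F ∈ Fil p K := by
  rw [alt_apply]
  exact Ideal.sum_mem _ fun j _ => zsmul_mem (pb_mem_Fil h (sa_mono j) hF) _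

theorem coeff_gen_mem_Fil {K : Ideal (AA L)} (n : ℕ) {F : CC L} (hF : F ∈ Fil p K) (E : ℕ →₀ ℕ) :
    coeff E (((univ L).gen n).ev F) ∈ Fil p K := by
  have h := ev_mem_map ((univ L).gen n) hF
  rw [pt_gen _ (Nat.zero_le n), ← Ideal.map_map] at h
  exact mem_map_C_iff.1 h E

theorem itg_mem_Fil {K : Ideal (AA L)} (n : ℕ) (r : (ℕ →₀ ℕ) → AA L) {F : CC L}
    (hF : F ∈ Fil p K) : itg p n r F ∈ Fil p K := rAp_mem (coeff_gen_mem_Fil n hF)

theorem par_mem_Fil {K : Ideal (AA L)} (h : Inv p K) (n : ℕ) (r : (ℕ →₀ ℕ) → AA L) {F : CC L}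
    (hF : F ∈ Fil p K) : par p n r F ∈ Fil p K := itg_mem_Fil n r (pb_mem_Fil h (sa_mono n) hF)

omit hp in
theorem eval₂Hom_mem_ideal {φ : B →+* C'} {g : ℕ → C'} {J : Ideal B} {J' : Ideal C'}
    (h : J.map φ ≤ J') {G : MvPolynomial ℕ B} (hG : ∀ E, coeff E G ∈ J) : eval₂Hom φ g G ∈ J' := by
  rw [G.as_sum, map_sum]
  refine Ideal.sum_mem _ fun E _ => ?_
  rw [eval₂Hom_monomial]
  exact Ideal.mul_mem_right _ _ (h (Ideal.mem_map_of_mem _ (hG E)))

omit hp in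
theorem back_mem_ideal (n : ℕ) {J : Ideal (CC L)} {G : MvPolynomial ℕ (CC L)}
    (hG : ∀ E, coeff E G ∈ J) : back L n G ∈ J :=
  eval₂Hom_mem_ideal (by rw [Ideal.map_id]) hG

theorem arr_mem_Fil {K : Ideal (AA L)} (h : Inv p K) (k : ℕ) {g : GG L} (hg : ∀ E, coeff E g ∈ K) :
    (univ L).arr p k g ∈ Fil p K := eval₂Hom_mem_ideal (h.pt _ k) hg

/-! ### weights -/

section wts

variable {𝒜 : ℤ → AddSubgroup B} [SetLike.GradedMonoid 𝒜]

omit hp [SetLike.GradedMonoid 𝒜] in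
theorem eval₂Hom_mem_ext {ℬ : ℤ → AddSubgroup C'} [SetLike.GradedMonoid ℬ] {φ : B →+* C'}
    (hφ : ∀ n, ∀ b ∈ 𝒜 n, φ b ∈ ℬ n) {g : ℕ → C'} (hg : ∀ i, g i ∈ ℬ (wz p i)) {n : ℤ}
    {G : MvPolynomial ℕ B} (hG : G ∈ ext p 𝒜 n) : eval₂Hom φ g G ∈ ℬ n := by
  rw [G.as_sum, map_sum]
  refine AddSubgroup.sum_mem _ fun E _ => ?_
  rw [eval₂Hom_monomial, ← sub_add_cancel n (Finsupp.weight (wz p) E)]
  refine SetLike.mul_mem_graded (hφ _ _ (hG E)) ?_
  rw [Finsupp.weight_apply]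
  exact SetLike.prod_pow_mem_graded ℬ (wz p) _ (F := E.support) E fun i _ => hg i

omit hp in
theorem GrCh.gen {c : Ch L B} (h : GrCh p 𝒜 c) (n : ℕ) : GrCh p (ext p 𝒜) (c.gen n) := by
  refine ⟨fun a => C_mem_ext (h.o a), fun i => C_mem_ext (h.x i), fun k i => ?_⟩
  simp only [Ch.gen]
  split_ifs
  · exact C_mem_ext (h.a k i)
  · exact X_mem_ext i
  · exact AddSubgroup.zero_mem _

theorem GrCh.arr {c : Ch L B} (h : GrCh p 𝒜 c) (k : ℕ) {n : ℤ} {g : GG L}
    (hg : g ∈ ext p (WA p L) n) : c.arr p k g ∈ 𝒜 n :=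
  eval₂Hom_mem_ext (h.pt k) (h.a k) hg

omit hp in
theorem gen_mem_ext (k : ℕ) {n : ℤ} {F : CC L} (hF : F ∈ WC p L n) :
    ((univ L).gen k).ev F ∈ ext p (WC p L) n := (grCh_univ.gen k).ev hF

omit hp in
theorem back_mem_WC (k : ℕ) {n : ℤ} {G : MvPolynomial ℕ (CC L)} (hG : G ∈ ext p (WC p L) n) :
    back L k G ∈ WC p L n :=
  eval₂Hom_mem_ext (fun _ _ h => h) (grCh_univ.a k) hG

theorem itg_mem_WC (k : ℕ) {δ : ℤ} {r : (ℕ →₀ ℕ) → AA L} (hr : HomR p δ r) {n : ℤ} {F : CC L}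
    (hF : F ∈ WC p L n) : itg p k r F ∈ WC p L (n + δ) :=
  (grCh_univ.pt k).rAp hr (gen_mem_ext k hF)

theorem par_mem_WC (k : ℕ) {δ : ℤ} {r : (ℕ →₀ ℕ) → AA L} (hr : HomR p δ r) {n : ℤ} {F : CC L}
    (hF : F ∈ WC p L n) : par p k r F ∈ WC p L (n + δ) :=
  itg_mem_WC k hr (pb_mem_WC _ hF)

omit hp in
theorem eq_zero_of_neg {σ R : Type*} [CommRing R] {ω : σ → ℤ} (hω : ∀ i, 0 ≤ ω i) {n : ℤ}
    (hn : n < 0) {f : MvPolynomial σ R} (hf : f ∈ WS σ R ω n) : f = 0 := by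
  ext m
  by_contra hm
  have h := hf hm
  rw [Finsupp.weight_apply, Finsupp.sum] at h
  have h1 : 0 ≤ ∑ i ∈ m.support, m i • ω i :=
    Finset.sum_nonneg fun i _ => nsmul_nonneg (hω i) _
  omega

omit hp in
theorem WC_neg {n : ℤ} (hn : n < 0) {F : CC L} (hF : F ∈ WC p L n) : F = 0 :=
  eq_zero_of_neg (by rintro (i | ⟨k, i⟩) <;> exact Int.natCast_nonneg _) hn hF

omit hp in
theorem WA_neg {n : ℤ} (hn : n < 0) {F : AA L} (hF : F ∈ WA p L n) : F = 0 :=
  eq_zero_of_neg (fun _ => Int.natCast_nonneg _) hn hF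

omit hp [SetLike.GradedMonoid 𝒜] in
theorem weight_le_of_coeff (hneg : ∀ n < 0, ∀ b ∈ 𝒜 n, b = 0) {n : ℤ} {G : MvPolynomial ℕ B}
    (hG : G ∈ ext p 𝒜 n) {E : ℕ →₀ ℕ} (hE : coeff E G ≠ 0) : Finsupp.weight (wz p) E ≤ n := by
  by_contra h
  exact hE (hneg _ (by omega) _ (hG E))

/-- functionals with values in `K'` in the relevant range of weights -/
theorem itg_mem_mul {K K' : Ideal (AA L)} (h' : Inv p K') (k : ℕ) {r : (ℕ →₀ ℕ) → AA L} {n : ℤ}
    (hr : ∀ E, Finsupp.weight (wz p) E ≤ n → r E ∈ K') {F : CC L} (hF : F ∈ Fil p K)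
    (hF' : F ∈ WC p L n) : itg p k r F ∈ Fil p (K * K') := by
  rw [Fil_mul]
  exact Ideal.mul_mono_right (h'.pt _ k) (rAp_mem_mul (coeff_gen_mem_Fil k hF) fun E hE =>
    hr E (weight_le_of_coeff (fun _ hn _ hb => WC_neg hn hb) (gen_mem_ext k hF') hE))

end wts

end Vale.Agent.P236EL

end
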