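import Vale.Agent.P236EL.Arr

/-!
# P236EL / Ops : functionals on the functions of an arrow and their convolution

`AA L = L[v_1, …]`, `GG L = AA L [t_1, …]`; a point is a ring homomorphism `x : AA L →+* B`,
`MvPolynomial ℕ B` is the ring of functions of the arrows out of `x`.
-/

noncomputable section

namespace Vale.Agent.P236EL

open MvPolynomial

/-- the weight `(p^{i+1} - 1) / (p - 1)` of `v_{i+1}` and `t_{i+1}` -/
def wt (p : ℕ) : ℕ → ℕ
  | 0 => 1
  | i + 1 => p * wt p i + 1

theorem wt_mul {p : ℕ} (hp : 1 ≤ p) (i : ℕ) : (p - 1) * wt p i = p ^ (i + 1) - 1 := by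
  obtain ⟨q, rfl⟩ : ∃ q, p = q + 1 := ⟨p - 1, by omega⟩
  rw [Nat.add_sub_cancel]
  have h : q * wt (q + 1) i + 1 = (q + 1) ^ (i + 1) := by
    induction i with
    | zero => simp [wt]
    | succ i ih => rw [wt, pow_succ, ← ih]; ring
  omega

theorem wt_pos (p i : ℕ) : 0 < wt p i := by
  rcases i with _ | i
  · exact Nat.one_pos
  · exact Nat.succ_pos _

/-- `f` is homogeneous of weight `w - d` -/
def HW {σ R : Type*} [CommSemiring R] (ω : σ → ℕ) (d w : ℕ) (f : MvPolynomial σ R) : Prop :=
  ∀ m, coeff m f ≠ 0 → Finsupp.weight ω m + d = w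

/-- `L[v_1, v_2, …]` -/
abbrev AA (L : Type) [CommRing L] : Type := MvPolynomial ℕ L

/-- `L[v_1, v_2, …][t_1, t_2, …]` -/
abbrev GG (L : Type) [CommRing L] : Type := MvPolynomial ℕ (AA L)

variable (p : ℕ) {L : Type} [CommRing L] {A B C' : Type*} [CommRing A] [CommRing B] [CommRing C']

/-- the ideal `(p, v_1, v_2, …)` -/
def II (L : Type) [CommRing L] : Ideal (AA L) := Ideal.span (insert (p : AA L) (Set.range X))

/-- evaluation of the functional `t^E ↦ r E` at the point `x` -/
def rAp (x : AA L →+* B) (r : (ℕ →₀ ℕ) → AA L) : MvPolynomial ℕ B →ₗ[B] B :=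
  (basisMonomials ℕ B).constr B fun E => x (r E)

theorem rAp_monomial (x : AA L →+* B) (r : (ℕ →₀ ℕ) → AA L) (E : ℕ →₀ ℕ) (b : B) :
    rAp x r (monomial E b) = b * x (r E) := by
  have h : (monomial E b : MvPolynomial ℕ B) = b • basisMonomials ℕ B E := by
    rw [coe_basisMonomials, smul_monomial, smul_eq_mul, mul_one]
  rw [h, map_smul, rAp, Module.Basis.constr_basis, smul_eq_mul]

theorem rAp_eq (x : AA L →+* B) (r : (ℕ →₀ ℕ) → AA L) (G : MvPolynomial ℕ B) :
    rAp x r G = ∑ E ∈ G.support, coeff E G * x (r E) := by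
  conv_lhs => rw [G.as_sum, map_sum]
  exact Finset.sum_congr rfl fun E _ => rAp_monomial x r E _

theorem rAp_C_mul (x : AA L →+* B) (r : (ℕ →₀ ℕ) → AA L) (b : B) (G : MvPolynomial ℕ B) :
    rAp x r (C b * G) = b * rAp x r G := by
  rw [← smul_eq_C_mul, map_smul, smul_eq_mul]

theorem map_rAp (φ : B →+* C') (x : AA L →+* B) (r : (ℕ →₀ ℕ) → AA L) (G : MvPolynomial ℕ B) :
    φ (rAp x r G) = rAp (φ.comp x) r (map φ G) := by
  induction G using MvPolynomial.induction_on' with
  | monomial E b => rw [map_monomial, rAp_monomial, rAp_monomial, map_mul]; rfl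
  | add G H hG hH => rw [map_add, map_add, map_add, map_add, hG, hH]

theorem rAp_sum {ι : Type*} (s : Finset ι) (x : AA L →+* B) (r : ι → (ℕ →₀ ℕ) → AA L)
    (G : MvPolynomial ℕ B) : rAp x (fun E => ∑ i ∈ s, r i E) G = ∑ i ∈ s, rAp x (r i) G := by
  simp only [rAp_eq, map_sum, Finset.mul_sum]
  exact Finset.sum_comm

/-- functionals with values in an ideal on the monomials which occur -/
theorem rAp_mem_mul {x : AA L →+* B} {r : (ℕ →₀ ℕ) → AA L} {G : MvPolynomial ℕ B}
    {J : Ideal B} {K : Ideal (AA L)} (hG : ∀ E, coeff E G ∈ J)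
    (hr : ∀ E, coeff E G ≠ 0 → r E ∈ K) : rAp x r G ∈ J * K.map x := by
  rw [rAp_eq]
  exact Ideal.sum_mem _ fun E hE =>
    Ideal.mul_mem_mul (hG E) (Ideal.mem_map_of_mem _ (hr E (mem_support_iff.1 hE)))

theorem rAp_mem {x : AA L →+* B} {r : (ℕ →₀ ℕ) → AA L} {G : MvPolynomial ℕ B}
    {J : Ideal B} (hG : ∀ E, coeff E G ∈ J) : rAp x r G ∈ J := by
  rw [rAp_eq]
  exact Ideal.sum_mem _ fun E _ => Ideal.mul_mem_right _ _ (hG E)

variable [hp : Fact p.Prime]

/-- the target of the arrow `t` out of the point `x` -/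
def tgt (x : AA L →+* B) (t : ℕ → B) : AA L →+* B :=
  eval₂Hom (x.comp C) (tg p (fun i => x (X i)) t)

@[simp] theorem tgt_X (x : AA L →+* B) (t : ℕ → B) (i : ℕ) :
    tgt p x t (X i) = tg p (fun i => x (X i)) t i := by simp [tgt]

@[simp] theorem tgt_C (x : AA L →+* B) (t : ℕ → B) (a : L) : tgt p x t (C a) = x (C a) := by
  simp [tgt]

theorem comp_tgt (φ : B →+* C') (x : AA L →+* B) (t : ℕ → B) :
    φ.comp (tgt p x t) = tgt p (φ.comp x) fun i => φ (t i) :=
  ringHom_ext (fun a => by simp) fun i => by simp [map_tg]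

/-- the target of the generic arrow out of `x` -/
def etax (x : AA L →+* B) : AA L →+* MvPolynomial ℕ B := tgt p (C.comp x) X

/-- composition of two generic arrows out of `x`; the outer variables are the second arrow -/
def delx (x : AA L →+* B) : MvPolynomial ℕ B →+* MvPolynomial ℕ (MvPolynomial ℕ B) :=
  eval₂Hom (C.comp C) (cm p (fun i => C (C (x (X i)))) (fun i => C (X i)) X)

@[simp] theorem delx_C (x : AA L →+* B) (b : B) : delx p x (C b) = C (C b) := by simp [delx]

@[simp] theorem delx_X (x : AA L →+* B) (i : ℕ) :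
    delx p x (X i) = cm p (fun i => C (C (x (X i)))) (fun i => C (X i)) X i := by simp [delx]

variable (L) in
/-- the right unit -/
def etaR : AA L →+* GG L := etax p (RingHom.id _)

variable (L) in
/-- the diagonal; the outer variables are the second arrow -/
def Del : GG L →+* MvPolynomial ℕ (GG L) := delx p (RingHom.id _)

theorem map_etax (φ : B →+* C') (x : AA L →+* B) :
    (map φ).comp (etax p x) = etax p (φ.comp x) := by
  rw [etax, comp_tgt, etax]
  congr 1
  · exact RingHom.ext fun a => by simp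
  · funext i
    simp

theorem map_delx (φ : B →+* C') (x : AA L →+* B) (G : MvPolynomial ℕ B) :
    map (map φ) (delx p x G) = delx p (φ.comp x) (map φ G) := by
  have h : (map (map φ)).comp (delx p x) = (delx p (φ.comp x)).comp (map φ) :=
    ringHom_ext (fun a => by simp) fun i => by simp [map_cm]
  exact congrArg (fun f : _ →+* _ => f G) h

theorem etax_eq (x : AA L →+* B) (a : AA L) : etax p x a = map x (etaR p L a) := by
  have h := map_etax p x (RingHom.id _)
  rw [RingHom.comp_id] at h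
  rw [← h]
  rfl

/-- the invariant operator of the functional `r` -/
def Dop (x : AA L →+* B) (r : (ℕ →₀ ℕ) → AA L) : MvPolynomial ℕ B →ₗ[B] MvPolynomial ℕ B where
  toFun G := rAp (etax p x) r (delx p x G)
  map_add' G H := by rw [map_add, map_add]
  map_smul' b G := by
    rw [smul_eq_C_mul, map_mul, delx_C, rAp_C_mul, RingHom.id_apply, smul_eq_C_mul]

theorem Dop_apply (x : AA L →+* B) (r : (ℕ →₀ ℕ) → AA L) (G : MvPolynomial ℕ B) :
    Dop p x r G = rAp (etax p x) r (delx p x G) := rfl

theorem map_Dop (φ : B →+* C') (x : AA L →+* B) (r : (ℕ →₀ ℕ) → AA L) (G : MvPolynomial ℕ B) :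
    map φ (Dop p x r G) = Dop p (φ.comp x) r (map φ G) := by
  rw [Dop_apply, map_rAp, map_etax, map_delx, Dop_apply]

/-- convolution of functionals -/
def conv (r' r : (ℕ →₀ ℕ) → AA L) (E : ℕ →₀ ℕ) : AA L :=
  rAp (RingHom.id _) r' (rAp (etaR p L) r (Del p L (monomial E 1)))

theorem rAp_Dop (x : AA L →+* B) (r' r : (ℕ →₀ ℕ) → AA L) (G : MvPolynomial ℕ B) :
    rAp x r' (Dop p x r G) = rAp x (conv p r' r) G := by
  induction G using MvPolynomial.induction_on' with
  | monomial E b =>
    have h : (monomial E b : MvPolynomial ℕ B) = b • map x (monomial E 1) := by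
      rw [map_monomial, map_one, smul_monomial, smul_eq_mul, mul_one]
    have h1 := map_Dop p x (RingHom.id _) r (monomial E 1)
    have h2 := map_rAp x (RingHom.id _) r' (Dop p (RingHom.id _) r (monomial E 1))
    rw [RingHom.comp_id] at h1 h2
    rw [rAp_monomial, h, map_smul, map_smul, ← h1, ← h2, smul_eq_mul]
    rfl
  | add G H hG hH => rw [map_add, map_add, map_add, hG, hH]

end Vale.Agent.P236EL

end
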