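import Vale.Agent.P236EL.Val
import Vale.Agent.P236KE.Y

/-!
# P236EL / Form : the tables of `P236KE / Y` are correct
-/

noncomputable section

namespace Vale.Agent.P236EL

open MvPolynomial Vale.Agent.P236KE

/-- the code of four exponents -/
def c4 (o : ℕ) (e : Q4) : ℕ :=
  pr o ^ e.1 * pr (o + 1) ^ e.2.1 * pr (o + 2) ^ e.2.2.1 * pr (o + 3) ^ e.2.2.2

/-- the term of a table entry -/
def tm (τ : DT) : ℕ × ℕ := (τ.c, c4 0 τ.v * c4 4 τ.x * c4 8 τ.y)

/-- the diagonals -/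
def dlT (n : ℕ) : Pl :=
  Nat.rec (motive := fun _ => Pl) [(1, 1)] (fun n _ => srt ((dls n).map tm)) n

/-- the right units -/
def elT (n : ℕ) : Pl := srt ((els n).map tm)

theorem ckD_dlT : ∀ n ≤ 4, ckD 3 dlT n = true := by decide +kernel

theorem ckE_elT : ∀ n < 4, ckE 3 elT n = true := by decide +kernel

theorem els_y : ∀ n < 4, ∀ τ ∈ els n, τ.y = (0, 0, 0, 0) := by decide +kernel

variable {A B : Type*} [CommRing A] [CommRing B]

theorem kev_c4 (x : ℕ → B) {o : ℕ} (ho : o + 3 < 20) (e : Q4) : kev x (c4 o e) =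
    x o ^ e.1 * x (o + 1) ^ e.2.1 * x (o + 2) ^ e.2.2.1 * x (o + 3) ^ e.2.2.2 := by
  simp only [c4, kev_mul, kev_pow, kev_pr x ho, kev_pr x (show o < 20 by omega),
    kev_pr x (show o + 1 < 20 by omega), kev_pr x (show o + 2 < 20 by omega)]

theorem monomial_m4 (e : Q4) (a : A) : (monomial (m4 e) a : MvPolynomial ℕ A) =
    C a * (X 0 ^ e.1 * X 1 ^ e.2.1 * X 2 ^ e.2.2.1 * X 3 ^ e.2.2.2) := by
  simp only [X_pow_eq_monomial, monomial_mul, C_mul_monomial, mul_one]
  rfl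

variable {L : Type} [CommRing L]

variable (L) in
/-- the variables of the ring of functions of two arrows -/
def x2 : ℕ → MvPolynomial ℕ (GG L) := xs (fun i => C (C (X i))) (fun i => C (X i)) X

variable (L) in
/-- the variables of the ring of functions of one arrow -/
def x1 : ℕ → GG L := xs (fun i => C (X i)) X X

theorem ev2_eq (τ : DT) : τ.ev2 L = ((tm τ).1 : MvPolynomial ℕ (GG L)) *
    kev (x2 L) (tm τ).2 := by
  simp only [tm, kev_mul, kev_c4 _ (show 0 + 3 < 20 by omega), kev_c4 _ (show 4 + 3 < 20 by omega),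
    kev_c4 _ (show 8 + 3 < 20 by omega), DT.ev2, DT.ev1, monomial_m4, map_mul, map_pow,
    map_natCast]
  simp only [x2, xs]
  norm_num
  ring

theorem ev1_eq {τ : DT} (h : τ.y = (0, 0, 0, 0)) : τ.ev1 L = ((tm τ).1 : GG L) *
    kev (x1 L) (tm τ).2 := by
  simp only [tm, kev_mul, kev_c4 _ (show 0 + 3 < 20 by omega), kev_c4 _ (show 4 + 3 < 20 by omega),
    kev_c4 _ (show 8 + 3 < 20 by omega), DT.ev1, monomial_m4, map_mul, map_pow,
    map_natCast, h]
  simp only [x1, xs]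
  norm_num
  ring

theorem three_mem_II : ((3 : ℕ) : AA L) ∈ II 3 L := Ideal.subset_span (Set.mem_insert _ _)

theorem X_mem_II {p : ℕ} (i : ℕ) : (X i : AA L) ∈ II p L :=
  Ideal.subset_span (Set.mem_insert_of_mem _ (Set.mem_range_self i))

variable [Fact (Nat.Prime 3)]

theorem del_sub_mem {R : ℕ} (hR : 2 ≤ R) {TL : ℕ → Pl} {N : ℕ} (hN : N ≤ 4)
    (h : ∀ n ≤ N, ckD R TL n = true) (n : ℕ) (hn : n < N) (F E : ℕ →₀ ℕ) :
    coeff E (coeff F (Del 3 L (X n) -
      pev (x2 L) (TL (n + 1)))) ∈ II 3 L ^ R := by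
  have h1 := ap_cm (J := ((II 3 L).map C).map C) (v := fun i => C (C (X i)))
    (by
      rw [← map_natCast C, ← map_natCast C]
      exact Ideal.mem_map_of_mem _ (Ideal.mem_map_of_mem _ three_mem_II))
    (fun i => Ideal.mem_map_of_mem _ (Ideal.mem_map_of_mem _ (X_mem_II i)))
    (fun i => C (X i)) X hR hN h n hn
  rw [Ap, ← Ideal.map_pow, ← Ideal.map_pow] at h1
  rw [Del, delx_X]
  exact mem_map_C_iff.1 (mem_map_C_iff.1 h1 F) E

theorem eta_sub_mem {R : ℕ} (hR : 2 ≤ R) {EL : ℕ → Pl} {N : ℕ} (hN : N ≤ 4)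
    (h : ∀ n < N, ckE R EL n = true) (n : ℕ) (hn : n < N) (E : ℕ →₀ ℕ) :
    coeff E (etaR 3 L (X n) - pev (x1 L) (EL n)) ∈ II 3 L ^ R := by
  have h1 := ap_tg (J := (II 3 L).map C) (v := fun i => C (X i))
    (by
      rw [← map_natCast C]
      exact Ideal.mem_map_of_mem _ three_mem_II)
    (fun i => Ideal.mem_map_of_mem _ (X_mem_II i)) X X hR hN h n hn
  rw [Ap, ← Ideal.map_pow] at h1
  rw [etaR, etax, tgt_X]
  exact mem_map_C_iff.1 h1 E

theorem form (L : Type) [CommRing L] : Form L := by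
  refine ⟨fun n hn F E => ?_, fun n hn E => ?_⟩
  · have h := del_sub_mem (L := L) (by omega) le_rfl ckD_dlT n hn F E
    rw [show dlT (n + 1) = srt ((dls n).map tm) from rfl, pev_srt, pev, List.map_map] at h
    rw [List.map_congr_left fun τ _ => ev2_eq τ]
    exact h
  · have h := eta_sub_mem (L := L) (by omega) le_rfl ckE_elT n hn E
    rw [show elT n = srt ((els n).map tm) from rfl, pev_srt, pev, List.map_map] at h
    rw [List.map_congr_left fun τ hτ => ev1_eq (els_y n hn τ hτ)]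
    exact h

end Vale.Agent.P236EL

end
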