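import Vale.Agent.P236EL.Ci

/-!
# P236EL / Fp : the facts for the relations of Toda
-/

noncomputable section

namespace Vale.Agent.P236EL

open Vale.Agent.P251.F Vale.Agent.P251.I Vale.Agent.P236SY Vale.Agent.P236R
open Vale.Agent.P236KE Vale.Agent.P236K3 Vale.Agent.P236F AddSubgroup Vale.Agent.P236KE.S90

section

variable [hp : Fact (Nat.Prime 3)] {t : Cob Laz 1} (ht : IsT1 3 t)

include ht

theorem fx_g34 : ZS 10 6 ≤ zmultiples (b3v t) ⊔ BS 10 6 :=
  have H := wS 10 (by decide)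
  have h : CS 10 6 (b3v t) _ := H.bm ht rfl (H.bm ht rfl (H.bm ht rfl
    (CS.base (H.v1 ht rfl (cs_one ht (by decide))))))
  (H.skip (T := 10) (a := 0) (b := 1) (by decide +kernel) (H.step (.one h) (by decide +kernel)
    (H.top (by decide +kernel)))).le

theorem fx_g33 {x c} (hx : Grk 1 1 x c) : ZS 9 2 ≤ zmultiples (fun _ => c) ⊔ BS 9 2 :=
  have H := wS 9 (by decide)
  have h : CS 9 2 (fun _ => c) _ := CS.base (H.b2 hx rfl (cs_one ht (by decide)))
  (H.step (T := 9) (k := 0) (.one h) (by decide +kernel) (H.top (by decide +kernel))).le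

theorem fx_rel {x c x₂ c₂ x₄ c₄} (h1 : Grk 1 1 x c) (h2 : Grk 0 2 x₂ c₂) (h4 : Grk 0 4 x₄ c₄) :
    lb t 4 rfl (lc _ (show 2 + 2 = 4 from rfl) c fun _ => c) ∈
      closure {lc _ (show 2 + 4 = 6 from rfl) c₂ (lc _ (show 2 + 2 = 4 from rfl) c₂ fun _ => c₂),
        lb t 4 rfl (lb t 2 rfl fun _ => c₄)} ⊔ BS 21 6 :=
  have H := wS 21 (by decide)
  have u := cs_one ht (T := 21) (by decide)
  have ha := H.b0 h2 (show 2 + 4 = 6 from rfl) (H.b0 h2 (show 2 + 2 = 4 from rfl)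
    (CS.base (H.b0 h2 rfl u)))
  have hb := H.bm ht (show 2 + 4 = 6 from rfl) (H.bm ht (show 2 + 2 = 4 from rfl)
    (CS.base (H.b0 h4 rfl u)))
  H.mem (T := 21) (k := 3) (H.bm ht rfl (H.b2 h1 rfl (CS.base (H.b2 h1 rfl u)))) (.two ha hb)
    (H.step (.cons (subset_closure (.inr rfl)) hb .nil) (by decide +kernel)
      (H.top (by decide +kernel))) (by decide +kernel)

omit ht in
theorem fx_v77 : VS 23 15 := ((wS 23 (by decide)).top (T := 23) (a := 0) (by decide +kernel)).van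

omit ht in
theorem fx_v54 : VS 14 2 := ((wS 14 (by decide)).top (T := 14) (a := 0) (by decide +kernel)).van

omit ht in
theorem fx_l44 : LS 12 4 := (wS 12 (by decide)).line (T := 12) 0 [⟨3, 0, 0, 0, 0, 1⟩]
  (by decide +kernel) (by decide +kernel) (by decide +kernel)

theorem fx_n43 : lb t 7 rfl (b3 t t) ∉ BS 13 9 :=
  have H := wS 13 (by decide)
  H.ne (T := 13) (k := 0) (H.bm ht rfl (H.bm ht rfl (H.bm ht rfl (H.bm ht rfl
    (CS.base (H.t1 ht rfl (cs_one ht (by decide)))))))) (.refl le_rfl) (by decide +kernel)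

end

/-- **The facts used for the relations of Toda.** -/
theorem fx {t : Cob Laz 1} (ht : IsT1 3 t) : FX t :=
  haveI : Fact (Nat.Prime 3) := ⟨Nat.prime_three⟩
  ⟨fx_g34 ht, fx_g33 ht, fx_rel ht, fx_v77, fx_v54, fx_l44, fx_n43 ht⟩

end Vale.Agent.P236EL

end
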