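import Vale.Agent.P257.H80.HazWt

/-!
# P236EL / Hs : the formal sums `x +_F t_1 x^p +_F t_2 x^{p^2} +_F …`
-/

noncomputable section

namespace Vale.Agent.P236EL

open MvPowerSeries Vale.Agent.P217 Vale.Agent.P251.F Vale.Agent.P257.H80

variable (p : ℕ) {A B : Type*} [CommRing A] [CommRing B]

/-- the monomial `a x^q` -/
def mono (a : B) (q : ℕ) : PowerSeries B := PowerSeries.C a * PowerSeries.X ^ q

theorem mono_mem (a : B) (q : ℕ) : mono a q ∈ ordI Unit B q :=
  Ideal.mul_mem_left _ _ (ordI_pow psX_mem q)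

theorem coeff_mono (a : B) (q m : ℕ) :
    PowerSeries.coeff m (mono a q) = if m = q then a else 0 := by
  rw [mono, PowerSeries.coeff_C_mul, PowerSeries.coeff_X_pow]
  split_ifs <;> simp

theorem map_mono (φ : A →+* B) (a : A) (q : ℕ) :
    PowerSeries.map φ (mono a q) = mono (φ a) q := by
  simp [mono]

/-- partial formal sums; `t n` is the coefficient `t_{n+1}` -/
def gS (F : Law B) (t : ℕ → B) : ℕ → PowerSeries B
  | 0 => PowerSeries.X
  | n + 1 => subst ![gS F t n, mono (t n) (p ^ (n + 1))] F.ps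

variable [hp : Fact p.Prime]

theorem one_le_pp (n : ℕ) : 1 ≤ p ^ n := Nat.one_le_pow _ _ hp.out.pos

theorem lt_pp (n : ℕ) : n < p ^ n := Nat.lt_pow_self hp.out.one_lt

theorem pp_lt_succ (n : ℕ) : p ^ n < p ^ (n + 1) :=
  Nat.pow_lt_pow_right hp.out.one_lt (Nat.lt_succ_self n)

theorem mono_mem_one (a : B) (n : ℕ) : mono a (p ^ n) ∈ ordI Unit B 1 :=
  ordI_anti (one_le_pp p n) (mono_mem a _)

theorem gS_mem (F : Law B) (t : ℕ → B) (n : ℕ) : gS p F t n ∈ ordI Unit B 1 := by
  induction n with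
  | zero => exact psX_mem
  | succ n ih => exact (isLaw_formalGroup F.toFG).subst_mem le_rfl ih (mono_mem_one p _ _)

omit hp in
theorem subst_pair_zero (F : Law B) {a : PowerSeries B} (ha : a ∈ ordI Unit B 1) :
    subst ![a, (0 : PowerSeries B)] F.ps = a := by
  let x : F.toFG.Point Unit := ⟨a, hasSubst_of_mem ha⟩
  have h : (x + 0).val = x.val := by rw [add_zero]
  exact h

theorem gS_succ_sub (F : Law B) (t : ℕ → B) (n : ℕ) :
    gS p F t (n + 1) - gS p F t n - mono (t n) (p ^ (n + 1)) ∈ ordI Unit B (p ^ (n + 1) + 1) := by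
  have h := (isLaw_formalGroup F.toFG).perturb (gS_mem p F t n) (mono_mem_one p (t n) (n + 1))
    (gS_mem p F t n) (Ideal.zero_mem _) (N := p ^ (n + 1))
    (by rw [sub_self]; exact Ideal.zero_mem _) (by rw [sub_zero]; exact mono_mem _ _)
  rw [subst_pair_zero F (gS_mem p F t n), sub_self, zero_add, sub_zero] at h
  exact h

theorem gS_sub (F : Law B) (t : ℕ → B) {n m : ℕ} (h : n ≤ m) :
    gS p F t m - gS p F t n ∈ ordI Unit B (p ^ (n + 1)) := by
  induction m, h using Nat.le_induction with
  | base => rw [sub_self]; exact Ideal.zero_mem _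
  | succ m hm ih =>
    have h1 : p ^ (n + 1) ≤ p ^ (m + 1) := Nat.pow_le_pow_right hp.out.pos (by omega)
    have h2 := Ideal.add_mem _ (Ideal.add_mem _
      (ordI_anti (h1.trans (Nat.le_succ _)) (gS_succ_sub p F t m))
      (ordI_anti h1 (mono_mem (t m) _))) ih
    convert h2 using 1
    ring

/-- the underlying series of `hs` -/
def hV (F : Law B) (t : ℕ → B) : PowerSeries B :=
  PowerSeries.mk fun m => PowerSeries.coeff m (gS p F t m)

theorem hV_sub (F : Law B) (t : ℕ → B) (n : ℕ) :
    hV p F t - gS p F t n ∈ ordI Unit B (p ^ (n + 1)) := by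
  rw [mem_ordI_unit]
  intro k hk
  rw [map_sub, hV, PowerSeries.coeff_mk, ← map_sub]
  rcases le_total k n with h | h
  · have h1 := mem_ordI_unit.1 (gS_sub p F t h) k ((lt_pp p k).trans (pp_lt_succ p k))
    rw [map_sub, sub_eq_zero] at h1
    rw [map_sub, h1, sub_self]
  · exact mem_ordI_unit.1 (gS_sub p F t h) k hk

theorem hV_sub_X (F : Law B) (t : ℕ → B) : hV p F t - PowerSeries.X ∈ ordI Unit B 2 := by
  have h := hV_sub p F t 0
  rw [zero_add, pow_one] at h
  exact ordI_anti hp.out.two_le h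

theorem coeff_hV_one (F : Law B) (t : ℕ → B) : PowerSeries.coeff 1 (hV p F t) = 1 := by
  have h := mem_ordI_unit.1 (hV_sub_X p F t) 1 (by omega)
  rwa [map_sub, PowerSeries.coeff_one_X, sub_eq_zero] at h

theorem cc_hV (F : Law B) (t : ℕ → B) : PowerSeries.constantCoeff (hV p F t) = 0 := by
  have h := mem_ordI_unit.1 (hV_sub_X p F t) 0 (by omega)
  rwa [map_sub, PowerSeries.coeff_zero_X, sub_zero,
    PowerSeries.coeff_zero_eq_constantCoeff_apply] at h

/-- `x +_F t_1 x^p +_F t_2 x^{p^2} +_F …` -/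
def hs (F : Law B) (t : ℕ → B) : InvSeries B :=
  ⟨hV p F t, cc_hV p F t, by rw [coeff_hV_one]; exact isUnit_one⟩

theorem hs_val (F : Law B) (t : ℕ → B) : (hs p F t).val = hV p F t := rfl

theorem hs_mem (F : Law B) (t : ℕ → B) : hs p F t ∈ strict B := coeff_hV_one p F t

theorem map_gS (φ : A →+* B) (F : Law A) (t : ℕ → A) (n : ℕ) :
    PowerSeries.map φ (gS p F t n) = gS p (F.map φ) (fun k => φ (t k)) n := by
  induction n with
  | zero => exact PowerSeries.map_X φ
  | succ n ih =>
    have h := map_pair_subst φ (hasSubst_of_mem (gS_mem p F t n))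
      (hasSubst_of_mem (mono_mem_one p (t n) (n + 1))) F.ps
    rw [gS, gS, ← ih, ← map_mono]
    exact h

theorem map_hs (φ : A →+* B) (F : Law A) (t : ℕ → A) :
    InvSeries.map φ (hs p F t) = hs p (F.map φ) (fun k => φ (t k)) := by
  ext m
  rw [InvSeries.map_val, hs_val, hs_val, PowerSeries.coeff_map, hV, hV, PowerSeries.coeff_mk,
    PowerSeries.coeff_mk, ← map_gS, PowerSeries.coeff_map]

omit hp in
theorem gS_congr (F : Law B) {t t' : ℕ → B} {n : ℕ} (h : ∀ j < n, t j = t' j) :
    gS p F t n = gS p F t' n := by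
  induction n with
  | zero => rfl
  | succ n ih => rw [gS, gS, ih fun j hj => h j (by omega), h n (by omega)]

/-- comparison of two formal sums -/
theorem hV_compare (F : Law B) {t t' : ℕ → B} {n : ℕ} (h : ∀ j < n, t j = t' j) :
    hV p F t - hV p F t' - mono (t n - t' n) (p ^ (n + 1)) ∈ ordI Unit B (p ^ (n + 1) + 1) := by
  have h0 : p ^ (n + 1) + 1 ≤ p ^ (n + 2) := pp_lt_succ p (n + 1)
  have h1 := ordI_anti h0 (hV_sub p F t (n + 1))
  have h2 := ordI_anti h0 (hV_sub p F t' (n + 1))
  have h3 := gS_succ_sub p F t n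
  have h4 := gS_succ_sub p F t' n
  rw [gS_congr p F h] at h3
  have h5 := Ideal.sub_mem _ (Ideal.add_mem _ h1 h3) (Ideal.add_mem _ h2 h4)
  convert h5 using 1
  simp only [mono, map_sub]
  ring

theorem coeff_hV_compare (F : Law B) {t t' : ℕ → B} {n : ℕ} (h : ∀ j < n, t j = t' j) :
    PowerSeries.coeff (p ^ (n + 1)) (hV p F t) - PowerSeries.coeff (p ^ (n + 1)) (hV p F t') =
      t n - t' n := by
  have h1 := mem_ordI_unit.1 (hV_compare p F h) (p ^ (n + 1)) (Nat.lt_succ_self _)
  rwa [map_sub, map_sub, coeff_mono, if_pos rfl, sub_eq_zero] at h1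

theorem hs_injective (F : Law B) {t t' : ℕ → B} (h : hs p F t = hs p F t') : t = t' := by
  funext n
  induction n using Nat.strong_induction_on with
  | _ n ih =>
    have h1 := coeff_hV_compare p F (n := n) ih
    rw [← hs_val, ← hs_val, h, sub_self] at h1
    exact sub_eq_zero.1 h1.symm

theorem hs_zero (F : Law B) : hs p F (fun _ => 0) = 1 := by
  have h : ∀ n, gS p F (fun _ => 0) n = PowerSeries.X := by
    intro n
    induction n with
    | zero => rfl
    | succ n ih =>
      rw [gS, ih, mono, map_zero, zero_mul]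
      exact subst_pair_zero F psX_mem
  ext m
  rw [hs_val, hV, PowerSeries.coeff_mk, h, InvSeries.one_val]

/-- series with prescribed coefficients at the powers of `p` -/
theorem exists_hs_coeff (F : Law B) (c : ℕ → B) :
    ∃ t : ℕ → B, ∀ n, PowerSeries.coeff (p ^ (n + 1)) (hV p F t) = c n := by
  obtain ⟨t, ht, -⟩ := exists_unique_triangular
    (fun t n => PowerSeries.coeff (p ^ (n + 1)) (hV p F t) - c n) (fun _ => 1)
    (fun _ => isUnit_one) (fun n t t' h => by
      rw [one_mul, ← coeff_hV_compare p F h]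
      ring)
  exact ⟨t, fun n => sub_eq_zero.1 (ht n)⟩

/-- integrality of the parameters -/
theorem hs_descend {ι : A →+* B} (F : Law A) (g : InvSeries A) (T : ℕ → B)
    (h : InvSeries.map ι g = hs p (F.map ι) T) (k : ℕ) : T k ∈ ι.range := by
  classical
  induction k using Nat.strong_induction_on with
  | _ k ih =>
    choose s hs' using ih
    set T' : ℕ → A := fun j => if hj : j < k then s j hj else 0 with hT'
    have h1 := coeff_hV_compare p (F.map ι) (t := T) (t' := fun j => ι (T' j)) (n := k)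
      (fun j hj => by simp only [hT']; rw [dif_pos hj, hs'])
    rw [← hs_val, ← hs_val, ← h, ← map_hs, InvSeries.map_val, InvSeries.map_val,
      PowerSeries.coeff_map, PowerSeries.coeff_map] at h1
    simp only [hT', lt_irrefl, dif_neg, not_false_eq_true, map_zero, sub_zero] at h1
    exact ⟨_, by rw [← h1, map_sub]⟩

/-! ### scaling -/

theorem gS_conj (u : Bˣ) (F : Law B) (t : ℕ → B) (n : ℕ) :
    gS p ((InvSeries.lin u)⁻¹ • F) (fun k => (u : B) ^ (p ^ (k + 1) - 1) * t k) n =
      PowerSeries.C ((u⁻¹ : Bˣ) : B) * PowerSeries.rescale (u : B) (gS p F t n) := by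
  have hl : ∀ {a : PowerSeries B} (_ : a ∈ ordI Unit B 1),
      (PowerSeries.subst a ((InvSeries.lin u)⁻¹).val : PowerSeries B) =
        PowerSeries.C ((u⁻¹ : Bˣ) : B) * a := by
    intro a ha
    have hs := hasSubst_of_mem ha
    rw [← map_inv, InvSeries.lin_val, PowerSeries.subst_mul hs, PowerSeries.subst_X hs,
      PowerSeries.subst_C]
    rfl
  have hr : ∀ {a : PowerSeries B} (_ : a ∈ ordI Unit B 1),
      PowerSeries.rescale (u : B) a ∈ ordI Unit B 1 := by
    intro a ha
    rw [mem_ordI_unit] at ha ⊢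
    intro k hk
    rw [PowerSeries.coeff_rescale, ha k hk, mul_zero]
  induction n with
  | zero =>
    rw [gS, gS, PowerSeries.rescale_X, ← mul_assoc, ← map_mul, Units.inv_mul, map_one, one_mul]
  | succ n ih =>
    have h1 := (InvSeries.isHom_smul (InvSeries.lin u)⁻¹ F).substL
      (hasSubst_of_mem (hr (gS_mem p F t n))) (hasSubst_of_mem (hr (mono_mem_one p (t n) (n + 1))))
    have h2 : PowerSeries.rescale (u : B) (gS p F t (n + 1)) =
        subst ![PowerSeries.rescale (u : B) (gS p F t n),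
          PowerSeries.rescale (u : B) (mono (t n) (p ^ (n + 1)))] F.ps := by
      have hu : HasSubst (fun _ : Unit => ((u : B) • PowerSeries.X : PowerSeries B)) := by
        apply hasSubst_of_constantCoeff_zero
        intro _
        change PowerSeries.constantCoeff ((u : B) • PowerSeries.X : PowerSeries B) = 0
        simp
      rw [gS, PowerSeries.rescale_eq_subst, PowerSeries.rescale_eq_subst,
        PowerSeries.rescale_eq_subst]
      exact subst_pair_subst (hasSubst_of_mem (gS_mem p F t n))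
        (hasSubst_of_mem (mono_mem_one p (t n) (n + 1))) hu
    have h3 : PowerSeries.C ((u⁻¹ : Bˣ) : B) * PowerSeries.rescale (u : B)
        (mono (t n) (p ^ (n + 1))) = mono ((u : B) ^ (p ^ (n + 1) - 1) * t n) (p ^ (n + 1)) := by
      ext m
      rw [PowerSeries.coeff_C_mul, PowerSeries.coeff_rescale, coeff_mono, coeff_mono]
      split_ifs with hm
      · obtain ⟨q, hq⟩ : ∃ q, p ^ (n + 1) = q + 1 := ⟨_, (Nat.sub_add_cancel (one_le_pp p _)).symm⟩
        rw [hm, hq, Nat.add_sub_cancel, pow_succ', mul_assoc, ← mul_assoc, Units.inv_mul, one_mul]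
      · rw [mul_zero, mul_zero]
    rw [hl (hr (gS_mem p F t n)), hl (hr (mono_mem_one p (t n) (n + 1))), ← h2,
      hl (hr (gS_mem p F t (n + 1))), h3, ← ih] at h1
    rw [gS]
    exact h1.symm

theorem hs_conj (u : Bˣ) (F : Law B) (t : ℕ → B) :
    hs p ((InvSeries.lin u)⁻¹ • F) (fun k => (u : B) ^ (p ^ (k + 1) - 1) * t k) =
      (InvSeries.lin u)⁻¹ * hs p F t * InvSeries.lin u := by
  apply InvSeries.ext_c
  intro k
  rw [c_conj_lin, InvSeries.c, InvSeries.c, hs_val, hs_val, hV, hV, PowerSeries.coeff_mk,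
    PowerSeries.coeff_mk, gS_conj, PowerSeries.coeff_C_mul, PowerSeries.coeff_rescale, pow_succ',
    mul_assoc, ← mul_assoc, Units.inv_mul, one_mul]

end Vale.Agent.P236EL

end
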