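import Vale.Agent.P236EL.Wt

/-!
# P236EL / Int : integration of a function on chains along one arrow
-/

noncomputable section

namespace Vale.Agent.P236EL

open MvPolynomial

variable {p : ℕ} [hp : Fact p.Prime] {L : Type} [CommRing L] {B C' : Type*}
  [CommRing B] [CommRing C']

namespace Ch

/-- the chain `c` up to vertex `n`, followed by a generic arrow -/
def gen (n : ℕ) (c : Ch L B) : Ch L (MvPolynomial ℕ B) where
  o := C.comp c.o
  x i := C (c.x i)
  a k i := if k < n then C (c.a k i) else if k = n then X i else 0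

omit hp in
theorem gen_a_lt (c : Ch L B) {n k : ℕ} (h : k < n) : (c.gen n).a k = fun i => C (c.a k i) := by
  funext i
  simp [gen, h]

omit hp in
theorem gen_a_self (c : Ch L B) (n : ℕ) : (c.gen n).a n = X := by
  funext i
  simp [gen]

omit hp in
theorem gen_a_gt (c : Ch L B) (n k : ℕ) (h : n + 1 ≤ k) : (c.gen n).a k = fun _ => 0 := by
  funext i
  have h1 : ¬ k < n := by omega
  have h2 : k ≠ n := by omega
  simp [gen, h1, h2]

omit hp in
theorem gen_agree (c : Ch L B) (n : ℕ) : Agree n (c.gen n) (c.map C) :=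
  ⟨rfl, rfl, fun _ h => c.gen_a_lt h⟩

omit hp in
theorem gen_map (φ : B →+* C') (c : Ch L B) (n : ℕ) :
    (c.map φ).gen n = (c.gen n).map (MvPolynomial.map φ) := by
  ext1
  · exact RingHom.ext fun a => by simp [gen, map]
  · funext i
    simp [gen, map]
  · funext k i
    simp only [gen, map]
    split_ifs <;> simp

theorem pt_gen (c : Ch L B) {n k : ℕ} (h : k ≤ n) : (c.gen n).pt p k = C.comp (c.pt p k) := by
  rw [(c.gen_agree n).pt h, pt_map]

theorem pt_gen_succ (c : Ch L B) (n : ℕ) : (c.gen n).pt p (n + 1) = etax p (c.pt p n) := by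
  rw [pt_succ, pt_gen c le_rfl, gen_a_self, etax]

theorem gen_res {α : ℕ → ℕ} (hα : Monotone α) {n : ℕ} (h : α n < α (n + 1)) (c : Ch L B) :
    (c.gen (α n)).res p α = (c.res p α).gen n := by
  ext1
  · rfl
  · change (c.gen (α n)).vtx p (α 0) = _
    rw [(c.gen_agree _).vtx (hα (Nat.zero_le n)), vtx_map]
    rfl
  · funext k
    change (c.gen (α n)).seg p (α k) (α (k + 1)) = _
    rcases lt_trichotomy k n with hk | rfl | hk
    · rw [(c.gen_agree _).seg (hα (Nat.le_succ k)) (hα hk), seg_map, gen_a_lt _ hk]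
      rfl
    · rw [seg_of_zero (c.gen_a_gt _) (Nat.le_succ _) h, seg_succ, gen_a_self, gen_a_self]
    · rw [seg_of_zero' (c.gen_a_gt _) (h.trans_le (hα hk)) (hα (Nat.le_succ k)), gen_a_gt _ _ _ hk]

theorem gen_gen (c : Ch L B) (n : ℕ) :
    ((c.gen n).gen (n + 1)).res p (sa (n + 1)) = (c.gen n).map (delx p (c.pt p n)) := by
  ext1
  · exact RingHom.ext fun a => by simp [res, gen, map]
  · funext i
    simp [res, gen, map, sa, vtx]
  · funext k i
    change ((c.gen n).gen (n + 1)).seg p (sa (n + 1) k) (sa (n + 1) (k + 1)) i =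
      delx p (c.pt p n) ((c.gen n).a k i)
    rcases lt_trichotomy k n with hk | rfl | hk
    · rw [show sa (n + 1) k = k from if_pos (by omega),
        show sa (n + 1) (k + 1) = k + 1 from if_pos (by omega), seg_succ,
        gen_a_lt _ (by omega), gen_a_lt _ hk, delx_C]
    · rw [show sa (k + 1) k = k from if_pos (by omega),
        show sa (k + 1) (k + 1) = k + 1 + 1 from if_neg (by omega), seg_succ' p _ (Nat.le_succ k),
        seg_succ, gen_a_self, gen_a_lt _ (Nat.lt_succ_self k), gen_a_self, delx_X,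
        (gen_agree _ _).vtx (Nat.le_succ k), vtx_map, (gen_agree _ _).vtx le_rfl, vtx_map]
      simp only [pt_X]
    · rw [show sa (n + 1) k = k + 1 from if_neg (by omega),
        show sa (n + 1) (k + 1) = k + 1 + 1 from if_neg (by omega), seg_succ,
        gen_a_gt _ _ _ (by omega), gen_a_gt _ _ _ hk, map_zero]

variable (p) in
/-- evaluation of a function of an arrow at the arrow `k` -/
def arr (c : Ch L B) (k : ℕ) : GG L →+* B := eval₂Hom (c.pt p k) (c.a k)

@[simp] theorem arr_C (c : Ch L B) (k : ℕ) (a : AA L) : c.arr p k (C a) = c.pt p k a := by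
  simp [arr]

@[simp] theorem arr_X (c : Ch L B) (k i : ℕ) : c.arr p k (X i) = c.a k i := by simp [arr]

theorem arr_map (φ : B →+* C') (c : Ch L B) (k : ℕ) (g : GG L) :
    (c.map φ).arr p k g = φ (c.arr p k g) := by
  have h : (c.map φ).arr p k = φ.comp (c.arr p k) :=
    ringHom_ext (fun a => by simp [pt_map]) fun i => by simp [map]
  rw [h]
  rfl

theorem arr_res {α : ℕ → ℕ} (hα : Monotone α) (c : Ch L B) {k : ℕ} (h : α (k + 1) = α k + 1) :
    (c.res p α).arr p k = c.arr p (α k) := by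
  rw [arr, pt_res hα, arr, ← c.seg_succ p, ← h]
  rfl

theorem arr_gen (c : Ch L B) (n : ℕ) : (c.gen n).arr p n = MvPolynomial.map (c.pt p n) :=
  ringHom_ext (fun a => by simp [pt_gen]) fun i => by simp [gen_a_self]

theorem arr_comp_etaR (c : Ch L B) (k : ℕ) : (c.arr p k).comp (etaR p L) = c.pt p (k + 1) := by
  rw [etaR, etax, comp_tgt, pt_succ]
  congr 1
  · exact RingHom.ext fun a => by simp
  · funext i
    simp

theorem arr_etaR (c : Ch L B) (k : ℕ) (a : AA L) : c.arr p k (etaR p L a) = c.pt p (k + 1) a := by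
  rw [← arr_comp_etaR]
  rfl

variable (p) in
/-- evaluation of a function of two arrows at the arrows `k`, `k + 1` -/
def arr2 (c : Ch L B) (k : ℕ) : MvPolynomial ℕ (GG L) →+* B := eval₂Hom (c.arr p k) (c.a (k + 1))

@[simp] theorem arr2_C (c : Ch L B) (k : ℕ) (g : GG L) : c.arr2 p k (C g) = c.arr p k g := by
  simp [arr2]

theorem arr2_map (c : Ch L B) (k : ℕ) (g : GG L) :
    c.arr2 p k (MvPolynomial.map (etaR p L) g) = c.arr p (k + 1) g := by
  have h : (c.arr2 p k).comp (MvPolynomial.map (etaR p L)) = c.arr p (k + 1) :=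
    ringHom_ext (fun a => by simp [arr_etaR]) fun i => by simp [arr2]
  rw [← h]
  rfl

theorem arr_res_sa (c : Ch L B) (k : ℕ) (g : GG L) :
    (c.res p (sa (k + 1))).arr p k g = c.arr2 p k (Del p L g) := by
  have h0 : sa (k + 1) k = k := if_pos (by omega)
  have h : (c.res p (sa (k + 1))).arr p k = (c.arr2 p k).comp (Del p L) := by
    refine ringHom_ext (fun a => by simp [pt_res (sa_mono _), h0, Del]) fun i => ?_
    rw [arr_X, RingHom.comp_apply, Del, delx_X]
    refine Eq.trans ?_ (map_cm p (A := MvPolynomial ℕ (GG L)) (c.arr2 p k) _ _ _ i).symm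
    change c.seg p (sa (k + 1) k) (sa (k + 1) (k + 1)) i = _
    rw [h0, show sa (k + 1) (k + 1) = k + 1 + 1 from if_neg (by omega),
      seg_succ' p _ (Nat.le_succ k), seg_succ]
    simp [arr2]
  rw [h]
  rfl

end Ch

open Ch

variable (p) in
/-- integration along the arrow `n` -/
def itg (n : ℕ) (r : (ℕ →₀ ℕ) → AA L) : CC L →+ CC L :=
  (rAp ((univ L).pt p n) r).toAddMonoidHom.comp ((univ L).gen n).ev.toAddMonoidHom

theorem itg_apply (n : ℕ) (r : (ℕ →₀ ℕ) → AA L) (F : CC L) :
    itg p n r F = rAp ((univ L).pt p n) r (((univ L).gen n).ev F) := rfl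

theorem ev_itg (c : Ch L B) (n : ℕ) (r : (ℕ →₀ ℕ) → AA L) (F : CC L) :
    c.ev (itg p n r F) = rAp (c.pt p n) r ((c.gen n).ev F) := by
  rw [itg_apply, map_rAp, ← pt_map, ← ev_map, ← gen_map, univ_map]

theorem itg_pb {α : ℕ → ℕ} (hα : Monotone α) {n : ℕ} (h : α n < α (n + 1))
    (r : (ℕ →₀ ℕ) → AA L) (F : CC L) : itg p (α n) r (pb p L α F) = pb p L α (itg p n r F) := by
  rw [itg_apply, ev_pb, gen_res hα h, pb, ev_itg, pt_res hα]

theorem itg_sum {ι : Type*} (s : Finset ι) (n : ℕ) (r : ι → (ℕ →₀ ℕ) → AA L) (F : CC L) :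
    itg p n (fun E => ∑ i ∈ s, r i E) F = ∑ i ∈ s, itg p n (r i) F := rAp_sum s _ r _

theorem ev_pt (c : Ch L B) (k : ℕ) (a : AA L) : c.ev ((univ L).pt p k a) = c.pt p k a := by
  conv_rhs => rw [← univ_map c, pt_map]
  rfl

theorem ev_arr (c : Ch L B) (k : ℕ) (g : GG L) : c.ev ((univ L).arr p k g) = c.arr p k g := by
  rw [← arr_map, univ_map]

theorem pb_pt {α : ℕ → ℕ} (hα : Monotone α) (k : ℕ) (a : AA L) :
    pb p L α ((univ L).pt p k a) = (univ L).pt p (α k) a := by
  rw [pb, ev_pt, pt_res hα]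

theorem pb_arr {α : ℕ → ℕ} (hα : Monotone α) {k : ℕ} (h : α (k + 1) = α k + 1) (g : GG L) :
    pb p L α ((univ L).arr p k g) = (univ L).arr p (α k) g := by
  rw [pb, ev_arr, arr_res hα _ h]

theorem fc_arr (k : ℕ) (g : GG L) :
    fc p L (k + 1) ((univ L).arr p k g) = (univ L).arr2 p k (Del p L g) := by
  rw [fc, pb, ev_arr, arr_res_sa]

theorem itg_arr (n : ℕ) (r : (ℕ →₀ ℕ) → AA L) (g : GG L) :
    itg p n r ((univ L).arr p n g) = (univ L).pt p n (rAp (RingHom.id _) r g) := by
  rw [itg_apply, ev_arr, arr_gen, map_rAp, RingHom.comp_id]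

theorem sg_fc_succ (j : ℕ) (F : CC L) : sg p L j (fc p L (j + 1) F) = F := by
  rw [fc, sg, pb_pb (dg_mono _) (sa_mono _)]
  conv_rhs => rw [← pb_id (p := p) F]
  congr 2
  funext k
  simp only [Function.comp, sa, dg, id]
  split_ifs <;> omega

variable (p) in
/-- the invariant operator of a functional, acting at the vertex `n` -/
def par (n : ℕ) (r : (ℕ →₀ ℕ) → AA L) : CC L →+ CC L :=
  (itg p n r).comp (fc p L n).toAddMonoidHom

theorem par_apply (n : ℕ) (r : (ℕ →₀ ℕ) → AA L) (F : CC L) :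
    par p n r F = itg p n r (fc p L n F) := rfl

theorem par_fc {j n : ℕ} (h : j ≤ n) (r : (ℕ →₀ ℕ) → AA L) (F : CC L) :
    par p (n + 1) r (fc p L j F) = fc p L j (par p n r F) := by
  have h1 : sa j n = n + 1 := if_neg (by omega)
  have h2 : sa j (n + 1) = n + 1 + 1 := if_neg (by omega)
  rw [par_apply, fc_fc h, par_apply, ← h1]
  exact itg_pb (sa_mono j) (by omega) r _

theorem par_alt (n : ℕ) (r : (ℕ →₀ ℕ) → AA L) (F : CC L) :
    par p (n + 1) r (alt p L (n + 1) F) = alt p L (n + 1) (par p n r F) := by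
  rw [alt_apply, alt_apply, map_sum]
  refine Finset.sum_congr rfl fun j hj => ?_
  rw [map_zsmul, par_fc (by have := Finset.mem_range.1 hj; omega)]

theorem sg_par (n : ℕ) (r : (ℕ →₀ ℕ) → AA L) (F : CC L) :
    sg p L n (par p (n + 1) r F) = itg p n r F := by
  have h1 : dg n (n + 1) = n := if_neg (by omega)
  have h2 : dg n (n + 1 + 1) = n + 1 := if_neg (by omega)
  have h := itg_pb (p := p) (dg_mono n) (n := n + 1) (by omega) r (fc p L (n + 1) F)
  rw [h1] at h
  rw [par_apply, sg, ← h, ← sg, sg_fc_succ]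

theorem ev_gen_par (c : Ch L B) (n : ℕ) (r : (ℕ →₀ ℕ) → AA L) (F : CC L) :
    (c.gen n).ev (par p (n + 1) r F) = Dop p (c.pt p n) r ((c.gen n).ev F) := by
  rw [par_apply, ev_itg, pt_gen_succ, fc, ev_pb, gen_gen, ev_map, Dop_apply]

theorem par_par (n : ℕ) (r' r : (ℕ →₀ ℕ) → AA L) (F : CC L) :
    par p n r' (par p n r F) = par p n (conv p r' r) F := by
  rw [par_apply, ← par_fc le_rfl, itg_apply, ev_gen_par, rAp_Dop]
  rfl

theorem par_pt (r : (ℕ →₀ ℕ) → AA L) (n : ℕ) (a : AA L) :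
    par p n r ((univ L).pt p n a) = (univ L).pt p n (rAp (RingHom.id _) r (etaR p L a)) := by
  rw [par_apply, fc, pb_pt (sa_mono n), show sa n n = n + 1 from if_neg (by omega), ← arr_etaR,
    itg_arr]

/-! ### functions of the first `n` arrows -/

variable (p L) in
/-- functions of the first `n` arrows -/
def Loc (n : ℕ) : Subring (CC L) := (pb p L fun k => min k n).eqLocus (RingHom.id _)

theorem mem_Loc {n : ℕ} {F : CC L} : F ∈ Loc p L n ↔ pb p L (fun k => min k n) F = F := Iff.rfl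

theorem pb_congr_Loc {n : ℕ} {F : CC L} (hF : F ∈ Loc p L n) {α β : ℕ → ℕ} (hα : Monotone α)
    (hβ : Monotone β) (h : ∀ k ≤ n, α k = β k) : pb p L α F = pb p L β F := by
  rw [← mem_Loc.1 hF, pb_pb hα (monotone_min n), pb_pb hβ (monotone_min n)]
  congr 2
  funext k
  exact h _ (min_le_right _ _)

theorem pb_mem_Loc {n m : ℕ} {F : CC L} (hF : F ∈ Loc p L n) {α : ℕ → ℕ} (hα : Monotone α)
    (h : α n ≤ m) : pb p L α F ∈ Loc p L m := by
  rw [mem_Loc, pb_pb (monotone_min m) hα]
  exact pb_congr_Loc hF ((monotone_min m).comp hα) hα fun k hk => min_eq_left ((hα hk).trans h)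

theorem Loc_mono {n m : ℕ} (h : n ≤ m) {F : CC L} (hF : F ∈ Loc p L n) : F ∈ Loc p L m := by
  have h1 := pb_mem_Loc hF monotone_id h
  rwa [pb_id] at h1

theorem pb_min_mem_Loc (n : ℕ) (F : CC L) : pb p L (fun k => min k n) F ∈ Loc p L n := by
  rw [mem_Loc, pb_pb (monotone_min n) (monotone_min n)]
  congr 2
  funext k
  simp

theorem fc_of_Loc {n j : ℕ} {F : CC L} (hF : F ∈ Loc p L n) (h : n < j) : fc p L j F = F := by
  rw [fc, pb_congr_Loc hF (sa_mono j) monotone_id fun k hk => if_pos (by omega), pb_id]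

theorem alt_mem_Loc {n : ℕ} {F : CC L} (hF : F ∈ Loc p L n) (m : ℕ) :
    alt p L m F ∈ Loc p L (n + 1) := by
  rw [alt_apply]
  refine Subring.sum_mem _ fun j _ => Subring.zsmul_mem _ (pb_mem_Loc hF (sa_mono j) ?_) _
  simp only [sa]
  split_ifs <;> omega

theorem sg_mem_Loc {n : ℕ} {F : CC L} (hF : F ∈ Loc p L (n + 1)) : sg p L n F ∈ Loc p L n :=
  pb_mem_Loc hF (dg_mono n) (le_of_eq (if_neg (by omega)))

theorem pt_mem_Loc (n : ℕ) (a : AA L) : (univ L).pt p n a ∈ Loc p L n := by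
  rw [mem_Loc, pb_pt (monotone_min n), min_self]

theorem arr_mem_Loc (n : ℕ) (g : GG L) : (univ L).arr p n g ∈ Loc p L (n + 1) := by
  rw [mem_Loc, pb_arr (monotone_min _) (by simp), min_eq_left (Nat.le_succ n)]

theorem ev_congr_Loc {n : ℕ} {F : CC L} (hF : F ∈ Loc p L n) {c c' : Ch L B} (h : Agree n c c') :
    c.ev F = c'.ev F := by
  have h1 : c.res p (fun k => min k n) = c'.res p fun k => min k n := by
    ext1
    · exact h.1
    · exact h.vtx (min_le_right _ _)
    · funext k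
      exact h.seg (monotone_min n (Nat.le_succ k)) (min_le_right _ _)
  rw [← mem_Loc.1 hF, ev_pb, ev_pb, h1]

theorem gen_ev_Loc {n : ℕ} {F : CC L} (hF : F ∈ Loc p L n) (c : Ch L B) :
    (c.gen n).ev F = C (c.ev F) := by
  rw [ev_congr_Loc hF (c.gen_agree n), ev_map]

theorem itg_mul {n : ℕ} {b : CC L} (hb : b ∈ Loc p L n) (r : (ℕ →₀ ℕ) → AA L) (F : CC L) :
    itg p n r (b * F) = b * itg p n r F := by
  rw [itg_apply, map_mul, gen_ev_Loc hb, ev_univ, rAp_C_mul, itg_apply]

theorem gen_res_min (c : Ch L B) (n : ℕ) : (c.res p fun k => min k n).gen n = c.gen n := by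
  ext1
  · rfl
  · funext i
    change C (c.vtx p (min 0 n) i) = _
    rw [Nat.zero_min]
    rfl
  · funext k i
    simp only [gen]
    split_ifs with h
    · change C (c.seg p (min k n) (min (k + 1) n) i) = _
      rw [min_eq_left h.le, min_eq_left h, seg_succ]
    · rfl
    · rfl

theorem itg_mem_Loc (n : ℕ) (r : (ℕ →₀ ℕ) → AA L) (F : CC L) : itg p n r F ∈ Loc p L n := by
  rw [mem_Loc, pb, ev_itg, pt_res (monotone_min n), min_self, gen_res_min, itg_apply]

theorem coeff_gen_mem_Loc (n : ℕ) (F : CC L) (E : ℕ →₀ ℕ) :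
    coeff E (((univ L).gen n).ev F) ∈ Loc p L n := by
  rw [mem_Loc, ← coeff_map, ← ev_map, ← gen_map, pb, univ_map, gen_res_min]

variable (L) in
/-- substitution of the arrow `n` for the generic arrow -/
def back (n : ℕ) : MvPolynomial ℕ (CC L) →+* CC L :=
  eval₂Hom (RingHom.id _) fun i => X (Sum.inr (n, i))

theorem back_gen {n : ℕ} {F : CC L} (hF : F ∈ Loc p L (n + 1)) :
    back L n (((univ L).gen n).ev F) = F := by
  rw [← ev_map, ev_congr_Loc hF (c' := univ L), ev_univ]
  refine ⟨RingHom.ext fun a => by simp [Ch.map, gen, back], ?_, fun k hk => ?_⟩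
  · funext i
    simp [Ch.map, gen, back]
  · funext i
    rcases (Nat.lt_succ_iff.1 hk).lt_or_eq with h | rfl
    · simp [Ch.map, gen, back, h]
    · simp [Ch.map, gen, back, univ]

theorem back_spec {n : ℕ} {G : MvPolynomial ℕ (CC L)} (hG : ∀ E, coeff E G ∈ Loc p L n) :
    back L n G ∈ Loc p L (n + 1) ∧ ((univ L).gen n).ev (back L n G) = G := by
  have hX : ∀ i, (X (Sum.inr (n, i)) : CC L) ∈ Loc p L (n + 1) := fun i => by
    have h := arr_mem_Loc (p := p) n (X i : GG L)
    rwa [arr_X] at h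
  constructor
  · rw [G.as_sum, map_sum]
    refine Subring.sum_mem _ fun E _ => ?_
    rw [back, eval₂Hom_monomial]
    exact Subring.mul_mem _ (Loc_mono (Nat.le_succ n) (hG E))
      (Subring.prod_mem _ fun i _ => Subring.pow_mem _ (hX i) _)
  · conv_lhs => rw [G.as_sum, map_sum, map_sum]
    conv_rhs => rw [G.as_sum]
    refine Finset.sum_congr rfl fun E _ => ?_
    rw [back, eval₂Hom_monomial, map_mul, RingHom.id_apply, gen_ev_Loc (hG E), ev_univ,
      monomial_eq, map_finsuppProd]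
    simp only [map_pow, ev_inr, gen_a_self]

end Vale.Agent.P236EL

end
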