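import Vale.Agent.P236EL.Ck

/-!
# P236EL / Kf1 : injectivity facts for Lemma K
-/

noncomputable section

namespace Vale.Agent.P236EL

open Vale.Agent.P251.F Vale.Agent.P251.I Vale.Agent.P236SY Vale.Agent.P236R
open Vale.Agent.P236KE Vale.Agent.P236K3 Vale.Agent.P236F AddSubgroup Vale.Agent.P236KE.S90

variable [hp : Fact (Nat.Prime 3)] {t : Cob Laz 1} (ht : IsT1 3 t)

include ht

theorem kf_j302 : ∀ G ∈ ZY t 79 14, (fun _ => G 2) ∈ BS 77 14 → G ∈ BY t 79 14 := by
  have H := wY ht 79 (by decide)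
  refine Al.all (R := rY) (T := 79) ?_
  exact H.stepA [[⟨87, 0, 0, 0, 0, 1⟩]] (by decide +kernel)
    (H.sd (by decide) fun _ _ h hc hx => ((wS 79 (by decide)).ne (T := 77) (k := 0)
      (CY.jy (by decide) h) (.refl le_rfl) hc hx).elim) (by decide +kernel)
    (H.topA (by decide +kernel) fun _ h _ => h)

theorem kf_p292 : ∀ G ∈ ZY t 76 12, ![G 1, G 2, 0] ∈ BY t 75 12 → G ∈ BY t 76 12 := by
  have H := wY ht 76 (by decide)
  refine Al.all (R := rY) (T := 76) ?_
  exact H.stepA [[⟨68, 0, 0, 0, 0, 1⟩]] (by decide +kernel)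
    (H.sd (by decide) fun _ _ h hc hx => (H.ne (T := 75) (k := 0)
      (CY.pp ht (by decide) h) (.refl le_rfl) hc hx).elim) (by decide +kernel)
    (H.topA (by decide +kernel) fun _ h _ => h)

theorem kf_p282 : ∀ G ∈ ZY t 73 10, ![G 1, G 2, 0] ∈ BY t 72 10 → G ∈ BY t 73 10 := by
  have H := wY ht 73 (by decide)
  refine Al.all (R := rY) (T := 73) ?_
  exact H.stepA [[⟨74, 0, 0, 0, 0, 1⟩]] (by decide +kernel)
    (H.sd (by decide) fun _ _ h hc hx => (H.ne (T := 72) (k := 0)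
      (CY.pp ht (by decide) h) (.refl le_rfl) hc hx).elim) (by decide +kernel)
    (H.topA (by decide +kernel) fun _ h _ => h)

theorem kf_b278 {x c} (h33 : Grk 1 1 x c) : ∀ G ∈ ZY t 72 10,
    lc _ (show 2 + 10 = 12 from rfl) c G ∈ BY t 81 12 → G ∈ BY t 72 10 := by
  have H := wY ht 81 (by decide)
  refine Al.all (R := rY) (T := 72) ?_
  exact H.stepA [[⟨30, 0, 0, 0, 0, 1⟩]] (by decide +kernel)
    (H.sd (by decide) fun _ _ h hc hx => (H.ne (T := 81) (k := 0)
      (H.b2 h33 (show 2 + 10 = 12 from rfl) h) (.refl le_rfl) hc hx).elim) (by decide +kernel)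
    (H.topA (by decide +kernel) fun _ h _ => h)

end Vale.Agent.P236EL

end
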