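import Vale.Agent.P236EL.Fact

/-!
# P236EL / Line : cyclic cohomology groups, explicit products, standard cells
-/

noncomputable section

namespace Vale.Agent.P236EL

open Vale.Agent.P251.F Vale.Agent.P251.F.F3 Vale.Agent.P257.H80 LawRing MvPolynomial

variable {p : ℕ} [hp : Fact p.Prime]

namespace Rs

variable {L : Type} [CommRing L] {G : ℕ → Type} [∀ q, Fintype (G q)] (R : Rs p L G)

theorem star_one (q : ℕ) (h : q + 0 = q) (u : G q → AA L) : R.star 0 q q h 1 u = u := by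
  rw [← map_one ((Ch.univ L).pt p 0), star_pt]
  simp

theorem star_arr (q : ℕ) (g : GG L) (u : G (q + 1) → AA L) :
    R.star 1 (q + 1) (q + 2) rfl ((Ch.univ L).arr p 0 g) u = R.dl q g u := by
  rw [← one_mul ((Ch.univ L).arr p 0 g), R.star_succ (one_mem _), star_one]

theorem star_arr2 (q : ℕ) (g g' : GG L) (u : G (q + 1) → AA L) :
    R.star 2 (q + 1) (q + 3) rfl ((Ch.univ L).arr p 0 g * (Ch.univ L).arr p 1 g') u =
      R.dl (q + 1) g (R.dl q g' u) := by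
  rw [R.star_succ (arr_mem_Loc 0 g), R.star_arr (q + 1)]

theorem zig_mem_Loc (n q s : ℕ) (h : q + 1 + (n + 1) = s) (x : G (q + 1) → CC L) (i : G s) :
    zig (E := fun q => G q → CC L) R.st (n + 1) (q + 1) s h x i ∈ Loc p L 0 := by
  induction n generalizing q with
  | zero =>
    subst h
    rw [zig_succ, zig_zero, st_succ]
    exact sum_mem fun _ _ => itg_mem_Loc _ _ _
  | succ n ih => exact ih (q + 1) (by omega) _

theorem star_mul {a b : ℕ} {θ θ' : CC L} (hθ : θ ∈ Loc p L a) (hθ' : θ' ∈ Loc p L b) (q s s' : ℕ)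
    (h : q + 1 + b = s + 1) (h' : s + 1 + a = s') (u : G (q + 1) → AA L) :
    R.star (a + b) (q + 1) s' (by omega) (θ * sh p L a θ') u =
      R.star a (s + 1) s' h' θ (R.star b (q + 1) (s + 1) h θ' u) := by
  rw [star_apply, star_apply, star_apply, ← cup_cup, up_down]
  · exact congrArg (down _) (zig_comm (E := fun q => G q → CC L) R.st (fun q => cup p (G q) a θ) a
      (R.st_cup hθ) b (q + 1) (s + 1) s' h h' _)
  · intro i
    rcases b with _ | b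
    · obtain rfl : q = s := by omega
      exact mul_mem hθ' (pb_mem_Loc (pt_mem_Loc 0 _) (add_mono 0) le_rfl)
    · exact R.zig_mem_Loc b q _ h _ i

theorem dl_add (q : ℕ) (g g' : GG L) (u : G (q + 1) → AA L) :
    R.dl q (g + g') u = R.dl q g u + R.dl q g' u := by
  funext w'
  simp [dl, add_mul, Finset.sum_add_distrib]

theorem dl_one (q : ℕ) (u : G (q + 1) → AA L) : R.dl q 1 u = R.sd (q + 1) u := by
  funext w'
  simp [dl, sd_apply]

end Rs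

variable {Q : ℕ} {hQ : PLoc p (ZMod Q)} {G : ℕ → Type} [∀ q, Fintype (G q)]
  {F : Type} [Field F] {π : ZMod Q →+* F} {r s : ℕ} {T w : ℤ}

theorem Ph_lc {R : Rs p (ZMod Q) G} {m n : ℕ} (h : m + s = n) (t : Cob Laz m)
    {x : G 0 → Cob Laz s} (hx : x ∈ CW p Laz (R.deg 0) w s) : Ph hQ R n (lc _ h t x) =
      R.star m (s + 1) (n + 1) (by omega) (rs hQ m t) (Ph hQ R s x) := by
  subst h
  exact Ph_cup t hx

theorem rs_cupE {a b n : ℕ} (h : a + b = n) (x : Cob Laz a) (y : Cob Laz b) :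
    rs hQ n (cupE h x y) = rs hQ a x * sh p (ZMod Q) a (rs hQ b y) := by
  subst h
  exact rs_cup hQ x y

theorem lc_mem_Fl {ι : Type} {m n : ℕ} (h : m + s = n) {K K' : Ideal (AA (ZMod Q))}
    (hK' : Inv p K') {t : Cob Laz m} (ht : rs hQ m t ∈ Fil p K) {x : ι → Cob Laz s}
    (hx : x ∈ Fl hQ ι s K') : lc ι h t x ∈ Fl hQ ι n (K * K') := by
  subst h
  exact cup_mem_Fl hQ hK' ht hx

section mul

variable {N : Type} [CommRing N] [LawRing N] {ι : Type} {d : ι → ℤ} {q m n : ℕ} {ω : ℤ}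
  {t : Cob N m}

omit hp in
theorem lc_mem_QW (h : m + s = n) (ht : Cob.IsWt (((p : ℤ) - 1) * ω) t) {x : ι → Cob N s}
    (hx : x ∈ QW p N d w q s) : lc ι h t x ∈ QW p N d (ω + w) q n := by
  obtain ⟨u, hu, rfl⟩ := mem_QW.1 hx
  exact mem_QW.2 ⟨_, lc_mem_CW h ht hu, (map_nsmul _ _ _).symm⟩

variable [Fintype ι] {θ : ι → ι → Cob N 1}

omit hp in
theorem lc_mem_ZC (hθ : MC θ) (h : m + s = n) (ht : Cob.IsWt (((p : ℤ) - 1) * ω) t)
    {t' : Cob N (m + 1)} (ht' : Cob.IsWt (((p : ℤ) - 1) * ω) t') (hd : Cob.d m t = q • t')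
    {x : ι → Cob N s} (hx : x ∈ ZC p θ d w q s) : lc ι h t x ∈ ZC p θ d (ω + w) q n := by
  refine mem_ZC'.2 ⟨lc_mem_CW h ht hx.1, ?_⟩
  rw [DD_lc hθ, hd, map_nsmul, AddMonoidHom.nsmul_apply]
  exact add_mem (mem_QW.2 ⟨_, lc_mem_CW _ ht' hx.1, rfl⟩)
    (zsmul_mem (lc_mem_QW _ ht (mem_ZC'.1 hx).2) _)

omit hp in
theorem lc_mem_BQ (hθ : MC θ) (h : m + s = n) (ht : Cob.IsWt (((p : ℤ) - 1) * ω) t)
    {t' : Cob N (m + 1)} (ht' : Cob.IsWt (((p : ℤ) - 1) * ω) t') (hd : Cob.d m t = q • t')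
    {x : ι → Cob N s} (hx : x ∈ BQ p θ d w q s) : lc ι h t x ∈ BQ p θ d (ω + w) q n := by
  obtain ⟨b, hb, u, hu, rfl⟩ := mem_BQ.1 hx
  rw [map_add]
  refine add_mem ?_ (AddSubgroup.mem_sup_right (lc_mem_QW h ht (mem_QW.2 ⟨u, hu, rfl⟩)))
  rcases s with _ | s
  · rw [AddSubgroup.mem_bot.1 hb, map_zero]
    exact zero_mem _
  · obtain ⟨y, hy, rfl⟩ := hb
    obtain rfl : n = m + s + 1 := h.symm
    have h1 := congrArg (((-1 : ℤ) ^ m) • ·) (DD_lc hθ rfl t y)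
    simp only [smul_add, smul_smul, ← mul_pow, mul_neg, mul_one, neg_neg, one_pow, one_smul] at h1
    rw [← sub_eq_iff_eq_add'.2 h1, hd, map_nsmul, AddMonoidHom.nsmul_apply]
    refine sub_mem (zsmul_mem (AddSubgroup.mem_sup_left ?_) _)
      (AddSubgroup.mem_sup_right (mem_QW.2 ⟨_, zsmul_mem (lc_mem_CW _ ht' hy) _, smul_comm _ _ _⟩))
    exact ⟨_, lc_mem_CW rfl ht hy, rfl⟩

omit hp in
theorem lc_d_mem_BQ (hθ : MC θ) (h : m + 1 + s = n) (ht : Cob.IsWt (((p : ℤ) - 1) * ω) t)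
    {x : ι → Cob N s} (hx : x ∈ ZC p θ d w q s) :
    lc ι h (Cob.d m t) x ∈ BQ p θ d (ω + w) q n := by
  obtain rfl : n = m + s + 1 := by omega
  rw [← sub_eq_iff_eq_add.2 (DD_lc hθ rfl t x)]
  exact sub_mem (AddSubgroup.mem_sup_left ⟨_, lc_mem_CW rfl ht hx.1, rfl⟩)
    (zsmul_mem (AddSubgroup.mem_sup_right (lc_mem_QW _ ht (mem_ZC'.1 hx).2)) _)

end mul

namespace IC

/-- the sphere -/
theorem sph [Unique (G 0)] [DecidableEq (G 0)] (R : Rs p (ZMod Q) G)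
    (h1 : R.th default default = 1) : IC hQ R 0 := by
  refine ⟨⟨?_, fun c c' => ?_, fun c c' => ?_⟩, fun c c' => Cob.isWt_zero _⟩
  · simp only [Pi.zero_apply, map_zero]
    exact mc_zero
  · rw [Subsingleton.elim c default, Subsingleton.elim c' default, h1]
    simp
  · rw [Pi.zero_apply, Pi.zero_apply, map_zero]
    exact Cob.isWt_zero _

/-- cells attached by powers of `t_1` -/
theorem ga [Unique (G 0)] (R : Rs p (ZMod Q) G) (h0 : R.deg 0 default = 0)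
    (h1 : R.th default default = 1) {ι : Type} [Fintype ι] [DecidableEq ι] (Y : Ga (ZMod Q) ι)
    (h : (p : ZMod Q) ^ (p - 1) = 0) {t : Cob Laz 1} (ht : P251.I.IsT1 p t) (hd : Cob.d 1 t = 0)
    (hw : Cob.IsWt ((p : ℤ) - 1) t) {θ : ι → ι → Cob Laz 1}
    (hθ : ∀ c c', Cob.IsWt (((p : ℤ) - 1) * (Y.d c - Y.d c')) (θ c c'))
    (e : ∀ c c', rq Q 1 (θ c c') = Y.tht (rpQZ hQ).o (rq Q 1 t) c c') :
    IC hQ (R.tens h0 h1 (Y.cm p)) θ := by
  refine ⟨?_, hθ⟩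
  have h2 := Y.cell (rpQZ hQ) R h0 h1 (t := rq Q 1 t)
    (by rw [← Cob.mapRing_d (isLawHom_mkZ Q), hd, map_zero]) (hw.mapRing (isLawHom_mkZ Q))
    (rs_t1 hQ h ht)
  exact (funext₂ e : (fun c c' => rq Q 1 (θ c c')) = _) ▸ h2

variable [DecidableEq (G 0)] {R : Rs p (ZMod Q) G} {θ : G 0 → G 0 → Cob Laz 1}

theorem mem_BQ_of_Bd (hC : IC hQ R θ) (h : R.Ok π r (s + 1) T) (hr : 1 ≤ r) (hw : w ≤ T)
    {m j k : ℕ} (hm : (p : ZMod Q) ^ m = 0) (hj : ∀ c, w - R.deg 0 c < j)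
    (h3 : ∀ k', k < k' → k' < m + j → R.K3s r s w k' ⊥) {x : G 0 → Cob Laz s}
    (hx : x ∈ ZC p θ (R.deg 0) w Q s) (hx' : x ∈ Fl hQ _ s (II p (ZMod Q) ^ (k + 1 - r)))
    (h4 : Ph hQ R s x ∈ R.Bd s w (k + 1 - r) (k + 1)) : x ∈ BQ p θ (R.deg 0) w Q s := by
  obtain ⟨y, hy, h5⟩ := Rs.mem_Bd.1 h4
  obtain ⟨b, hb, h6⟩ := hC.step (h.mono (Nat.le_succ s) le_rfl) hw (inv_II.pow _) (inv_II.pow _)
    (by rw [← pow_add]; exact Ideal.pow_le_pow_right (by omega)) hx.1 hx' (ZC_DD_Fl hx _) hy h5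
  have hb' : b ∈ BQ p θ (R.deg 0) w Q s := AddSubgroup.mem_sup_left (BF_le_BC hQ _ _ _ _ _ hb)
  obtain ⟨_, rfl, b', h7, h8⟩ := hC.ker (h.mono (Nat.le_succ _) le_rfl) hr hw le_rfl
    (le_sup_left.trans (hC.BQ_le_ZC dvd_rfl)) bot_le hm hj
    (fun k' hk hk' x hx hx' => (h3 k' hk hk').le_RP bot_le
      (hC.Ph_mem_Cy h hw le_rfl hx.1 hx' (ZC_DD_Fl hx _)))
    (sub_mem hx (hC.BQ_le_ZC dvd_rfl hb')) h6
  have h9 := add_mem (add_mem (AddSubgroup.mem_sup_right h8)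
    (AddSubgroup.mem_sup_left (BF_le_BC hQ _ _ _ _ _ h7))) hb'
  rwa [sub_zero, sub_add_cancel, sub_add_cancel] at h9

theorem exists_Fl (hC : IC hQ R θ) (h : R.Ok π r (s + 1) T) (hr : 1 ≤ r) (hw : w ≤ T) {k : ℕ}
    (h3 : ∀ k' < k, R.K3s r s w k' ⊥) {x : G 0 → Cob Laz s} (hx : x ∈ ZC p θ (R.deg 0) w Q s) :
    ∃ b ∈ BC p θ (R.deg 0) w s, x - b ∈ Fl hQ _ s (II p (ZMod Q) ^ k) := by
  obtain ⟨b, hb, _, rfl, h1⟩ := hC.spanI (h.mono (Nat.le_succ _) le_rfl) hr hw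
    (𝒳 := ZC p θ (R.deg 0) w Q s) inf_le_left (le_sup_left.trans (hC.BQ_le_ZC dvd_rfl)) bot_le
    (Nat.zero_le k) (fun x hx => ZC_DD_Fl hx _) (fun k' _ hk' x hx hx' => (h3 k' hk').le_RP bot_le
      (hC.Ph_mem_Cy h hw le_rfl hx.1 hx' (ZC_DD_Fl hx _))) hx
    (by rw [pow_zero, Ideal.one_eq_top]; exact mem_Fl_top hQ x)
  exact ⟨b, BF_le_BC hQ _ _ _ _ _ hb, by rwa [sub_zero] at h1⟩

/-- **a cohomology group of rank at most one is generated by every nonzero class** -/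
theorem line (hC : IC hQ R θ) (h : R.Ok π r (s + 1) T) (hr : 1 ≤ r) (hw : w ≤ T)
    (hm : (p : ZMod Q) = 0) {j k : ℕ} (hj : ∀ c, w - R.deg 0 c < j)
    (h3 : ∀ k' < 1 + j, k' ≠ k → R.K3s r s w k' ⊥) {φ : G (s + 1) → AA (ZMod Q)}
    (h4 : R.K3s r s w k (AddSubgroup.zmultiples φ)) {z : G 0 → Cob Laz s}
    (hz : z ∈ ZC p θ (R.deg 0) w Q s) (hz' : z ∉ BQ p θ (R.deg 0) w Q s) :
    ZC p θ (R.deg 0) w Q s ≤ AddSubgroup.zmultiples z ⊔ BQ p θ (R.deg 0) w Q s := by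
  by_cases hk : k < 1 + j
  swap
  · exact (hC.van h hr hw (by rw [pow_one, hm]) hj fun k' hk' => h3 k' hk' (by omega)).trans
      le_sup_right
  obtain ⟨b, hb, h5⟩ := hC.exists_Fl h hr hw (fun k' hk' => h3 k' (by omega) hk'.ne) hz
  have hb' : b ∈ BQ p θ (R.deg 0) w Q s := AddSubgroup.mem_sup_left hb
  have h6 := sub_mem hz (hC.BQ_le_ZC dvd_rfl hb')
  have h7 := Fl_mono hQ (Ideal.pow_le_pow_right (show k + 1 - r ≤ k by omega)) h5
  obtain ⟨_, ⟨c, rfl⟩, e, he, h8⟩ := AddSubgroup.mem_sup.1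
    (h4 (hC.Ph_mem_Cy h hw le_rfl h6.1 h5 (ZC_DD_Fl h6 _)))
  have h9 : (p : ℤ) • φ = 0 := by
    funext g
    rw [Pi.smul_apply, natCast_zsmul, nsmul_eq_mul, ← map_natCast C, hm, map_zero, zero_mul,
      Pi.zero_apply]
  have h10 : ¬ (p : ℤ) ∣ c := by
    rintro ⟨c', rfl⟩
    dsimp only at h8
    rw [mul_comm, mul_smul, h9, smul_zero, zero_add] at h8
    have h11 := hC.mem_BQ_of_Bd h hr hw (by rw [pow_one, hm]) hj
      (fun k' hk hk' => h3 k' hk' hk.ne') h6 h7 (h8 ▸ he)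
    exact hz' (by simpa using add_mem h11 hb')
  obtain ⟨a, a', h11⟩ := ((Nat.prime_iff_prime_int.1 hp.out).irreducible.coprime_iff_not_dvd).2 h10
  refine (hC.gen h hr hw (𝒵 := AddSubgroup.zmultiples (z - b))
    (AddSubgroup.zmultiples_le_of_mem h6) (by rw [pow_one, hm]) hj fun k' hk' => ?_).trans
    (sup_le (AddSubgroup.zmultiples_le_of_mem (sub_mem (AddSubgroup.mem_sup_left
      (AddSubgroup.mem_zmultiples z)) (AddSubgroup.mem_sup_right hb'))) le_sup_right)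
  by_cases h12 : k' = k
  · subst h12
    refine h4.le_RP (AddSubgroup.zmultiples_le_of_mem (mem_RP.2 ⟨a' • (z - b),
      zsmul_mem (AddSubgroup.mem_zmultiples _) _, zsmul_mem h7 _, ?_⟩))
    have h13 : φ - Ph hQ R s (a' • (z - b)) = -(a' • e) := by
      rw [map_zsmul, ← h8, smul_add, smul_smul, ← sub_eq_iff_eq_add'.2 h11.symm, sub_smul, mul_smul,
        h9, one_smul, smul_zero, sub_zero, sub_add_cancel_left]
    rw [h13]
    exact neg_mem (zsmul_mem he _)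
  · exact (h3 k' hk' h12).le_RP bot_le

end IC

end Vale.Agent.P236EL

end
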