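import Vale.Agent.P236EL.Cup
import Vale.Agent.P251.F.F3Homot
import Vale.Agent.P251.F.LawHom

/-!
# P236EL / LinkA : chains of Hazewinkel laws and chains of arbitrary laws
-/

noncomputable section

namespace Vale.Agent.P236EL

open Vale.Agent.P251.F Vale.Agent.P251.F.F3 Vale.Agent.P257.H80 LawRing

/-- `N` represents the laws over `L`-algebras, `L` a `p`-local quotient of `ℤ` -/
structure Rp (p : ℕ) (N L : Type) [CommRing N] [LawRing N] [CommRing L] where
  /-- the structure map -/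
  o : L →+* N
  uniq : ∀ (B : Type) [CommRing B] (o o' : L →+* B), o = o'
  epi : LawRing.Epi N
  ex : ∀ (B : Type) [CommRing B], (L →+* B) → ∀ F : Law B, ∃ x : N →+* B, law.map x = F
  loc : PLoc p L

variable {p : ℕ} [hp : Fact p.Prime] {L N : Type} [CommRing L] [CommRing N] [LawRing N]
  {B C' : Type} [CommRing B] [CommRing C']

theorem ofSeq_res' {n m : ℕ} (x : N →+* B) (G : ℕ → strict B) (α : Fin (m + 1) → Fin (n + 1))
    {α' : ℕ → ℕ} (h : ∀ i : Fin (m + 1), α' i = α i) :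
    (ofSeq n x G).res α = ofSeq m x (G ∘ α') := by
  have h0 := h 0
  rw [Fin.val_zero] at h0
  ext1
  · rw [Chain.res_pt, ofSeq_pt, ofSeq_g, ofSeq_pt, ← act_mul, inv_mul_cancel_right,
      Function.comp_apply, h0]
  · funext i
    rw [Chain.res_g, ofSeq_g, ofSeq_g, ofSeq_g, Function.comp_apply, Function.comp_apply, h0, h i,
      mul_inv_rev, inv_inv, mul_assoc, inv_mul_cancel_left]

variable (p) in
/-- the chain `c` is given by the homogeneous coordinates `x`, `U` -/
structure IsTy (c : Ch L B) (x : N →+* B) (U : ℕ → strict B) : Prop where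
  vtx : ∀ k, hz p (c.vtx p k) = (U k : InvSeries B) • law.map x
  arr : ∀ k, hs p (hz p (c.vtx p k)) (c.a k) = (U k : InvSeries B) * (U (k + 1) : InvSeries B)⁻¹

variable {c c' : Ch L B} {x x' : N →+* B} {U U' : ℕ → strict B}

theorem IsTy.seg (h : IsTy p c x U) {j k : ℕ} (hjk : j ≤ k) :
    hs p (hz p (c.vtx p j)) (c.seg p j k) = (U j : InvSeries B) * (U k : InvSeries B)⁻¹ := by
  induction k, hjk using Nat.le_induction with
  | base => rw [Ch.seg_self, hs_zero, mul_inv_cancel]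
  | succ k hk ih =>
    rw [Ch.seg_succ' p _ hk, ← hs_cm, ih, c.tg_seg p hk, h.arr, mul_assoc, inv_mul_cancel_left]

theorem IsTy.res (h : IsTy p c x U) {α : ℕ → ℕ} (hα : Monotone α) :
    IsTy p (c.res p α) x (U ∘ α) :=
  ⟨fun k => by rw [Ch.vtx_res hα]; exact h.vtx _,
    fun k => by rw [Ch.vtx_res hα]; exact h.seg (hα (Nat.le_succ k))⟩

theorem IsTy.map (h : IsTy p c x U) (φ : B →+* C') :
    IsTy p (c.map φ) (φ.comp x) fun k => smap φ (U k) := by
  refine ⟨fun k => ?_, fun k => ?_⟩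
  · rw [Ch.vtx_map, ← map_hz, h.vtx, InvSeries.map_smul, Law.map_map]
    rfl
  · have h1 := congrArg (InvSeries.map φ) (h.arr k)
    rw [map_hs, map_hz, map_mul, map_inv] at h1
    rw [Ch.vtx_map]
    exact h1

theorem IsTy.agree (hR : Rp p N L) (h : IsTy p c x U) (h' : IsTy p c' x' U') {n : ℕ}
    (e : ofSeq n x U = ofSeq n x' U') : Ch.Agree n c c' := by
  have h0 : c.x = c'.x := by
    apply hz_injective p
    have h1 := congrArg (fun c : Chain N n B => law.map c.pt) e
    simp only [ofSeq_pt, law_act] at h1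
    exact (h.vtx 0).trans (h1.trans (h'.vtx 0).symm)
  have h2 : ∀ k ≤ n, (U k : InvSeries B) * (U 0 : InvSeries B)⁻¹ =
      (U' k : InvSeries B) * (U' 0 : InvSeries B)⁻¹ := fun k hk =>
    congrArg (fun c : Chain N n B => c.g ⟨k, by omega⟩) e
  have h3 : ∀ m ≤ n, Ch.Agree m c c' := by
    intro m hm
    induction m with
    | zero => exact ⟨hR.uniq _ _ _, h0, fun k hk => absurd hk (Nat.not_lt_zero k)⟩
    | succ m ih =>
      refine ⟨hR.uniq _ _ _, h0, fun k hk => ?_⟩
      rcases (Nat.lt_succ_iff.1 hk).lt_or_eq with hk' | rfl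
      · exact (ih (by omega)).2.2 k hk'
      · apply hs_injective p (hz p (c.vtx p k))
        rw [h.arr, (ih (by omega)).vtx le_rfl, h'.arr]
        have h4 := congrArg₂ (fun a b => a * b⁻¹) (h2 k (by omega)) (h2 (k + 1) hm)
        simpa only [mul_inv_rev, inv_inv, mul_assoc, inv_mul_cancel_left] using h4
  exact h3 n le_rfl

theorem IsTy.unique (hR : Rp p N L) (h : IsTy p c x U) (h' : IsTy p c' x U) : c = c' :=
  Ch.ext (hR.uniq _ _ _) (h.agree hR h' (n := 0) rfl).2.1
    (funext fun k => (h.agree hR h' (n := k + 1) rfl).2.2 k (Nat.lt_succ_self k))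

theorem IsTy.ofSeq_eq (hR : Rp p N L) (h : IsTy p c x U) (h' : IsTy p c' x' U') {n : ℕ}
    (e : Ch.Agree n c c') : ofSeq n x U = ofSeq n x' U' := by
  ext1
  · apply hR.epi
    rw [ofSeq_pt, ofSeq_pt, law_act, law_act, ← h.vtx, ← h'.vtx, e.vtx (Nat.zero_le n)]
  · funext i
    apply inv_injective
    rw [ofSeq_g, ofSeq_g, mul_inv_rev, mul_inv_rev, inv_inv, inv_inv, ← h.seg (Nat.zero_le _),
      ← h'.seg (Nat.zero_le _), e.vtx (Nat.zero_le n), e.seg (Nat.zero_le _) (by omega)]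

theorem exists_isTy (hR : Rp p N L) (c : Ch L B) :
    ∃ xU : (N →+* B) × (ℕ → strict B), IsTy p c xU.1 xU.2 := by
  obtain ⟨x, hx⟩ := hR.ex B c.o (hz p (c.vtx p 0))
  refine ⟨⟨x, fun k => ⟨(hs p (hz p (c.vtx p 0)) (c.seg p 0 k))⁻¹, inv_mem (hs_mem p _ _)⟩⟩,
    fun k => ?_, fun k => ?_⟩
  · dsimp only
    rw [hx, hz_tg, c.tg_seg p (Nat.zero_le k)]
  · dsimp only
    rw [inv_inv, Ch.seg_succ' p _ (Nat.zero_le k), ← hs_cm, inv_mul_cancel_left,
      c.tg_seg p (Nat.zero_le k)]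

/-- the chain of laws of a chain of Hazewinkel laws -/
def toChain (hR : Rp p N L) (n : ℕ) (c : Ch L B) : Chain N n B :=
  ofSeq n (exists_isTy hR c).choose.1 (exists_isTy hR c).choose.2

theorem IsTy.toChain (hR : Rp p N L) (h : IsTy p c x U) (n : ℕ) : toChain hR n c = ofSeq n x U :=
  (exists_isTy hR c).choose_spec.ofSeq_eq hR h ⟨rfl, rfl, fun _ _ => rfl⟩

theorem toChain_map (hR : Rp p N L) (n : ℕ) (φ : B →+* C') (c : Ch L B) :
    toChain hR n (c.map φ) = (toChain hR n c).map φ := by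
  obtain ⟨xU, h⟩ := exists_isTy hR c
  rw [h.toChain, (h.map φ).toChain, ofSeq_map]

theorem toChain_congr (hR : Rp p N L) {n : ℕ} (e : Ch.Agree n c c') :
    toChain hR n c = toChain hR n c' :=
  (exists_isTy hR c).choose_spec.ofSeq_eq hR (exists_isTy hR c').choose_spec e

theorem toChain_res (hR : Rp p N L) {n m : ℕ} (c : Ch L B) (α : Fin (m + 1) → Fin (n + 1))
    {α' : ℕ → ℕ} (hα : Monotone α') (h : ∀ i : Fin (m + 1), α' i = α i) :
    toChain hR m (c.res p α') = (toChain hR n c).res α := by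
  obtain ⟨xU, h1⟩ := exists_isTy hR c
  rw [h1.toChain, (h1.res hα).toChain, ofSeq_res' _ _ _ h]

/-! ### scaling -/

variable (p) in
/-- rescaling of a chain -/
def Ch.scale (u : Bˣ) (c : Ch L B) : Ch L B :=
  ⟨c.o, scl p (u : B) c.x, fun k => scl p (u : B) (c.a k)⟩

theorem Ch.vtx_scale (u : Bˣ) (c : Ch L B) (k : ℕ) :
    (c.scale p u).vtx p k = scl p (u : B) (c.vtx p k) := by
  induction k with
  | zero => rfl
  | succ k ih => rw [Ch.vtx, ih, Ch.vtx, ← tg_scl]; rfl

theorem IsTy.scale (h : IsTy p c x U) (u : Bˣ) :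
    IsTy p (c.scale p u) (act (InvSeries.lin u)⁻¹ x) (conjSeq u U) := by
  refine ⟨fun k => ?_, fun k => ?_⟩
  · rw [Ch.vtx_scale, hz_scl, h.vtx, law_act, smul_smul, smul_smul]
    congr 1
    change _ = (InvSeries.lin u)⁻¹ * U k * InvSeries.lin u * (InvSeries.lin u)⁻¹
    group
  · rw [Ch.vtx_scale]
    change hs p _ (scl p (u : B) (c.a k)) = (InvSeries.lin u)⁻¹ * U k * InvSeries.lin u *
      ((InvSeries.lin u)⁻¹ * U (k + 1) * InvSeries.lin u)⁻¹
    rw [hs_scl, h.arr]
    group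

theorem toChain_scale (hR : Rp p N L) (n : ℕ) (u : Bˣ) (c : Ch L B) :
    toChain hR n (c.scale p u) = (toChain hR n c).scale u := by
  obtain ⟨xU, h⟩ := exists_isTy hR c
  rw [h.toChain, (h.scale u).toChain, ofSeq_scale]

theorem Ch.ev_scale (u : Bˣ) (c : Ch L B) : (c.scale p u).ev = MvPolynomial.eval₂Hom c.o
    fun i => ((u ^ (((p : ℤ) - 1) * wC p i) : Bˣ) : B) *
      Sum.elim c.x (fun ki => c.a ki.1 ki.2) i := by
  rw [Ch.ev]
  congr 1
  funext i
  rcases i with i | ⟨k, i⟩ <;> simp only [Ch.scale, scl_eq] <;> rfl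

/-! ### typicalization -/

variable (p) in
/-- the canonical isomorphism with a Hazewinkel law -/
def tau (hB : PLoc p B) (F : Law B) : InvSeries B := strictMk (bS p (typ p hB F))

theorem tau_smul (hB : PLoc p B) (F : Law B) :
    tau p hB F • F = hz p fun k => typ p hB F (p ^ (k + 1) - 2) := isTyp_typ p hB F

theorem map_tau (hB : PLoc p B) (hC : PLoc p C') (φ : B →+* C') (F : Law B) :
    InvSeries.map φ (tau p hB F) = tau p hC (F.map φ) := by
  rw [tau, tau, map_strictMk]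
  congr 1
  funext n
  rw [map_bS]
  congr 1
  funext k
  exact (typ_map p hB hC φ F k).symm

theorem tau_hz (hB : PLoc p B) (v : ℕ → B) : tau p hB (hz p v) = 1 := by
  rw [tau, hz, typ_haz, bS_seqV, strictMk_zero]

theorem tau_lin (hB : PLoc p B) (u : Bˣ) (F : Law B) : tau p hB ((InvSeries.lin u)⁻¹ • F) =
    (InvSeries.lin u)⁻¹ * tau p hB F * InvSeries.lin u := by
  apply InvSeries.ext_c
  intro k
  rw [c_conj_lin, tau, tau]
  rcases k with _ | k
  · rw [c_zero_strictMk, c_zero_strictMk, pow_zero, mul_one]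
  · rw [c_succ_strictMk, c_succ_strictMk]
    unfold bS
    split_ifs
    · rw [mul_zero]
    · exact typ_lin p hB u F k

omit hp in
theorem Rp.ploc (hR : Rp p N L) (x : N →+* B) : PLoc p B := hR.loc.map (x.comp hR.o)

/-- homogeneous coordinates of the typicalization -/
def uS (hR : Rp p N L) (x : N →+* B) (V : ℕ → strict B) : ℕ → strict B := fun k =>
  ⟨tau p (hR.ploc x) ((V k : InvSeries B) • law.map x) * V k, mul_mem (strictMk_mem _) (V k).2⟩

theorem val_uS (hR : Rp p N L) (x : N →+* B) (V : ℕ → strict B) (k : ℕ) :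
    (uS hR x V k : InvSeries B) =
      tau p (hR.ploc x) ((V k : InvSeries B) • law.map x) * V k := rfl

theorem uS_comp (hR : Rp p N L) (x : N →+* B) (V : ℕ → strict B) (α : ℕ → ℕ) :
    uS hR x (V ∘ α) = uS hR x V ∘ α := rfl

theorem smap_uS (hR : Rp p N L) (φ : B →+* C') (x : N →+* B) (V : ℕ → strict B) :
    (fun k => smap φ (uS hR x V k)) = uS hR (φ.comp x) fun k => smap φ (V k) := by
  funext k
  apply Subtype.ext
  rw [val_smap, val_uS, val_uS, map_mul, map_tau _ (hR.ploc (φ.comp x)), InvSeries.map_smul,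
    Law.map_map]
  rfl

theorem uS_translate (hR : Rp p N L) (x : N →+* B) (V V' : ℕ → strict B) (g : InvSeries B)
    (k : ℕ) (h : (V' k : InvSeries B) = V k * g⁻¹) :
    (uS hR (act g x) V' k : InvSeries B) = uS hR x V k * g⁻¹ := by
  rw [val_uS, val_uS, h, law_act, smul_smul, inv_mul_cancel_right, mul_assoc]

theorem uS_conj (hR : Rp p N L) (x : N →+* B) (V : ℕ → strict B) (u : Bˣ) :
    uS hR (act (InvSeries.lin u)⁻¹ x) (conjSeq u V) = conjSeq u (uS hR x V) := by
  funext k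
  apply Subtype.ext
  have h1 : ((conjSeq u V k : strict B) : InvSeries B) • law.map (act (InvSeries.lin u)⁻¹ x) =
      (InvSeries.lin u)⁻¹ • ((V k : InvSeries B) • law.map x) := by
    rw [law_act, smul_smul, smul_smul]
    congr 1
    change (InvSeries.lin u)⁻¹ * V k * InvSeries.lin u * (InvSeries.lin u)⁻¹ = _
    group
  rw [val_uS, h1, tau_lin]
  change _ * ((InvSeries.lin u)⁻¹ * V k * InvSeries.lin u) =
    (InvSeries.lin u)⁻¹ * (tau p _ ((V k : InvSeries B) • law.map x) * V k) * InvSeries.lin u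
  group

theorem IsTy.uS_eq (hR : Rp p N L) (h : IsTy p c x U) : uS hR x U = U := by
  funext k
  apply Subtype.ext
  rw [val_uS, ← h.vtx, tau_hz, one_mul]

theorem exists_tyC (hR : Rp p N L) (x : N →+* B) (V : ℕ → strict B) :
    ∃ c : Ch L B, IsTy p c x (uS hR x V) := by
  have h1 : ∀ k, ∃ v, (uS hR x V k : InvSeries B) • law.map x = hz p v := fun k =>
    ⟨_, by rw [val_uS, mul_smul, tau_smul]⟩
  choose v hv using h1
  have h2 : ∀ k, ((uS hR x V k : InvSeries B) * (uS hR x V (k + 1) : InvSeries B)⁻¹)⁻¹ •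
      hz p (v k) = hz p (v (k + 1)) := fun k => by
    rw [← hv, ← hv, smul_smul, mul_inv_rev, inv_inv, inv_mul_cancel_right]
  choose t ht using fun k => exists_hs_of_ploc p (hR.ploc x)
    (mul_mem (uS hR x V k).2 (inv_mem (uS hR x V (k + 1)).2)) (h2 k)
  have h3 : ∀ k, (⟨x.comp hR.o, v 0, t⟩ : Ch L B).vtx p k = v k := by
    intro k
    induction k with
    | zero => rfl
    | succ k ih =>
      apply hz_injective p
      rw [Ch.vtx, ih, ← hz_tg, ← h2, ht]
  exact ⟨⟨x.comp hR.o, v 0, t⟩, fun k => by rw [h3, hv], fun k => by rw [h3, ht]⟩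

/-- the typicalization of a chain of laws -/
def tyC (hR : Rp p N L) (x : N →+* B) (V : ℕ → strict B) : Ch L B := (exists_tyC hR x V).choose

theorem isTy_tyC (hR : Rp p N L) (x : N →+* B) (V : ℕ → strict B) :
    IsTy p (tyC hR x V) x (uS hR x V) := (exists_tyC hR x V).choose_spec

theorem tyC_map (hR : Rp p N L) (φ : B →+* C') (x : N →+* B) (V : ℕ → strict B) :
    (tyC hR x V).map φ = tyC hR (φ.comp x) fun k => smap φ (V k) := by
  have h := (isTy_tyC hR x V).map φ
  rw [smap_uS] at h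
  exact h.unique hR (isTy_tyC hR _ _)

theorem tyC_res (hR : Rp p N L) (x : N →+* B) (V : ℕ → strict B) {α : ℕ → ℕ} (hα : Monotone α) :
    (tyC hR x V).res p α = tyC hR x (V ∘ α) :=
  ((isTy_tyC hR x V).res hα).unique hR (isTy_tyC hR _ _)

theorem tyC_scale (hR : Rp p N L) (x : N →+* B) (V : ℕ → strict B) (u : Bˣ) :
    (tyC hR x V).scale p u = tyC hR (act (InvSeries.lin u)⁻¹ x) (conjSeq u V) := by
  have h := (isTy_tyC hR x V).scale u
  rw [← uS_conj] at h
  exact h.unique hR (isTy_tyC hR _ _)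

theorem IsTy.tyC_eq (hR : Rp p N L) (h : IsTy p c x U) : tyC hR x U = c := by
  have h1 := isTy_tyC hR x U
  rw [h.uS_eq hR] at h1
  exact h1.unique hR h

omit hp in
theorem val_seq_ofSeq {n k : ℕ} (hk : k ≤ n) (x : N →+* B) (V : ℕ → strict B) :
    (seq (ofSeq n x V) k : InvSeries B) = V k * (V 0 : InvSeries B)⁻¹ := by
  change (V (min k n) : InvSeries B) * _ = _
  rw [min_eq_left hk]

theorem tyC_ofSeq (hR : Rp p N L) (n : ℕ) (x : N →+* B) (V : ℕ → strict B) :
    Ch.Agree n (tyC hR (ofSeq n x V).pt (seq (ofSeq n x V))) (tyC hR x V) :=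
  (isTy_tyC hR _ _).agree hR (isTy_tyC hR x V) (ofSeq_translate x _ _ _ fun k hk =>
    uS_translate hR x V _ _ k (val_seq_ofSeq hk x V))

end Vale.Agent.P236EL

end
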