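import Vale.Agent.P236EL.LinkA

/-!
# P236EL / LinkB : restriction and extension of cochains
-/

noncomputable section

namespace Vale.Agent.P236EL

open Vale.Agent.P251.F Vale.Agent.P251.F.F3 Vale.Agent.P257.H80 LawRing MvPolynomial

variable {p : ℕ} [hp : Fact p.Prime] {L N : Type} [CommRing L] [CommRing N] [LawRing N]
  {B C' : Type} [CommRing B] [CommRing C'] (hR : Rp p N L)

/-- restriction to chains of Hazewinkel laws -/
def resC (n : ℕ) : Cob N n →+* CC L := Cob.ev (toChain hR n (Ch.univ L))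

theorem ev_resC (c : Ch L B) (n : ℕ) (z : Cob N n) :
    c.ev (resC hR n z) = Cob.ev (toChain hR n c) z := by
  rw [resC, ← Cob.ev_map, ← toChain_map, Ch.univ_map]

theorem IsTy.ev_resC {c : Ch L B} {x : N →+* B} {U : ℕ → strict B} (h : IsTy p c x U) (n : ℕ)
    (z : Cob N n) : c.ev (resC hR n z) = Cob.ev (ofSeq n x U) z := by
  rw [P236EL.ev_resC, h.toChain]

theorem resC_map {n m : ℕ} (α : Fin (m + 1) → Fin (n + 1)) {α' : ℕ → ℕ} (hα : Monotone α')
    (h : ∀ i : Fin (m + 1), α' i = α i) (z : Cob N m) :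
    resC hR n (Cob.map α z) = pb p L α' (resC hR m z) := by
  rw [pb, ev_resC, toChain_res hR _ α hα h, resC, Cob.ev_map_res]

theorem resC_mem_Loc (n : ℕ) (z : Cob N n) : resC hR n z ∈ Loc p L n := by
  rw [mem_Loc, ← resC_map hR id (Ch.monotone_min n) fun i => min_eq_left (by omega), Cob.map_id]

theorem resC_d (n : ℕ) (z : Cob N n) :
    resC hR (n + 1) (Cob.d n z) = alt p L (n + 2) (resC hR n z) := by
  rw [Cob.d_apply, alt_apply, map_sum, Finset.sum_range]
  refine Finset.sum_congr rfl fun j _ => ?_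
  rw [map_zsmul, resC_map hR _ (sa_mono j), fc]
  intro i
  simp only [sa, Fin.succAbove, Fin.lt_def, Fin.val_castSucc]
  split_ifs <;> rfl

theorem resC_cup {a b : ℕ} (x : Cob N a) (y : Cob N b) :
    resC hR (a + b) (Cob.cup x y) = resC hR a x * sh p L a (resC hR b y) := by
  rw [Cob.cup, map_mul, resC_map hR (Cob.front a b) monotone_id fun _ => rfl, pb_id,
    resC_map hR (Cob.back a b) (add_mono a) fun _ => rfl, sh]

theorem resC_homog {n : ℕ} {W : ℤ} {z : Cob N n} (hz : Cob.IsWt W z) :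
    IsWeightedHomogeneous (fun i => ((p : ℤ) - 1) * wC p i) (resC hR n z) W := by
  apply homog_of_scale
  have h := ev_resC hR (((Ch.univ L).map LaurentPolynomial.C).scale p (tU (CC L))) n z
  rw [toChain_scale, hz, ← ev_resC, Ch.ev_map, Ch.ev_univ, Ch.ev_scale] at h
  refine Eq.trans (DFunLike.congr_fun ?_ _) h
  congr 1
  funext i
  rcases i with i | ⟨k, i⟩ <;> rfl

theorem resC_mem_WC {n : ℕ} {w : ℤ} {z : Cob N n} (hz : Cob.IsWt (((p : ℤ) - 1) * w) z) :
    resC hR n z ∈ WC p L w := homog_cancel p (resC_homog hR hz)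

theorem resC_eq_zero {n : ℕ} {W : ℤ} {z : Cob N n} (hz : Cob.IsWt W z) (h : ¬ ((p : ℤ) - 1) ∣ W) :
    resC hR n z = 0 := by
  ext m
  by_contra hm
  have h1 := resC_homog hR hz hm
  rw [weight_mul] at h1
  exact h ⟨_, h1.symm⟩

/-- extension along typicalization -/
def extC (n : ℕ) : CC L →+* Cob N n := (tyC hR (Cob.univ N n).pt (seq (Cob.univ N n))).ev

theorem ev_extC {n : ℕ} (c : Chain N n B) (y : CC L) :
    Cob.ev c (extC hR n y) = (tyC hR c.pt (seq c)).ev y := by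
  rw [extC, ← Ch.ev_map, tyC_map, ← seq_map, ← Chain.map_pt, Cob.univ_map_ev]

theorem ev_ofSeq_extC {n : ℕ} (x : N →+* B) (V : ℕ → strict B) {y : CC L} (hy : y ∈ Loc p L n) :
    Cob.ev (ofSeq n x V) (extC hR n y) = (tyC hR x V).ev y := by
  rw [ev_extC, ev_congr_Loc hy (tyC_ofSeq hR n x V)]

theorem resC_extC {n : ℕ} {y : CC L} (hy : y ∈ Loc p L n) : resC hR n (extC hR n y) = y := by
  obtain ⟨xU, h⟩ := exists_isTy hR (Ch.univ L)
  rw [resC, h.toChain, ev_ofSeq_extC hR _ _ hy, h.tyC_eq, Ch.ev_univ]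

theorem extC_resC (n : ℕ) (z : Cob N n) : extC hR n (resC hR n z) =
    Cob.ev (ofSeq n (Cob.univ N n).pt (uS hR (Cob.univ N n).pt (seq (Cob.univ N n)))) z :=
  (isTy_tyC hR _ _).ev_resC hR n z

theorem isWt_extC (n : ℕ) {w : ℤ} {y : CC L} (hy : y ∈ WC p L w) :
    Cob.IsWt (((p : ℤ) - 1) * w) (extC hR n y) := by
  intro B _ c u
  have h : tyC hR (c.scale u).pt (seq (c.scale u)) = (tyC hR c.pt (seq c)).scale p u :=
    (tyC_scale hR c.pt (seq c) u).symm
  rw [ev_extC, ev_extC, h, Ch.ev_scale, scale_of_homog, Ch.ev]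
  intro m hm
  rw [weight_mul, hy hm]

/-! ### evaluation on sequences -/

/-- a sequence with two values -/
def p2 {W : Type*} (a b : W) : ℕ → W := fun k => if k = 0 then a else b

omit hp in
theorem del_eq {W : Type*} (j : ℕ) (G : ℕ → W) : del j G = G ∘ sa j := by
  funext k
  simp only [del, sa, Function.comp]
  split_ifs <;> rfl

/-- the value at the arrow from `a` to `b` -/
def A1 (x : N →+* B) (a b : strict B) : Cob N 1 →+* B := Cob.ev (ofSeq 1 x (p2 a b))

omit hp in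
theorem ev_ofSeq_one (x : N →+* B) (G : ℕ → strict B) (z : Cob N 1) :
    Cob.ev (ofSeq 1 x G) z = A1 x (G 0) (G 1) z := by
  rw [A1, ofSeq_congr (G' := p2 (G 0) (G 1))]
  intro k hk
  interval_cases k <;> rfl

omit hp in
theorem ev_cup_one {n : ℕ} (x : N →+* B) (G : ℕ → strict B) (z : Cob N n) (t : Cob N 1) :
    Cob.ev (ofSeq (n + 1) x G) (Cob.cup z t) =
      Cob.ev (ofSeq n x G) z * A1 x (G n) (G (n + 1)) t := by
  rw [Cob.ev_cup, ofSeq_res' x G (Cob.front n 1) (α' := id) fun _ => rfl,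
    ofSeq_res' x G (Cob.back n 1) (α' := fun k => n + k) fun _ => rfl, ev_ofSeq_one]
  rfl

omit hp in
theorem ev_d_ofSeq {n : ℕ} (x : N →+* B) (G : ℕ → strict B) (z : Cob N n) :
    Cob.ev (ofSeq (n + 1) x G) (Cob.d n z) =
      ∑ j ∈ Finset.range (n + 2), ((-1 : ℤ) ^ j) • Cob.ev (ofSeq n x (del j G)) z := by
  rw [Cob.ev_d, Finset.sum_range]
  simp only [ofSeq_res]

omit hp in
theorem ext_ofSeq {n : ℕ} {z z' : Cob N n} (h : ∀ (B : Type) [CommRing B] (x : N →+* B)
    (V : ℕ → strict B), Cob.ev (ofSeq n x V) z = Cob.ev (ofSeq n x V) z') : z = z' :=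
  Cob.ext_ev fun B _ c => by rw [← ofSeq_seq c]; exact h B _ _

omit hp in
theorem map_A1 (φ : B →+* C') (x : N →+* B) (a b : strict B) (z : Cob N 1) :
    φ (A1 x a b z) = A1 (φ.comp x) (smap φ a) (smap φ b) z := by
  rw [A1, ← Cob.ev_map, ofSeq_map, ev_ofSeq_one]
  rfl

omit hp in
theorem A1_translate (x : N →+* B) {a b a' b' : strict B} (g : InvSeries B)
    (ha : (a' : InvSeries B) = a * g⁻¹) (hb : (b' : InvSeries B) = b * g⁻¹) :
    A1 (act g x) a' b' = A1 x a b := by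
  rw [A1, A1, ofSeq_translate x (p2 a b) (p2 a' b') g]
  intro k hk
  interval_cases k
  exacts [ha, hb]

/-- conjugation by a scaling -/
def cj (u : Bˣ) (g : strict B) : strict B := conjSeq u (fun _ => g) 0

omit hp in
theorem A1_scale (x : N →+* B) (a b : strict B) (u : Bˣ) {W : ℤ} {z : Cob N 1}
    (hz : Cob.IsWt W z) : A1 (act (InvSeries.lin u)⁻¹ x) (cj u a) (cj u b) z =
      ((u ^ W : Bˣ) : B) * A1 x a b z := by
  rw [A1, A1, ← hz, ofSeq_scale, ev_ofSeq_one, ev_ofSeq_one]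
  rfl

theorem IsTy.arr_eq {c : Ch L B} {x : N →+* B} {U : ℕ → strict B} (h : IsTy p c x U) (n : ℕ)
    {t : Cob N 1} {g : GG L} (e : resC hR 1 t = (Ch.univ L).arr p 0 g) :
    c.arr p n g = A1 x (U n) (U (n + 1)) t := by
  have h1 := (h.res (add_mono n)).ev_resC hR 1 t
  rw [e, ev_arr, Ch.arr_res (add_mono n) _ rfl, ev_ofSeq_one] at h1
  exact h1

/-- every function of one arrow comes from `GG L` -/
theorem exists_arr {y : CC L} (hy : y ∈ Loc p L 1) : ∃ g : GG L, (Ch.univ L).arr p 0 g = y := by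
  refine ⟨((cst L).gen 0).ev y, ?_⟩
  rw [← Ch.ev_map, ev_congr_Loc hy (c' := Ch.univ L), Ch.ev_univ]
  refine ⟨RingHom.ext fun a => by simp [Ch.map, Ch.gen, cst], funext fun i => ?_, fun k hk => ?_⟩
  · simp [Ch.map, Ch.gen, cst, Ch.vtx]
  · obtain rfl : k = 0 := by omega
    funext i
    simp [Ch.map, Ch.gen]

end Vale.Agent.P236EL

end
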