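import Vale.Agent.P236EL.LinkB

/-!
# P236EL / LinkC : the twisted cobar complex of a cell comodule over a law ring
-/

noncomputable section

namespace Vale.Agent.P236EL

open Vale.Agent.P251.F Vale.Agent.P251.F.F3 Vale.Agent.P257.H80 LawRing MvPolynomial

variable {N : Type} [CommRing N] [LawRing N] {B C' : Type} [CommRing B] [CommRing C']
  {ι : Type} [Fintype ι] [DecidableEq ι]

/-- the twisted differential; `θ` is the reduced coaction -/
def DD (θ : ι → ι → Cob N 1) (s : ℕ) : (ι → Cob N s) →+ (ι → Cob N (s + 1)) where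
  toFun F c' := Cob.d s (F c') + ((-1 : ℤ) ^ (s + 1)) • ∑ c, Cob.cup (F c) (θ c c')
  map_zero' := by funext c; simp [Cob.cup]
  map_add' F F' := by
    funext c
    simp only [Pi.add_apply, map_add, Cob.cup, add_mul, Finset.sum_add_distrib, smul_add]
    abel

omit [DecidableEq ι] in
theorem DD_apply (θ : ι → ι → Cob N 1) (s : ℕ) (F : ι → Cob N s) (c' : ι) :
    DD θ s F c' = Cob.d s (F c') + ((-1 : ℤ) ^ (s + 1)) • ∑ c, Cob.cup (F c) (θ c c') := rfl

/-- the Maurer-Cartan equation and the normalisation -/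
structure MC (θ : ι → ι → Cob N 1) : Prop where
  mc : ∀ c c'', Cob.d 1 (θ c c'') + ∑ c', Cob.cup (θ c c') (θ c' c'') = 0
  unit : ∀ c c', Cob.map (fun _ => 0 : Fin 2 → Fin 1) (θ c c') = 0

/-- the transport matrix -/
def TH (θ : ι → ι → Cob N 1) (x : N →+* B) (a b : strict B) (c c' : ι) : B :=
  (if c = c' then 1 else 0) + A1 x a b (θ c c')

variable {θ : ι → ι → Cob N 1}

omit [DecidableEq ι] in
theorem A1_mc (h : ∀ c c'', Cob.d 1 (θ c c'') + ∑ c', Cob.cup (θ c c') (θ c' c'') = 0)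
    (x : N →+* B) (a b g : strict B) (c c'' : ι) : A1 x a g (θ c c'') =
      A1 x a b (θ c c'') + A1 x b g (θ c c'') + ∑ c', A1 x a b (θ c c') * A1 x b g (θ c' c'') := by
  have h1 := congrArg (Cob.ev (ofSeq 2 x fun k => if k = 0 then a else if k = 1 then b else g))
    (h c c'')
  simp only [map_add, map_sum, ev_d_ofSeq, ev_cup_one, ev_ofSeq_one, Finset.sum_range_succ,
    Finset.sum_range_zero, del, map_zero] at h1
  simp at h1
  linear_combination -h1

theorem TH_trans (h : MC θ) (x : N →+* B) (a b g : strict B) (c c'' : ι) :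
    ∑ c', TH θ x a b c c' * TH θ x b g c' c'' = TH θ x a g c c'' := by
  simp only [TH, add_mul, mul_add, Finset.sum_add_distrib, ite_mul, mul_ite, one_mul, zero_mul,
    mul_one, mul_zero, Finset.sum_ite_eq, Finset.sum_ite_eq', Finset.mem_univ, if_true,
    A1_mc h.mc x a b g c c'']
  ring

omit [Fintype ι] [DecidableEq ι] in
theorem A1_self (x : N →+* B) (a : strict B) (z : Cob N 1) :
    A1 x a a z = Cob.ev (ofSeq 0 x fun _ => a) (Cob.map (fun _ => 0 : Fin 2 → Fin 1) z) := by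
  rw [Cob.ev_map_res, ofSeq_res' x _ (fun _ => 0 : Fin 2 → Fin 1) (α' := fun _ => 0) fun _ => rfl,
    ev_ofSeq_one]
  rfl

theorem TH_self (h : MC θ) (x : N →+* B) (a : strict B) (c c' : ι) :
    TH θ x a a c c' = if c = c' then 1 else 0 := by
  rw [TH, A1_self, h.unit, map_zero, add_zero]

omit [DecidableEq ι] in
/-- the normalisation is automatic for triangular matrices -/
theorem mc_of_triangular
    (h : ∀ c c'', Cob.d 1 (θ c c'') + ∑ c', Cob.cup (θ c c') (θ c' c'') = 0) (lv : ι → ℕ)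
    (hl : ∀ c c', lv c ≤ lv c' → θ c c' = 0) : MC θ := by
  refine ⟨h, fun c c' => ext_ofSeq fun B _ x V => ?_⟩
  rw [map_zero, ofSeq_congr (G' := fun _ => V 0) fun k hk => by rw [Nat.le_zero.1 hk], ← A1_self]
  have key : ∀ n c c', lv c ≤ lv c' + n → A1 x (V 0) (V 0) (θ c c') = 0 := by
    intro n
    induction n with
    | zero => exact fun c c' hc => by rw [hl c c' hc, map_zero]
    | succ n ih =>
      intro c c'' hc
      have h1 := A1_mc h x (V 0) (V 0) (V 0) c c''
      rw [Finset.sum_eq_zero] at h1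
      · linear_combination -h1
      · intro c' _
        by_cases h2 : lv c' ≤ lv c''
        · rw [hl c' c'' h2, map_zero, mul_zero]
        · rw [ih c c' (by omega), zero_mul]
  exact key (lv c) c c' (by omega)

variable (θ) in
/-- evaluation on a sequence, transported to `g` -/
def XX (n : ℕ) (F : ι → Cob N n) (x : N →+* B) (G : ℕ → strict B) (g : strict B) (c' : ι) : B :=
  ∑ c, Cob.ev (ofSeq n x G) (F c) * TH θ x (G n) g c c'

theorem XX_self (h : MC θ) {n : ℕ} (F : ι → Cob N n) (x : N →+* B) (G : ℕ → strict B) (c' : ι) :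
    XX θ n F x G (G n) c' = Cob.ev (ofSeq n x G) (F c') := by
  simp [XX, TH_self h]

theorem XX_trans (h : MC θ) {n : ℕ} (F : ι → Cob N n) (x : N →+* B) (G : ℕ → strict B)
    (b g : strict B) (c'' : ι) :
    ∑ c', XX θ n F x G b c' * TH θ x b g c' c'' = XX θ n F x G g c'' := by
  simp only [XX, Finset.sum_mul, mul_assoc]
  rw [Finset.sum_comm]
  simp only [← Finset.mul_sum, TH_trans h]

theorem XX_congr {n : ℕ} (F : ι → Cob N n) (x : N →+* B) {G G' : ℕ → strict B}
    (h : ∀ k ≤ n, G k = G' k) (g : strict B) (c' : ι) : XX θ n F x G g c' = XX θ n F x G' g c' := by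
  rw [XX, XX, ofSeq_congr h, h n le_rfl]

theorem ev_DD (h : MC θ) {n : ℕ} (F : ι → Cob N n) (x : N →+* B) (G : ℕ → strict B) (c' : ι) :
    Cob.ev (ofSeq (n + 1) x G) (DD θ n F c') =
      ∑ j ∈ Finset.range (n + 2), ((-1 : ℤ) ^ j) • XX θ n F x (del j G) (G (n + 1)) c' := by
  rw [DD_apply, map_add, ev_d_ofSeq, Finset.sum_range_succ, Finset.sum_range_succ _ (n + 1),
    add_assoc, map_zsmul, ← smul_add]
  congr 1
  · refine Finset.sum_congr rfl fun j hj => ?_
    rw [← XX_self h, show del j G n = G (n + 1) from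
      if_neg (by have := Finset.mem_range.1 hj; omega)]
  · have h1 : ∀ k ≤ n, del (n + 1) G k = G k := fun k hk => if_pos (by omega)
    rw [XX_congr F x h1, ofSeq_congr h1]
    simp [XX, TH, mul_add, Finset.sum_add_distrib, ev_cup_one]

theorem XX_DD (h : MC θ) {n : ℕ} (F : ι → Cob N n) (x : N →+* B) (G : ℕ → strict B) (g : strict B)
    (c' : ι) : XX θ (n + 1) (DD θ n F) x G g c' =
      ∑ j ∈ Finset.range (n + 2), ((-1 : ℤ) ^ j) • XX θ n F x (del j G) g c' := by
  rw [XX]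
  simp only [ev_DD h, Finset.sum_mul, smul_mul_assoc]
  rw [Finset.sum_comm]
  simp only [← Finset.smul_sum, XX_trans h]

theorem map_XX (φ : B →+* C') {n : ℕ} (F : ι → Cob N n) (x : N →+* B) (G : ℕ → strict B)
    (g : strict B) (c' : ι) : φ (XX θ n F x G g c') =
      XX θ n F (φ.comp x) (fun k => smap φ (G k)) (smap φ g) c' := by
  simp only [XX, TH, map_sum, map_mul, map_add, map_A1, ← Cob.ev_map, ofSeq_map, apply_ite φ,
    map_one, map_zero]

theorem XX_translate {n : ℕ} (F : ι → Cob N n) (x : N →+* B) {G G' : ℕ → strict B}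
    {g g' : strict B} (a : InvSeries B) (h : ∀ k ≤ n, (G' k : InvSeries B) = G k * a⁻¹)
    (hg : (g' : InvSeries B) = g * a⁻¹) (c' : ι) :
    XX θ n F (act a x) G' g' c' = XX θ n F x G g c' := by
  simp only [XX, TH, ofSeq_translate x G G' a h, A1_translate x a (h n le_rfl) hg]

theorem XX_scale {D : ι → ℤ} (hθ : ∀ c c', Cob.IsWt (D c - D c') (θ c c')) {n : ℕ} {W : ℤ}
    {F : ι → Cob N n} (hF : ∀ c, Cob.IsWt (W - D c) (F c)) (x : N →+* B) (G : ℕ → strict B)
    (g : strict B) (u : Bˣ) (c' : ι) :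
    XX θ n F (act (InvSeries.lin u)⁻¹ x) (conjSeq u G) (cj u g) c' =
      ((u ^ (W - D c') : Bˣ) : B) * XX θ n F x G g c' := by
  rw [XX, XX, Finset.mul_sum]
  refine Finset.sum_congr rfl fun c _ => ?_
  have h1 : TH θ (act (InvSeries.lin u)⁻¹ x) (cj u (G n)) (cj u g) c c' =
      ((u ^ (D c - D c') : Bˣ) : B) * TH θ x (G n) g c c' := by
    rw [TH, TH, A1_scale x _ _ u (hθ c c'), mul_add]
    congr 1
    split_ifs with h
    · simp [h]
    · simp
  rw [← ofSeq_scale, hF, show conjSeq u G n = cj u (G n) from rfl, h1,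
    ← sub_add_sub_cancel W (D c) (D c'), zpow_add, Units.val_mul]
  ring

variable {p : ℕ} [hp : Fact p.Prime] {L : Type} [CommRing L] (hR : Rp p N L)

omit [Fintype ι] [DecidableEq ι] in
theorem smap_uS_univ {n k : ℕ} (hk : k ≤ n) (x : N →+* B) (V : ℕ → strict B) :
    (smap (Cob.ev (ofSeq n x V)) (uS hR (Cob.univ N n).pt (seq (Cob.univ N n)) k) : InvSeries B) =
      uS hR x V k * (V 0 : InvSeries B)⁻¹ := by
  rw [congrFun (smap_uS hR _ _ _) k, ← seq_map, ← Chain.map_pt, Cob.univ_map_ev]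
  exact uS_translate hR x V _ _ k (val_seq_ofSeq hk x V)

omit [Fintype ι] [DecidableEq ι] hp in
theorem smap_seq_univ {n k : ℕ} (hk : k ≤ n) (x : N →+* B) (V : ℕ → strict B) :
    (smap (Cob.ev (ofSeq n x V)) (seq (Cob.univ N n) k) : InvSeries B) =
      V k * (V 0 : InvSeries B)⁻¹ := by
  rw [← congrFun (seq_map _ _) k, Cob.univ_map_ev]
  exact val_seq_ofSeq hk x V

omit hp in
theorem ev_XX_univ {n m : ℕ} (F : ι → Cob N m) (x : N →+* B) (V : ℕ → strict B)
    {G₀ : ℕ → strict (Cob N n)} {G : ℕ → strict B} (h : ∀ k ≤ m,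
      (smap (Cob.ev (ofSeq n x V)) (G₀ k) : InvSeries B) = G k * (V 0 : InvSeries B)⁻¹) (c' : ι) :
    Cob.ev (ofSeq n x V) (XX θ m F (Cob.univ N n).pt G₀ (seq (Cob.univ N n) n) c') =
      XX θ m F x G (V n) c' := by
  rw [map_XX, ← Chain.map_pt, Cob.univ_map_ev]
  exact XX_translate F x _ h (smap_seq_univ le_rfl x V) c'

variable (θ) in
/-- the twisted prism operator -/
def hO (n : ℕ) (F : ι → Cob N (n + 1)) (c' : ι) : Cob N n :=
  ∑ i ∈ Finset.range (n + 1), ((-1 : ℤ) ^ i) • XX θ (n + 1) F (Cob.univ N n).pt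
    (prs i (seq (Cob.univ N n)) (uS hR (Cob.univ N n).pt (seq (Cob.univ N n))))
    (seq (Cob.univ N n) n) c'

theorem ev_hO {n : ℕ} (F : ι → Cob N (n + 1)) (x : N →+* B) (V : ℕ → strict B) (c' : ι) :
    Cob.ev (ofSeq n x V) (hO θ hR n F c') = ∑ i ∈ Finset.range (n + 1),
      ((-1 : ℤ) ^ i) • XX θ (n + 1) F x (prs i V (uS hR x V)) (V n) c' := by
  rw [hO, map_sum]
  refine Finset.sum_congr rfl fun i hi => ?_
  rw [map_zsmul, ev_XX_univ]
  intro k hk
  have := Finset.mem_range.1 hi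
  simp only [prs]
  split_ifs
  · exact smap_seq_univ (by omega) x V
  · exact smap_uS_univ hR (by omega) x V

theorem isWt_hO {D : ι → ℤ} (hθ : ∀ c c', Cob.IsWt (D c - D c') (θ c c')) {n : ℕ} {W : ℤ}
    {F : ι → Cob N (n + 1)} (hF : ∀ c, Cob.IsWt (W - D c) (F c)) (c' : ι) :
    Cob.IsWt (W - D c') (hO θ hR n F c') := by
  intro B _ c u
  rw [← ofSeq_seq c, ofSeq_scale, ev_hO, ev_hO, Finset.mul_sum]
  refine Finset.sum_congr rfl fun i _ => ?_
  rw [uS_conj, ← conjSeq_prs, mul_smul_comm, ← XX_scale hθ hF]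
  rfl

variable (θ) in
/-- the twisted extension -/
def extT (n : ℕ) (y : ι → CC L) (c' : ι) : Cob N n :=
  ∑ c, extC hR n (y c) * TH θ (Cob.univ N n).pt
    (uS hR (Cob.univ N n).pt (seq (Cob.univ N n)) n) (seq (Cob.univ N n) n) c c'

theorem ev_extT {n : ℕ} {y : ι → CC L} (hy : ∀ c, y c ∈ Loc p L n) (x : N →+* B)
    (V : ℕ → strict B) (c' : ι) : Cob.ev (ofSeq n x V) (extT θ hR n y c') =
      ∑ c, (tyC hR x V).ev (y c) * TH θ x (uS hR x V n) (V n) c c' := by
  rw [extT, map_sum]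
  refine Finset.sum_congr rfl fun c _ => ?_
  rw [map_mul, ev_ofSeq_extC hR _ _ (hy c), TH, TH, map_add, map_A1, ← Chain.map_pt,
    Cob.univ_map_ev, ofSeq_pt,
    A1_translate x _ (smap_uS_univ hR le_rfl x V) (smap_seq_univ le_rfl x V), apply_ite (Cob.ev _),
    map_one, map_zero]

theorem ev_extT_resC {n : ℕ} (F : ι → Cob N n) (x : N →+* B) (V : ℕ → strict B) (c' : ι) :
    Cob.ev (ofSeq n x V) (extT θ hR n (fun c => resC hR n (F c)) c') =
      XX θ n F x (uS hR x V) (V n) c' := by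
  rw [ev_extT hR fun c => resC_mem_Loc hR n _]
  simp only [(isTy_tyC hR x V).ev_resC, XX]

theorem isWt_extT {d : ι → ℤ} (hθ : ∀ c c', Cob.IsWt (((p : ℤ) - 1) * (d c - d c')) (θ c c'))
    {n : ℕ} {w : ℤ} {y : ι → CC L} (hy : ∀ c, y c ∈ WC p L (w - d c)) (c' : ι) :
    Cob.IsWt (((p : ℤ) - 1) * (w - d c')) (extT θ hR n y c') := by
  refine (Cob.wt N n _).sum_mem fun c _ => ?_
  rw [← sub_add_sub_cancel w (d c) (d c'), mul_add]
  refine (isWt_extC hR n (hy c)).mul fun B _ e u => ?_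
  have h : ∀ e : Chain N n B, Cob.ev e (TH θ (Cob.univ N n).pt
      (uS hR (Cob.univ N n).pt (seq (Cob.univ N n)) n) (seq (Cob.univ N n) n) c c') =
      TH θ e.pt (uS hR e.pt (seq e) n) (seq e n) c c' := fun e => by
    rw [TH, TH, map_add, map_A1, congrFun (smap_uS hR _ _ _) n, ← congrFun (seq_map _ _) n,
      ← seq_map, ← Chain.map_pt, Cob.univ_map_ev, apply_ite (Cob.ev _), map_one, map_zero]
  rw [h, h]
  change TH θ (act (InvSeries.lin u)⁻¹ e.pt)
    (uS hR (act (InvSeries.lin u)⁻¹ e.pt) (conjSeq u (seq e)) n) (cj u (seq e n)) c c' = _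
  rw [uS_conj, TH, TH, mul_add, ← A1_scale _ _ _ u (hθ c c')]
  congr 1
  split_ifs with h
  · simp [h]
  · simp

theorem homotopy_aux (h : MC θ) {n : ℕ} (F : ι → Cob N n) (x : N →+* B) (V : ℕ → strict B)
    (c' : ι) : Cob.ev (ofSeq n x V) (hO θ hR n (DD θ n F) c') +
      (∑ i ∈ Finset.range n, ∑ j ∈ Finset.range (n + 1), ((-1 : ℤ) ^ (i + j)) •
        XX θ n F x (prs i (del j V) (del j (uS hR x V))) (V n) c') =
      Cob.ev (ofSeq n x V) (extT θ hR n (fun c => resC hR n (F c)) c' - F c') := by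
  have h1 := prism_identity V (uS hR x V) (fun G => XX θ n F x G (V n) c') n
  rw [XX_congr F x (G := mix (n + 1) V _) (G' := V) fun k hk => if_pos (by omega), XX_self h] at h1
  rw [map_sub, ev_extT_resC, ← h1, ev_hO]
  simp only [XX_DD h, Finset.smul_sum, smul_smul, pow_add]

theorem homotopy_zero (h : MC θ) (F : ι → Cob N 0) (c' : ι) :
    hO θ hR 0 (DD θ 0 F) c' = extT θ hR 0 (fun c => resC hR 0 (F c)) c' - F c' :=
  ext_ofSeq fun B _ x V => by
    rw [← homotopy_aux hR h, Finset.sum_range_zero, add_zero]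

theorem homotopy_succ (h : MC θ) {n : ℕ} (F : ι → Cob N (n + 1)) (c' : ι) :
    hO θ hR (n + 1) (DD θ (n + 1) F) c' + DD θ n (hO θ hR n F) c' =
      extT θ hR (n + 1) (fun c => resC hR (n + 1) (F c)) c' - F c' :=
  ext_ofSeq fun B _ x V => by
    rw [← homotopy_aux hR h, map_add, ev_DD h, Finset.sum_comm]
    congr 1
    refine Finset.sum_congr rfl fun j _ => ?_
    rw [XX]
    simp only [ev_hO, Finset.sum_mul, smul_mul_assoc]
    rw [Finset.sum_comm, Finset.smul_sum]
    refine Finset.sum_congr rfl fun i _ => ?_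
    rw [← Finset.smul_sum, XX_trans h, smul_smul, ← pow_add, add_comm j, del_eq, del_eq, uS_comp]

variable {th : ι → ι → GG L}

variable (θ th) in
/-- the coaction `th` is the restriction of `1 + θ` -/
def Lk : Prop :=
  ∀ c c', (if c = c' then 1 else 0) + resC hR 1 (θ c c') = (Ch.univ L).arr p 0 (th c c')

omit [Fintype ι] in
theorem IsTy.arr_th (hL : Lk θ hR th) {c : Ch L B} {x : N →+* B} {U : ℕ → strict B}
    (h : IsTy p c x U) (n : ℕ) (a b : ι) : c.arr p n (th a b) = TH θ x (U n) (U (n + 1)) a b := by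
  rw [h.arr_eq hR n (t := (if a = b then 1 else 0) + θ a b), map_add, apply_ite (A1 _ _ _),
    map_one, map_zero, TH]
  rw [map_add, apply_ite (resC hR 1), map_one, map_zero, hL]

theorem resC_DD (hL : Lk θ hR th) (n : ℕ) (F : ι → Cob N n) :
    (fun c => resC hR (n + 1) (DD θ n F c)) = cD p th n fun c => resC hR n (F c) := by
  funext c'
  rw [DD_apply, map_add, resC_d, cD_apply, alt_succ, add_assoc, map_zsmul, ← smul_add, tw_apply,
    map_sum]
  congr 2
  have h1 : ∀ c, (Ch.univ L).arr p n (th c c') =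
      (if c = c' then 1 else 0) + sh p L n (resC hR 1 (θ c c')) := fun c => by
    rw [← add_zero n, ← sh_arr, ← hL, map_add, apply_ite (sh p L n), map_one, map_zero, add_zero]
  simp [h1, resC_cup, fc_of_Loc (resC_mem_Loc hR n _) (Nat.lt_succ_self n), mul_add,
    Finset.sum_add_distrib]

theorem DD_extT (h : MC θ) (hL : Lk θ hR th) {n : ℕ} {y : ι → CC L} (hy : ∀ c, y c ∈ Loc p L n) :
    DD θ n (extT θ hR n y) = extT θ hR (n + 1) (cD p th n y) := by
  funext c'
  refine ext_ofSeq fun B _ x V => ?_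
  have h1 : ∀ c, cD p th n y c ∈ Loc p L (n + 1) := fun c => by
    rw [cD_apply, tw_apply]
    exact add_mem (alt_mem_Loc (hy c) _) (zsmul_mem (sum_mem fun a _ => mul_mem
      (by rw [fc_of_Loc (hy a) (Nat.lt_succ_self n)]; exact Loc_mono (Nat.le_succ n) (hy a))
      (arr_mem_Loc _ _)) _)
  have h2 : ∀ j, XX θ n (extT θ hR n y) x (del j V) (V (n + 1)) c' =
      ∑ c, (tyC hR x V).ev (fc p L j (y c)) * TH θ x (uS hR x V (sa j n)) (V (n + 1)) c c' := by
    intro j
    simp only [XX, ev_extT hR hy, Finset.sum_mul, mul_assoc]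
    rw [Finset.sum_comm]
    simp only [← Finset.mul_sum, TH_trans h, fc, ev_pb, tyC_res hR x V (sa_mono j), del_eq, uS_comp]
    rfl
  rw [ev_DD h, ev_extT hR h1, Finset.sum_range_succ]
  simp only [h2, cD_apply, alt_apply, tw_apply, map_add, map_sum, map_zsmul, map_mul, add_mul,
    Finset.sum_add_distrib, Finset.sum_mul, smul_mul_assoc, ev_arr, (isTy_tyC hR x V).arr_th hR hL]
  congr 1
  · rw [Finset.sum_comm]
    refine Finset.sum_congr rfl fun j hj => ?_
    rw [Finset.smul_sum, show sa j n = n + 1 from if_neg (by have := Finset.mem_range.1 hj; omega)]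
  · rw [← Finset.smul_sum, Finset.sum_comm, show sa (n + 1) n = n from if_pos (by omega)]
    simp only [mul_assoc, ← Finset.mul_sum, TH_trans h]

theorem resC_extT (h : MC θ) {n : ℕ} {y : ι → CC L} (hy : ∀ c, y c ∈ Loc p L n) (c' : ι) :
    resC hR n (extT θ hR n y c') = y c' := by
  obtain ⟨xU, h1⟩ := exists_isTy hR (Ch.univ L)
  rw [resC, h1.toChain, ev_extT hR hy, h1.tyC_eq, h1.uS_eq]
  simp [TH_self h]

theorem coc_of_Lk (h : MC θ) (hL : Lk θ hR th) : Coc p th := by
  intro c c''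
  obtain ⟨xU, h1⟩ := exists_isTy hR (((cst L).gen 0).gen 1)
  have h2 : (((cst L).gen 0).gen 1).arr2 p 0 = RingHom.id _ := by
    refine ringHom_ext' (ringHom_ext' (RingHom.ext fun a => ?_) fun i => ?_) fun i => ?_
    · simp [Ch.pt_gen, cst_pt]
    · simp [Ch.gen]
    · simp [Ch.arr2, Ch.gen]
  have h3 := Ch.arr_res_sa (p := p) (((cst L).gen 0).gen 1) 0 (th c c'')
  rw [(h1.res (sa_mono _)).arr_th hR hL, h2, RingHom.id_apply] at h3
  have h4 : ∀ c', C (th c c') * MvPolynomial.map (etaR p L) (th c' c'') =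
      TH θ xU.1 (xU.2 0) (xU.2 1) c c' * TH θ xU.1 (xU.2 1) (xU.2 2) c' c'' := fun c' => by
    rw [← h1.arr_th hR hL, ← h1.arr_th hR hL, ← Ch.arr2_C, ← Ch.arr2_map, h2]
    rfl
  rw [← h3, Finset.sum_congr rfl fun c' _ => h4 c', TH_trans h]
  rfl

/-- restriction is injective on cohomology, degree `0` -/
theorem lift_zero (h : MC θ) {F : ι → Cob N 0} (hF : DD θ 0 F = 0)
    (h0 : ∀ c, resC hR 0 (F c) = 0) : F = 0 := by
  funext c'
  have h1 := homotopy_zero hR h F c'
  simp only [hF, h0, hO, XX, extT, Pi.zero_apply, map_zero, zero_mul, Finset.sum_const_zero,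
    smul_zero, zero_sub] at h1
  exact neg_eq_zero.1 h1.symm

/-- restriction is injective on cohomology -/
theorem lift_succ (h : MC θ) (hL : Lk θ hR th) {d : ι → ℤ}
    (hθ : ∀ c c', Cob.IsWt (((p : ℤ) - 1) * (d c - d c')) (θ c c')) {s : ℕ} {w : ℤ}
    {F : ι → Cob N (s + 1)} (hw : ∀ c, Cob.IsWt (((p : ℤ) - 1) * (w - d c)) (F c))
    (hF : DD θ (s + 1) F = 0) {y : ι → CC L} (hy : y ∈ PW p d w ⊤ s)
    (h0 : (fun c => resC hR (s + 1) (F c)) = cD p th s y) :
    ∃ Y : ι → Cob N s, (∀ c, Cob.IsWt (((p : ℤ) - 1) * (w - d c)) (Y c)) ∧ F = DD θ s Y := by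
  refine ⟨extT θ hR s y - hO θ hR s F, fun c => (Cob.wt N s _).sub_mem
    (isWt_extT hR hθ (fun c => (hy c).2.1) c) ?_, ?_⟩
  · simp only [mul_sub] at hθ hw ⊢
    exact isWt_hO hR hθ hw c
  · funext c'
    have h1 := homotopy_succ hR h F c'
    rw [h0, ← DD_extT hR h hL fun c => (hy c).1] at h1
    simp only [hF, hO, XX, Pi.zero_apply, map_zero, zero_mul, Finset.sum_const_zero,
      smul_zero, zero_add] at h1
    rw [map_sub, Pi.sub_apply, h1, sub_sub_cancel]

/-- sparseness -/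
theorem lift_sparse (h : MC θ) {D : ι → ℤ} (hθ : ∀ c c', Cob.IsWt (D c - D c') (θ c c')) {s : ℕ}
    {W : ℤ} {F : ι → Cob N (s + 1)} (hw : ∀ c, Cob.IsWt (W - D c) (F c))
    (hF : DD θ (s + 1) F = 0) (h0 : ∀ c, resC hR (s + 1) (F c) = 0) :
    ∃ Y : ι → Cob N s, (∀ c, Cob.IsWt (W - D c) (Y c)) ∧ F = DD θ s Y := by
  refine ⟨-hO θ hR s F, fun c => (isWt_hO hR hθ hw c).neg, ?_⟩
  funext c'
  have h1 := homotopy_succ hR h F c'
  simp only [hF, h0, hO, XX, extT, Pi.zero_apply, map_zero, zero_mul, Finset.sum_const_zero,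
    smul_zero, zero_add, zero_sub] at h1
  rw [map_neg, Pi.neg_apply, h1, neg_neg]

end Vale.Agent.P236EL

end
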