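import Vale.Agent.P236EL.LinkC
import Vale.Agent.P257.H314.Quot

/-!
# P236EL / LinkD : the link for `Laz / q`, and statements about integral cochains modulo `q`
-/

noncomputable section

namespace Vale.Agent.P236EL

open Vale.Agent.P251.F Vale.Agent.P251.F.F3 Vale.Agent.P257.H80 LawRing MvPolynomial

theorem ploc_zmod {p : ℕ} (hp : p.Prime) (e : ℕ) : PLoc p (ZMod (p ^ e)) := fun m hm =>
  (ZMod.isUnit_iff_coprime m (p ^ e)).2
    (Nat.Coprime.pow_right e ((Nat.Prime.coprime_iff_not_dvd hp).2 hm).symm)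

theorem invariant_span (q : ℕ) : LawRing.Invariant (Ideal.span {(q : Laz)}) := by
  intro B _ f x hx a ha
  obtain ⟨b, rfl⟩ := Ideal.mem_span_singleton'.1 ha
  have h := hx _ (Ideal.mem_span_singleton_self _)
  rw [map_natCast] at h
  rw [map_mul, map_natCast, h, mul_zero]

/-- the structure map of a ring in which `q = 0` -/
def zmodHom (q : ℕ) (N : Type) [CommRing N] (h : (q : N) = 0) : ZMod q →+* N :=
  ZMod.castHom (ringChar.dvd h) N

/-- quotients of the Lazard ring by an integer -/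
def rpQuot {p q : ℕ} (hq : PLoc p (ZMod q)) {J : Ideal Laz} (hJ : LawRing.Invariant J)
    (h : J = Ideal.span {(q : Laz)}) : @Rp p (Laz ⧸ J) (ZMod q) _ (LawRing.quotient J hJ) _ :=
  letI := LawRing.quotient J hJ
  { o := zmodHom q _ (by
      rw [← map_natCast (Ideal.Quotient.mk J), Ideal.Quotient.eq_zero_iff_mem, h]
      exact Ideal.mem_span_singleton_self _)
    uniq := fun _ _ o o' => RingHom.ext_zmod o o'
    epi := LawRing.epi_quotient LawRing.epi_laz J hJ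
    ex := fun B _ o F => ⟨Ideal.Quotient.lift J (Laz.lift F) fun a ha => by
        rw [h] at ha
        obtain ⟨b, rfl⟩ := Ideal.mem_span_singleton'.1 ha
        rw [map_mul, map_natCast, ← map_natCast o, ZMod.natCast_self, map_zero, mul_zero], by
      change (Laz.univ.map (Ideal.Quotient.mk J)).map _ = F
      rw [Law.map_map, Ideal.Quotient.lift_comp_mk, Laz.univ_map_lift]⟩
    loc := hq }

/-- `Laz / q` -/
abbrev QZ (q : ℕ) : Type := Laz ⧸ Ideal.span {(q : Laz)}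

instance instLawRingQZ (q : ℕ) : LawRing (QZ q) := LawRing.quotient _ (invariant_span q)

theorem isLawHom_mkZ (q : ℕ) : IsLawHom (Ideal.Quotient.mk (Ideal.span {(q : Laz)})) :=
  IsLawHom.of_epi LawRing.epi_laz rfl

/-- `Laz / q` represents laws over `ZMod q`-algebras -/
def rpQZ {p q : ℕ} (hq : PLoc p (ZMod q)) : Rp p (QZ q) (ZMod q) :=
  rpQuot hq (invariant_span q) rfl

theorem lazI_one (p : ℕ) : Laz.I p 1 = Ideal.span {(p : Laz)} := by
  rw [Laz.I, Ih]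
  congr 1
  ext x
  simp [vv_zero, eq_comm]

theorem ploc_zmod_one {p : ℕ} (hp : p.Prime) : PLoc p (ZMod p) := by
  have h := ploc_zmod hp 1
  rwa [pow_one] at h

/-- `Laz / I_1` represents laws over `ZMod p`-algebras -/
def rpQI (p : ℕ) [hp : Fact p.Prime] : Rp p (Vale.Agent.P257.H314.QI p 1) (ZMod p) :=
  rpQuot (ploc_zmod_one hp.out) (Vale.Agent.P257.H314.invariant_I p 1) (lazI_one p)

section main

variable {p : ℕ} [hp : Fact p.Prime] {L N : Type} [CommRing L] [CommRing N] [LawRing N]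
  (hR : Rp p N L)

/-- restriction of charts -/
def resP (ι : Type) (s : ℕ) : (ι → Cob N s) →+ (ι → CC L) := pw ι (resC hR s).toAddMonoidHom

theorem resP_apply {ι : Type} {s : ℕ} (F : ι → Cob N s) (c : ι) :
    resP hR ι s F c = resC hR s (F c) := rfl

variable (p) in
/-- charts of weight `w` -/
def CW (N : Type) [CommRing N] [LawRing N] {ι : Type} (d : ι → ℤ) (w : ℤ) (s : ℕ) :
    AddSubgroup (ι → Cob N s) where
  carrier := {F | ∀ c, Cob.IsWt (((p : ℤ) - 1) * (w - d c)) (F c)}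
  zero_mem' _ := Cob.isWt_zero _
  add_mem' ha hb c := (ha c).add (hb c)
  neg_mem' ha c := (ha c).neg

theorem resP_mem {ι : Type} {d : ι → ℤ} {w : ℤ} {s : ℕ} {F : ι → Cob N s} (hF : F ∈ CW p N d w s) :
    resP hR ι s F ∈ PW p d w ⊤ s := fun c =>
  ⟨resC_mem_Loc hR s _, resC_mem_WC hR (hF c), by rw [Fil_top]; trivial⟩

theorem resP_cup {ι : Type} {m s : ℕ} (t : Cob N m) (F : ι → Cob N s) :
    resP hR ι (m + s) (fun c => Cob.cup t (F c)) = cup p ι m (resC hR m t) (resP hR ι s F) :=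
  funext fun c => resC_cup hR t (F c)

omit hp in
theorem DD_mem_CW {ι : Type} [Fintype ι] {θ : ι → ι → Cob N 1} {d : ι → ℤ}
    (hθ : ∀ c c', Cob.IsWt (((p : ℤ) - 1) * (d c - d c')) (θ c c')) {w : ℤ} {s : ℕ}
    {F : ι → Cob N s} (hF : F ∈ CW p N d w s) : DD θ s F ∈ CW p N d w (s + 1) := fun c' => by
  refine (hF c').d.add (Cob.IsWt.zsmul ((Cob.wt N _ _).sum_mem fun c _ => ?_) _)
  rw [← sub_add_sub_cancel w (d c) (d c'), mul_add]
  exact (hF c).cup (hθ c c')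

variable {G : ℕ → Type} [∀ q, Fintype (G q)] [DecidableEq (G 0)] {R : Rs p L G}
  {F : Type} [Field F] {π : L →+* F} {r : ℕ} {T w : ℤ} {θ : G 0 → G 0 → Cob N 1}

/-- the hypotheses on the coaction -/
structure Cell (R : Rs p L G) (θ : G 0 → G 0 → Cob N 1) : Prop where
  mc : MC θ
  lk : Lk θ hR R.th
  wt : ∀ c c', Cob.IsWt (((p : ℤ) - 1) * (R.deg 0 c - R.deg 0 c')) (θ c c')

theorem span_aux (hC : Cell hR R θ) {s : ℕ} (h : R.Ok π r (s + 1) T) (hr : 1 ≤ r) (hw : w ≤ T)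
    {𝒵 : AddSubgroup (G 0 → Cob N s)} (h𝒵 : ∀ z ∈ 𝒵, DD θ s z = 0) {m j : ℕ}
    (hm : (p : L) ^ m = 0) (hj : ∀ c, w - R.deg 0 c < j)
    (h3 : ∀ k < m + j, R.K3 r s w (𝒵.map (resP hR _ s)) k) {x : G 0 → Cob N s}
    (hx : x ∈ CW p N (R.deg 0) w s) (hx' : DD θ s x = 0) :
    ∃ y ∈ PW p (R.deg 0) w ⊤ (s - 1), ∃ z ∈ 𝒵, resP hR _ s (x - z) = R.dv s 0 y := by
  have h0 : ∀ z : G 0 → Cob N s, DD θ s z = 0 → cD p R.th s (resP hR _ s z) = 0 := fun z hz => by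
    have h1 := resC_DD hR hC.lk s z
    rw [hz] at h1
    exact h1.symm.trans (funext fun c => map_zero _)
  obtain ⟨y, hy, _, ⟨z, hz, rfl⟩, h4⟩ := Rs.span_of_K3 h hr (coc_of_Lk hR hC.mc hC.lk) hw
    (𝒵 := 𝒵.map (resP hR _ s)) (by rintro _ ⟨z, hz, rfl⟩; exact h0 z (h𝒵 z hz))
    (Nat.zero_le (m + j)) (fun k _ hk => h3 k hk) (PW_mono (by simp) (resP_mem hR hx)) (h0 x hx')
  refine ⟨y, PW_mono le_top hy, z, hz, ?_⟩
  rw [map_sub, ← sub_eq_zero, sub_right_comm]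
  exact eq_zero_of_PW hm hj h4

/-- **the cohomology in positive degree is spanned by `𝒵`** -/
theorem cob_span_succ (hC : Cell hR R θ) {s : ℕ} (h : R.Ok π r (s + 2) T) (hr : 1 ≤ r)
    (hw : w ≤ T) {𝒵 : AddSubgroup (G 0 → Cob N (s + 1))}
    (h𝒵 : ∀ z ∈ 𝒵, z ∈ CW p N (R.deg 0) w (s + 1) ∧ DD θ (s + 1) z = 0) {m j : ℕ}
    (hm : (p : L) ^ m = 0) (hj : ∀ c, w - R.deg 0 c < j)
    (h3 : ∀ k < m + j, R.K3 r (s + 1) w (𝒵.map (resP hR _ (s + 1))) k) {x : G 0 → Cob N (s + 1)}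
    (hx : x ∈ CW p N (R.deg 0) w (s + 1)) (hx' : DD θ (s + 1) x = 0) :
    ∃ y ∈ CW p N (R.deg 0) w s, ∃ z ∈ 𝒵, x = DD θ s y + z := by
  obtain ⟨y, hy, z, hz, h4⟩ := span_aux hR hC h hr hw (fun z hz => (h𝒵 z hz).2) hm hj h3 hx hx'
  obtain ⟨Y, hY, h5⟩ := lift_succ hR hC.mc hC.lk hC.wt (sub_mem hx (h𝒵 z hz).1)
    (by rw [map_sub, hx', (h𝒵 z hz).2, sub_zero]) hy h4
  exact ⟨Y, hY, z, hz, by rw [← h5, sub_add_cancel]⟩

/-- **the cohomology in degree zero is `𝒵`** -/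
theorem cob_span_zero (hC : Cell hR R θ) (h : R.Ok π r 1 T) (hr : 1 ≤ r)
    (hw : w ≤ T) {𝒵 : AddSubgroup (G 0 → Cob N 0)} (h𝒵 : ∀ z ∈ 𝒵, DD θ 0 z = 0) {m j : ℕ}
    (hm : (p : L) ^ m = 0) (hj : ∀ c, w - R.deg 0 c < j)
    (h3 : ∀ k < m + j, R.K3 r 0 w (𝒵.map (resP hR _ 0)) k) {x : G 0 → Cob N 0}
    (hx : x ∈ CW p N (R.deg 0) w 0) (hx' : DD θ 0 x = 0) : x ∈ 𝒵 := by
  obtain ⟨y, -, z, hz, h4⟩ := span_aux hR hC h hr hw h𝒵 hm hj h3 hx hx'
  have h5 := lift_zero hR hC.mc (F := x - z) (by rw [map_sub, hx', h𝒵 z hz, sub_zero])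
    (congrFun h4)
  rwa [sub_eq_zero.1 h5]

end main

/-! ### integral charts -/

section integral

variable {N M : Type} [CommRing N] [CommRing M] [LawRing N] [LawRing M] {φ : N →+* M}
  {ι : Type} [Fintype ι]

theorem mapRing_DD (hφ : IsLawHom φ) (θ : ι → ι → Cob N 1) (s : ℕ) (F : ι → Cob N s) (c : ι) :
    Cob.mapRing φ (s + 1) (DD θ s F c) =
      DD (fun a b => Cob.mapRing φ 1 (θ a b)) s (fun a => Cob.mapRing φ s (F a)) c := by
  simp only [DD_apply, map_add, map_zsmul, map_sum, Cob.mapRing_d hφ, Cob.mapRing_cup hφ]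

theorem MC.mapRing (hφ : IsLawHom φ) {θ : ι → ι → Cob N 1} (h : MC θ) :
    MC fun a b => Cob.mapRing φ 1 (θ a b) := by
  refine ⟨fun c c'' => ?_, fun c c' => by rw [← Cob.mapRing_map hφ, h.unit, map_zero]⟩
  have h1 := congrArg (Cob.mapRing φ 2) (h.mc c c'')
  rw [map_add, map_sum, map_zero, Cob.mapRing_d hφ] at h1
  rw [← h1]
  congr 1
  exact Finset.sum_congr rfl fun c' _ => (Cob.mapRing_cup hφ (a := 1) (b := 1) _ _).symm

/-- reduction modulo `q` -/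
abbrev rq (q s : ℕ) : Cob Laz s →+* Cob (QZ q) s :=
  Cob.mapRing (Ideal.Quotient.mk (Ideal.span {(q : Laz)})) s

theorem rq_eq_zero_iff {q s : ℕ} {z : Cob Laz s} : rq q s z = 0 ↔ ∃ u, z = q • u := by
  rw [rq, Cob.mapRing, ← RingHom.mem_ker, MvPolynomial.ker_map, Ideal.mk_ker, Ideal.map_span,
    Set.image_singleton, map_natCast, Ideal.mem_span_singleton']
  simp only [nsmul_eq_mul, mul_comm, eq_comm]

theorem exists_wt_of_rq {q s : ℕ} {W : ℤ} {z : Cob Laz s} (hz : Cob.IsWt W z)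
    (h : rq q s z = 0) : ∃ u, Cob.IsWt W u ∧ z = q • u := by
  obtain ⟨u, rfl⟩ := rq_eq_zero_iff.1 h
  exact ⟨_, Cob.isWt_pr W u, by rw [← map_nsmul, Cob.pr_eq_self hz]⟩

theorem exists_lift_rq {q s : ℕ} {W : ℤ} {z : Cob (QZ q) s} (hz : Cob.IsWt W z) :
    ∃ u, Cob.IsWt W u ∧ rq q s u = z := by
  obtain ⟨y, rfl⟩ := Cob.mapRing_surjective (n := s) Ideal.Quotient.mk_surjective z
  refine ⟨_, Cob.isWt_pr W y, ?_⟩
  have h1 := Cob.pr_comm (rq q s).toAddMonoidHom (fun w x hx => hx.mapRing (isLawHom_mkZ q)) W y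
  exact h1.symm.trans (Cob.pr_eq_self hz)

/-- a coboundary modulo `q` -/
theorem exists_of_rq {p q : ℕ} {θ : ι → ι → Cob Laz 1} {d : ι → ℤ}
    (hθ : ∀ c c', Cob.IsWt (((p : ℤ) - 1) * (d c - d c')) (θ c c')) {w : ℤ} {s : ℕ}
    {x : ι → Cob Laz (s + 1)} (hx : x ∈ CW p Laz d w (s + 1)) {y : ι → Cob (QZ q) s}
    (hy : y ∈ CW p (QZ q) d w s)
    (h : (fun c => rq q (s + 1) (x c)) = DD (fun a b => rq q 1 (θ a b)) s y) :
    ∃ Y ∈ CW p Laz d w s, ∃ u ∈ CW p Laz d w (s + 1), x = DD θ s Y + q • u := by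
  choose Y hY hY' using fun c => exists_lift_rq (hy c)
  have h1 : ∀ c, rq q (s + 1) ((x - DD θ s Y) c) = 0 := fun c => by
    rw [Pi.sub_apply, map_sub, mapRing_DD (isLawHom_mkZ q), funext hY', congrFun h c, sub_self]
  choose u hu hu' using fun c => exists_wt_of_rq (sub_mem hx (DD_mem_CW hθ hY) c) (h1 c)
  exact ⟨Y, hY, u, hu, by rw [← show x - DD θ s Y = q • u from funext hu', add_sub_cancel]⟩

end integral

end Vale.Agent.P236EL

end
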