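import Vale.Agent.P236EL.Hs

/-!
# P236EL / Log : logarithms of Hazewinkel laws and of the targets of formal sums
-/

noncomputable section

namespace Vale.Agent.P236EL

open MvPowerSeries Vale.Agent.P217 Vale.Agent.P251.F Vale.Agent.P257.H80

variable (p : ℕ) {A B : Type*} [CommRing A] [CommRing B]

/-- evaluation of integral polynomials in `v_1, v_2, …` -/
def evA (v : ℕ → B) : MvPolynomial ℕ ℤ →+* B := MvPolynomial.eval₂Hom (Int.castRingHom B) v

@[simp] theorem evA_X (v : ℕ → B) (i : ℕ) : evA v (MvPolynomial.X i) = v i := by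
  simp [evA]

theorem hom_ext_Z {σ : Type*} {f g : MvPolynomial σ ℤ →+* B}
    (h : ∀ i, f (MvPolynomial.X i) = g (MvPolynomial.X i)) : f = g :=
  MvPolynomial.ringHom_ext' (RingHom.ext_int _ _) h

theorem comp_evA (φ : A →+* B) (v : ℕ → A) : φ.comp (evA v) = evA fun i => φ (v i) :=
  hom_ext_Z fun i => by simp

theorem map_evA (φ : A →+* B) (v : ℕ → A) (a : MvPolynomial ℕ ℤ) :
    φ (evA v a) = evA (fun i => φ (v i)) a := by
  rw [← comp_evA]
  rfl

/-- the sequence `1, t_1, t_2, …` -/
def one1 (t : ℕ → B) : ℕ → B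
  | 0 => 1
  | n + 1 => t n

@[simp] theorem one1_zero (t : ℕ → B) : one1 t 0 = 1 := rfl
@[simp] theorem one1_succ (t : ℕ → B) (n : ℕ) : one1 t (n + 1) = t n := rfl

theorem map_one1 (φ : A →+* B) (t : ℕ → A) (n : ℕ) :
    φ (one1 t n) = one1 (fun i => φ (t i)) n := by
  rcases n with _ | n
  · exact map_one φ
  · rfl

/-- the series `∑ l_i x^{p^i}` -/
def logV (l : ℕ → B) : PowerSeries B :=
  PowerSeries.mk fun m => if m = p ^ Nat.log p m then l (Nat.log p m) else 0

variable [hp : Fact p.Prime]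

theorem logV_pow (l : ℕ → B) (k : ℕ) : PowerSeries.coeff (p ^ k) (logV p l) = l k := by
  rw [logV, PowerSeries.coeff_mk, Nat.log_pow hp.out.one_lt, if_pos rfl]

omit hp in
theorem logV_ne (l : ℕ → B) {m : ℕ} (hm : ∀ k, m ≠ p ^ k) : PowerSeries.coeff m (logV p l) = 0 := by
  rw [logV, PowerSeries.coeff_mk, if_neg (hm _)]

theorem logV_cc (l : ℕ → B) : PowerSeries.constantCoeff (logV p l) = 0 := by
  rw [← PowerSeries.coeff_zero_eq_constantCoeff_apply]
  exact logV_ne p l fun k => (one_le_pp p k).trans_lt' Nat.zero_lt_one |>.ne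

theorem logV_mem (l : ℕ → B) : logV p l ∈ ordI Unit B 1 := mem_ordI_one.2 (logV_cc p l)

/-- the invertible series `x + ∑ l_{i+1} x^{p^{i+1}}` -/
def logI (l : ℕ → B) : InvSeries B :=
  ⟨logV p (one1 l), logV_cc p _, by
    have h := logV_pow p (one1 l) 0
    rw [pow_zero] at h
    rw [h]
    exact isUnit_one⟩

theorem logI_val (l : ℕ → B) : (logI p l).val = logV p (one1 l) := rfl

theorem logI_injective {l l' : ℕ → B} (h : logI p l = logI p l') : l = l' := by
  funext n
  have h1 := congrArg (fun f : InvSeries B => PowerSeries.coeff (p ^ (n + 1)) f.val) h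
  simpa only [logI_val, logV_pow, one1_succ] using h1

theorem coeff_subst_mono (g : PowerSeries B) (a : B) {q : ℕ} (hq : 1 ≤ q) (m : ℕ) :
    PowerSeries.coeff m (PowerSeries.subst (mono a q) g : PowerSeries B) =
      ∑ k ∈ Finset.range (m + 1), if m = q * k then PowerSeries.coeff k g * a ^ k else 0 := by
  have h0 : constantCoeff (mono a q : MvPowerSeries Unit B) = 0 :=
    mem_ordI_one.1 (ordI_anti hq (mono_mem a q))
  have h := hz_coeff_subst g h0 (Finsupp.single () m) (M := m + 1) (by simp)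
  refine h.trans (Finset.sum_congr rfl fun k _ => ?_)
  have h1 : (mono a q) ^ k = mono (a ^ k) (q * k) := by
    rw [mono, mono, mul_pow, ← map_pow, ← pow_mul]
  have h2 : coeff (Finsupp.single () m) ((mono a q : MvPowerSeries Unit B) ^ k) =
      PowerSeries.coeff m ((mono a q) ^ k) := rfl
  rw [h2, h1, coeff_mono]
  split_ifs <;> simp

theorem coeff_subst_mono_pow (l : ℕ → B) (a : B) (j n : ℕ) :
    PowerSeries.coeff (p ^ n) (PowerSeries.subst (mono a (p ^ j)) (logV p l) : PowerSeries B) =
      if j ≤ n then l (n - j) * a ^ p ^ (n - j) else 0 := by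
  rw [coeff_subst_mono _ _ (one_le_pp p j)]
  split_ifs with h
  · have h1 : p ^ n = p ^ j * p ^ (n - j) := by rw [← pow_add, Nat.add_sub_cancel' h]
    rw [Finset.sum_eq_single (p ^ (n - j)), if_pos h1, logV_pow]
    · intro k _ hk
      rw [if_neg]
      intro h2
      rw [h1] at h2
      exact hk (Nat.eq_of_mul_eq_mul_left (one_le_pp p j) h2).symm
    · intro h2
      exfalso
      apply h2
      rw [Finset.mem_range, Nat.lt_succ_iff]
      exact Nat.pow_le_pow_right hp.out.pos (by omega)
  · refine Finset.sum_eq_zero fun k _ => ?_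
    rw [if_neg]
    intro h2
    have h3 : p ^ j ∣ p ^ n := ⟨k, h2⟩
    exact h ((Nat.pow_dvd_pow_iff_le_right hp.out.one_lt).1 h3)

theorem coeff_subst_mono_ne (l : ℕ → B) (a : B) (j : ℕ) {m : ℕ} (hm : ∀ k, m ≠ p ^ k) :
    PowerSeries.coeff m (PowerSeries.subst (mono a (p ^ j)) (logV p l) : PowerSeries B) = 0 := by
  rw [coeff_subst_mono _ _ (one_le_pp p j)]
  refine Finset.sum_eq_zero fun k _ => ?_
  split_ifs with h
  · rw [logV_ne, zero_mul]
    rintro i rfl
    exact hm (j + i) (by rw [h, pow_add])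
  · rfl

theorem subst_gS {F : Law B} {L : InvSeries B} (h : L • F = addLaw B) (t : ℕ → B) (n : ℕ) :
    (PowerSeries.subst (gS p F t n) L.val : PowerSeries B) =
      ∑ j ∈ Finset.range (n + 1), PowerSeries.subst (mono (one1 t j) (p ^ j)) L.val := by
  have hL : L.val ∈ ordI Unit B 1 := mem_ordI_one.2 L.cc
  induction n with
  | zero => simp [gS, mono]
  | succ n ih =>
    have h1 := InvSeries.isHom_smul L F
    rw [h] at h1
    have h2 := h1.substL (hasSubst_of_mem (gS_mem p F t n))
      (hasSubst_of_mem (mono_mem_one p (t n) (n + 1)))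
    have ha := psubst_mem_ordI (gS_mem p F t n) hL
    have hb := psubst_mem_ordI (mono_mem_one p (t n) (n + 1)) hL
    have h3 := subst_X_pair_add ha hb (addLaw B).ps
    rw [addLaw_ps, sub_self, ← coe_substAlgHom (hasSubst_of_ordI (pair_mem ha hb)), map_zero,
      zero_add, coe_substAlgHom] at h3
    rw [Finset.sum_range_succ, ← ih, gS]
    exact h2.trans h3

/-- the coefficients of the logarithm of the target -/
def lt (l t : ℕ → B) (n : ℕ) : B :=
  ∑ j ∈ Finset.range (n + 2), one1 l (n + 1 - j) * one1 t j ^ p ^ (n + 1 - j)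

/-- **The logarithm of the target of a formal sum.** -/
theorem logI_mul_hs {F : Law B} {l : ℕ → B} (h : logI p l • F = addLaw B) (t : ℕ → B) :
    logI p l * hs p F t = logI p (lt p l t) := by
  ext m
  have h1 : (PowerSeries.subst (hV p F t) (logI p l).val : PowerSeries B) -
      PowerSeries.subst (gS p F t m) (logI p l).val ∈ ordI Unit B (p ^ (m + 1) - 1 + 1) := by
    refine subst_sub_subst_mem_ordI (σ := Unit) (a := fun _ => hV p F t)
      (b := fun _ => gS p F t m) (fun _ => mem_ordI_one.2 (cc_hV p F t))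
      (fun _ => gS_mem p F t m) (fun _ => ?_) (logV_mem p _)
    rw [Nat.sub_add_cancel (one_le_pp p _)]
    exact hV_sub p F t m
  have h2 := mem_ordI_unit.1 h1 m (by
    rw [Nat.sub_add_cancel (one_le_pp p _)]
    exact (lt_pp p m).trans (pp_lt_succ p m))
  rw [map_sub, sub_eq_zero, subst_gS p h, map_sum] at h2
  rw [InvSeries.mul_val, hs_val, h2, logI_val, logI_val]
  by_cases hm : ∃ k, m = p ^ k
  · obtain ⟨k, rfl⟩ := hm
    rw [logV_pow]
    simp only [coeff_subst_mono_pow]
    rw [← Finset.sum_filter]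
    have h3 : (Finset.range (p ^ k + 1)).filter (· ≤ k) = Finset.range (k + 1) := by
      ext j
      have := lt_pp p k
      simp only [Finset.mem_filter, Finset.mem_range]
      omega
    rw [h3]
    rcases k with _ | k
    · simp
    · rfl
  · push Not at hm
    rw [logV_ne p _ hm]
    exact Finset.sum_eq_zero fun j _ => coeff_subst_mono_ne p _ _ j hm

/-! ### Hazewinkel laws -/

/-- the Hazewinkel law with parameters `v` -/
def hz (v : ℕ → B) : Law B := (haz p).map (evA v)

theorem map_hz (φ : A →+* B) (v : ℕ → A) : (hz p v).map φ = hz p fun i => φ (v i) := by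
  rw [hz, Law.map_map, comp_evA, hz]

theorem hz_compare {v v' : ℕ → B} {k : ℕ} (h : ∀ j < k, v j = v' j) :
    (hz p v).ps - (hz p v').ps ∈ ordI (Fin 2) B (p ^ (k + 1)) ∧
    xC (hz p v) (p ^ (k + 1) - 2) - xC (hz p v') (p ^ (k + 1) - 2) = -(v k - v' k) := by
  have h1 := haz_compare p (φ := evA v) (φ' := evA v') (k := k) (by simpa using h)
  rw [evA_X, evA_X] at h1
  exact h1

theorem hz_injective {v v' : ℕ → B} (h : hz p v = hz p v') : v = v' := by
  funext n
  induction n using Nat.strong_induction_on with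
  | _ n ih =>
    have h1 := (hz_compare p (k := n) ih).2
    rw [h, sub_self] at h1
    exact sub_eq_zero.1 (neg_eq_zero.1 h1.symm)

theorem hz_descend {ι : A →+* B} (F : Law A) (w : ℕ → B) (h : F.map ι = hz p w) (k : ℕ) :
    w k ∈ ι.range := by
  classical
  induction k using Nat.strong_induction_on with
  | _ k ih =>
    choose s hs' using ih
    set w' : ℕ → A := fun j => if hj : j < k then s j hj else 0 with hw'
    have h1 := (hz_compare p (v := w) (v' := fun j => ι (w' j)) (k := k)
      (fun j hj => by simp only [hw']; rw [dif_pos hj, hs'])).2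
    rw [← h, ← map_hz, ← map_xC, ← map_xC] at h1
    simp only [hw', lt_irrefl, dif_neg, not_false_eq_true, map_zero, sub_zero] at h1
    exact ⟨_, by rw [← neg_neg (w k), ← h1, ← map_sub, ← map_neg]⟩

theorem hz_lin (u : Bˣ) (v : ℕ → B) :
    hz p (fun k => (u : B) ^ (p ^ (k + 1) - 1) * v k) = (InvSeries.lin u)⁻¹ • hz p v :=
  haz_lin p u fun k => by simp

section rat

variable {K : Type*} [CommRing K] [Algebra ℚ K]

/-- the coefficients of the logarithm -/
def el (v : ℕ → K) (n : ℕ) : K := MvPolynomial.aeval v (ell p (n + 1))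

omit hp in
theorem one1_el (v : ℕ → K) (n : ℕ) : one1 (el p v) n = MvPolynomial.aeval v (ell p n) := by
  rcases n with _ | n
  · rw [ell_zero, map_one]; rfl
  · rfl

omit hp in
theorem el_eq (v : ℕ → K) (n : ℕ) : el p v n = algebraMap ℚ K (1 / p) *
    ∑ i ∈ Finset.range (n + 1), one1 (el p v) i * v (n - i) ^ p ^ i := by
  rw [el, ell_succ, map_mul, map_sum, MvPolynomial.aeval_C]
  congr 1
  refine Finset.sum_congr rfl fun i _ => ?_
  rw [map_mul, map_pow, MvPolynomial.aeval_X, one1_el]

theorem logI_smul_hz (v : ℕ → K) : logI p (el p v) • hz p v = addLaw K := by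
  set ψ : MvPolynomial ℕ ℚ →+* K := (MvPolynomial.aeval v : MvPolynomial ℕ ℚ →ₐ[ℚ] K).toRingHom
    with hψ
  have h1 : ψ.comp hzI = evA v := hom_ext_Z fun i => by simp [hψ]
  have h2 : InvSeries.map ψ (hazInv p) = logI p (el p v) := by
    ext m
    rw [InvSeries.map_val, PowerSeries.coeff_map, logI_val]
    change ψ (PowerSeries.coeff m (hazLog p)) = _
    by_cases hm : ∃ k, m = p ^ k
    · obtain ⟨k, rfl⟩ := hm
      rw [hazLog_coeff_pow, logV_pow, one1_el]
      rfl
    · push Not at hm
      rw [hazLog_coeff_of_ne p hm, logV_ne p _ hm, map_zero]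
  rw [hz, ← h1, ← Law.map_map, haz_map, hazQ, InvSeries.map_smul, map_inv, h2, map_addLaw,
    smul_inv_smul]

omit hp in
theorem el_congr {v v' : ℕ → K} {k : ℕ} (h : ∀ j < k, v j = v' j) (m : ℕ) (hm : m ≤ k) :
    one1 (el p v) m = one1 (el p v') m := by
  induction m using Nat.strong_induction_on with
  | _ m ih =>
    rcases m with _ | m
    · rfl
    · rw [one1_succ, one1_succ, el_eq, el_eq]
      congr 1
      refine Finset.sum_congr rfl fun i hi => ?_
      rw [Finset.mem_range] at hi
      rw [ih i hi (by omega), h _ (by omega)]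

omit hp in
theorem el_sub {v v' : ℕ → K} {k : ℕ} (h : ∀ j < k, v j = v' j) :
    el p v k - el p v' k = algebraMap ℚ K (1 / p) * (v k - v' k) := by
  rw [el_eq, el_eq, ← mul_sub, Finset.sum_range_succ', Finset.sum_range_succ']
  have h1 : ∀ i ∈ Finset.range k, one1 (el p v) (i + 1) * v (k - (i + 1)) ^ p ^ (i + 1) =
      one1 (el p v') (i + 1) * v' (k - (i + 1)) ^ p ^ (i + 1) := by
    intro i hi
    rw [Finset.mem_range] at hi
    rw [el_congr p h (i + 1) (by omega), h _ (by omega)]
  rw [Finset.sum_congr rfl h1]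
  simp

theorem exists_el (l : ℕ → K) : ∃ v : ℕ → K, el p v = l := by
  obtain ⟨v, hv, -⟩ := exists_unique_triangular (fun v n => el p v n - l n)
    (fun _ => algebraMap ℚ K (1 / p))
    (fun _ => (IsUnit.mk0 _ (one_div_ne_zero (by exact_mod_cast hp.out.ne_zero))).map _)
    (fun n v v' h => by
      rw [← el_sub p h]
      ring)
  exact ⟨v, funext fun n => sub_eq_zero.1 (hv n)⟩

theorem exists_tg_rat (v t : ℕ → K) :
    ∃ w : ℕ → K, (hs p (hz p v) t)⁻¹ • hz p v = hz p w := by
  obtain ⟨w, hw⟩ := exists_el p (lt p (el p v) t)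
  refine ⟨w, ?_⟩
  have h1 := logI_smul_hz p w
  rw [hw, ← logI_mul_hs p (logI_smul_hz p v), mul_smul, ← logI_smul_hz p v] at h1
  rw [inv_smul_eq_iff]
  exact (MulAction.injective _ h1).symm

theorem el_of_tg {v t w : ℕ → K} (h : (hs p (hz p v) t)⁻¹ • hz p v = hz p w) :
    el p w = lt p (el p v) t := by
  obtain ⟨w', hw⟩ := exists_el p (lt p (el p v) t)
  have h1 := logI_smul_hz p w'
  rw [hw, ← logI_mul_hs p (logI_smul_hz p v), mul_smul, ← logI_smul_hz p v] at h1
  rw [inv_smul_eq_iff] at h
  have h2 := MulAction.injective _ ((MulAction.injective _ h1).trans h)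
  rw [← hz_injective p h2, hw]

end rat

end Vale.Agent.P236EL

end
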