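import Vale.Agent.P236EL.Line

/-!
# P236EL / Nat : naturality of the comparison map for cellular maps
-/

noncomputable section

namespace Vale.Agent.P236EL

open Vale.Agent.P251.F Vale.Agent.P251.F.F3 Vale.Agent.P257.H80 LawRing MvPolynomial Ch

section zm

variable {ι κ ι' κ' : Type} [Fintype ι] {M N : Type*} [AddCommGroup M] [AddCommGroup N]

variable (M) in
/-- an integral matrix -/
def zm (f : ι → κ → ℤ) : (ι → M) →+ (κ → M) := mat fun i k => f i k • AddMonoidHom.id M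

theorem zm_apply (f : ι → κ → ℤ) (u : ι → M) (k : κ) : zm M f u k = ∑ i, f i k • u i := rfl

theorem pw_zm (φ : M →+ N) (f : ι → κ → ℤ) (u : ι → M) :
    pw κ φ (zm M f u) = zm N f (pw ι φ u) := by
  funext k
  simp only [pw_apply, zm_apply, map_sum, map_zsmul]

theorem mat_zm [Fintype κ] [Fintype ι'] {A : ι → ι' → M →+ N} {A' : κ → κ' → M →+ N}
    {f : ι → κ → ℤ} {g : ι' → κ' → ℤ}
    (h : ∀ i k' x, ∑ k, f i k • A' k k' x = ∑ i', g i' k' • A i i' x) (u : ι → M) :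
    mat A' (zm M f u) = zm N g (mat A u) := by
  funext k'
  simp only [mat_apply, zm_apply, map_sum, map_zsmul, Finset.smul_sum]
  rw [Finset.sum_comm, Finset.sum_congr rfl fun i _ => h i k' (u i), Finset.sum_comm]

theorem zm_mem {f : ι → κ → ℤ} {u : ι → M} {k : κ} {S : AddSubgroup M}
    (h : ∀ i, f i k ≠ 0 → u i ∈ S) : zm M f u k ∈ S := by
  rw [zm_apply]
  refine sum_mem fun i _ => ?_
  by_cases h0 : f i k = 0
  · rw [h0, zero_smul]
    exact zero_mem _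
  · exact zsmul_mem (h i h0) _

/-- the matrix `f` has degree `ω` -/
def Dg (f : ι → κ → ℤ) (d : ι → ℤ) (d' : κ → ℤ) (ω : ℤ) : Prop :=
  ∀ i k, f i k ≠ 0 → d' k = d i + ω

end zm

theorem zig_nat {E E' : ℕ → Type} [∀ q, AddCommGroup (E q)] [∀ q, AddCommGroup (E' q)]
    {f : ℕ → (q : ℕ) → E q →+ E (q + 1)} {f' : ℕ → (q : ℕ) → E' q →+ E' (q + 1)}
    (g : (q : ℕ) → E q → E' q) (h : ∀ n q x, f' n q (g q x) = g (q + 1) (f n q x))
    (n q s : ℕ) (h1 : q + n = s) (x : E q) : zig f' n q s h1 (g q x) = g s (zig f n q s h1 x) := by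
  induction n generalizing q with
  | zero =>
    obtain rfl : q = s := h1
    rfl
  | succ n ih => rw [zig_succ, zig_succ, h, ih]

variable {p : ℕ} [hp : Fact p.Prime] {L : Type} [CommRing L]

section mem

variable {ι κ : Type} [Fintype ι] {f : ι → κ → ℤ} {d : ι → ℤ} {d' : κ → ℤ} {ω w : ℤ}
  {K : Ideal (AA L)} {s : ℕ}

omit hp in
theorem zm_mem_ZA (f : ι → κ → ℤ) {u : ι → AA L} (hu : u ∈ ZA ι K) : zm _ f u ∈ ZA κ K :=
  fun _ => zm_mem (S := K.toAddSubgroup) fun i _ => hu i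

omit hp in
theorem zm_mem_PA (h : Dg f d d' ω) {u : ι → AA L} (hu : u ∈ PA p d w K) :
    zm _ f u ∈ PA p d' (w + ω) K := fun k =>
  ⟨zm_mem fun i hi => by rw [h i k hi, add_sub_add_right_eq_sub]; exact (hu i).1,
    zm_mem_ZA f (fun i => (hu i).2) k⟩

omit hp in
theorem zm_mem_CW {N : Type} [CommRing N] [LawRing N] (h : Dg f d d' ω) {x : ι → Cob N s}
    (hx : x ∈ CW p N d w s) : zm _ f x ∈ CW p N d' (w + ω) s := fun k =>
  zm_mem (S := Cob.wt N s _) fun i hi => by rw [h i k hi, add_sub_add_right_eq_sub]; exact hx i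

omit hp in
theorem zm_mem_QW {N : Type} [CommRing N] [LawRing N] (h : Dg f d d' ω) {q : ℕ} {x : ι → Cob N s}
    (hx : x ∈ QW p N d w q s) : zm _ f x ∈ QW p N d' (w + ω) q s := by
  obtain ⟨u, hu, rfl⟩ := mem_QW.1 hx
  exact mem_QW.2 ⟨_, zm_mem_CW h hu, (map_nsmul _ _ _).symm⟩

theorem zm_mem_Fl {Q : ℕ} {hQ : PLoc p (ZMod Q)} (f : ι → κ → ℤ) {K : Ideal (AA (ZMod Q))}
    {x : ι → Cob Laz s} (hx : x ∈ Fl hQ ι s K) : zm _ f x ∈ Fl hQ κ s K := fun k => by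
  rw [rsP, pw_zm]
  exact zm_mem (S := (Fil p K).toAddSubgroup) fun i _ => hx i

variable {N : Type} [CommRing N] [LawRing N] [Fintype κ] {θ : ι → ι → Cob N 1}
  {θ' : κ → κ → Cob N 1}

omit hp in
theorem DD_zm (h : ∀ c k', ∑ k, f c k • θ' k k' = ∑ c', f c' k' • θ c c') (x : ι → Cob N s) :
    DD θ' s (zm _ f x) = zm _ f (DD θ s x) := by
  have h1 := mat_zm (f := f) (g := f) (A := fun c c' => (cupH (a := s) rfl).flip (θ c c'))
    (A' := fun c c' => (cupH rfl).flip (θ' c c'))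
    (fun c k' y => by simp only [AddMonoidHom.flip_apply, ← map_zsmul, ← map_sum, h]) x
  have h2 : mc rfl (zm _ f x) θ' = zm _ f (mc rfl x θ) :=
    (_root_.funext (mc_apply rfl _ _)).trans
      (h1.trans (congrArg _ (_root_.funext (mc_apply rfl _ _)).symm))
  rw [DD_eq, DD_eq, h2, map_add, map_zsmul]
  exact congrArg (· + _) (pw_zm (Cob.d s) f x)

omit hp in
theorem zm_mem_ZC (h : ∀ c k', ∑ k, f c k • θ' k k' = ∑ c', f c' k' • θ c c') (hd : Dg f d d' ω)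
    {q : ℕ} {x : ι → Cob N s} (hx : x ∈ ZC p θ d w q s) : zm _ f x ∈ ZC p θ' d' (w + ω) q s :=
  mem_ZC'.2 ⟨zm_mem_CW hd hx.1, by rw [DD_zm h]; exact zm_mem_QW hd hx.2⟩

omit hp in
theorem zm_mem_BQ (h : ∀ c k', ∑ k, f c k • θ' k k' = ∑ c', f c' k' • θ c c') (hd : Dg f d d' ω)
    {q : ℕ} {x : ι → Cob N s} (hx : x ∈ BQ p θ d w q s) : zm _ f x ∈ BQ p θ' d' (w + ω) q s := by
  obtain ⟨b, hb, u, hu, rfl⟩ := mem_BQ.1 hx
  rw [map_add]
  refine add_mem (AddSubgroup.mem_sup_left ?_)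
    (AddSubgroup.mem_sup_right (zm_mem_QW hd (mem_QW.2 ⟨u, hu, rfl⟩)))
  rcases s with _ | s
  · rw [AddSubgroup.mem_bot.1 hb, map_zero]
    exact zero_mem _
  · obtain ⟨y, hy, rfl⟩ := hb
    exact ⟨_, zm_mem_CW hd hy, DD_zm h y⟩

end mem

omit hp in
theorem rAp_zsum {B ι : Type*} [CommRing B] [Fintype ι] (x : AA L →+* B) (a : ι → ℤ)
    (r : ι → (ℕ →₀ ℕ) → AA L) (G : MvPolynomial ℕ B) :
    ∑ i, a i • rAp x (r i) G = rAp x (fun E => ∑ i, a i • r i E) G := by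
  simp only [rAp_eq, map_sum, map_zsmul, Finset.mul_sum, Finset.smul_sum, mul_smul_comm]
  exact Finset.sum_comm

variable {G G' : ℕ → Type} [∀ q, Fintype (G q)] [∀ q, Fintype (G' q)]

/-- a map of resolutions given by integral matrices -/
structure Hm (R : Rs p L G) (R' : Rs p L G') (f : ∀ q, G q → G' q → ℤ) (ω : ℤ) : Prop where
  e : ∀ c w', ∑ c', f 0 c c' • R'.e c' w' = ∑ w, f 1 w w' • R.e c w
  y : ∀ q w v' E, ∑ w', f (q + 1) w w' • R'.y q w' v' E = ∑ v, f (q + 2) v v' • R.y q w v E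
  dg : ∀ q, Dg (f q) (R.deg q) (R'.deg q) ω

namespace Hm

variable {R : Rs p L G} {R' : Rs p L G'} {f : ∀ q, G q → G' q → ℤ} {ω : ℤ} (h : Hm R R' f ω)

include h

theorem dd (n q : ℕ) (F : G q → CC L) :
    R'.dd (n + 1) q (zm _ (f q) F) = zm _ (f (q + 1)) (R.dd (n + 1) q F) := by
  rcases q with _ | q
  · refine mat_zm (fun c w' x => ?_) F
    change ∑ k, f 0 c k • (_ * (univ L).arr p n (R'.e k w')) =
      ∑ i', f 1 i' w' • (_ * (univ L).arr p n (R.e c i'))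
    simp only [← mul_smul_comm, ← Finset.mul_sum, ← map_zsmul, ← map_sum, h.e]
  · refine mat_zm (fun c w' x => ?_) F
    simp only [par_apply, itg_apply, rAp_zsum, h.y]

theorem TT (n q s : ℕ) (e : q + n = s) (F : G q → CC L) :
    R'.TT n q s e (zm _ (f q) F) = zm _ (f s) (R.TT n q s e F) :=
  zig_nat (E := fun q => G q → CC L) (E' := fun q => G' q → CC L) (fun q => zm _ (f q))
    (fun n q x => (congrArg (pw _ (sg p L n).toAddMonoidHom) (h.dd n q x)).trans (pw_zm _ _ _))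
    n q s e F

theorem Phi (s : ℕ) (F : G 0 → CC L) : R'.Phi s (zm _ (f 0) F) = zm _ (f (s + 1)) (R.Phi s F) := by
  rw [Rs.Phi_apply, h.TT]
  exact pw_zm _ _ _

theorem star (m q s : ℕ) (e : q + m = s) (θ : CC L) (u : G q → AA L) :
    R'.star m q s e θ (zm _ (f q) u) = zm _ (f s) (R.star m q s e θ u) := by
  rw [Rs.star_apply, up, pw_zm, cup, pw_zm, h.TT]
  exact pw_zm _ _ _

theorem dl (q : ℕ) (g : GG L) (u : G (q + 1) → AA L) :
    R'.dl q g (zm _ (f (q + 1)) u) = zm _ (f (q + 2)) (R.dl q g u) := by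
  rw [← Rs.star_arr, ← Rs.star_arr, h.star]

theorem sd (q : ℕ) (u : G q → AA L) : R'.sd q (zm _ (f q) u) = zm _ (f (q + 1)) (R.sd q u) := by
  rcases q with _ | q
  · exact (map_zero _).symm
  · rw [← Rs.dl_one, ← Rs.dl_one, h.dl]

theorem Bd {s a b : ℕ} {w : ℤ} {u : G (s + 1) → AA L} (hu : u ∈ R.Bd s w a b) :
    zm _ (f (s + 1)) u ∈ R'.Bd s (w + ω) a b := by
  obtain ⟨y, hy, h1⟩ := Rs.mem_Bd.1 hu
  exact Rs.mem_Bd.2 ⟨_, zm_mem_PA (h.dg s) hy, by rw [h.sd, ← map_sub]; exact zm_mem_ZA _ h1⟩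

theorem Cy {s a b : ℕ} {w : ℤ} {u : G (s + 1) → AA L} (hu : u ∈ R.Cy s w a b) :
    zm _ (f (s + 1)) u ∈ R'.Cy s (w + ω) a b :=
  Rs.mem_Cy.2 ⟨zm_mem_PA (h.dg _) hu.1, by rw [h.sd]; exact zm_mem_ZA _ hu.2⟩

end Hm

theorem Hm.Ph {Q : ℕ} {hQ : PLoc p (ZMod Q)} {R : Rs p (ZMod Q) G} {R' : Rs p (ZMod Q) G'}
    {f : ∀ q, G q → G' q → ℤ} {ω : ℤ} (h : Hm R R' f ω) (s : ℕ) (x : G 0 → Cob Laz s) :
    Ph hQ R' s (zm _ (f 0) x) = zm _ (f (s + 1)) (Ph hQ R s x) := by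
  rw [Ph_apply, rsP, pw_zm, h.Phi]
  rfl

/-! ### cellular maps -/

section tens

variable {ι κ : Type} [Fintype ι] [DecidableEq ι] [Fintype κ] [DecidableEq κ]

open Classical in
/-- the identity times a matrix -/
def tf1 (W : Type) {ι κ : Type} (f : ι → κ → ℤ) (a : W × ι) (b : W × κ) : ℤ :=
  if a.1 = b.1 then f a.2 b.2 else 0

open Classical in
/-- the inclusion of a slice -/
def bf1 (W : Type) {ι : Type} (c₀ : ι) (w : W) (b : W × ι) : ℤ := if b = (w, c₀) then 1 else 0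

variable (G) in
/-- the matrices of a cellular map -/
def tf (f : ι → κ → ℤ) : ∀ q, TG G ι q → TG G κ q → ℤ
  | 0 => f
  | q + 1 => tf1 (G (q + 1)) f

variable (G) in
/-- the matrices of the inclusion of one cell -/
def bf (c₀ : ι) : ∀ q, G q → TG G ι q → ℤ
  | 0 => fun _ (c : ι) => if c = c₀ then 1 else 0
  | q + 1 => bf1 (G (q + 1)) c₀

variable (G) in
/-- the matrices of the projection onto one cell -/
def pf (c₀ : ι) (q : ℕ) (b : TG G ι q) (w : G q) : ℤ := bf G c₀ q w b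

variable {M : Type*} [AddCommGroup M] {q : ℕ} {W : Type} [Fintype W]

omit [DecidableEq ι] [Fintype κ] [DecidableEq κ] in
theorem sum_tf (f : ι → κ → ℤ) (u : W × ι → M) (w : W) (k : κ) :
    ∑ a, tf1 W f a (w, k) • u a = ∑ c, f c k • u (w, c) := by
  classical
  simp [tf1, Fintype.sum_prod_type]

omit [Fintype ι] [DecidableEq ι] [DecidableEq κ] in
theorem sum_tf' (f : ι → κ → ℤ) (u : W × κ → M) (w : W) (c : ι) :
    ∑ b, tf1 W f (w, c) b • u b = ∑ k, f c k • u (w, k) := by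
  classical
  simp [tf1, Fintype.sum_prod_type]

omit [DecidableEq ι] [Fintype κ] [DecidableEq κ] in
theorem zm_tf (f : ι → κ → ℤ) (u : G (q + 1) × ι → M) (w : G (q + 1)) (k : κ) :
    zm M (tf G f (q + 1)) u (w, k) = ∑ c, f c k • u (w, c) := sum_tf f u w k

omit [Fintype ι] in
theorem sum_bf (c₀ : ι) (u : W → M) (w : W) (c : ι) :
    ∑ a, bf1 W c₀ a (w, c) • u a = if c = c₀ then u w else 0 := by
  classical
  by_cases h : c = c₀ <;> simp [bf1, Prod.ext_iff, h]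

omit [DecidableEq ι] in
theorem sum_bf' (c₀ : ι) (u : W × ι → M) (w : W) : ∑ b, bf1 W c₀ w b • u b = u (w, c₀) := by
  simp [bf1]

omit [Fintype ι] in
theorem zm_bf (c₀ : ι) (u : G (q + 1) → M) (w : G (q + 1)) (c : ι) :
    zm M (bf G c₀ (q + 1)) u (w, c) = if c = c₀ then u w else 0 := sum_bf c₀ u w c

theorem zm_pf (c₀ : ι) (u : G (q + 1) × ι → M) (w : G (q + 1)) :
    zm M (pf G c₀ (q + 1)) u w = u (w, c₀) := sum_bf' c₀ u w

omit [∀ q, Fintype (G q)] in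
theorem zm_pf_zero (c₀ : ι) (u : ι → M) (w : G 0) :
    zm (ι := ι) M (pf G c₀ 0) u w = u c₀ := by
  change ∑ c : ι, (if c = c₀ then (1 : ℤ) else 0) • u c = _
  simp

omit [Fintype ι] in
theorem zm_bf_zero [Unique (G 0)] (c₀ : ι) (u : G 0 → M) (c : ι) :
    zm M (bf G c₀ 0) u c = if c = c₀ then u default else 0 := by
  change ∑ a, (if c = c₀ then (1 : ℤ) else 0) • u a = _
  simp

theorem Cm.ps_nat {Y : Cm p L ι} {Y' : Cm p L κ} {f : ι → κ → ℤ}
    (h : ∀ c k', ∑ k, f c k • Y'.th k k' = ∑ c', f c' k' • Y.th c c') (c : ι) (k' : κ) :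
    ∑ k, f c k • Y'.ps k k' = ∑ c', f c' k' • Y.ps c c' := by
  let F : Matrix ι κ (GG L) := Matrix.of fun c k => (f c k : GG L)
  have h1 : F * Matrix.of Y'.th = Matrix.of Y.th * F := by
    ext1 c k'
    simpa [F, Matrix.mul_apply, mul_comm] using h c k'
  have h2 : F * Matrix.of Y'.ps = Matrix.of Y.ps * F := by
    rw [← Matrix.one_mul (F * _), ← mul_eq_one_comm.1 Y.inv_mat, Matrix.mul_assoc,
      ← Matrix.mul_assoc _ F, ← h1, Matrix.mul_assoc F, Y'.inv_mat, Matrix.mul_one]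
  simpa [F, Matrix.mul_apply, mul_comm] using congrFun (congrFun h2 c) k'

theorem Cm.ps_bot {Y : Cm p L ι} {c₀ : ι} (h : ∀ c, Y.th c₀ c = if c = c₀ then 1 else 0) (c : ι) :
    Y.ps c₀ c = if c = c₀ then 1 else 0 := by
  simpa [h, eq_comm] using Y.inv c₀ c

theorem Cm.ps_top {Y : Cm p L ι} {c₀ : ι} (h : ∀ c, Y.th c c₀ = if c = c₀ then 1 else 0) (c : ι) :
    Y.ps c c₀ = if c = c₀ then 1 else 0 := by
  simpa [h] using Y.inv' c c₀

variable [Unique (G 0)] {R : Rs p L G} {h0 : R.deg 0 default = 0} {h1 : R.th default default = 1}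
  {Y : Cm p L ι} {Y' : Cm p L κ} {ω : ℤ}

theorem dg_tf {f : ι → κ → ℤ} (hd : Dg f Y.d Y'.d ω) (q : ℕ) :
    Dg (tf G f q) ((R.tens h0 h1 Y).deg q) ((R.tens h0 h1 Y').deg q) ω := by
  rcases q with _ | q
  · exact hd
  · rintro ⟨w, c⟩ ⟨w', k⟩ h
    obtain ⟨rfl, h2⟩ : w = w' ∧ f c k ≠ 0 := by simpa [tf, tf1] using h
    change _ + Y'.d k = _ + Y.d c + ω
    rw [hd c k h2, add_assoc]

theorem dg_bf (c₀ : ι) (q : ℕ) :
    Dg (bf G c₀ q) (R.deg q) ((R.tens h0 h1 Y).deg q) (Y.d c₀) := by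
  rcases q with _ | q
  · intro a (c : ι) h
    obtain rfl : c = c₀ := by simpa [bf] using h
    rw [Subsingleton.elim a default, h0, zero_add]
    rfl
  · intro w (b : G (q + 1) × ι) h
    obtain rfl : b = (w, c₀) := by simpa [bf, bf1] using h
    rfl

theorem dg_pf (c₀ : ι) (q : ℕ) :
    Dg (pf G c₀ q) ((R.tens h0 h1 Y).deg q) (R.deg q) (-Y.d c₀) := fun b w h => by
  rw [dg_bf (h0 := h0) (h1 := h1) (Y := Y) c₀ q w b h, add_neg_cancel_right]

theorem Hm.tens {f : ι → κ → ℤ}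
    (h : ∀ c k', ∑ k, f c k • Y'.th k k' = ∑ c', f c' k' • Y.th c c') (hd : Dg f Y.d Y'.d ω) :
    Hm (R.tens h0 h1 Y) (R.tens h0 h1 Y') (tf G f) ω := by
  refine ⟨fun (c : ι) ⟨w, k'⟩ => ?_, fun q ⟨w, c⟩ ⟨v, k'⟩ E => ?_, dg_tf hd⟩
  · refine Eq.trans ?_ (sum_tf f (fun a => R.e default a.1 * Y.th c a.2) w k').symm
    change ∑ k, f c k • (R.e default w * Y'.th k k') = _
    simp only [← mul_smul_comm, ← Finset.mul_sum, h]
  · refine (sum_tf' f (fun b => R.ty Y' q b (v, k') E) w c).trans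
      (Eq.trans ?_ (sum_tf f (fun a => R.ty Y q (w, c) a E) v k').symm)
    simp only [Rs.ty, mulF, ← map_zsmul, ← map_sum, ← smul_mul_assoc, ← Finset.sum_mul,
      Cm.ps_nat h]

theorem Hm.bot {c₀ : ι} (h : ∀ c, Y.th c₀ c = if c = c₀ then 1 else 0) :
    Hm R (R.tens h0 h1 Y) (bf G c₀) (Y.d c₀) := by
  refine ⟨fun a ⟨w, c⟩ => ?_, fun q w ⟨v, c⟩ E => ?_, dg_bf c₀⟩
  · refine Eq.trans ?_ (sum_bf c₀ (R.e a) w c).symm
    change ∑ k : ι, (if k = c₀ then (1 : ℤ) else 0) • (R.e default w * Y.th k c) = _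
    simp [h, Subsingleton.elim a default]
  · refine (sum_bf' c₀ (fun b => R.ty Y q b (v, c) E) w).trans
      (Eq.trans ?_ (sum_bf c₀ (fun a => R.y q w a E) v c).symm)
    rw [Rs.ty, mulF, Cm.ps_bot h]
    split_ifs <;> simp [rAp_monomial]

theorem Hm.top {c₀ : ι} (h : ∀ c, Y.th c c₀ = if c = c₀ then 1 else 0) :
    Hm (R.tens h0 h1 Y) R (pf G c₀) (-Y.d c₀) := by
  refine ⟨fun (c : ι) w => ?_, fun q ⟨w, c⟩ v E => ?_, dg_pf c₀⟩
  · refine Eq.trans ?_ (sum_bf' c₀ (fun a => R.e default a.1 * Y.th c a.2) w).symm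
    change ∑ k : G 0, (if c = c₀ then (1 : ℤ) else 0) • R.e k w = _
    simp [h]
  · refine (sum_bf c₀ (fun a => R.y q a v E) w c).trans
      (Eq.trans ?_ (sum_bf' c₀ (fun b => R.ty Y q (w, c) b E) v).symm)
    rw [Rs.ty, mulF, Cm.ps_top h]
    split_ifs <;> simp [rAp_monomial]

end tens

end Vale.Agent.P236EL

end
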