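import Mathlib.Data.Nat.Factorization.Basic
import Mathlib.RingTheory.Ideal.Operations
import Mathlib.Tactic.LinearCombination
import Mathlib.Tactic.Ring
import Mathlib.Tactic.NormNum.Prime
import Mathlib.Tactic.IntervalCases

/-!
# P236EL / Pol : polynomial arithmetic modulo powers of the ideal `(3, x_0, x_1, x_2, x_3)`

A monomial is coded by a product of prime powers; a term is a pair (coefficient, code).
-/

noncomputable section

namespace Vale.Agent.P236EL

/-- lists of terms -/
abbrev Pl : Type := List (ℕ × ℕ)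

/-- the primes which code the variables -/
def prs20 : List ℕ := [2, 3, 5, 7, 11, 13, 17, 19, 23, 29, 31, 37, 41, 43, 47, 53, 59, 61, 67, 71]

/-- the code of the variable `i` -/
def pr (i : ℕ) : ℕ := prs20.getD i 1

/-- evaluate a number before using it -/
def frc {α : Type} (x : ℕ) (k : ℕ → α) : α :=
  Nat.rec (motive := fun _ => α) (k 0) (fun m _ => k m) (Nat.succ x)

theorem frc_eq {α : Type} (x : ℕ) (k : ℕ → α) : frc x k = k x := rfl

/-- a lower bound, at most `n`, for the number of factors `2, 3, 5, 7` -/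
def vlc (n : ℕ) : ℕ → ℕ :=
  Nat.rec (motive := fun _ => ℕ → ℕ) (fun _ => 0) (fun _ ih k =>
    bif Nat.beq (k % 2) 0 then ih (k / 2) + 1 else bif Nat.beq (k % 3) 0 then ih (k / 3) + 1 else
      bif Nat.beq (k % 5) 0 then ih (k / 5) + 1 else bif Nat.beq (k % 7) 0 then ih (k / 7) + 1
        else 0) n

/-- reduction modulo the `n`-th power of the ideal -/
def trunc (n : ℕ) (l : Pl) : Pl :=
  List.rec (motive := fun _ => Pl) [] (fun t _ ih => frc t.2 fun k =>
    frc (t.1 % 3 ^ (n - vlc n k)) fun c => bif Nat.beq c 0 then ih else (c, k) :: ih) l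

/-- sum of two sorted lists -/
def mrg (l : Pl) : Pl → Pl :=
  List.rec (motive := fun _ => Pl → Pl) (fun l' => l') (fun t l ih l' =>
    List.rec (motive := fun _ => Pl) (t :: l) (fun t' l'' ih' =>
      bif Nat.beq t.2 t'.2 then (t.1 + t'.1, t.2) :: ih l''
      else bif Nat.ble t.2 t'.2 then t :: ih (t' :: l'') else t' :: ih') l') l

/-- product with a term -/
def sft (t : ℕ × ℕ) (l : Pl) : Pl := l.map fun u => (t.1 * u.1, t.2 * u.2)

/-- truncated product -/
def mulT (n : ℕ) (l l' : Pl) : Pl :=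
  trunc n (List.rec (motive := fun _ => Pl) [] (fun t _ ih => mrg (trunc n (sft t l')) ih) l)

/-- sorting -/
def srt (l : Pl) : Pl := List.rec (motive := fun _ => Pl) [] (fun t _ ih => mrg [t] ih) l

/-- truncated cube -/
def cube (n : ℕ) (l : Pl) : Pl := mulT n (trunc (n - 1) l) (mulT n (trunc (n - 1) l) (trunc (n - 1) l))

/-- iterated truncated cubes -/
def cubes (n : ℕ) (l : Pl) (i : ℕ) : Pl := Nat.rec (motive := fun _ => Pl) l (fun _ ih => cube n ih) i

/-- equality modulo the `n`-th power of the ideal -/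
def eqT (n : ℕ) (l l' : Pl) : Bool := (trunc n (mrg l (sft (3 ^ n - 1, 1) l'))).isEmpty

/-- sum of a list of lists -/
def sumL (L : List Pl) : Pl := List.rec (motive := fun _ => Pl) [] (fun l _ ih => mrg l ih) L

variable {B : Type*} [CommRing B] (x : ℕ → B)

/-- the monomial with code `k` -/
def kev (k : ℕ) : B := if k = 0 then 0 else ∏ i ∈ Finset.range 20, x i ^ k.factorization (pr i)

theorem kev_mul (a b : ℕ) : kev x (a * b) = kev x a * kev x b := by
  by_cases ha : a = 0
  · simp [kev, ha]
  by_cases hb : b = 0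
  · simp [kev, hb]
  simp only [kev, if_neg ha, if_neg hb, if_neg (mul_ne_zero ha hb), Nat.factorization_mul ha hb,
    Finsupp.add_apply, pow_add, Finset.prod_mul_distrib]

theorem kev_one : kev x 1 = 1 := by simp [kev]

theorem kev_pow (a n : ℕ) : kev x (a ^ n) = kev x a ^ n := by
  induction n with
  | zero => rw [pow_zero, pow_zero, kev_one]
  | succ n ih => rw [pow_succ, pow_succ, kev_mul, ih]

theorem pr_prime : ∀ i < 20, (pr i).Prime := by
  intro i hi
  interval_cases i <;> simp only [pr, prs20, List.getD_cons_succ, List.getD_cons_zero] <;> norm_num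

theorem pr_inj : ∀ i < 20, ∀ j < 20, pr i = pr j → i = j := by decide

theorem kev_pr {i : ℕ} (hi : i < 20) : kev x (pr i) = x i := by
  rw [kev, if_neg (pr_prime i hi).ne_zero, (pr_prime i hi).factorization,
    Finset.prod_eq_single i, Finsupp.single_eq_same, pow_one]
  · intro j hj hji
    rw [Finsupp.single_eq_of_ne fun h => hji (pr_inj j (Finset.mem_range.1 hj) i hi h), pow_zero]
  · intro h
    exact absurd (Finset.mem_range.2 hi) h

/-- the value of a list of terms -/
def pev (l : Pl) : B := (l.map fun t => (t.1 : B) * kev x t.2).sum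

@[simp] theorem pev_nil : pev x [] = 0 := rfl

@[simp] theorem pev_cons (t : ℕ × ℕ) (l : Pl) : pev x (t :: l) = t.1 * kev x t.2 + pev x l := by
  simp [pev]

theorem pev_mrg (l l' : Pl) : pev x (mrg l l') = pev x l + pev x l' := by
  induction l generalizing l' with
  | nil => exact (zero_add _).symm
  | cons t l ih =>
    induction l' with
    | nil => exact (add_zero _).symm
    | cons t' l' ih' =>
      change pev x (bif Nat.beq t.2 t'.2 then (t.1 + t'.1, t.2) :: mrg l l'
        else bif Nat.ble t.2 t'.2 then t :: mrg l (t' :: l') else t' :: mrg (t :: l) l') = _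
      cases h : Nat.beq t.2 t'.2
      · cases Nat.ble t.2 t'.2
        · rw [cond_false, cond_false, pev_cons, ih', pev_cons x t']
          ring
        · rw [cond_false, cond_true, pev_cons, ih, pev_cons x t]
          ring
      · rw [cond_true, pev_cons, ih, pev_cons, pev_cons, ← Nat.eq_of_beq_eq_true h]
        push_cast
        ring

theorem pev_sft (t : ℕ × ℕ) (l : Pl) : pev x (sft t l) = t.1 * kev x t.2 * pev x l := by
  induction l with
  | nil => exact (mul_zero _).symm
  | cons u l ih =>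
    rw [sft, List.map_cons, ← sft, pev_cons, ih, pev_cons, kev_mul]
    push_cast
    ring

theorem pev_srt (l : Pl) : pev x (srt l) = pev x l := by
  induction l with
  | nil => rfl
  | cons t l ih =>
    change pev x (mrg [t] (srt l)) = _
    rw [pev_mrg, ih, pev_cons, pev_cons, pev_nil, add_zero]

theorem pev_sumL (L : List Pl) : pev x (sumL L) = (L.map (pev x)).sum := by
  induction L with
  | nil => rfl
  | cons l L ih =>
    change pev x (mrg l (sumL L)) = _
    rw [pev_mrg, ih, List.map_cons, List.sum_cons]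

theorem map_kev {C : Type*} [CommRing C] (φ : B →+* C) (k : ℕ) :
    φ (kev x k) = kev (fun i => φ (x i)) k := by
  simp only [kev, apply_ite φ, map_zero, map_prod, map_pow]

theorem map_pev {C : Type*} [CommRing C] (φ : B →+* C) (l : Pl) :
    φ (pev x l) = pev (fun i => φ (x i)) l := by
  induction l with
  | nil => exact map_zero φ
  | cons t l ih => rw [pev_cons, pev_cons, map_add, map_mul, map_natCast, map_kev, ih]

variable {x} {J : Ideal B}

/-- the ideal contains `3` and the first four variables -/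
structure Jv (J : Ideal B) (x : ℕ → B) : Prop where
  three : ((3 : ℕ) : B) ∈ J
  var : ∀ i < 4, x i ∈ J

theorem mem_pow_zero (a : B) : a ∈ J ^ 0 := by
  rw [pow_zero, Ideal.one_eq_top]
  trivial

theorem kev_mem (h : Jv J x) (n k : ℕ) : kev x k ∈ J ^ vlc n k := by
  induction n generalizing k with
  | zero => exact mem_pow_zero _
  | succ n ih =>
    have key : ∀ i < 4, Nat.beq (k % pr i) 0 = true → kev x k ∈ J ^ (vlc n (k / pr i) + 1) := by
      intro i hi h0
      have h1 := Nat.div_mul_cancel (Nat.dvd_of_mod_eq_zero (Nat.eq_of_beq_eq_true h0))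
      have h2 := Ideal.mul_mem_mul (ih (k / pr i)) (h.var i hi)
      rwa [← kev_pr x (by omega : i < 20), ← kev_mul, h1, ← pow_succ] at h2
    change kev x k ∈ J ^ (bif Nat.beq (k % 2) 0 then vlc n (k / 2) + 1 else
      bif Nat.beq (k % 3) 0 then vlc n (k / 3) + 1 else
      bif Nat.beq (k % 5) 0 then vlc n (k / 5) + 1 else
      bif Nat.beq (k % 7) 0 then vlc n (k / 7) + 1 else 0)
    cases h2 : Nat.beq (k % 2) 0
    · cases h3 : Nat.beq (k % 3) 0
      · cases h5 : Nat.beq (k % 5) 0
        · cases h7 : Nat.beq (k % 7) 0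
          · exact mem_pow_zero _
          · exact key 3 (by omega) h7
        · exact key 2 (by omega) h5
      · exact key 1 (by omega) h3
    · exact key 0 (by omega) h2

theorem three_pow_mul_mem (h : Jv J x) {n m : ℕ} {a : B} (ha : a ∈ J ^ m) :
    ((3 ^ (n - m) : ℕ) : B) * a ∈ J ^ n := by
  have h1 := Ideal.mul_mem_mul (Ideal.pow_mem_pow h.three (n - m)) ha
  rw [← pow_add, ← Nat.cast_pow] at h1
  exact Ideal.pow_le_pow_right (by omega) h1

theorem pev_trunc (h : Jv J x) (n : ℕ) (l : Pl) : pev x l - pev x (trunc n l) ∈ J ^ n := by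
  induction l with
  | nil =>
    change (0 : B) - 0 ∈ _
    rw [sub_self]
    exact zero_mem _
  | cons t l ih =>
    change _ - pev x (bif Nat.beq (t.1 % 3 ^ (n - vlc n t.2)) 0 then trunc n l
      else (t.1 % 3 ^ (n - vlc n t.2), t.2) :: trunc n l) ∈ _
    have h1 := Ideal.mul_mem_left _ ((t.1 / 3 ^ (n - vlc n t.2) : ℕ) : B)
      (three_pow_mul_mem h (n := n) (kev_mem h n t.2))
    have h2 := congrArg (Nat.cast : ℕ → B) (Nat.div_add_mod t.1 (3 ^ (n - vlc n t.2)))
    have h3 := add_mem ih h1
    rw [Nat.cast_add, Nat.cast_mul] at h2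
    cases h0 : Nat.beq (t.1 % 3 ^ (n - vlc n t.2)) 0
    · rw [cond_false, pev_cons, pev_cons]
      convert h3 using 1
      linear_combination (-kev x t.2) * h2
    · rw [cond_true, pev_cons]
      rw [Nat.eq_of_beq_eq_true h0, Nat.cast_zero] at h2
      convert h3 using 1
      linear_combination (-kev x t.2) * h2

/-- `f` is given by the list `l` modulo `J ^ n` -/
def Ap (J : Ideal B) (x : ℕ → B) (n : ℕ) (f : B) (l : Pl) : Prop := f - pev x l ∈ J ^ n

theorem ap_of_eq {n : ℕ} {f : B} {l : Pl} (e : f = pev x l) : Ap J x n f l := by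
  rw [Ap, e, sub_self]
  exact zero_mem _

theorem Ap.mono {n m : ℕ} {f : B} {l : Pl} (hf : Ap J x n f l) (hm : m ≤ n) : Ap J x m f l :=
  Ideal.pow_le_pow_right hm hf

theorem Ap.trunc (h : Jv J x) {n : ℕ} {f : B} {l : Pl} (hf : Ap J x n f l) :
    Ap J x n f (trunc n l) := by
  have h1 := add_mem hf (pev_trunc h n l)
  rwa [sub_add_sub_cancel] at h1

theorem Ap.add {n : ℕ} {f g : B} {l l' : Pl} (hf : Ap J x n f l) (hg : Ap J x n g l') :
    Ap J x n (f + g) (mrg l l') := by
  have h1 := add_mem hf hg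
  rwa [sub_add_sub_comm, ← pev_mrg] at h1

theorem Ap.sft {n : ℕ} {f : B} {l : Pl} (hf : Ap J x n f l) (t : ℕ × ℕ) :
    Ap J x n (t.1 * kev x t.2 * f) (sft t l) := by
  rw [Ap, pev_sft, ← mul_sub]
  exact Ideal.mul_mem_left _ _ hf

theorem pev_mulT (h : Jv J x) (n : ℕ) (l l' : Pl) : Ap J x n (pev x l * pev x l') (mulT n l l') := by
  refine Ap.trunc h ?_
  induction l with
  | nil => exact ap_of_eq (zero_mul _)
  | cons t l ih =>
    rw [pev_cons, add_mul]
    exact (((ap_of_eq rfl).sft t).trunc h).add ih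

/-- products; `f` may be known less precisely if `g` is deep in the filtration -/
theorem Ap.mul' (h : Jv J x) {n a b : ℕ} {f g : B} {l l' : Pl} (hf : Ap J x n f l) (hf' : f ∈ J ^ a)
    (hg : Ap J x b g l') (hn : n ≤ a + b) : Ap J x n (f * g) (mulT n l l') := by
  have h1 : f * (g - pev x l') ∈ J ^ n := by
    have h2 := Ideal.mul_mem_mul hf' hg
    rw [← pow_add] at h2
    exact Ideal.pow_le_pow_right hn h2
  have h2 := add_mem (add_mem h1 (Ideal.mul_mem_right (pev x l') _ hf)) (pev_mulT h n l l')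
  rw [Ap]
  convert h2 using 1
  ring

theorem Ap.mul (h : Jv J x) {n : ℕ} {f g : B} {l l' : Pl} (hf : Ap J x n f l)
    (hg : Ap J x n g l') : Ap J x n (f * g) (mulT n l l') :=
  hf.mul' h (a := 0) (mem_pow_zero _) hg (by omega)

theorem cube_sub_mem (h : Jv J x) {n : ℕ} (hn : 1 ≤ n) {f g : B} (hf : f - g ∈ J ^ n) :
    f ^ 3 - g ^ 3 ∈ J ^ (n + 1) := by
  have h1 := Ideal.pow_mem_pow hf 3
  rw [← pow_mul] at h1
  have h2 := Ideal.mul_mem_mul hf h.three
  rw [← pow_succ] at h2
  have h3 := add_mem (Ideal.pow_le_pow_right (show n + 1 ≤ n * 3 by omega) h1)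
    (Ideal.mul_mem_left _ (f * g) h2)
  convert h3 using 1
  push_cast
  ring

theorem Ap.cube (h : Jv J x) {n : ℕ} (hn : 2 ≤ n) {f : B} {l : Pl} (hf : Ap J x (n - 1) f l) :
    Ap J x n (f ^ 3) (cube n l) := by
  have h1 := cube_sub_mem h (by omega) (hf.trunc h)
  rw [show n - 1 + 1 = n by omega] at h1
  have h2 := (ap_of_eq (n := n) rfl).mul h
    (pev_mulT h n (P236EL.trunc (n - 1) l) (P236EL.trunc (n - 1) l)) (l := P236EL.trunc (n - 1) l)
  have h3 := add_mem h1 h2
  rw [Ap]
  convert h3 using 1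
  rw [P236EL.cube]
  ring

theorem Ap.cubes (h : Jv J x) {n : ℕ} (hn : 2 ≤ n) {f : B} {l : Pl} (hf : Ap J x n f l) (i : ℕ) :
    Ap J x n (f ^ 3 ^ i) (cubes n l i) := by
  induction i with
  | zero => rwa [pow_zero, pow_one]
  | succ i ih =>
    rw [pow_succ, pow_mul]
    exact (ih.mono (Nat.sub_le n 1)).cube h hn

theorem sub_mem_of_eqT (h : Jv J x) {n : ℕ} {f g : B} {l l' : Pl} (hf : Ap J x n f l)
    (hg : Ap J x n g l') (e : eqT n l l' = true) : f - g ∈ J ^ n := by
  have h1 := (hf.add (hg.sft (3 ^ n - 1, 1))).trunc h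
  rw [Ap, List.isEmpty_iff.1 e, pev_nil, sub_zero, kev_one, mul_one,
    Nat.cast_sub (Nat.one_le_pow _ _ (by omega))] at h1
  have h2 := Ideal.mul_mem_right g _ (Ideal.pow_mem_pow h.three n)
  convert sub_mem h1 h2 using 1
  push_cast
  ring

theorem Ap.of_eqT (h : Jv J x) {n : ℕ} {f : B} {l l' : Pl} (hf : Ap J x n f l)
    (e : eqT n l l' = true) : Ap J x n f l' := sub_mem_of_eqT h hf (ap_of_eq rfl) e

theorem ap_sum {n m : ℕ} {f : ℕ → B} {l : ℕ → Pl} (hf : ∀ i < m, Ap J x n (f i) (l i)) :
    Ap J x n (∑ i ∈ Finset.range m, f i) (sumL ((List.range m).map l)) := by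
  have h1 : pev x (sumL ((List.range m).map l)) = ∑ i ∈ Finset.range m, pev x (l i) := by
    rw [pev_sumL, List.map_map]
    rfl
  rw [Ap, h1, ← Finset.sum_sub_distrib]
  exact sum_mem fun i hi => hf i (Finset.mem_range.1 hi)

end Vale.Agent.P236EL

end
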