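import Vale.Agent.P236EL.Yon

/-!
# P236EL / Red : explicit cochains, lines, sharper lifts
-/

noncomputable section

namespace Vale.Agent.P236EL

open Vale.Agent.P251.F Vale.Agent.P251.F.F3 Vale.Agent.P257.H80 LawRing MvPolynomial Ch

variable {p : ℕ} [hp : Fact p.Prime] {G : ℕ → Type} [∀ q, Fintype (G q)]

namespace Rs

variable {L : Type} [CommRing L] (R : Rs p L G)

/-- the vector of a cell -/
def un (c : G 0) : G 1 → AA L := fun w => constantCoeff (R.e c w)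

/-- the product with `t_1 ^ k` -/
def tm (q k : ℕ) (u : G (q + 1) → AA L) : G (q + 2) → AA L := R.dl q (X 0 ^ k) u

/-- the product with `[t_1 ^ (2 a) | t_1 ^ a] + [t_1 ^ a | t_1 ^ (2 a)]` -/
def bm (q a : ℕ) (u : G (q + 1) → AA L) : G (q + 3) → AA L :=
  R.tm (q + 1) (2 * a) (R.tm q a u) + R.tm (q + 1) a (R.tm q (2 * a) u)

variable {R}

/-- nothing has large filtration -/
theorem K3s_of_big {r s m j k : ℕ} {w : ℤ} (hm : (p : L) ^ m = 0)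
    (hj : ∀ g, w - R.deg (s + 1) g < j) (hk : m + j ≤ k) (S : AddSubgroup (G (s + 1) → AA L)) :
    R.K3s r s w k S := fun u hu => by
  have h := eq_zero_of_PW hm hj (up_mem_PW (PA_mono (Ideal.pow_le_pow_right hk) hu.1))
  rw [← down_up (p := p) u, h, map_zero]
  exact zero_mem _

theorem tens_un [Unique (G 0)] {h0 : R.deg 0 default = 0} {h1 : R.th default default = 1}
    {ι : Type} [Fintype ι] [DecidableEq ι] (Y : Ga L ι) (c : ι) (w : G 1) (c' : ι) :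
    (R.tens h0 h1 (Y.cm p)).un c (w, c') = if c = c' then R.un default w else 0 := by
  change constantCoeff (R.e default w * Y.ent _ _ c c') = _
  rw [map_mul, Ga.map_ent, constantCoeff_X, Ga.ent_zero, mul_ite, mul_one, mul_zero, un]

end Rs

/-- the product with `v_1 ^ k` -/
def vm {L ι : Type} [CommRing L] (k : ℕ) (u : ι → AA L) : ι → AA L := fun i => X 0 ^ k * u i

variable {Q : ℕ} {hQ : PLoc p (ZMod Q)} {R : Rs p (ZMod Q) G} {F : Type} [Field F]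
  {π : ZMod Q →+* F} {r s a b k : ℕ} {T w ω : ℤ}

theorem rs_nsmul (z : Cob Laz s) : rs hQ s (Q • z) = 0 := by
  rw [rs_apply, rq_eq_zero_iff.2 ⟨z, rfl⟩, map_zero]

theorem rs_of_dvd {z : Cob Laz s} (h : (Q : Cob Laz s) ∣ z) (K : Ideal (AA (ZMod Q))) :
    rs hQ s z ∈ Fil p K := by
  obtain ⟨c, rfl⟩ := h
  rw [← nsmul_eq_mul, rs_nsmul]
  exact zero_mem _

theorem pt_X_pow_mem {L : Type} [CommRing L] (k : ℕ) :
    (univ L).pt p 0 (X 0 ^ k) ∈ Fil p (II p L ^ k) :=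
  Ideal.mem_map_of_mem _ (Ideal.pow_mem_pow
    (Ideal.subset_span (Set.mem_insert_of_mem _ (Set.mem_range_self 0))) k)

theorem Ph_single [DecidableEq (G 0)] {t : Cob Laz 1} {g : GG (ZMod Q)}
    (ht : rs hQ 1 t = (univ _).arr p 0 g) (c : G 0) :
    Ph hQ R 1 (Pi.single c t) = R.dl 0 g (R.un c) := by
  rw [show Pi.single c t = fun c' => (Pi.single c 1 : G 0 → ℤ) c' • t from funext fun c' => by
    by_cases h : c' = c <;> simp [h], Ph_cells, ht, ← Rs.star_arr]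
  congr 1
  funext w
  simp [Pi.single_apply, Rs.un]

theorem Ph_lc_arr {n : ℕ} (e : 1 + s = n) (e' : s + 1 = n) {t : Cob Laz 1} {g : GG (ZMod Q)}
    (ht : rs hQ 1 t = (univ _).arr p 0 g) {x : G 0 → Cob Laz s}
    (hx : x ∈ CW p Laz (R.deg 0) w s) :
    Ph hQ R n (lc _ e t x) = e' ▸ R.dl s g (Ph hQ R s x) := by
  subst e'
  rw [Ph_lc e t hx, ht, Rs.star_arr]

theorem Ph_lc_pt (e : 0 + s = s) {t : Cob Laz 0} (ht : rs hQ 0 t = (univ _).pt p 0 (X 0 ^ k))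
    {x : G 0 → Cob Laz s} (hx : x ∈ CW p Laz (R.deg 0) w s) :
    Ph hQ R s (lc _ e t x) = vm k (Ph hQ R s x) := by
  rw [Ph_lc e t hx, ht, Rs.star_pt]
  rfl

namespace Rv

variable {x : G 0 → Cob Laz s} {u : G (s + 1) → AA (ZMod Q)}

theorem lc_arr (h : Rv hQ R s w a b x u) (hR : R.Ok π r (s + 1) T) (hw : ω + w ≤ T)
    (e : 1 + s = s + 1) (hb : b ≤ a + r) {t : Cob Laz 1} (ht : Cob.IsWt (((p : ℤ) - 1) * ω) t)
    {g : GG (ZMod Q)} (hg : rs hQ 1 t = (univ _).arr p 0 g) (hd : (Q : Cob Laz 2) ∣ Cob.d 1 t) :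
    Rv hQ R (s + 1) (ω + w) a b (P236EL.lc _ e t x) (R.dl s g u) := by
  have h1 := h.lc (j := 0) hR hw e hb ht (by rw [pow_zero, Ideal.one_eq_top, Fil_top]; trivial)
    (rs_of_dvd hd _)
  rwa [zero_add, zero_add, hg, Rs.star_arr] at h1

theorem lc_pt (h : Rv hQ R s w a b x u) (hR : R.Ok π r s T) (hw : ω + w ≤ T)
    (e : 0 + s = s) (hb : b ≤ a + r) {t : Cob Laz 0} (ht : Cob.IsWt (((p : ℤ) - 1) * ω) t)
    (hg : rs hQ 0 t = (univ _).pt p 0 (X 0 ^ k)) (hd : (Q : Cob Laz 1) ∣ Cob.d 0 t) :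
    Rv hQ R s (ω + w) (k + a) (k + b) (P236EL.lc _ e t x) (vm k u) := by
  have h1 := h.lc (j := k) hR hw e hb ht (hg ▸ pt_X_pow_mem k) (rs_of_dvd hd _)
  rwa [hg, Rs.star_pt] at h1

theorem lc_bm (h : Rv hQ R s w a b x u) (hR : R.Ok π r (s + 2) T) (hw : ω + w ≤ T)
    (e : 2 + s = s + 2) (hb : b ≤ a + r) {t : Cob Laz 2} (ht : Cob.IsWt (((p : ℤ) - 1) * ω) t)
    (hg : rs hQ 2 t = (univ _).arr p 0 (X 0 ^ (2 * k)) * (univ _).arr p 1 (X 0 ^ k) +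
      (univ _).arr p 0 (X 0 ^ k) * (univ _).arr p 1 (X 0 ^ (2 * k)))
    (hd : (Q : Cob Laz 3) ∣ Cob.d 2 t) :
    Rv hQ R (s + 2) (ω + w) a b (P236EL.lc _ e t x) (R.bm s k u) := by
  have h1 := h.lc (j := 0) hR hw e hb ht (by rw [pow_zero, Ideal.one_eq_top, Fil_top]; trivial)
    (rs_of_dvd hd _)
  rwa [zero_add, zero_add, hg, Rs.star_add, Rs.star_arr2, Rs.star_arr2] at h1

/-- changing the chart by a term of high filtration -/
theorem of_sub (h : Rv hQ R s w a b x u) (hab : a ≤ b) {x' : G 0 → Cob Laz s}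
    (hx : x' ∈ CW p Laz (R.deg 0) w s) (hx' : x' - x ∈ Fl hQ _ s (II p (ZMod Q) ^ b)) :
    Rv hQ R s w a b x' u := by
  simpa using h.add (of_Fl (sub_mem hx h.cw) hab hx')

variable [DecidableEq (G 0)] {θ : G 0 → G 0 → Cob Laz 1}

theorem zero_of_BQ (hC : IC hQ R θ) (hR : R.Ok π r s T) (hw : w ≤ T) (hb : b ≤ r)
    (hx : x ∈ BQ p θ (R.deg 0) w Q s) : Rv hQ R s w 0 b x 0 := by
  obtain ⟨e, he, v, hv, rfl⟩ := P236EL.mem_BQ.1 hx
  rw [← add_zero (0 : G (s + 1) → AA (ZMod Q))]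
  refine (of_BF hC hR hw (by omega) ?_).add (of_QW (mem_QW.2 ⟨v, hv, rfl⟩))
  rcases s with _ | s
  · exact he
  · obtain ⟨y, hy, rfl⟩ := he
    exact ⟨y, ⟨hy, by rw [pow_zero, Ideal.one_eq_top]; exact mem_Fl_top hQ y⟩, rfl⟩

/-- **non-vanishing in low filtration** -/
theorem of_BQ_zero (h : Rv hQ R s w a b x u) (hC : IC hQ R θ) (hR : R.Ok π r s T) (hw : w ≤ T)
    (hb : b ≤ r) (hx : x ∈ BQ p θ (R.deg 0) w Q s) : u ∈ R.Bd s w 0 b := by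
  simpa using sub_mem (zero_of_BQ hC hR hw hb hx).bd (h.mono (Nat.zero_le a) le_rfl).bd

end Rv

omit hp in
theorem p_zsmul {ι σ : Type} (hm : (p : ZMod Q) = 0) (φ : ι → MvPolynomial σ (ZMod Q)) :
    (p : ℤ) • φ = 0 := by
  funext g
  rw [Pi.smul_apply, natCast_zsmul, nsmul_eq_mul, ← map_natCast C, hm, map_zero, zero_mul,
    Pi.zero_apply]

theorem mem_of_zsmul {ι σ : Type} (hm : (p : ZMod Q) = 0) {φ : ι → MvPolynomial σ (ZMod Q)}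
    {S : AddSubgroup (ι → MvPolynomial σ (ZMod Q))} {c : ℤ} (hc : ¬ (p : ℤ) ∣ c) (h : c • φ ∈ S) :
    φ ∈ S := by
  obtain ⟨a, a', h1⟩ := ((Nat.prime_iff_prime_int.1 hp.out).irreducible.coprime_iff_not_dvd).2 hc
  have h2 := zsmul_mem h a'
  rwa [smul_smul, ← sub_eq_iff_eq_add'.2 h1.symm, sub_smul, mul_smul, p_zsmul hm, one_smul,
    smul_zero, sub_zero] at h2

namespace IC

variable [DecidableEq (G 0)] {θ : G 0 → G 0 → Cob Laz 1}

/-- a nonzero class of a line is represented by a unit multiple of the generator -/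
theorem line_rep (hC : IC hQ R θ) (h : R.Ok π r (s + 1) T) (hr : 1 ≤ r) (hw : w ≤ T)
    (hm : (p : ZMod Q) = 0) {j : ℕ} (hj : ∀ c, w - R.deg 0 c < j)
    (h3 : ∀ k', k' ≠ k → R.K3s r s w k' ⊥) {φ : G (s + 1) → AA (ZMod Q)}
    (h4 : R.K3s r s w k (AddSubgroup.zmultiples φ)) {z : G 0 → Cob Laz s}
    (hz : z ∈ ZC p θ (R.deg 0) w Q s) (hz' : z ∉ BQ p θ (R.deg 0) w Q s) :
    ∃ e ∈ BQ p θ (R.deg 0) w Q s, ∃ c : ℤ, ¬ (p : ℤ) ∣ c ∧
      z - e ∈ Fl hQ _ s (II p (ZMod Q) ^ k) ∧ Rv hQ R s w (k + 1 - r) (k + 1) (z - e) (c • φ) := by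
  obtain ⟨e, he, h5⟩ := hC.exists_Fl h hr hw (fun k' hk' => h3 k' hk'.ne) hz
  have he' : e ∈ BQ p θ (R.deg 0) w Q s := AddSubgroup.mem_sup_left he
  have h6 := sub_mem hz (hC.BQ_le_ZC dvd_rfl he')
  have h7 := Fl_mono hQ (Ideal.pow_le_pow_right (show k + 1 - r ≤ k by omega)) h5
  obtain ⟨_, ⟨c, rfl⟩, y, hy, h8⟩ := AddSubgroup.mem_sup.1
    (h4 (hC.Ph_mem_Cy h hw le_rfl h6.1 h5 (ZC_DD_Fl h6 _)))
  have h9 : Rv hQ R s w (k + 1 - r) (k + 1) (z - e) (c • φ) :=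
    ⟨h6.1, h7, by rwa [← h8, add_sub_cancel_left]⟩
  refine ⟨e, he', c, ?_, h5, h9⟩
  rintro ⟨c', rfl⟩
  have h10 := h9.mem_BQ hC h hr hw (by rw [pow_one, hm]) hj (fun k' hk _ => h3 k' hk.ne') h6
    (by rw [mul_comm, mul_smul, p_zsmul hm, smul_zero]; exact zero_mem _)
  exact hz' (by simpa using add_mem h10 he')

/-- existence of a cocycle with two given leading terms -/
theorem exists_Rv2 (hC : IC hQ R θ) (h : R.Ok π r (s + 2) T) (hr : 1 ≤ r) (hw : w ≤ T) {m j : ℕ}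
    (hm : (p : ZMod Q) ^ m = 0) (hj : ∀ c, w - R.deg 0 c < j)
    (h3 : ∀ k', k + r ≤ k' → R.K3s r (s + 1) w k' ⊥)
    (h4 : R.Cy s w (k + 1) (k + r) ≤ R.Bd s w k (k + 2))
    {u : G (s + 1) → AA (ZMod Q)} (hu : u ∈ R.Cy s w k (k + r)) :
    ∃ z ∈ ZC p θ (R.deg 0) w Q s, Rv hQ R s w k (k + 2) z u := by
  obtain ⟨z, hz, h1⟩ := hC.exists_Rv h hr hw hm hj (fun k' hk _ => h3 k' hk) hu
  obtain ⟨_, rfl, h2⟩ := h1.refine hC (h.mono (Nat.le_succ _) le_rfl) hw le_rfl hu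
    (ZC_DD_Fl hz _) (S := ⊥) (h4.trans le_sup_right)
  exact ⟨z, hz, by rwa [add_zero] at h2⟩

/-- generation by finitely many represented classes -/
theorem gen_of (hC : IC hQ R θ) (h : R.Ok π r (s + 1) T) (hr : 1 ≤ r) (hw : w ≤ T)
    {𝒵 : AddSubgroup (G 0 → Cob Laz s)} (h𝒵 : 𝒵 ≤ ZC p θ (R.deg 0) w Q s) {m j : ℕ}
    (hm : (p : ZMod Q) ^ m = 0) (hj : ∀ c, w - R.deg 0 c < j)
    (h3 : ∀ k, R.K3s r s w k ⊥ ∨ ∃ φ, R.K3s r s w k (AddSubgroup.zmultiples φ) ∧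
      ∃ z ∈ 𝒵, Rv hQ R s w (k + 1 - r) (k + 1) z φ) :
    ZC p θ (R.deg 0) w Q s ≤ 𝒵 ⊔ BQ p θ (R.deg 0) w Q s :=
  hC.gen h hr hw h𝒵 hm hj fun k _ => by
    rcases h3 k with h4 | ⟨φ, h4, z, hz, h5⟩
    · exact h4.le_RP bot_le
    · exact h4.le_RP (AddSubgroup.zmultiples_le_of_mem (h5.mem_RP hz))

end IC

/-- the class of a chain map is a cycle -/
theorem Cf.cy {L : Type} [CommRing L] {G' : ℕ → Type} [∀ q, Fintype (G' q)] {R : Rs p L G}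
    {R' : Rs p L G'} {m j n Q' : ℕ} {z : ∀ q, G (q + 1) → G' (m + q + 1) → (ℕ →₀ ℕ) → AA L}
    (h : Cf R R' m ω z j n Q' T) (hq : s < Q') (hw : w ≤ T) {u : G (s + 1) → AA L}
    (hu : u ∈ R.Cy s w a b) (h1 : k ≤ b + j) (h2 : k ≤ a + n) :
    fa p (z s) u ∈ R'.Cy (m + s) (w + ω) (a + j) k := by
  refine Rs.mem_Cy.2 ⟨h.mem_PA hu.1, ?_⟩
  simpa using add_mem (Rs.ZA_mono (Ideal.pow_le_pow_right h2) (h.sd hq hw hu.1))
    (Rs.ZA_mono (Ideal.pow_le_pow_right h1) (h.mem_ZA hu.2))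

theorem one_mem_Cy {L : Type} [CommRing L] [Unique (G 0)] {R : Rs p L G} {π : L →+* F} {n : ℕ}
    (hR : R.Ok π r n T) (h0 : R.deg 0 default = 0) (he : ∀ v, R.e default v = 1) :
    (1 : G 1 → AA L) ∈ R.Cy 0 0 0 r := by
  refine Rs.mem_Cy.2 ⟨fun v => ⟨?_, by simp⟩, fun v => ?_⟩
  · simpa [he, h0] using R.he default v 0
  · simpa [he, Rs.sd_apply] using hR.k1.aug default v

end Vale.Agent.P236EL

end
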