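import Vale.Agent.P236EL.Nat

/-!
# P236EL / Rep : representation of integral charts by small cochains
-/

noncomputable section

namespace Vale.Agent.P236EL

open Vale.Agent.P251.F Vale.Agent.P251.F.F3 Vale.Agent.P257.H80 LawRing MvPolynomial Ch

variable {p : ℕ} [hp : Fact p.Prime] {G : ℕ → Type} [∀ q, Fintype (G q)]

namespace Rs

variable {L : Type} [CommRing L] {R : Rs p L G} {K K' KR : Ideal (AA L)} {m q s : ℕ} {ω w T : ℤ}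
  {θ : CC L}

theorem sd_mem_ZA (hK : Inv p K) {u : G q → AA L} (hu : u ∈ ZA _ K) : R.sd q u ∈ ZA _ K := by
  rw [← down_up (p := p) (R.sd q u), ← dd_up]
  exact down_mem_ZA (R.dd_mem_ZW hK 0 q (up_mem_ZW hu))

theorem sd_mem_PA (hK : Inv p K) {u : G q → AA L} (hu : u ∈ PA p (R.deg q) w K) :
    R.sd q u ∈ PA p (R.deg (q + 1)) w K := by
  rw [← down_up (p := p) (R.sd q u), ← dd_up]
  exact down_mem_PA (R.dd_mem_WW hK w 0 q (up_mem_WW hu))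

theorem sd_sd (hR : Inv p KR) (h1 : R.K1 KR (q + 1) T) (hw : w ≤ T) (hK : Inv p K)
    {u : G q → AA L} (hu : u ∈ PA p (R.deg q) w K) :
    R.sd (q + 1) (R.sd q u) ∈ ZA _ (K * KR) := by
  rw [← down_up (p := p) (R.sd (q + 1) _), ← dd_up, ← dd_up]
  exact down_mem_ZA (R.dd_dd hR h1 hw hK 0 q (Nat.lt_succ_self q) (up_mem_WW hu))

theorem cup_up_mem (hK : Inv p K) (h1 : θ ∈ Loc p L m) (h2 : θ ∈ WC p L ω) (h3 : θ ∈ Fil p K')
    {u : G (q + 1) → AA L} (hu : u ∈ PA p (R.deg (q + 1)) w K) :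
    cup p _ m θ (up p _ u) ∈ R.WW (ω + w) (K' * K) m (q + 1) := by
  have h4 := cup_mem_PW hK h1 h2 h3 (up_mem_PW hu)
  rwa [add_zero] at h4

theorem TT_mem_WW (hK : Inv p K) {n : ℕ} (e : q + n = s) {x : G q → CC L} (hx : x ∈ R.WW w K n q) :
    R.TT n q s e x ∈ R.WW w K 0 s := (R.dc w hK hK).TW n q s e hx

theorem TT_chain (hR : Inv p KR) (h : R.K1 KR s T) (hw : w ≤ T) (hK : Inv p K) {n : ℕ}
    (e : q + n = s) {x : G q → CC L} (hx : x ∈ R.WW w K n q) :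
    R.TT (n + 1) q (s + 1) (by omega) (R.dv n q x) - R.dd 0 s (R.TT n q s e x) ∈
      ZW p _ (K * KR) := DC.chain (R.sq_dc hR h hw hK (hK.mul hR) le_rfl) n q e hx

theorem star_mem_PA (hK : Inv p K) (hK' : Inv p K') (e : q + 1 + m = s) (h1 : θ ∈ Loc p L m)
    (h2 : θ ∈ WC p L ω) (h3 : θ ∈ Fil p K') {u : G (q + 1) → AA L}
    (hu : u ∈ PA p (R.deg (q + 1)) w K) :
    R.star m (q + 1) s e θ u ∈ PA p (R.deg s) (ω + w) (K' * K) :=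
  (down_mem_of_WW (TT_mem_WW (hK'.mul hK) e (cup_up_mem hK h1 h2 h3 hu))).1

/-- the Leibniz rule in the small complex -/
theorem star_leibniz (hR : Inv p KR) (h : R.K1 KR s T) (hw : ω + w ≤ T) (hK : Inv p K)
    (hK' : Inv p K') (e : q + 1 + m = s) (h1 : θ ∈ Loc p L m) (h2 : θ ∈ WC p L ω)
    (h3 : θ ∈ Fil p K') {u : G (q + 1) → AA L} (hu : u ∈ PA p (R.deg (q + 1)) w K) :
    R.star (m + 1) (q + 1) (s + 1) (by omega) (alt p L (m + 2) θ) u +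
      ((-1 : ℤ) ^ m) • R.star m (q + 2) (s + 1) (by omega) θ (R.sd (q + 1) u) -
        R.sd s (R.star m (q + 1) s e θ u) ∈ ZA _ (K' * K * KR) := by
  have h4 := cup_up_mem hK h1 h2 h3 hu
  have h5 := down_mem_ZA (TT_chain hR h hw (hK'.mul hK) e h4)
  have h6 : R.dv m (q + 1) (cup p _ m θ (up p _ u)) =
      cup p _ (m + 1) (alt p L (m + 2) θ) (up p _ u) +
        ((-1 : ℤ) ^ m) • cup p _ (m + 1) (θ * (univ L).arr p m 1) (up p _ u) := by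
    funext i
    rw [dv_succ, pw_apply, cup_apply]
    refine (alt_mul_sh h1 0 _).trans ?_
    rw [Pi.add_apply, Pi.smul_apply, cup_apply, cup_apply, up_apply, map_one, mul_one, alt_succ 0,
      alt_zero, zero_add, pow_zero, one_smul, fc, pb_pt (sa_mono 0), sh_pt, sh_pt]
    rfl
  have h7 := (down_mem_of_WW (TT_mem_WW (hK'.mul hK) e h4)).2
  rw [← dl_one, ← R.star_succ h1 q (s + 1) (by omega), star_apply, star_apply, ← map_zsmul,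
    ← map_zsmul, ← map_add, ← map_add, ← h6, ← down_up (p := p) (R.sd s _), ← dd_up, ← map_sub,
    star_apply]
  rwa [h7]

variable {F : Type} [Field F] {π : L →+* F} {r n a b j : ℕ}

theorem star_mem_Bd (h : R.Ok π r n T) (hw : ω + w ≤ T) (e : m + s = n) (hb : b ≤ a + r)
    (h1 : θ ∈ Loc p L m) (h2 : θ ∈ WC p L ω) (h3 : θ ∈ Fil p (II p L ^ j))
    (h4 : alt p L (m + 2) θ ∈ Fil p (II p L ^ (j + r))) {u : G (s + 1) → AA L}
    (hu : u ∈ R.Bd s w a b) :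
    R.star m (s + 1) (n + 1) (by omega) θ u ∈ R.Bd n (ω + w) (j + a) (j + b) := by
  obtain ⟨y, hy, h5⟩ := mem_Bd.1 hu
  rw [← sub_add_cancel u (R.sd s y), map_add]
  refine add_mem (mem_Bd_of_ZA ?_) ?_
  · rw [pow_add]
    exact R.star_mem_ZA (inv_II.pow j) (inv_II.pow b) _ _ _ _ h3 h5
  rcases s with _ | s
  · rw [show R.sd 0 y = 0 from rfl, map_zero]
    exact zero_mem _
  have h6 := star_leibniz (inv_II.pow r) h.k1 hw (inv_II.pow a) (inv_II.pow j)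
    (show s + 1 + m = n by omega) h1 h2 h3 hy
  have h7 := R.star_mem_ZA (inv_II.pow _) (inv_II.pow a) (m + 1) (s + 1) (n + 1) (by omega) h4
    fun i => (hy i).2
  rw [← pow_add, ← pow_add] at h6
  rw [← pow_add, add_right_comm] at h7
  have h8 := star_mem_PA (inv_II.pow a) (inv_II.pow j) (show s + 1 + m = n by omega) h1 h2 h3 hy
  rw [← pow_add] at h8
  refine mem_Bd.2 ⟨_, zsmul_mem h8 ((-1 : ℤ) ^ m),
    ZA_mono (Ideal.pow_le_pow_right (show j + b ≤ j + a + r by omega)) ?_⟩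
  have h9 := zsmul_mem (sub_mem h6 h7) ((-1 : ℤ) ^ m)
  rwa [sub_right_comm, add_sub_cancel_left, smul_sub, neg_one_smul_smul, ← map_zsmul] at h9

theorem star_mem_Cy (h : R.Ok π r (n + 1) T) (hw : ω + w ≤ T) (e : m + s = n) (hb : b ≤ a + r)
    (h1 : θ ∈ Loc p L m) (h2 : θ ∈ WC p L ω) (h3 : θ ∈ Fil p (II p L ^ j))
    (h4 : alt p L (m + 2) θ ∈ Fil p (II p L ^ (j + r))) {u : G (s + 1) → AA L}
    (hu : u ∈ R.Cy s w a b) :
    R.star m (s + 1) (n + 1) (by omega) θ u ∈ R.Cy n (ω + w) (j + a) (j + b) := by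
  have h6 := star_leibniz (inv_II.pow r) h.k1 hw (inv_II.pow a) (inv_II.pow j)
    (show s + 1 + m = n + 1 by omega) h1 h2 h3 hu.1
  have h7 := R.star_mem_ZA (inv_II.pow _) (inv_II.pow a) (m + 1) (s + 1) (n + 2) (by omega) h4
    fun i => (hu.1 i).2
  have h8 := star_mem_PA (inv_II.pow a) (inv_II.pow j) (show s + 1 + m = n + 1 by omega) h1 h2 h3
    hu.1
  have h9 := R.star_mem_ZA (inv_II.pow j) (inv_II.pow b) m (s + 2) (n + 2) (by omega) h3 hu.2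
  rw [← pow_add, ← pow_add] at h6
  rw [← pow_add, add_right_comm] at h7
  rw [← pow_add] at h8 h9
  have h10 : ZA (G (n + 2)) (II p L ^ (j + a + r)) ≤ ZA _ (II p L ^ (j + b)) :=
    ZA_mono (Ideal.pow_le_pow_right (by omega))
  refine mem_Cy.2 ⟨h8, ?_⟩
  have h11 := sub_mem (add_mem (h10 h7) (zsmul_mem h9 ((-1 : ℤ) ^ m))) (h10 h6)
  rwa [sub_sub_cancel] at h11

theorem Bd_le_ZA (hab : a ≤ b) : R.Bd s w a b ≤ ZA _ (II p L ^ a) := by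
  refine sup_le ?_ (ZA_mono (Ideal.pow_le_pow_right hab))
  rintro _ ⟨y, hy, rfl⟩
  exact sd_mem_ZA (inv_II.pow a) fun i => (hy i).2

end Rs

variable {Q : ℕ} {hQ : PLoc p (ZMod Q)} {R : Rs p (ZMod Q) G} {F : Type} [Field F]
  {π : ZMod Q →+* F} {r s a b : ℕ} {T w : ℤ}

variable (hQ R) in
/-- the chart `x` of filtration `a` is represented by `u` modulo filtration `b` -/
structure Rv (s : ℕ) (w : ℤ) (a b : ℕ) (x : G 0 → Cob Laz s) (u : G (s + 1) → AA (ZMod Q)) :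
    Prop where
  cw : x ∈ CW p Laz (R.deg 0) w s
  fl : x ∈ Fl hQ _ s (II p (ZMod Q) ^ a)
  bd : Ph hQ R s x - u ∈ R.Bd s w a b

namespace Rv

variable {x x' : G 0 → Cob Laz s} {u u' : G (s + 1) → AA (ZMod Q)}

theorem self (hx : x ∈ CW p Laz (R.deg 0) w s) (hx' : x ∈ Fl hQ _ s (II p (ZMod Q) ^ a)) :
    Rv hQ R s w a b x (Ph hQ R s x) := ⟨hx, hx', by rw [sub_self]; exact zero_mem _⟩

theorem self_zero (hx : x ∈ CW p Laz (R.deg 0) w s) : Rv hQ R s w 0 b x (Ph hQ R s x) :=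
  self hx (by rw [pow_zero, Ideal.one_eq_top]; exact mem_Fl_top hQ x)

theorem zero : Rv hQ R s w a b 0 0 :=
  ⟨zero_mem _, zero_mem _, by rw [map_zero, sub_self]; exact zero_mem _⟩

theorem add (h : Rv hQ R s w a b x u) (h' : Rv hQ R s w a b x' u') :
    Rv hQ R s w a b (x + x') (u + u') :=
  ⟨add_mem h.cw h'.cw, add_mem h.fl h'.fl, by
    rw [map_add, add_sub_add_comm]; exact add_mem h.bd h'.bd⟩

theorem zsmul (h : Rv hQ R s w a b x u) (c : ℤ) : Rv hQ R s w a b (c • x) (c • u) :=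
  ⟨zsmul_mem h.cw c, zsmul_mem h.fl c, by rw [map_zsmul, ← smul_sub]; exact zsmul_mem h.bd c⟩

theorem neg (h : Rv hQ R s w a b x u) : Rv hQ R s w a b (-x) (-u) := by
  simpa using h.zsmul (-1)

theorem sub (h : Rv hQ R s w a b x u) (h' : Rv hQ R s w a b x' u') :
    Rv hQ R s w a b (x - x') (u - u') := by
  simpa only [sub_eq_add_neg] using h.add h'.neg

theorem mono (h : Rv hQ R s w a b x u) {a' b' : ℕ} (ha : a' ≤ a) (hb : b' ≤ b) :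
    Rv hQ R s w a' b' x u :=
  ⟨h.cw, Fl_mono hQ (Ideal.pow_le_pow_right ha) h.fl, Rs.Bd_mono ha hb h.bd⟩

theorem congr (h : Rv hQ R s w a b x u) (h' : u - u' ∈ R.Bd s w a b) : Rv hQ R s w a b x u' :=
  ⟨h.cw, h.fl, by simpa using add_mem h.bd h'⟩

theorem cast (h : Rv hQ R s w a b x u) {w' : ℤ} (e : w = w') (e' : x = x') (e'' : u = u') :
    Rv hQ R s w' a b x' u' := e ▸ e' ▸ e'' ▸ h

theorem mem_ZA (h : Rv hQ R s w a b x u) (hab : a ≤ b) : u ∈ ZA _ (II p (ZMod Q) ^ a) := by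
  simpa using sub_mem (Ph_mem_ZA (R := R) (inv_II.pow a) h.fl) (Rs.Bd_le_ZA hab h.bd)

theorem of_Fl (hx : x ∈ CW p Laz (R.deg 0) w s) (hab : a ≤ b)
    (hx' : x ∈ Fl hQ _ s (II p (ZMod Q) ^ b)) : Rv hQ R s w a b x 0 :=
  ⟨hx, Fl_mono hQ (Ideal.pow_le_pow_right hab) hx', by
    rw [sub_zero]; exact Rs.mem_Bd_of_ZA (Ph_mem_ZA (inv_II.pow b) hx')⟩

theorem of_QW (hx : x ∈ QW p Laz (R.deg 0) w Q s) : Rv hQ R s w a b x 0 :=
  (of_Fl (QW_le_CW hx) (le_refl (max a b)) (QW_le_Fl _ hx)).mono (le_max_left _ _)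
    (le_max_right _ _)

/-- left multiplication by a cocycle -/
theorem lc {m n j : ℕ} (h : Rv hQ R s w a b x u) (hR : R.Ok π r n T) {ω : ℤ} (hw : ω + w ≤ T)
    (e : m + s = n) (hb : b ≤ a + r) {t : Cob Laz m} (ht : Cob.IsWt (((p : ℤ) - 1) * ω) t)
    (ht' : rs hQ m t ∈ Fil p (II p (ZMod Q) ^ j))
    (hd : rs hQ (m + 1) (Cob.d m t) ∈ Fil p (II p (ZMod Q) ^ (j + r))) :
    Rv hQ R n (ω + w) (j + a) (j + b) (lc _ e t x)
      (R.star m (s + 1) (n + 1) (by omega) (rs hQ m t) u) := by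
  refine ⟨lc_mem_CW e ht h.cw, ?_, ?_⟩
  · rw [pow_add]
    exact lc_mem_Fl e (inv_II.pow a) ht' h.fl
  · rw [Ph_lc e t h.cw, ← map_sub]
    exact Rs.star_mem_Bd hR hw e hb (rs_mem_Loc hQ m t) (rs_mem_WC hQ ht) ht' (rs_d hQ m t ▸ hd) h.bd

/-- cellular maps -/
theorem zm {G' : ℕ → Type} [∀ q, Fintype (G' q)] {R' : Rs p (ZMod Q) G'}
    {f : ∀ q, G q → G' q → ℤ} {ω : ℤ} (hf : Hm R R' f ω) (h : Rv hQ R s w a b x u) :
    Rv hQ R' s (w + ω) a b (zm _ (f 0) x) (zm _ (f (s + 1)) u) :=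
  ⟨zm_mem_CW (hf.dg 0) h.cw, zm_mem_Fl _ h.fl, by rw [hf.Ph, ← map_sub]; exact hf.Bd h.bd⟩

variable [DecidableEq (G 0)] {θ : G 0 → G 0 → Cob Laz 1}

theorem of_BF (hC : IC hQ R θ) (hR : R.Ok π r s T) (hw : w ≤ T) (hb : b ≤ a + r)
    (hx : x ∈ BF hQ θ (R.deg 0) w (II p (ZMod Q) ^ a) s) : Rv hQ R s w a b x 0 :=
  ⟨BC_le_CW hC.wt w s (BF_le_BC hQ _ _ _ _ _ hx), hC.BF_le_Fl (inv_II.pow a) hx, by
    rw [sub_zero]; exact Rs.Bd_mono le_rfl hb (hC.Ph_BF hR hw hx)⟩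

/-- the differential -/
theorem DD (h : Rv hQ R s w a b x u) (hC : IC hQ R θ) (hR : R.Ok π r (s + 1) T) (hw : w ≤ T)
    (hb : b ≤ a + r) : Ph hQ R (s + 1) (DD θ s x) - R.sd (s + 1) u ∈ ZA _ (II p (ZMod Q) ^ b) := by
  obtain ⟨y, hy, h1⟩ := Rs.mem_Bd.1 h.bd
  have h2 : ZA (G (s + 2)) (II p (ZMod Q) ^ a * II p (ZMod Q) ^ r) ≤ ZA _ (II p (ZMod Q) ^ b) :=
    Rs.ZA_mono (by rw [← pow_add]; exact Ideal.pow_le_pow_right hb)
  have h3 := add_mem (add_mem (h2 (hC.Ph_DD hR hw (inv_II.pow a) h.cw h.fl))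
    (Rs.sd_mem_ZA (R := R) (inv_II.pow b) h1))
    (h2 (Rs.sd_sd (inv_II.pow r) hR.k1 hw (inv_II.pow a) hy))
  convert h3 using 1
  rw [map_sub, map_sub]
  abel

/-- raising the filtration -/
theorem raise (h : Rv hQ R s w a b x u) (hC : IC hQ R θ) (hR : R.Ok π r s T) (hw : w ≤ T)
    (hb : b ≤ a + r) {k : ℕ} (hk : k ≤ b) (hu : u ∈ ZA _ (II p (ZMod Q) ^ k))
    (hd : P236EL.DD θ s x ∈ Fl hQ _ (s + 1) (II p (ZMod Q) ^ k)) :
    ∃ y ∈ BF hQ θ (R.deg 0) w (II p (ZMod Q) ^ a) s,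
      x - y ∈ Fl hQ _ s (II p (ZMod Q) ^ k) ∧ Rv hQ R s w a b (x - y) u := by
  obtain ⟨v, hv, h1⟩ := Rs.mem_Bd.1 h.bd
  obtain ⟨y, hy, h2⟩ := hC.step hR hw (inv_II.pow a) (inv_II.pow k)
    (by rw [← pow_add]; exact Ideal.pow_le_pow_right (by omega)) h.cw h.fl hd hv (by
      have h3 := add_mem (Rs.ZA_mono (Ideal.pow_le_pow_right hk) h1) hu
      rwa [sub_right_comm, sub_add_cancel] at h3)
  exact ⟨y, hy, h2, by simpa using h.sub (of_BF hC hR hw hb hy)⟩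

/-- improving the precision -/
theorem refine (h : Rv hQ R s w a b x u) (hC : IC hQ R θ) (hR : R.Ok π r (s + 1) T) (hw : w ≤ T)
    {n b' : ℕ} (hn : n ≤ a + r) (hu : u ∈ R.Cy s w a n)
    (hd : P236EL.DD θ s x ∈ Fl hQ _ (s + 1) (II p (ZMod Q) ^ n))
    {S : AddSubgroup (G (s + 1) → AA (ZMod Q))} (h3 : R.Cy s w b n ≤ S ⊔ R.Bd s w a b') :
    ∃ v ∈ S, Rv hQ R s w a b' x (u + v) := by
  obtain ⟨y, hy, h1⟩ := Rs.mem_Bd.1 h.bd
  have h2 := sub_mem (hC.Ph_mem_Cy hR hw hn h.cw h.fl hd) hu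
  have h4 : Ph hQ R s x - u - R.sd s y ∈ R.Cy s w b n := by
    refine Rs.mem_Cy.2 ⟨fun i => ⟨(sub_mem (Rs.mem_Cy.1 h2).1
      (Rs.sd_mem_PA (inv_II.pow a) hy) i).1, h1 i⟩, ?_⟩
    rw [map_sub]
    refine sub_mem (Rs.mem_Cy.1 h2).2 (Rs.ZA_mono ?_ (Rs.sd_sd (inv_II.pow r) hR.k1 hw (inv_II.pow a) hy))
    rw [← pow_add]
    exact Ideal.pow_le_pow_right hn
  obtain ⟨v, hv, e, he, h5⟩ := AddSubgroup.mem_sup.1 (h3 h4)
  refine ⟨v, hv, h.cw, h.fl, ?_⟩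
  rw [← sub_sub, sub_eq_iff_eq_add.1 h5.symm, add_assoc, add_sub_cancel_left]
  exact add_mem he (AddSubgroup.mem_sup_left ⟨y, hy, rfl⟩)

/-- **vanishing of a class** -/
theorem mem_BQ {k : ℕ} (h : Rv hQ R s w (k + 1 - r) (k + 1) x u) (hC : IC hQ R θ)
    (hR : R.Ok π r (s + 1) T) (hr : 1 ≤ r) (hw : w ≤ T) {m j : ℕ} (hm : (p : ZMod Q) ^ m = 0)
    (hj : ∀ c, w - R.deg 0 c < j) (h3 : ∀ k', k < k' → k' < m + j → R.K3s r s w k' ⊥)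
    (hx : x ∈ ZC p θ (R.deg 0) w Q s) (hu : u ∈ R.Bd s w (k + 1 - r) (k + 1)) :
    x ∈ BQ p θ (R.deg 0) w Q s :=
  hC.mem_BQ_of_Bd hR hr hw hm hj h3 hx h.fl (by simpa using add_mem h.bd hu)

/-- **non-vanishing of a class** -/
theorem of_BQ {k : ℕ} {x : G 0 → Cob Laz (s + 1)} {u : G (s + 2) → AA (ZMod Q)}
    (h : Rv hQ R (s + 1) w (k + 1 - r) (k + 1) x u) (hC : IC hQ R θ) (hR : R.Ok π r (s + 1) T)
    (hr : 1 ≤ r) (hw : w ≤ T) (h3 : IC.Perm hQ R θ r s w (k + 1 - r) k)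
    (hu : u ∈ ZA _ (II p (ZMod Q) ^ k)) (hx : x ∈ BQ p θ (R.deg 0) w Q (s + 1)) :
    u ∈ R.Bd (s + 1) w (k + 1 - r) (k + 1) := by
  obtain ⟨y, hy, h1, h2⟩ := h.raise hC hR hw (by omega) (Nat.le_succ k) hu
    (ZC_DD_Fl (hC.BQ_le_ZC dvd_rfl hx) _)
  have h4 := Rs.Bd_mono le_rfl (show k + 1 ≤ k + 1 - r + r by omega) (hC.Ph_BQ hR hr hw (by omega)
    h3 (sub_mem hx (AddSubgroup.mem_sup_left (BF_le_BC hQ _ _ _ _ _ hy))) h1)
  simpa using sub_mem h4 h2.bd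

omit [DecidableEq (G 0)] in
theorem mem_RP {k : ℕ} {𝒵 : AddSubgroup (G 0 → Cob Laz s)} (hx : x ∈ 𝒵)
    (h : Rv hQ R s w (k + 1 - r) (k + 1) x u) : u ∈ RP hQ R r s w 𝒵 k :=
  P236EL.mem_RP.2 ⟨x, hx, h.fl, by simpa using neg_mem h.bd⟩

end Rv

/-- **existence of a cocycle with given leading term** -/
theorem IC.exists_Rv [DecidableEq (G 0)] {θ : G 0 → G 0 → Cob Laz 1} (hC : IC hQ R θ)
    (h : R.Ok π r (s + 2) T) (hr : 1 ≤ r) (hw : w ≤ T) {m j k : ℕ} (hm : (p : ZMod Q) ^ m = 0)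
    (hj : ∀ c, w - R.deg 0 c < j) (h3 : ∀ k', k + r ≤ k' → k' < m + j → R.K3s r (s + 1) w k' ⊥)
    {u : G (s + 1) → AA (ZMod Q)} (hu : u ∈ R.Cy s w k (k + r)) :
    ∃ z ∈ ZC p θ (R.deg 0) w Q s, Rv hQ R s w k (k + 1) z u := by
  obtain ⟨z, hz, h1, h2⟩ := hC.lift h hr hw hm hj h3 hu
  exact ⟨z, hz, hz.1, h1, by simpa using neg_mem h2⟩

/-! ### connecting maps -/

section conn

variable {GA GB : ℕ → Type} [∀ q, Fintype (GA q)] [∀ q, Fintype (GB q)]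

/-- a levelwise split short exact sequence of resolutions -/
structure Ses {L : Type} [CommRing L] (RA : Rs p L GA) (R : Rs p L G) (RB : Rs p L GB)
    (i : ∀ q, GA q → G q → ℤ) (f : ∀ q, G q → GB q → ℤ) (ρ : ∀ q, G q → GA q → ℤ)
    (σ : ∀ q, GB q → G q → ℤ) (ω ω' : ℤ) : Prop where
  hi : Hm RA R i ω
  hf : Hm R RB f ω'
  hρ : ∀ q, Dg (ρ q) (R.deg q) (RA.deg q) (-ω)
  hσ : ∀ q, Dg (σ q) (RB.deg q) (R.deg q) (-ω')
  ρi : ∀ q (u : GA (q + 1) → AA L), zm _ (ρ (q + 1)) (zm _ (i (q + 1)) u) = u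
  fσ : ∀ q (u : GB (q + 1) → AA L), zm _ (f (q + 1)) (zm _ (σ (q + 1)) u) = u
  sp : ∀ q (u : G (q + 1) → AA L),
    zm _ (σ (q + 1)) (zm _ (f (q + 1)) u) + zm _ (i (q + 1)) (zm _ (ρ (q + 1)) u) = u

variable {RA : Rs p (ZMod Q) GA} {RB : Rs p (ZMod Q) GB} {i : ∀ q, GA q → G q → ℤ}
  {f : ∀ q, G q → GB q → ℤ} {ρ : ∀ q, G q → GA q → ℤ} {σ : ∀ q, GB q → G q → ℤ} {ω ω' : ℤ}

/-- a chart is represented by a lift of a representative of its image, up to the subcomplex -/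
theorem Ses.lift (H : Ses RA R RB i f ρ σ ω ω') {y : G 0 → Cob Laz s}
    (hy : y ∈ CW p Laz (R.deg 0) w s) (hy' : y ∈ Fl hQ _ s (II p (ZMod Q) ^ a))
    {u : GB (s + 1) → AA (ZMod Q)} (h : Rv hQ RB s (w + ω') a b (zm _ (f 0) y) u) :
    ∃ v ∈ PA p (RA.deg (s + 1)) (w + -ω) (II p (ZMod Q) ^ a),
      Rv hQ R s w a b y (zm _ (σ (s + 1)) u + zm _ (i (s + 1)) v) := by
  obtain ⟨v, hv, h1⟩ := Rs.mem_Bd.1 h.bd
  have h2 := zm_mem_PA (H.hσ s) hv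
  rw [add_neg_cancel_right] at h2
  refine ⟨_, zm_mem_PA (H.hρ _) (sub_mem (Ph_mem (inv_II.pow a) hy hy')
    (Rs.sd_mem_PA (inv_II.pow a) h2)), hy, hy', Rs.mem_Bd.2 ⟨_, h2, ?_⟩⟩
  have h3 : zm _ (f (s + 1)) (R.sd s (zm _ (σ s) v)) = RB.sd s v := by
    rcases s with _ | s
    · exact map_zero _
    · rw [← H.hf.sd, H.fσ]
  have h4 := zm_mem_ZA (σ (s + 1)) h1
  rw [H.hf.Ph, ← h3, sub_right_comm, ← map_sub, map_sub, eq_sub_of_add_eq (H.sp s _)] at h4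
  convert h4 using 1
  abel

/-- **the connecting map** -/
theorem Ses.conn [DecidableEq (G 0)] {θ : G 0 → G 0 → Cob Laz 1} (H : Ses RA R RB i f ρ σ ω ω')
    (hC : IC hQ R θ) (hR : R.Ok π r (s + 1) T) (hw : w ≤ T) (hb : b ≤ a + r) {y : G 0 → Cob Laz s}
    (hy : y ∈ CW p Laz (R.deg 0) w s) (hy' : y ∈ Fl hQ _ s (II p (ZMod Q) ^ a))
    {u : GB (s + 1) → AA (ZMod Q)} (h : Rv hQ RB s (w + ω') a b (zm _ (f 0) y) u)
    {z : GA 0 → Cob Laz (s + 1)} (hz : z ∈ CW p Laz (RA.deg 0) (w + -ω) (s + 1))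
    (hz' : z ∈ Fl hQ _ (s + 1) (II p (ZMod Q) ^ a))
    (hd : DD θ s y - zm _ (i 0) z ∈ Fl hQ _ (s + 1) (II p (ZMod Q) ^ b)) :
    Rv hQ RA (s + 1) (w + -ω) a b z (zm _ (ρ (s + 2)) (R.sd (s + 1) (zm _ (σ (s + 1)) u))) := by
  obtain ⟨v, hv, h1⟩ := H.lift hy hy' h
  refine ⟨hz, hz', Rs.mem_Bd.2 ⟨v, hv, ?_⟩⟩
  have h2 := zm_mem_ZA (ρ (s + 2))
    (sub_mem (h1.DD hC hR hw hb) (Ph_mem_ZA (R := R) (inv_II.pow b) hd))
  rw [map_sub (Ph hQ R _), sub_sub_sub_cancel_left, H.hi.Ph, map_add, H.hi.sd, map_sub, map_add,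
    H.ρi, H.ρi] at h2
  rwa [sub_sub]

end conn

end Vale.Agent.P236EL

end
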