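import Vale.Agent.P236EL.Row
import Vale.Agent.P236EL.Dbl

/-!
# P236EL / Res : resolution data, the cobar complex of a cell comodule and the small complex

`G 0` is the set of cells, `G (q + 1)` the set of generators in homological degree `q`.
-/

noncomputable section

namespace Vale.Agent.P236EL

open MvPolynomial Ch

/-- resolution data -/
structure Rs (p : ℕ) [Fact p.Prime] (L : Type) [CommRing L] (G : ℕ → Type)
    [∀ q, Fintype (G q)] where
  /-- weights of the cells and generators -/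
  deg : ∀ q, G q → ℤ
  /-- the coaction -/
  th : G 0 → G 0 → GG L
  /-- the augmentation -/
  e : G 0 → G 1 → GG L
  /-- the differentials -/
  y : ∀ q, G (q + 1) → G (q + 2) → (ℕ →₀ ℕ) → AA L
  hth : ∀ c c', th c c' ∈ ext p (WA p L) (deg 0 c - deg 0 c')
  he : ∀ c w, e c w ∈ ext p (WA p L) (deg 0 c - deg 1 w)
  hy : ∀ q w w', HomR p (deg (q + 1) w - deg (q + 2) w') (y q w w')
  coc : ∀ c w, Del p L (e c w) = ∑ c', C (th c c') * map (etaR p L) (e c' w)

variable {p : ℕ} [hp : Fact p.Prime] {L : Type} [CommRing L] {B : Type*} [CommRing B]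

/-- an additive map applied in each coordinate -/
def pw (ι : Type) {M N : Type*} [AddCommGroup M] [AddCommGroup N] (f : M →+ N) :
    (ι → M) →+ (ι → N) := f.compLeft ι

@[simp] theorem pw_apply {ι : Type} {M N : Type*} [AddCommGroup M] [AddCommGroup N] (f : M →+ N)
    (F : ι → M) (i : ι) : pw ι f F i = f (F i) := rfl

/-- a matrix of additive maps -/
def mat {ι κ : Type} [Fintype ι] {M N : Type*} [AddCommGroup M] [AddCommGroup N]
    (f : ι → κ → M →+ N) : (ι → M) →+ (κ → N) where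
  toFun F k := ∑ i, f i k (F i)
  map_zero' := by funext k; simp
  map_add' F F' := by funext k; simp [Finset.sum_add_distrib]

@[simp] theorem mat_apply {ι κ : Type} [Fintype ι] {M N : Type*} [AddCommGroup M]
    [AddCommGroup N] (f : ι → κ → M →+ N) (F : ι → M) (k : κ) :
    mat f F k = ∑ i, f i k (F i) := rfl

variable (p) in
/-- multiplication by a matrix of functions of the last arrow -/
def tw {ι κ : Type} [Fintype ι] (s : ℕ) (g : ι → κ → GG L) : (ι → CC L) →+ (κ → CC L) :=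
  mat fun i k => (AddMonoidHom.mulRight ((univ L).arr p s (g i k))).comp
    (fc p L (s + 1)).toAddMonoidHom

theorem tw_apply {ι κ : Type} [Fintype ι] (s : ℕ) (g : ι → κ → GG L) (F : ι → CC L) (k : κ) :
    tw p s g F k = ∑ i, fc p L (s + 1) (F i) * (univ L).arr p s (g i k) := rfl

variable (p) in
/-- cochains of degree `n`, weight `w`, filtration `K` -/
def PW {ι : Type} (d : ι → ℤ) (w : ℤ) (K : Ideal (AA L)) (n : ℕ) : AddSubgroup (ι → CC L) where
  carrier := {F | ∀ i, F i ∈ Loc p L n ∧ F i ∈ WC p L (w - d i) ∧ F i ∈ Fil p K}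
  zero_mem' _ := ⟨zero_mem _, zero_mem _, zero_mem _⟩
  add_mem' ha hb i := ⟨add_mem (ha i).1 (hb i).1, add_mem (ha i).2.1 (hb i).2.1,
    add_mem (ha i).2.2 (hb i).2.2⟩
  neg_mem' ha i := ⟨neg_mem (ha i).1, neg_mem (ha i).2.1, neg_mem (ha i).2.2⟩

variable (p) in
/-- cochains of filtration `K` -/
def ZW (ι : Type) (K : Ideal (AA L)) : AddSubgroup (ι → CC L) where
  carrier := {F | ∀ i, F i ∈ Fil p K}
  zero_mem' _ := zero_mem _
  add_mem' ha hb i := add_mem (ha i) (hb i)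
  neg_mem' ha i := neg_mem (ha i)

theorem tw_mem_ZW {ι κ : Type} [Fintype ι] {K : Ideal (AA L)} (hK : Inv p K) (s : ℕ)
    (g : ι → κ → GG L) {F : ι → CC L} (hF : F ∈ ZW p ι K) : tw p s g F ∈ ZW p κ K := fun k => by
  rw [tw_apply]
  exact Ideal.sum_mem _ fun i _ => Ideal.mul_mem_right _ _ (pb_mem_Fil hK (sa_mono _) (hF i))

theorem tw_mem_PW {ι κ : Type} [Fintype ι] {K : Ideal (AA L)} (hK : Inv p K) {s : ℕ}
    {g : ι → κ → GG L} {d : ι → ℤ} {d' : κ → ℤ} (hg : ∀ i k, g i k ∈ ext p (WA p L) (d i - d' k))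
    {w : ℤ} {F : ι → CC L} (hF : F ∈ PW p d w K s) : tw p s g F ∈ PW p d' w K (s + 1) := by
  refine fun k => ⟨?_, ?_, tw_mem_ZW hK s g (fun i => (hF i).2.2) k⟩
  · rw [tw_apply]
    refine Subring.sum_mem _ fun i _ => Subring.mul_mem _ ?_ (arr_mem_Loc _ _)
    rw [fc_of_Loc (hF i).1 (Nat.lt_succ_self s)]
    exact Loc_mono (Nat.le_succ s) (hF i).1
  · rw [tw_apply]
    refine AddSubgroup.sum_mem _ fun i _ => ?_
    have h := SetLike.mul_mem_graded (pb_mem_WC (sa (s + 1)) (hF i).2.1)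
      (grCh_univ.arr s (hg i k))
    rwa [sub_add_sub_cancel] at h

theorem alt_mem_PW {ι : Type} {K : Ideal (AA L)} (hK : Inv p K) {s : ℕ} {d : ι → ℤ} {w : ℤ}
    {F : ι → CC L} (hF : F ∈ PW p d w K s) (m : ℕ) : pw ι (alt p L m) F ∈ PW p d w K (s + 1) :=
  fun i => ⟨alt_mem_Loc (hF i).1 m, alt_mem_WC m (hF i).2.1, alt_mem_Fil hK m (hF i).2.2⟩

theorem fc_tw {ι κ : Type} [Fintype ι] {s j : ℕ} (h : j ≤ s) (g : ι → κ → GG L) (F : ι → CC L)
    (k : κ) : fc p L j (tw p s g F k) = tw p (s + 1) g (fun i => fc p L j (F i)) k := by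
  rw [tw_apply, tw_apply, map_sum]
  refine Finset.sum_congr rfl fun i _ => ?_
  have h1 : sa j s = s + 1 := if_neg (by omega)
  have h2 : sa j (s + 1) = s + 1 + 1 := if_neg (by omega)
  rw [map_mul, fc_fc (h.trans (Nat.le_succ s)), ← h1, ← pb_arr (sa_mono j) (by omega), h1]
  rfl

theorem fc_tw_self {ι κ : Type} [Fintype ι] (s : ℕ) {th : ι → ι → GG L} {g : ι → κ → GG L}
    (h : ∀ c w, Del p L (g c w) = ∑ c', C (th c c') * map (etaR p L) (g c' w)) (F : ι → CC L)
    (k : κ) : fc p L (s + 1) (tw p s g F k) = tw p (s + 1) g (tw p s th F) k := by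
  rw [tw_apply, tw_apply, map_sum]
  simp only [tw_apply, map_sum, map_mul, fc_arr, h, arr2_C, arr2_map, Finset.mul_sum,
    Finset.sum_mul]
  rw [Finset.sum_comm]
  refine Finset.sum_congr rfl fun c' _ => Finset.sum_congr rfl fun c _ => ?_
  rw [fc_fc le_rfl, fc_of_Loc (arr_mem_Loc s _) (Nat.lt_succ_self _), mul_assoc]

variable (p) in
/-- the cobar differential of a cell comodule -/
def cD {ι : Type} [Fintype ι] (th : ι → ι → GG L) (s : ℕ) : (ι → CC L) →+ (ι → CC L) :=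
  pw ι (alt p L (s + 1)) + ((-1 : ℤ) ^ (s + 1)) • tw p s th

theorem cD_apply {ι : Type} [Fintype ι] (th : ι → ι → GG L) (s : ℕ) (F : ι → CC L) (c : ι) :
    cD p th s F c = alt p L (s + 1) (F c) + ((-1 : ℤ) ^ (s + 1)) • tw p s th F c := rfl

theorem tw_cD {ι κ : Type} [Fintype ι] (s : ℕ) {th : ι → ι → GG L} {g : ι → κ → GG L}
    (h : ∀ c w, Del p L (g c w) = ∑ c', C (th c c') * map (etaR p L) (g c' w)) (F : ι → CC L) :
    tw p (s + 1) g (cD p th s F) = pw κ (alt p L (s + 1 + 1)) (tw p s g F) := by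
  funext k
  rw [pw_apply, alt_succ, fc_tw_self s h, cD, AddMonoidHom.add_apply, map_add, Pi.add_apply,
    AddMonoidHom.smul_apply, map_zsmul, Pi.smul_apply, alt_apply]
  congr 1
  have h1 : pw ι (alt p L (s + 1)) F =
      ∑ j ∈ Finset.range (s + 1), ((-1 : ℤ) ^ j) • fun i => fc p L j (F i) := by
    funext i
    rw [pw_apply, alt_apply, Finset.sum_apply]
    rfl
  rw [h1, map_sum, Finset.sum_apply]
  refine Finset.sum_congr rfl fun j hj => ?_
  rw [map_zsmul, Pi.smul_apply, fc_tw (by have := Finset.mem_range.1 hj; omega)]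

theorem cD_mem_PW {ι : Type} [Fintype ι] {K : Ideal (AA L)} (hK : Inv p K) {s : ℕ}
    {th : ι → ι → GG L} {d : ι → ℤ} (hg : ∀ i k, th i k ∈ ext p (WA p L) (d i - d k))
    {w : ℤ} {F : ι → CC L} (hF : F ∈ PW p d w K s) : cD p th s F ∈ PW p d w K (s + 1) :=
  add_mem (alt_mem_PW hK hF _) (zsmul_mem (tw_mem_PW hK hg hF) _)

theorem cD_mem_ZW {ι : Type} [Fintype ι] {K : Ideal (AA L)} (hK : Inv p K) (s : ℕ)
    (th : ι → ι → GG L) {F : ι → CC L} (hF : F ∈ ZW p ι K) : cD p th s F ∈ ZW p ι K :=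
  add_mem (fun i => alt_mem_Fil hK _ (hF i)) (zsmul_mem (tw_mem_ZW hK s th hF) _)

namespace Rs

variable {G : ℕ → Type} [∀ q, Fintype (G q)] (R : Rs p L G)

/-- the horizontal differential -/
def dd : ℕ → (q : ℕ) → (G q → CC L) →+ (G (q + 1) → CC L)
  | 0, 0 => 0
  | n + 1, 0 => tw p n R.e
  | n, q + 1 => mat fun w w' => par p n (R.y q w w')

theorem dd_succ (n q : ℕ) : R.dd n (q + 1) = mat fun w w' => par p n (R.y q w w') := by
  cases n <;> rfl

/-- the vertical differential -/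
def dv : ℕ → (q : ℕ) → (G q → CC L) →+ (G q → CC L)
  | 0, 0 => 0
  | n + 1, 0 => cD p R.th n
  | n, q + 1 => pw (G (q + 1)) (alt p L (n + 1))

theorem dv_succ (n q : ℕ) : R.dv n (q + 1) = pw (G (q + 1)) (alt p L (n + 1)) := by
  cases n <;> rfl

/-- the groups -/
def WW (w : ℤ) (K : Ideal (AA L)) (n : ℕ) : (q : ℕ) → AddSubgroup (G q → CC L)
  | 0 => PW p (R.deg 0) w K (n - 1)
  | q + 1 => PW p (R.deg (q + 1)) w K n

theorem dd_mem_ZW {K : Ideal (AA L)} (hK : Inv p K) (n q : ℕ) {F : G q → CC L}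
    (hF : F ∈ ZW p (G q) K) : R.dd n q F ∈ ZW p (G (q + 1)) K := by
  rcases q with _ | q
  · rcases n with _ | n
    · exact zero_mem _
    · exact tw_mem_ZW hK n _ hF
  · rw [dd_succ]
    exact fun w' => Ideal.sum_mem _ fun w _ => par_mem_Fil hK _ _ (hF w)

theorem dd_mem_WW {K : Ideal (AA L)} (hK : Inv p K) (w : ℤ) (n q : ℕ) {F : G q → CC L}
    (hF : F ∈ R.WW w K n q) : R.dd n q F ∈ R.WW w K n (q + 1) := by
  rcases q with _ | q
  · rcases n with _ | n
    · exact zero_mem _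
    · exact tw_mem_PW hK R.he hF
  · replace hF : F ∈ PW p (R.deg (q + 1)) w K n := hF
    change _ ∈ PW p (R.deg (q + 2)) w K n
    refine fun w' => ⟨?_, ?_, R.dd_mem_ZW hK n _ (fun i => (hF i).2.2) w'⟩
    · rw [dd_succ, mat_apply]
      refine Subring.sum_mem _ fun i _ => ?_
      rw [par_apply]
      exact itg_mem_Loc _ _ _
    · rw [dd_succ, mat_apply]
      refine AddSubgroup.sum_mem _ fun i _ => ?_
      have h := par_mem_WC n (R.hy q i w') (hF i).2.1
      rwa [sub_add_sub_cancel] at h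

/-- the double complex in weight `w` and in the window `K / K'` -/
def dc (w : ℤ) {K K' : Ideal (AA L)} (hK : Inv p K) (hK' : Inv p K') :
    DC fun q => G q → CC L where
  W := R.WW w K
  Z q := ZW p (G q) K'
  δ := R.dv
  σ n q := pw (G q) (sg p L n).toAddMonoidHom
  d := R.dd
  δW n q x hx := by
    rcases q with _ | q
    · rcases n with _ | n
      · exact zero_mem _
      · exact cD_mem_PW hK R.hth hx
    · rw [dv_succ]
      exact alt_mem_PW hK hx _
  δZ n q x hx := by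
    rw [dv_succ]
    exact fun i => alt_mem_Fil hK' _ (hx i)
  dW n q _ hx := R.dd_mem_WW hK w n q hx
  dZ n q _ hx := R.dd_mem_ZW hK' n q hx
  σW n _ _ hx i := ⟨sg_mem_Loc (hx i).1, pb_mem_WC _ (hx i).2.1,
    pb_mem_Fil hK (dg_mono n) (hx i).2.2⟩
  σZ n _ _ hx i := pb_mem_Fil hK' (dg_mono n) (hx i)
  δδ n q x := by
    rw [dv_succ, dv_succ]
    exact funext fun i => alt_alt (n + 1) (x i)
  σ0 q x := by
    rw [dv_succ]
    exact funext fun i => sg_alt_zero (x i)
  σδ n q x := by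
    rw [dv_succ, dv_succ]
    exact funext fun i => sg_alt n (x i)
  dδ n q x _ := by
    rcases q with _ | q
    · rcases n with _ | n
      · exact (map_zero _).trans (map_zero _).symm
      · exact tw_cD n R.coc x
    · rw [dv_succ, dv_succ, dd_succ, dd_succ]
      funext w'
      simp only [pw_apply, mat_apply, par_alt, map_sum]

/-- curvature in `KR`, for `q < Q`, in weights at most `T` -/
structure K1 (KR : Ideal (AA L)) (Q : ℕ) (T : ℤ) : Prop where
  aug : ∀ c w', ∑ w, rAp (RingHom.id _) (R.y 0 w w') (R.e c w) ∈ KR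
  sq : ∀ q, q + 1 < Q → ∀ w w'' E, Finsupp.weight (wz p) E + R.deg (q + 1) w ≤ T →
    ∑ w', conv p (R.y (q + 1) w' w'') (R.y q w w') E ∈ KR

theorem dd_dd {KR : Ideal (AA L)} (hR : Inv p KR) {Q : ℕ} {T : ℤ} (h : R.K1 KR Q T) {w : ℤ}
    (hw : w ≤ T) {K : Ideal (AA L)} (hK : Inv p K) (n q : ℕ) (hq : q < Q) {F : G q → CC L}
    (hF : F ∈ R.WW w K n q) : R.dd n (q + 1) (R.dd n q F) ∈ ZW p (G (q + 2)) (K * KR) := by
  intro w''
  rcases q with _ | q
  · rcases n with _ | n
    · rw [show R.dd 0 0 F = 0 from rfl, map_zero]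
      exact zero_mem _
    · replace hF : F ∈ PW p (R.deg 0) w K n := hF
      have h1 : R.dd (n + 1) 1 (R.dd (n + 1) 0 F) w'' = ∑ c, tw p n R.th F c *
          (univ L).pt p (n + 1) (∑ w, rAp (RingHom.id _) (R.y 0 w w'') (R.e c w)) := by
        change ∑ w, par p (n + 1) (R.y 0 w w'') (tw p n R.e F w) = _
        simp only [par_apply, fc_tw_self n R.coc, tw_apply (n + 1), map_sum, Finset.mul_sum]
        rw [Finset.sum_comm]
        refine Finset.sum_congr rfl fun c _ => Finset.sum_congr rfl fun w _ => ?_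
        have h2 := (tw_mem_PW hK R.hth hF c).1
        rw [fc_of_Loc h2 (Nat.lt_succ_self _), itg_mul h2, itg_arr]
      rw [h1, Fil_mul]
      exact Ideal.sum_mem _ fun c _ => Ideal.mul_mem_mul (tw_mem_PW hK R.hth hF c).2.2
        (pt_mem_Fil hR _ (h.aug c w''))
  · have h1 : R.dd n (q + 1 + 1) (R.dd n (q + 1) F) w'' = ∑ w, itg p n
        (fun E => ∑ w', conv p (R.y (q + 1) w' w'') (R.y q w w') E) (fc p L n (F w)) := by
      rw [dd_succ, dd_succ]
      simp only [mat_apply, map_sum, par_par, itg_sum]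
      exact Finset.sum_comm
    rw [h1]
    exact Ideal.sum_mem _ fun i _ => itg_mem_mul hR n
      (fun E hE => h.sq q hq i w'' E (by omega)) (pb_mem_Fil hK (sa_mono n) (hF i).2.2)
      (pb_mem_WC _ (hF i).2.1)

theorem sq_dc {KR : Ideal (AA L)} (hR : Inv p KR) {Q : ℕ} {T : ℤ} (h : R.K1 KR Q T) {w : ℤ}
    (hw : w ≤ T) {K K' : Ideal (AA L)} (hK : Inv p K) (hK' : Inv p K') (hKK : K * KR ≤ K') :
    (R.dc w hK hK').Sq Q := fun n q _ hq hx i =>
  Fil_mono hKK (R.dd_dd hR h hw hK n q hq hx i)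

end Rs

end Vale.Agent.P236EL

end
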