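import Vale.Agent.P236EL.Fil
import Mathlib.LinearAlgebra.Basis.VectorSpace

/-!
# P236EL / Row : exactness of the rows from exactness over the residue field
-/

noncomputable section

namespace Vale.Agent.P236EL

open MvPolynomial

variable {A B C' : Type*} [CommRing A] [CommRing B] [CommRing C'] {ι κ μ : Type}

/-- matrices in the monomial basis -/
abbrev Mx (ι κ : Type) (A : Type*) [CommRing A] := ι → (ℕ →₀ ℕ) → κ → MvPolynomial ℕ A

/-- the monomial basis -/
def bs [DecidableEq ι] (B : Type*) [CommRing B] (w : ι) (E : ℕ →₀ ℕ) : ι → MvPolynomial ℕ B :=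
  Pi.single w (monomial E 1)

theorem map_bs [DecidableEq ι] (φ : B →+* C') (w : ι) (E : ℕ →₀ ℕ) (k : ι) :
    map φ (bs B w E k) = bs C' w E k := by
  by_cases h : k = w
  · subst h
    simp [bs]
  · simp [bs, h]

variable [Fintype ι]

theorem map_eq_sum_bs [DecidableEq ι] (φ : B →+* C') (a : ι → MvPolynomial ℕ B) :
    (fun w => map φ (a w)) = ∑ w, ∑ E ∈ (a w).support, φ (coeff E (a w)) • bs C' w E := by
  funext k
  rw [Finset.sum_apply, Finset.sum_eq_single k]
  · conv_lhs => rw [(a k).as_sum, map_sum]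
    rw [Finset.sum_apply]
    exact Finset.sum_congr rfl fun E _ => by simp [bs, smul_monomial]
  · intro w _ hw
    rw [Finset.sum_apply]
    exact Finset.sum_eq_zero fun E _ => by simp [bs, Ne.symm hw]
  · simp

theorem eq_sum_bs [DecidableEq ι] (a : ι → MvPolynomial ℕ B) :
    a = ∑ w, ∑ E ∈ (a w).support, coeff E (a w) • bs B w E := by
  have h := map_eq_sum_bs (RingHom.id B) a
  simpa only [map_id, RingHom.id_apply] using h

/-- the operator of a matrix -/
def op (x : A →+* B) (M : Mx ι κ A) : (ι → MvPolynomial ℕ B) →ₗ[B] (κ → MvPolynomial ℕ B) :=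
  ∑ w, ((basisMonomials ℕ B).constr B fun E k => map x (M w E k)).comp (LinearMap.proj w)

theorem op_bs [DecidableEq ι] (x : A →+* B) (M : Mx ι κ A) (w : ι) (E : ℕ →₀ ℕ) :
    op x M (bs B w E) = fun k => map x (M w E k) := by
  rw [op, LinearMap.sum_apply, Finset.sum_eq_single w]
  · rw [LinearMap.comp_apply, LinearMap.proj_apply, bs, Pi.single_eq_same]
    exact (basisMonomials ℕ B).constr_basis B _ E
  · intro w' _ hw
    rw [LinearMap.comp_apply, LinearMap.proj_apply, bs, Pi.single_eq_of_ne hw, map_zero]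
  · simp

theorem lin_congr [DecidableEq ι] {N : Type*} [AddCommGroup N] [Module B N]
    {f g : (ι → MvPolynomial ℕ B) →ₗ[B] N} {a : ι → MvPolynomial ℕ B}
    (h : ∀ w E, coeff E (a w) ≠ 0 → f (bs B w E) = g (bs B w E)) : f a = g a := by
  rw [eq_sum_bs a]
  simp only [map_sum, map_smul]
  exact Finset.sum_congr rfl fun w _ => Finset.sum_congr rfl fun E hE => by
    rw [h w E (mem_support_iff.1 hE)]

theorem op_map (x : A →+* C') (φ : B →+* C') (M : Mx ι κ A) (a : ι → MvPolynomial ℕ B) (k : κ) :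
    op x M (fun w => map φ (a w)) k =
      ∑ w, ∑ E ∈ (a w).support, C (φ (coeff E (a w))) * map x (M w E k) := by
  classical
  rw [map_eq_sum_bs]
  simp only [map_sum, map_smul, op_bs, Finset.sum_apply, Pi.smul_apply, smul_eq_C_mul]

theorem op_apply (x : A →+* B) (M : Mx ι κ A) (a : ι → MvPolynomial ℕ B) (k : κ) :
    op x M a k = ∑ w, ∑ E ∈ (a w).support, C (coeff E (a w)) * map x (M w E k) := by
  have h := op_map x (RingHom.id B) M a k
  simpa only [map_id, RingHom.id_apply] using h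

theorem map_op (φ : B →+* C') (x : A →+* B) (M : Mx ι κ A) (a : ι → MvPolynomial ℕ B) (k : κ) :
    map φ (op x M a k) = op (φ.comp x) M (fun w => map φ (a w)) k := by
  rw [op_apply, op_map]
  simp only [map_sum, map_mul, map_C, map_map]

theorem op_mem_mul {x : A →+* B} {M : Mx ι κ A} {a : ι → MvPolynomial ℕ B} {J : Ideal B}
    {K : Ideal A} (ha : ∀ w E, coeff E (a w) ∈ J)
    (hM : ∀ w E, coeff E (a w) ≠ 0 → ∀ k E', coeff E' (M w E k) ∈ K) (k : κ) (E' : ℕ →₀ ℕ) :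
    coeff E' (op x M a k) ∈ J * K.map x := by
  rw [op_apply, coeff_sum]
  refine Ideal.sum_mem _ fun w _ => ?_
  rw [coeff_sum]
  refine Ideal.sum_mem _ fun E hE => ?_
  rw [coeff_C_mul, coeff_map]
  exact Ideal.mul_mem_mul (ha w E) (Ideal.mem_map_of_mem _ (hM w E (mem_support_iff.1 hE) k E'))

theorem op_mem_ideal {x : A →+* B} {M : Mx ι κ A} {a : ι → MvPolynomial ℕ B} {J : Ideal B}
    (ha : ∀ w E, coeff E (a w) ∈ J) (k : κ) (E' : ℕ →₀ ℕ) : coeff E' (op x M a k) ∈ J :=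
  (Ideal.mul_le_left : J * (⊤ : Ideal A).map x ≤ J)
    (op_mem_mul ha (fun _ _ _ _ _ => Submodule.mem_top) k E')

variable {p : ℕ} {L : Type} [CommRing L]

variable (p) in
/-- homogeneous matrices -/
def HomM (d : ι → ℤ) (d' : κ → ℤ) (M : Mx ι κ (AA L)) : Prop :=
  ∀ w E k, M w E k ∈ ext p (WA p L) (Finsupp.weight (wz p) E + d w - d' k)

theorem op_mem_ext {𝒜 : ℤ → AddSubgroup B} [SetLike.GradedMonoid 𝒜] {x : AA L →+* B}
    (hx : GrPt p 𝒜 x) {d : ι → ℤ} {d' : κ → ℤ} {M : Mx ι κ (AA L)} (hM : HomM p d d' M) {n : ℤ}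
    {a : ι → MvPolynomial ℕ B} (ha : ∀ w, a w ∈ ext p 𝒜 (n - d w)) (k : κ) :
    op x M a k ∈ ext p 𝒜 (n - d' k) := by
  rw [op_apply]
  refine AddSubgroup.sum_mem _ fun w _ => AddSubgroup.sum_mem _ fun E _ => ?_
  have h1 : map x (M w E k) ∈ ext p 𝒜 (Finsupp.weight (wz p) E + d w - d' k) := fun E' => by
    rw [coeff_map]
    exact hx _ _ (hM w E k E')
  have h := SetLike.mul_mem_graded (C_mem_ext (p := p) (ha w E)) h1
  convert h using 2
  ring

/-! ### the residue field -/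

section field

variable {F : Type} [Field F]

/-- the trivial grading -/
def G0 (F : Type) [CommRing F] (n : ℤ) : AddSubgroup F := if n = 0 then ⊤ else ⊥

theorem mem_G0 {F : Type} [CommRing F] {n : ℤ} {a : F} : a ∈ G0 F n ↔ n = 0 ∨ a = 0 := by
  rw [G0]
  split_ifs with h <;> simp [h]

instance {F : Type} [CommRing F] : SetLike.GradedMonoid (G0 F) where
  one_mem := mem_G0.2 (Or.inl rfl)
  mul_mem m n a b ha hb := by
    rw [mem_G0] at ha hb ⊢
    rcases ha with rfl | rfl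
    · rcases hb with rfl | rfl <;> simp
    · simp

theorem mem_ext_G0 {F : Type} [CommRing F] {n : ℤ} {G : MvPolynomial ℕ F} :
    G ∈ ext p (G0 F) n ↔ IsWeightedHomogeneous (wz p) G n := by
  refine forall_congr' fun E => ?_
  rw [mem_G0, sub_eq_zero, or_comm, eq_comm (a := n)]
  exact or_iff_not_imp_left

/-- the reduction modulo the augmentation ideal -/
def red {F : Type} [CommRing F] (π : L →+* F) : AA L →+* F := eval₂Hom π fun _ => 0

theorem grPt_red {F : Type} [CommRing F] (π : L →+* F) : GrPt p (G0 F) (red π) := fun _ _ ha =>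
  eval₂Hom_mem (G0 F) (fun _ => mem_G0.2 (Or.inl rfl)) (fun _ => AddSubgroup.zero_mem _) ha

theorem ker_red_le {F : Type} [CommRing F] {π : L →+* F}
    (hπ : RingHom.ker π ≤ Ideal.span {(p : L)}) : RingHom.ker (red π) ≤ II p L := by
  intro a ha
  have h0 : red π = π.comp constantCoeff :=
    ringHom_ext (fun a => by simp [red]) fun i => by simp [red]
  rw [RingHom.mem_ker, h0, RingHom.comp_apply] at ha
  obtain ⟨b, hb⟩ := Ideal.mem_span_singleton'.1 (hπ ha)
  have h1 : ∀ f : AA L, f - C (constantCoeff f) ∈ II p L := by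
    intro f
    rw [← Ideal.Quotient.eq]
    have h2 : Ideal.Quotient.mk (II p L) =
        (Ideal.Quotient.mk (II p L)).comp (C.comp constantCoeff) := by
      refine ringHom_ext (fun a => by simp) fun i => ?_
      simp only [RingHom.comp_apply, constantCoeff_X, map_zero]
      exact Ideal.Quotient.eq_zero_iff_mem.2
        (Ideal.subset_span (Set.mem_insert_of_mem _ ⟨i, rfl⟩))
    exact DFunLike.congr_fun h2 f
  have h3 := h1 a
  rw [← hb, map_mul, map_natCast] at h3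
  have h4 := Ideal.add_mem _ h3 (Ideal.mul_mem_left _ (C b)
    (Ideal.subset_span (Set.mem_insert _ _) : (p : AA L) ∈ II p L))
  rwa [sub_add_cancel] at h4

variable (p) in
/-- homogeneous elements -/
def HV (F : Type) [CommRing F] (d : ι → ℤ) (e : ℤ) : Submodule F (ι → MvPolynomial ℕ F) where
  carrier := {a | ∀ w, IsWeightedHomogeneous (wz p) (a w) (e - d w)}
  zero_mem' _ := isWeightedHomogeneous_zero _ _ _
  add_mem' ha hb w := (ha w).add (hb w)
  smul_mem' c _ ha w := (weightedHomogeneousSubmodule F (wz p) (e - d w)).smul_mem c (ha w)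

omit [Fintype ι] in
theorem bs_mem_HV [DecidableEq ι] (d : ι → ℤ) (w : ι) (E : ℕ →₀ ℕ) :
    bs F w E ∈ HV p F d (Finsupp.weight (wz p) E + d w) := by
  intro k
  by_cases h : k = w
  · subst h
    rw [bs, Pi.single_eq_same]
    exact isWeightedHomogeneous_monomial _ _ _ (by ring)
  · rw [bs, Pi.single_eq_of_ne h]
    exact isWeightedHomogeneous_zero _ _ _

omit [Fintype ι] in
theorem exists_lift {π : L →+* F} (hπ : Function.Surjective π) {n : ℤ} {G : MvPolynomial ℕ F}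
    (hG : IsWeightedHomogeneous (wz p) G n) :
    ∃ G' ∈ ext p (WA p L) n, map (red π) G' = G := by
  choose s hs using hπ
  refine ⟨∑ E ∈ G.support, monomial E (C (s (coeff E G))),
    AddSubgroup.sum_mem _ fun E hE => monomial_mem_ext ?_, ?_⟩
  · rw [hG (mem_support_iff.1 hE), sub_self]
    exact isWeightedHomogeneous_C _ _
  · conv_rhs => rw [G.as_sum]
    rw [map_sum]
    exact Finset.sum_congr rfl fun E _ => by simp [red, hs]

theorem exists_ginv {V V' : Type*} [AddCommGroup V] [Module F V] [AddCommGroup V'] [Module F V']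
    (f : V →ₗ[F] V') : ∃ g : V' →ₗ[F] V, ∀ a, f (g (f a)) = f a := by
  obtain ⟨s, hs⟩ := f.rangeRestrict.exists_rightInverse_of_surjective f.range_rangeRestrict
  obtain ⟨g, hg⟩ := s.exists_extend
  refine ⟨g, fun a => ?_⟩
  have h1 := LinearMap.congr_fun hg ⟨f a, a, rfl⟩
  have h2 := congrArg Subtype.val (LinearMap.congr_fun hs ⟨f a, a, rfl⟩)
  exact (congrArg f h1).trans h2

variable [Fintype κ] [Fintype μ]

variable (p) in
/-- exactness over the residue field in weights at most `T` -/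
def ExF (π : L →+* F) (d₁ : ι → ℤ) (d₂ : κ → ℤ) (M₁ : Mx ι κ (AA L)) (M₂ : Mx κ μ (AA L))
    (T : ℤ) : Prop :=
  ∀ e ≤ T, ∀ a ∈ HV p F d₂ e, op (red π) M₂ a = 0 → ∃ b ∈ HV p F d₁ e, op (red π) M₁ b = a

theorem exists_contraction [DecidableEq κ] {π : L →+* F} (hπ : Function.Surjective π)
    {d₁ : ι → ℤ} {d₂ : κ → ℤ} {d₃ : μ → ℤ} {M₁ : Mx ι κ (AA L)} {M₂ : Mx κ μ (AA L)}
    (h₂ : HomM p d₂ d₃ M₂) {T : ℤ} (hex : ExF p π d₁ d₂ M₁ M₂ T) :
    ∃ (H : Mx κ ι (AA L)) (H' : Mx μ κ (AA L)), HomM p d₂ d₁ H ∧ HomM p d₃ d₂ H' ∧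
      ∀ j E, Finsupp.weight (wz p) E + d₂ j ≤ T → ∀ k, map (red π) (bs (AA L) j E k -
        op (RingHom.id _) M₁ (H j E) k - op (RingHom.id _) H' (M₂ j E) k) = 0 := by
  classical
  choose g hg using fun e => exists_ginv ((op (red π) M₂).comp (HV p F d₂ e).subtype)
  choose H' hH' hH'' using fun (k : μ) (E : ℕ →₀ ℕ) (j : κ) =>
    exists_lift hπ ((g (Finsupp.weight (wz p) E + d₃ k) (bs F k E)).2 j)
  have h1 : ∀ e, ∀ a ∈ HV p F d₃ e, op (red π) H' a = (g e a : κ → MvPolynomial ℕ F) := by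
    intro e a ha
    refine lin_congr (g := (HV p F d₂ e).subtype.comp (g e)) fun k E hE => ?_
    rw [op_bs, ← show Finsupp.weight (wz p) E + d₃ k = e by rw [ha k hE]; ring]
    exact funext (hH'' k E)
  have h2 : ∀ j E, ∃ b ∈ HV p F d₁ (Finsupp.weight (wz p) E + d₂ j),
      Finsupp.weight (wz p) E + d₂ j ≤ T →
        op (red π) M₁ b = bs F j E - op (red π) H' (op (red π) M₂ (bs F j E)) := by
    intro j E
    by_cases hT : Finsupp.weight (wz p) E + d₂ j ≤ T
    · have hb := bs_mem_HV (p := p) (F := F) d₂ j E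
      rw [h1 _ _ fun k => mem_ext_G0.1
        (op_mem_ext (grPt_red π) h₂ (fun w => mem_ext_G0.2 (hb w)) k)]
      obtain ⟨b, hb', h3⟩ := hex _ hT _ (Submodule.sub_mem _ hb
        (g _ (op (red π) M₂ (bs F j E))).2) (by
          rw [map_sub, sub_eq_zero]
          exact (hg _ ⟨_, hb⟩).symm)
      exact ⟨b, hb', fun _ => h3⟩
    · exact ⟨0, Submodule.zero_mem _, fun h => absurd h hT⟩
  choose b hb hb' using h2
  choose H hH hH2 using fun j E i => exists_lift hπ (hb j E i)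
  refine ⟨H, H', hH, hH', fun j E hT k => ?_⟩
  rw [map_sub, map_sub, map_op, map_op, map_bs, RingHom.comp_id, funext (hH2 j E), hb' j E hT,
    op_bs]
  simp

end field

/-! ### the iteration -/

variable (p) in
/-- homogeneous, fixed by `φ`, with coefficients in `J` -/
def Pc (𝒜 : ℤ → AddSubgroup B) (φ : B →+* B) (J : Ideal B) (d : ι → ℤ) (n : ℤ) :
    AddSubgroup (ι → MvPolynomial ℕ B) where
  carrier := {a | ∀ w, a w ∈ ext p 𝒜 (n - d w) ∧ map φ (a w) = a w ∧ ∀ E, coeff E (a w) ∈ J}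
  zero_mem' _ := ⟨AddSubgroup.zero_mem _, map_zero _, fun _ => J.zero_mem⟩
  add_mem' {a b} ha hb w := ⟨AddSubgroup.add_mem _ (ha w).1 (hb w).1,
    by rw [Pi.add_apply, map_add, (ha w).2.1, (hb w).2.1],
    fun E => by rw [Pi.add_apply, coeff_add]; exact J.add_mem ((ha w).2.2 E) ((hb w).2.2 E)⟩
  neg_mem' {a} ha w := ⟨AddSubgroup.neg_mem _ (ha w).1, by rw [Pi.neg_apply, map_neg, (ha w).2.1],
    fun E => by rw [Pi.neg_apply, coeff_neg]; exact J.neg_mem ((ha w).2.2 E)⟩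

/-- coefficients in `J` -/
def Zc (ι : Type) (J : Ideal B) : AddSubgroup (ι → MvPolynomial ℕ B) where
  carrier := {a | ∀ w E, coeff E (a w) ∈ J}
  zero_mem' _ _ := J.zero_mem
  add_mem' {a b} ha hb w E := by rw [Pi.add_apply, coeff_add]; exact J.add_mem (ha w E) (hb w E)
  neg_mem' {a} ha w E := by rw [Pi.neg_apply, coeff_neg]; exact J.neg_mem (ha w E)

theorem op_mem_Pc {𝒜 : ℤ → AddSubgroup B} [SetLike.GradedMonoid 𝒜] {x : AA L →+* B}
    (hx : GrPt p 𝒜 x) {φ : B →+* B} (hφ : φ.comp x = x) {J : Ideal B} {d : ι → ℤ} {d' : κ → ℤ}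
    {M : Mx ι κ (AA L)} (hM : HomM p d d' M) {n : ℤ} {a : ι → MvPolynomial ℕ B}
    (ha : a ∈ Pc p 𝒜 φ J d n) : op x M a ∈ Pc p 𝒜 φ J d' n := fun k =>
  ⟨op_mem_ext hx hM (fun w => (ha w).1) k, by rw [map_op, hφ, funext fun w => (ha w).2.1],
    op_mem_ideal (fun w => (ha w).2.2) k⟩

theorem row_exact [Fintype κ] [Fintype μ] {F : Type} [Field F] {π : L →+* F}
    (hπ : Function.Surjective π) {d₁ : ι → ℤ} {d₂ : κ → ℤ} {d₃ : μ → ℤ} {M₁ : Mx ι κ (AA L)}
    {M₂ : Mx κ μ (AA L)} (h₁ : HomM p d₁ d₂ M₁) (h₂ : HomM p d₂ d₃ M₂) {T : ℤ}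
    (hex : ExF p π d₁ d₂ M₁ M₂ T) {𝒜 : ℤ → AddSubgroup B} [SetLike.GradedMonoid 𝒜]
    (hneg : ∀ n < 0, ∀ b ∈ 𝒜 n, b = 0) {x : AA L →+* B} (hx : GrPt p 𝒜 x) {φ : B →+* B}
    (hφ : φ.comp x = x) (J : ℕ → Ideal B) (hJ : ∀ k, J k ≤ J 0)
    (hJ' : ∀ k, J k * (RingHom.ker (red π)).map x ≤ J (k + 1)) {J' : Ideal B} {R : ℕ}
    (hR : J R ≤ J') {n : ℤ} (hn : n ≤ T)
    (hsq : ∀ b ∈ Pc p 𝒜 φ (J 0) d₁ n, op x M₂ (op x M₁ b) ∈ Zc μ J') {a : κ → MvPolynomial ℕ B}
    (ha : a ∈ Pc p 𝒜 φ (J 0) d₂ n) (ha' : op x M₂ a ∈ Zc μ J') :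
    ∃ b ∈ Pc p 𝒜 φ (J 0) d₁ n, a - op x M₁ b ∈ Zc κ J' := by
  classical
  obtain ⟨H, H', hH, hH', h0⟩ := exists_contraction hπ h₂ hex
  have key : ∀ k, ∃ b ∈ Pc p 𝒜 φ (J 0) d₁ n, ∃ a' ∈ Pc p 𝒜 φ (J k) d₂ n,
      a - op x M₁ b - a' ∈ Zc κ J' ∧ op x M₂ a' ∈ Zc μ J' := by
    intro k
    induction k with
    | zero => exact ⟨0, AddSubgroup.zero_mem _, a, ha, by
        rw [map_zero, sub_zero, sub_self]; exact AddSubgroup.zero_mem _, ha'⟩
    | succ k ih =>
      obtain ⟨b, hb, a', h1, h2, h3⟩ := ih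
      have h4 := op_mem_Pc hx hφ hH h1
      have h5 : op x H a' ∈ Pc p 𝒜 φ (J 0) d₁ n :=
        fun w => ⟨(h4 w).1, (h4 w).2.1, fun E => hJ k ((h4 w).2.2 E)⟩
      have h6 : op x H' (op x M₂ a') ∈ Zc κ J' := op_mem_ideal h3
      have h7 := AddSubgroup.sub_mem _ (AddSubgroup.sub_mem _ h1 (op_mem_Pc hx hφ h₁ h4))
        (op_mem_Pc hx hφ hH' (op_mem_Pc hx hφ h₂ h1))
      have h8 : a' - op x M₁ (op x H a') - op x H' (op x M₂ a') = op x (fun j E k =>
          bs (AA L) j E k - op (RingHom.id _) M₁ (H j E) k - op (RingHom.id _) H' (M₂ j E) k) a' := by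
        refine lin_congr (f := LinearMap.id - (op x M₁).comp (op x H) - (op x H').comp (op x M₂))
          fun j E _ => ?_
        funext k
        simp only [LinearMap.sub_apply, LinearMap.id_apply, LinearMap.comp_apply, op_bs, map_sub,
          map_op, RingHom.comp_id, map_bs, Pi.sub_apply]
      refine ⟨b + op x H a', AddSubgroup.add_mem _ hb h5, _,
        fun w => ⟨(h7 w).1, (h7 w).2.1, fun E => hJ' k ?_⟩, ?_, ?_⟩
      · rw [h8]
        refine op_mem_mul (fun w => (h1 w).2.2) (fun j E hE k E' => ?_) w E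
        have h9 := weight_le_of_coeff hneg (h1 j).1 hE
        rw [RingHom.mem_ker, ← coeff_map, h0 j E (by omega), coeff_zero]
      · have h9 := AddSubgroup.add_mem _ h2 h6
        rw [map_add]
        convert h9 using 1
        abel
      · rw [map_sub, map_sub]
        exact AddSubgroup.sub_mem _ (AddSubgroup.sub_mem _ h3 (hsq _ h5)) (op_mem_ideal h6)
  obtain ⟨b, hb, a', h1, h2, -⟩ := key R
  refine ⟨b, hb, ?_⟩
  have h3 : a' ∈ Zc κ J' := fun w E => hR ((h1 w).2.2 E)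
  have h4 := AddSubgroup.add_mem _ h2 h3
  rwa [sub_add_cancel] at h4

end Vale.Agent.P236EL

end
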