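import Vale.Agent.P236EL.Red
import Vale.Agent.P236EL.EA
import Vale.Agent.P236F.Facts

/-!
# P236EL / SC : the finite checks in the small complexes which imply the facts `FR` and `EA`
-/

noncomputable section

namespace Vale.Agent.P236EL

open Vale.Agent.P251.F Vale.Agent.P251.F.F3 Vale.Agent.P257.H80 LawRing MvPolynomial Ch
open Vale.Agent.P251.I Vale.Agent.P236SY Vale.Agent.P236F AddSubgroup

variable [hp : Fact (Nat.Prime 3)] {G : ℕ → Type} [∀ q, Fintype (G q)]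

namespace Rs

variable {L : Type} [CommRing L] (R : Rs 3 L G)

/-- nothing survives in filtration at least `a`, except in the filtrations listed in `l` -/
def KV (s : ℕ) (w : ℤ) (a : ℕ) (l : List ℕ) : Prop := ∀ k, a ≤ k → k ∉ l → R.K3s 3 s w k ⊥

/-- only multiples of `φ` survive in filtration `k` -/
def KL (s : ℕ) (w : ℤ) (k : ℕ) (φ : G (s + 1) → AA L) : Prop := R.K3s 3 s w k (zmultiples φ)

variable [Unique (G 0)] (h0 : R.deg 0 default = 0) (h1 : R.th default default = 1)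

/-- the resolution of `C α` -/
abbrev cA : Rs 3 L (TG G (Fin 2)) := R.tens h0 h1 ((Ga.two 2).cm 3)

/-- the resolution of `Y` -/
abbrev cY : Rs 3 L (TG G (Fin 3)) := R.tens h0 h1 ((Ga.three 2 2 2 rfl).cm 3)

end Rs

/-- the finite checks for a resolution `R` of the sphere -/
structure SC [Unique (G 0)] (R : Rs 3 (ZMod 3) G) (h0 : R.deg 0 default = 0)
    (h1 : R.th default default = 1) : Prop where
  ea : R.KV 2 9 0 [0] ∧ ∃ φ, R.KL 2 9 0 φ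
  van : ∀ a ∈ vl, (R.cY h0 h1).KV a.2 a.1 0 []
  ft : R.KV 2 27 9 [] ∧ R.KV 7 36 0 [6] ∧
    ∃ u ∈ R.Cy 1 27 6 9, R.KL 7 36 6 (R.bm 5 1 (R.bm 3 1 (R.bm 1 1 u)))
  g142 : R.KV 2 36 0 [8] ∧ R.KL 2 36 8 (vm 8 (R.tm 1 27 (R.tm 0 1 1)))
  g139 : (R.cA h0 h1).KV 1 35 0 [8, 33] ∧
    (R.cA h0 h1).KL 1 35 8 (vm 8 ((R.cA h0 h1).tm 0 27 ((R.cA h0 h1).un (0 : Fin 2)))) ∧
    (R.cA h0 h1).KL 1 35 33 (vm 33 ((R.cA h0 h1).tm 0 2 ((R.cA h0 h1).un (0 : Fin 2)) +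
      (R.cA h0 h1).tm 0 1 ((R.cA h0 h1).un (1 : Fin 2))))
  n138 : (R.cA h0 h1).KV 5 9 0 [1] ∧ ∃ φ, (R.cA h0 h1).KL 5 9 1 φ ∧
    (R.cA h0 h1).tm 5 27 φ ∉ (R.cA h0 h1).Bd 6 36 0 2
  n177 : (R.cY h0 h1).KV 6 37 0 [1] ∧ ∃ φ, (R.cY h0 h1).KL 6 37 1 φ ∧
    (R.cY h0 h1).tm 6 9 φ ∉ (R.cY h0 h1).Bd 7 46 0 2
  l177 : (R.cY h0 h1).KV 7 46 0 [1] ∧ ∃ φ, (R.cY h0 h1).KL 7 46 1 φ
  u173 : R.KV 8 45 3 [] ∧ R.Cy 7 45 1 3 ≤ R.Bd 7 45 0 2 ∧ (R.cY h0 h1).KV 8 40 3 [] ∧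
    (R.cY h0 h1).Cy 7 40 1 3 ≤ (R.cY h0 h1).Bd 7 40 0 2 ∧ ∃ u ∈ R.Cy 7 45 0 3,
      ∃ Ω ∈ (R.cY h0 h1).Cy 7 40 0 3, ∃ z, Cf R R 7 38 z 0 2 7 45 ∧
        (fun w => Ω (w, 2)) - fa 3 (z 0) 1 ∈ R.Bd 7 38 0 2 ∧
        vm 1 (fa 3 (z 7) u) ∉ R.Bd 14 84 0 3
  l330 : (R.cY h0 h1).KV 14 86 0 [2] ∧ ∃ φ, (R.cY h0 h1).KL 14 86 2 φ

end Vale.Agent.P236EL

end
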