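import Vale.Agent.P236EL.Cup
import Mathlib.LinearAlgebra.Matrix.NonsingularInverse

/-!
# P236EL / Tw : the resolution of a cell comodule from a resolution of the unit
-/

noncomputable section

namespace Vale.Agent.P236EL

open MvPolynomial Ch

variable {p : ℕ} [hp : Fact p.Prime] {L : Type} [CommRing L] {B : Type*} [CommRing B]

/-- the functional `G ↦ r (g * G)` -/
def mulF (g : GG L) (r : (ℕ →₀ ℕ) → AA L) (E : ℕ →₀ ℕ) : AA L :=
  rAp (RingHom.id _) r (g * monomial E 1)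

omit hp in
theorem rAp_mulF (x : AA L →+* B) (g : GG L) (r : (ℕ →₀ ℕ) → AA L) (G : MvPolynomial ℕ B) :
    rAp x (mulF g r) G = rAp x r (map x g * G) := by
  induction G using MvPolynomial.induction_on' with
  | monomial E b =>
    have h : (monomial E b : MvPolynomial ℕ B) = C b * monomial E 1 := by
      rw [C_mul_monomial, mul_one]
    rw [rAp_monomial, mulF, map_rAp, RingHom.comp_id, map_mul, map_monomial, map_one, h,
      mul_left_comm, rAp_C_mul]
  | add G H hG hH => rw [map_add, mul_add, map_add, hG, hH]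

omit hp in
theorem homR_mulF {g : GG L} {m δ : ℤ} (hg : g ∈ ext p (WA p L) m) {r : (ℕ →₀ ℕ) → AA L}
    (hr : HomR p δ r) : HomR p (δ + m) (mulF g r) := fun E => by
  have h := grPt_id.rAp hr (SetLike.mul_mem_graded hg (monomial_one_mem E))
  rwa [show m + Finsupp.weight (wz p) E + δ = Finsupp.weight (wz p) E + (δ + m) by ring] at h

/-- cells, and generators times cells -/
def TG (G : ℕ → Type) (ι : Type) : ℕ → Type
  | 0 => ι
  | q + 1 => G (q + 1) × ι

instance {G : ℕ → Type} [∀ q, Fintype (G q)] {ι : Type} [Fintype ι] : ∀ q, Fintype (TG G ι q)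
  | 0 => inferInstanceAs (Fintype ι)
  | q + 1 => inferInstanceAs (Fintype (G (q + 1) × ι))

instance {G : ℕ → Type} {ι : Type} [DecidableEq ι] : DecidableEq (TG G ι 0) :=
  inferInstanceAs (DecidableEq ι)

variable (p L) in
/-- a cell comodule: weights, the coaction and its inverse -/
structure Cm (ι : Type) [Fintype ι] [DecidableEq ι] where
  /-- weights -/
  d : ι → ℤ
  /-- coaction -/
  th : ι → ι → GG L
  /-- inverse matrix -/
  ps : ι → ι → GG L
  hth : ∀ c c', th c c' ∈ ext p (WA p L) (d c - d c')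
  hps : ∀ c c', ps c c' ∈ ext p (WA p L) (d c - d c')
  coc : Coc p th
  inv : ∀ c c'', ∑ c', th c c' * ps c' c'' = if c = c'' then 1 else 0

variable {ι : Type} [Fintype ι] [DecidableEq ι]

namespace Cm

variable (Y : Cm p L ι)

theorem inv_mat : Matrix.of Y.th * Matrix.of Y.ps = 1 := by
  ext c c''
  rw [Matrix.mul_apply, Matrix.one_apply, ← Y.inv]
  rfl

theorem inv' (c c'' : ι) : ∑ c', Y.ps c c' * Y.th c' c'' = if c = c'' then 1 else 0 := by
  have h := congrArg (fun M : Matrix ι ι (GG L) => M c c'') (mul_eq_one_comm.1 Y.inv_mat)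
  rw [Matrix.mul_apply, Matrix.one_apply] at h
  exact h

theorem coc' (c c'' : ι) :
    Del p L (Y.ps c c'') = ∑ c', map (etaR p L) (Y.ps c c') * C (Y.ps c' c'') := by
  have h1 : (Del p L).mapMatrix (Matrix.of Y.th) =
      (C : GG L →+* _).mapMatrix (Matrix.of Y.th) * (map (etaR p L)).mapMatrix (Matrix.of Y.th) := by
    ext1 a b
    rw [Matrix.mul_apply]
    exact Y.coc a b
  have h2 : (Del p L).mapMatrix (Matrix.of Y.th) * (Del p L).mapMatrix (Matrix.of Y.ps) = 1 := by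
    rw [← map_mul, inv_mat, map_one]
  have h3 : (map (etaR p L)).mapMatrix (Matrix.of Y.ps) * (C : GG L →+* _).mapMatrix
      (Matrix.of Y.ps) * (Del p L).mapMatrix (Matrix.of Y.th) = 1 := by
    rw [h1, mul_assoc, ← mul_assoc ((C : GG L →+* _).mapMatrix _), ← map_mul,
      mul_eq_one_comm.1 Y.inv_mat, map_one, one_mul, ← map_mul, mul_eq_one_comm.1 Y.inv_mat,
      map_one]
  have h4 := congrArg (fun M : Matrix ι ι _ => M c c'') (left_inv_eq_right_inv h3 h2)
  rw [Matrix.mul_apply] at h4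
  exact h4.symm

theorem Dop_th (x : AA L →+* B) (r : (ℕ →₀ ℕ) → AA L) (a : MvPolynomial ℕ B) (c c'' : ι) :
    ∑ c', Dop p x (mulF (Y.ps c' c'') r) (a * map x (Y.th c c')) =
      Dop p x r a * map x (Y.th c c'') := by
  have h1 : ∀ c', delx p x (map x (Y.th c c')) =
      ∑ b, C (map x (Y.th c b)) * map (etax p x) (Y.th b c') := fun c' => by
    have h := map_delx p x (RingHom.id _) (Y.th c c')
    rw [RingHom.comp_id] at h
    rw [← h]
    change map (map x) (Del p L _) = _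
    rw [Y.coc, map_sum]
    refine Finset.sum_congr rfl fun b _ => ?_
    rw [map_mul, map_C, map_map, etaR, map_etax, RingHom.comp_id]
  have h2 : ∑ c', map (etax p x) (Y.ps c' c'') * (delx p x a * delx p x (map x (Y.th c c'))) =
      C (map x (Y.th c c'')) * delx p x a := by
    simp only [h1, Finset.mul_sum]
    rw [Finset.sum_comm]
    have h3 : ∀ b, ∑ c', map (etax p x) (Y.ps c' c'') * (delx p x a *
        (C (map x (Y.th c b)) * map (etax p x) (Y.th b c'))) =
        C (map x (Y.th c b)) * delx p x a * map (etax p x) (∑ c', Y.th b c' * Y.ps c' c'') := by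
      intro b
      rw [map_sum, Finset.mul_sum]
      exact Finset.sum_congr rfl fun c' _ => by rw [map_mul]; ring
    simp [h3, Y.inv]
  simp only [Dop_apply, rAp_mulF, map_mul]
  rw [← map_sum, h2, rAp_C_mul, mul_comm]

end Cm

variable {G : ℕ → Type} [∀ q, Fintype (G q)] [Unique (G 0)]

theorem tens_coc (R : Rs p L G) (h1 : R.th default default = 1) (Y : Cm p L ι) (c : ι)
    (wc : G 1 × ι) : Del p L (R.e default wc.1 * Y.th c wc.2) =
      ∑ c', C (Y.th c c') * map (etaR p L) (R.e default wc.1 * Y.th c' wc.2) := by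
  rw [map_mul, R.coc, Y.coc, Fintype.sum_unique, h1, map_one, one_mul, Finset.mul_sum]
  exact Finset.sum_congr rfl fun c' _ => by rw [map_mul, mul_left_comm]

/-- the differentials of the resolution of a cell comodule -/
def Rs.ty (R : Rs p L G) (Y : Cm p L ι) (q : ℕ) (wc : G (q + 1) × ι) (wc' : G (q + 2) × ι) :
    (ℕ →₀ ℕ) → AA L := mulF (Y.ps wc.2 wc'.2) (R.y q wc.1 wc'.1)

/-- the resolution of a cell comodule -/
def Rs.tens (R : Rs p L G) (h0 : R.deg 0 default = 0) (h1 : R.th default default = 1)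
    (Y : Cm p L ι) : Rs p L (TG G ι) where
  deg q := match q with
    | 0 => Y.d
    | q + 1 => fun wc => R.deg (q + 1) wc.1 + Y.d wc.2
  th := Y.th
  e c wc := R.e default wc.1 * Y.th c wc.2
  y := R.ty Y
  hth := Y.hth
  he c wc := by
    have h := SetLike.mul_mem_graded (R.he default wc.1) (Y.hth c wc.2)
    rw [h0] at h
    convert h using 2
    ring
  hy q wc wc' := by
    have h := homR_mulF (Y.hps wc.2 wc'.2) (R.hy q wc.1 wc'.1)
    rw [sub_add_sub_comm] at h
    exact h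
  coc := tens_coc R h1 Y

namespace Rs

variable {R : Rs p L G} {h0 : R.deg 0 default = 0} {h1 : R.th default default = 1} {Y : Cm p L ι}

omit [Unique (G 0)] in
theorem sum_ty (q : ℕ) (u : G (q + 1) × ι → GG L) (w' : G (q + 2)) (c' : ι) :
    ∑ wc, rAp (RingHom.id _) (R.ty Y q wc (w', c')) (u wc) =
      ∑ w, ∑ c, rAp (RingHom.id _) (R.y q w w') (Y.ps c c' * u (w, c)) := by
  rw [Fintype.sum_prod_type]
  simp only [ty, rAp_mulF, map_id]

theorem tens_sd (q : ℕ) (u : G (q + 1) × ι → AA L) (w' : G (q + 2)) (c' : ι) :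
    (R.tens h0 h1 Y).sd (q + 1) u (w', c') =
      ∑ w, ∑ c, rAp (RingHom.id _) (R.y q w w') (Y.ps c c' * etaR p L (u (w, c))) :=
  sum_ty q (fun wc => etaR p L (u wc)) w' c'

theorem tens_dl (q : ℕ) (g : GG L) (u : G (q + 1) × ι → AA L) (w' : G (q + 2)) (c' : ι) :
    (R.tens h0 h1 Y).dl q g u (w', c') =
      ∑ w, ∑ c, rAp (RingHom.id _) (R.y q w w') (Y.ps c c' * (g * etaR p L (u (w, c)))) :=
  sum_ty q (fun wc => g * etaR p L (u wc)) w' c'

theorem tens_aug {KR : Ideal (AA L)} {Q : ℕ} {T : ℤ} (h : R.K1 KR Q T) (c : ι) (wc' : G 2 × ι) :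
    ∑ wc : G 1 × ι, rAp (RingHom.id _) (R.ty Y 0 wc wc') (R.e default wc.1 * Y.th c wc.2) ∈ KR := by
  obtain ⟨w', c''⟩ := wc'
  have h2 : ∀ w, ∑ c', rAp (RingHom.id _) (R.y 0 w w') (Y.ps c' c'' * (R.e default w * Y.th c c')) =
      rAp (RingHom.id _) (R.y 0 w w') (R.e default w * ∑ c', Y.th c c' * Y.ps c' c'') := by
    intro w
    rw [Finset.mul_sum, map_sum]
    refine Finset.sum_congr rfl fun c' _ => ?_
    congr 1
    ring
  rw [sum_ty, Finset.sum_congr rfl fun w _ => h2 w, Y.inv]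
  split_ifs
  · simpa only [mul_one] using h.aug default w'
  · simp

omit [Unique (G 0)] in
theorem tens_sq {KR : Ideal (AA L)} {Q : ℕ} {T T' : ℤ} (h : R.K1 KR Q T)
    (hT : ∀ c, T' - Y.d c ≤ T) (q : ℕ) (hq : q + 1 < Q) (wc : G (q + 1) × ι)
    (wc'' : G (q + 3) × ι) (E : ℕ →₀ ℕ)
    (hE : Finsupp.weight (wz p) E + (R.deg (q + 1) wc.1 + Y.d wc.2) ≤ T') :
    ∑ wc' : G (q + 2) × ι, conv p (R.ty Y (q + 1) wc' wc'') (R.ty Y q wc wc') E ∈ KR := by
  have h2 : ∑ wc' : G (q + 2) × ι, conv p (R.ty Y (q + 1) wc' wc'') (R.ty Y q wc wc') E =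
      rAp (RingHom.id _) (fun E => ∑ w', conv p (R.y (q + 1) w' wc''.1) (R.y q wc.1 w') E)
        (Y.ps wc.2 wc''.2 * monomial E 1) := by
    rw [Fintype.sum_prod_type, rAp_sum]
    refine Finset.sum_congr rfl fun w' _ => ?_
    rw [← rAp_Dop, Dop_apply, map_mul, ← Del, ← etaR, Y.coc', Finset.sum_mul, map_sum, map_sum]
    refine Finset.sum_congr rfl fun c' _ => ?_
    rw [conv, ty, ty, rAp_mulF, rAp_mulF, map_id, ← rAp_C_mul, mul_left_comm, mul_assoc]
  rw [h2]
  have h3 := rAp_mem_mul (x := RingHom.id _) (J := ⊤) (K := KR) (fun _ => trivial)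
    fun E' hE' => h.sq q hq wc.1 wc''.1 E' (by
      have h4 := weight_le_of_coeff (fun _ hn _ hb => WA_neg hn hb)
        (SetLike.mul_mem_graded (Y.hps wc.2 wc''.2) (monomial_one_mem E)) hE'
      have h5 := hT wc''.2
      omega)
  rwa [Ideal.top_mul, Ideal.map_id] at h3

theorem K1.tens {KR : Ideal (AA L)} {Q : ℕ} {T T' : ℤ} (h : R.K1 KR Q T)
    (hT : ∀ c, T' - Y.d c ≤ T) : (R.tens h0 h1 Y).K1 KR Q T' :=
  ⟨tens_aug h, tens_sq h hT⟩

variable {F : Type} [Field F] {π : L →+* F}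

/-- multiplication by a matrix -/
def mm {W : Type} (π : L →+* F) (g : ι → ι → GG L) (a : W × ι → MvPolynomial ℕ F) :
    W × ι → MvPolynomial ℕ F := fun wc => ∑ c, a (wc.1, c) * map (red π) (g c wc.2)

omit hp in
theorem mm_mm {W : Type} {g g' : ι → ι → GG L}
    (h : ∀ c c'', ∑ c', g c c' * g' c' c'' = if c = c'' then 1 else 0)
    (a : W × ι → MvPolynomial ℕ F) : mm π g' (mm π g a) = a := by
  funext wc
  simp only [mm, Finset.sum_mul, mul_assoc]
  rw [Finset.sum_comm]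
  simp [← Finset.mul_sum, ← map_mul, ← map_sum, h]

omit hp [DecidableEq ι] in
theorem mm_mem {W : Type} {g : ι → ι → GG L} {d : ι → ℤ} {D : W → ℤ}
    (hg : ∀ c c', g c c' ∈ ext p (WA p L) (d c - d c')) {e : ℤ} {a : W × ι → MvPolynomial ℕ F}
    (ha : a ∈ HV p F (fun wc => D wc.1 + d wc.2) e) :
    mm π g a ∈ HV p F (fun wc => D wc.1 + d wc.2) e := fun wc => by
  refine (WS ℕ F (wz p) _).sum_mem fun c _ => ?_
  have h1 : IsWeightedHomogeneous (wz p) (map (red π) (g c wc.2)) (d c - d wc.2) :=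
    mem_ext_G0.1 fun E => by rw [coeff_map]; exact grPt_red π _ _ (hg c wc.2 E)
  have h2 := (ha (wc.1, c)).mul h1
  rw [mem_WS]
  convert h2 using 1
  ring

omit [Unique (G 0)] in
theorem dx_mm (q : ℕ) (a : G (q + 1) × ι → MvPolynomial ℕ F) :
    dx p (red π) (R.ty Y q) (mm π Y.th a) =
      mm π Y.th fun wc => dx p (red π) (R.y q) (fun w => a (w, wc.2)) wc.1 := by
  funext wc'
  simp only [Fintype.sum_prod_type, mm, map_sum, dx_apply, Finset.sum_mul, ty]
  rw [Finset.sum_comm (s := Finset.univ (α := ι))]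
  refine Finset.sum_congr rfl fun w _ => ?_
  rw [Finset.sum_comm]
  exact Finset.sum_congr rfl fun c _ => Y.Dop_th _ _ _ _ _

omit [Unique (G 0)] in
theorem dx_eq_zero {q : ℕ} {a : G (q + 1) × ι → MvPolynomial ℕ F}
    (h : dx p (red π) (R.ty Y q) a = 0) (c : ι) :
    dx p (red π) (R.y q) (fun w => mm π Y.ps a (w, c)) = 0 := by
  rw [← mm_mm (π := π) Y.inv' a, dx_mm] at h
  have h2 := congrArg (mm π Y.ps) h
  rw [mm_mm Y.inv] at h2
  funext w'
  exact (congrFun h2 (w', c)).trans (by simp only [mm, Pi.zero_apply, zero_mul, Finset.sum_const_zero])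

omit [Unique (G 0)] in
theorem mm_ps_mem {q : ℕ} {e : ℤ} {a : G (q + 1) × ι → MvPolynomial ℕ F}
    (ha : a ∈ HV p F (fun wc => R.deg (q + 1) wc.1 + Y.d wc.2) e) (c : ι) :
    (fun w => mm π Y.ps a (w, c)) ∈ HV p F (R.deg (q + 1)) (e - Y.d c) := fun w => by
  have h2 := mm_mem (π := π) Y.hps ha (w, c)
  convert h2 using 1
  ring

theorem sum_e (b : ι → F) (wc : G 1 × ι) :
    ∑ c, C (b c) * map (red π) (R.e default wc.1 * Y.th c wc.2) =
      mm π Y.th (fun wc => C (b wc.2) * map (red π) (R.e default wc.1)) wc :=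
  Finset.sum_congr rfl fun c _ => by rw [map_mul, mul_assoc]

theorem tens_inj {Q : ℕ} {T : ℤ} (h : R.K2 π Q T) (b : ι → F) (hb : ∀ wc : G 1 × ι,
    ∑ c, C (b c) * map (red π) (R.e default wc.1 * Y.th c wc.2) = 0) : b = 0 := by
  funext c
  have h2 := congrArg (mm π Y.ps) (funext fun wc => (sum_e b wc).symm.trans (hb wc))
  rw [mm_mm Y.inv] at h2
  refine congrFun (h.inj (fun _ => b c) fun w => ?_) default
  rw [Fintype.sum_unique]
  exact (congrFun h2 (w, c)).trans (by simp only [mm, zero_mul, Finset.sum_const_zero])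

theorem tens_ex0 (h0 : R.deg 0 default = 0) {Q : ℕ} {T T' : ℤ} (h : R.K2 π Q T)
    (hT : ∀ c, T' - Y.d c ≤ T) (e : ℤ) (hle : e ≤ T') (a : G 1 × ι → MvPolynomial ℕ F)
    (ha : a ∈ HV p F (fun wc => R.deg 1 wc.1 + Y.d wc.2) e) (h2 : dx p (red π) (R.ty Y 0) a = 0) :
    ∃ b : ι → F, (∀ c, b c ≠ 0 → Y.d c = e) ∧
      ∀ wc : G 1 × ι, ∑ c, C (b c) * map (red π) (R.e default wc.1 * Y.th c wc.2) = a wc := by
  choose b hb hb' using fun c => h.aug _ (by have := hT c; omega) _ (mm_ps_mem ha c)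
    (dx_eq_zero h2 c)
  refine ⟨fun c => b c default, fun c hc => ?_, fun wc => ?_⟩
  · have h3 := hb c default hc
    omega
  · rw [sum_e, ← mm_mm (π := π) Y.inv' a]
    congr 1
    funext wc
    rw [← hb' wc.2 wc.1, Fintype.sum_unique]

omit [Unique (G 0)] in
theorem tens_ex {Q : ℕ} {T T' : ℤ} (h : R.K2 π Q T) (hT : ∀ c, T' - Y.d c ≤ T) (q : ℕ)
    (hq : q + 1 < Q) (e : ℤ) (hle : e ≤ T') (a : G (q + 2) × ι → MvPolynomial ℕ F)
    (ha : a ∈ HV p F (fun wc => R.deg (q + 2) wc.1 + Y.d wc.2) e)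
    (h2 : dx p (red π) (R.ty Y (q + 1)) a = 0) :
    ∃ b ∈ HV p F (fun wc : G (q + 1) × ι => R.deg (q + 1) wc.1 + Y.d wc.2) e,
      dx p (red π) (R.ty Y q) b = a := by
  choose b hb hb' using fun c => h.ex q hq _ (by have := hT c; omega) _ (mm_ps_mem ha c)
    (dx_eq_zero h2 c)
  refine ⟨mm π Y.th fun wc => b wc.2 wc.1, mm_mem Y.hth fun wc => ?_, ?_⟩
  · convert hb wc.2 wc.1 using 1
    ring
  · rw [dx_mm, ← mm_mm (π := π) Y.inv' a]
    congr 1
    funext wc
    exact congrFun (hb' wc.2) wc.1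

theorem K2.tens {Q : ℕ} {T T' : ℤ} (h : R.K2 π Q T) (hT : ∀ c, T' - Y.d c ≤ T) :
    (R.tens h0 h1 Y).K2 π Q T' :=
  ⟨tens_inj h, tens_ex0 h0 h hT, tens_ex h hT⟩

theorem Ok.tens {r Q : ℕ} {T T' : ℤ} (h : R.Ok π r Q T) (hT : ∀ c, T' - Y.d c ≤ T) :
    (R.tens h0 h1 Y).Ok π r Q T' :=
  ⟨h.surj, h.ker, h.k1.tens hT, h.k2.tens hT⟩

end Rs

end Vale.Agent.P236EL

end
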