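import Vale.Agent.P236EL.LinkD
import Vale.Agent.P236EL.Tw
import Vale.Agent.P251.I.F
import Vale.Agent.P257.H80.HazVV

/-!
# P236EL / Std : restriction of the standard cochains `v_1`, `t_1`
-/

noncomputable section

namespace Vale.Agent.P236EL

open Vale.Agent.P217 Vale.Agent.P251.F Vale.Agent.P251.F.F3 Vale.Agent.P257.H80 LawRing

variable (p : ℕ) [hp : Fact p.Prime] {B : Type*} [CommRing B]

theorem coeff_pow_self {M : PowerSeries B} (h : PowerSeries.constantCoeff M = 0) (n : ℕ) :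
    PowerSeries.coeff n (M ^ n) = PowerSeries.coeff 1 M ^ n := by
  obtain ⟨M', rfl⟩ := PowerSeries.X_dvd_iff.2 h
  rw [mul_pow, PowerSeries.coeff_X_pow_mul', if_pos le_rfl, Nat.sub_self,
    PowerSeries.coeff_zero_eq_constantCoeff_apply, map_pow, PowerSeries.coeff_succ_X_mul,
    PowerSeries.coeff_zero_eq_constantCoeff_apply]

theorem vv_hz_rat {K : Type*} [CommRing K] [Algebra ℚ K] (v : ℕ → K) :
    vv p 1 (hz p v) = (1 - (p : K) ^ (p - 1)) * v 0 := by
  have h1 := smul_multSeries (logI p (el p v)) (hz p v) p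
  have h2 : multSeries (addLaw K).toFG p = (p : PowerSeries K) * PowerSeries.X :=
    mulS_addLaw (B := K) p
  have hs := (logI p (el p v)).hs
  rw [logI_smul_hz, h2, PowerSeries.subst_mul hs, PowerSeries.subst_X hs,
    ← map_natCast PowerSeries.C, PowerSeries.subst_C] at h1
  have h0 : PowerSeries.constantCoeff (multSeries (hz p v).toFG p) = 0 :=
    (isHom_multSeries (hz p v).toFG p).1
  have h3 := hz_coeff_subst (logI p (el p v)).val (A := multSeries (hz p v).toFG p) h0
    (Finsupp.single () p) (M := p + 1) (by simp)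
  have h4 : ∀ k, MvPowerSeries.coeff (Finsupp.single () p)
      ((multSeries (hz p v).toFG p : MvPowerSeries Unit K) ^ k) =
      PowerSeries.coeff p (multSeries (hz p v).toFG p ^ k) := fun k => rfl
  have h5 := logV_pow p (one1 (el p v)) 1
  have h6 := logV_pow p (one1 (el p v)) 0
  rw [pow_one] at h5
  rw [pow_zero] at h6
  rw [Finset.sum_range_succ, Finset.sum_eq_single 1, h1, h4, h4, coeff_pow_self h0,
    coeff_one_multSeries, logI_val, h5, h6, pow_one] at h3
  · have h7 := lam_rat p v 1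
    rw [lam_succ, Finset.sum_range_one, lam_zero] at h7
    change PowerSeries.coeff p (PowerSeries.C (p : K) * _) = _ at h3
    rw [PowerSeries.coeff_C_mul, h5] at h3
    obtain ⟨q, hq⟩ : ∃ q, p = q + 1 := ⟨p - 1, by have := hp.out.pos; omega⟩
    have h8 : (p : K) ^ p = (p : K) ^ (p - 1) * p := by rw [← pow_succ]; congr 1; omega
    simp only [Nat.sub_self, pow_zero, pow_one, one_mul, one1_zero] at h3 h7
    rw [vv, pow_one]
    linear_combination -h3 - (1 - (p : K) ^ (p - 1)) * h7 - one1 (el p v) 1 * h8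
  · intro k hk hk1
    rw [logI_val, logV_ne, zero_mul]
    rintro (_ | j) rfl
    · exact hk1 (pow_zero _)
    · exact absurd (Finset.mem_range.1 hk) (not_lt.2 (Nat.le_self_pow (Nat.succ_ne_zero j) p))
  · intro h
    exact absurd (Finset.mem_range.2 hp.out.one_lt) h

theorem vv_hz (v : ℕ → B) : vv p 1 (hz p v) = (1 - (p : B) ^ (p - 1)) * v 0 := by
  have h1 : vv p 1 (hz p (MvPolynomial.X : ℕ → MvPolynomial ℕ ℤ)) =
      (1 - (p : MvPolynomial ℕ ℤ) ^ (p - 1)) * MvPolynomial.X 0 := by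
    apply mapQ_injective
    rw [← vv_map, map_hz, vv_hz_rat]
    simp
  have h2 := congrArg (evA v) h1
  rw [← vv_map, map_hz] at h2
  simpa using h2

theorem tg_one (v t : ℕ → B) : tg p v t 0 = v 0 + p * t 0 := by
  have h := lam_tg p v t 1
  simpa [lam_succ, lam_zero, Finset.sum_range_succ] using h

theorem cm_one (v s t : ℕ → B) : cm p v s t 0 = s 0 + t 0 := by
  have key : ∀ v s t : ℕ → MvPolynomial (ℕ ⊕ ℕ ⊕ ℕ) ℤ, cm p v s t 0 = s 0 + t 0 := by
    intro v s t
    have h := congrFun (tg_cm p v s t) 0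
    rw [tg_one, tg_one, tg_one, add_assoc, add_right_inj, ← mul_add] at h
    exact mul_left_cancel₀ (Nat.cast_ne_zero.2 hp.out.ne_zero) h
  have h := congrArg (ev3 v s t) (key (fun i => MvPolynomial.X (Sum.inl i))
    (fun i => MvPolynomial.X (Sum.inr (Sum.inl i))) fun i => MvPolynomial.X (Sum.inr (Sum.inr i)))
  simpa [map_cm] using h

theorem etaR_v1 (L : Type) [CommRing L] : etaR p L (MvPolynomial.X 0) =
    MvPolynomial.C (MvPolynomial.X 0) + (p : GG L) * MvPolynomial.X 0 := by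
  simp [etaR, etax, tg_one]

theorem Del_t1 (L : Type) [CommRing L] : Del p L (MvPolynomial.X 0) =
    MvPolynomial.C (MvPolynomial.X 0) + MvPolynomial.X 0 := by
  simp [Del, cm_one]

variable {p}

theorem A1_t1_lift {t : Cob Laz 1} (ht : P251.I.IsT1 p t) {B : Type} [CommRing B] (v s : ℕ → B) :
    A1 (Laz.lift (hz p v)) 1 ⟨(hs p (hz p v) s)⁻¹, inv_mem (hs_mem p _ _)⟩ t =
      (1 - (p : B) ^ (p - 1)) * s 0 := by
  have key : ∀ v s : ℕ → MvPolynomial (ℕ ⊕ ℕ) ℤ,
      A1 (Laz.lift (hz p v)) 1 ⟨(hs p (hz p v) s)⁻¹, inv_mem (hs_mem p _ _)⟩ t =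
      (1 - (p : MvPolynomial (ℕ ⊕ ℕ) ℤ) ^ (p - 1)) * s 0 := by
    intro v s
    have h := congrArg (A1 (Laz.lift (hz p v)) 1 ⟨(hs p (hz p v) s)⁻¹, inv_mem (hs_mem p _ _)⟩) ht
    rw [map_zsmul, A1, ev_d_ofSeq, Finset.sum_range_succ, Finset.sum_range_one, Cob.ev_C, Cob.ev_C,
      Laz.v, ← vv_map, ← vv_map, ofSeq_pt, ofSeq_pt, ← Laz.law_eq, law_act, law_act, Laz.law_eq,
      Laz.univ_map_lift] at h
    change _ = _ • vv p 1 ((hs p (hz p v) s)⁻¹ • _) + _ • vv p 1 ((1 : InvSeries _) • _) at h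
    rw [hz_tg, one_smul, vv_hz, vv_hz, tg_one, zsmul_eq_mul, Int.cast_natCast] at h
    apply mul_left_cancel₀ (Nat.cast_ne_zero.2 hp.out.ne_zero)
    rw [A1, h]
    simp
    ring
  have h := congrArg (ev2 v s) (key (fun i => MvPolynomial.X (Sum.inl i))
    fun i => MvPolynomial.X (Sum.inr i))
  rw [map_A1, Laz.comp_lift, map_hz] at h
  simp only [ev2_inl, map_mul, map_sub, map_one, map_pow, map_natCast, ev2_inr] at h
  rw [← h]
  congr 2
  · exact Subtype.ext (map_one _).symm
  · apply Subtype.ext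
    rw [val_smap, map_inv, map_hs, map_hz]
    simp only [ev2_inl, ev2_inr]

variable {L N : Type} [CommRing L] [CommRing N] [LawRing N] (hR : Rp p N L) {φ : Laz →+* N}

omit hp in
theorem ofSeq_pre (hφ : IsLawHom φ) {B : Type} [CommRing B] (n : ℕ) (x : N →+* B)
    (G : ℕ → strict B) : (ofSeq n x G).pre φ = ofSeq n (x.comp φ) G := by
  ext1
  · exact hφ.act _ _ _
  · rfl

/-- the restriction of `v_1` -/
theorem resC_v1 (hφ : IsLawHom φ) : resC hR 0 (Cob.mapRing φ 0 (MvPolynomial.C (Laz.v p 1))) =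
    (1 - (p : CC L) ^ (p - 1)) * (Ch.univ L).pt p 0 (MvPolynomial.X 0) := by
  obtain ⟨xU, h⟩ := exists_isTy hR (Ch.univ L)
  rw [resC, h.toChain, Cob.ev_mapRing, ofSeq_pre hφ, Cob.ev_C, Laz.v, ← vv_map, ofSeq_pt,
    ← Laz.law_eq, law_act, ← Law.map_map, hφ.law, ← h.vtx, vv_hz, Ch.pt_X]

/-- the restriction of `t_1` -/
theorem resC_t1 (hφ : IsLawHom φ) {t : Cob Laz 1} (ht : P251.I.IsT1 p t) :
    resC hR 1 (Cob.mapRing φ 1 t) =
      (1 - (p : CC L) ^ (p - 1)) * (Ch.univ L).arr p 0 (MvPolynomial.X 0) := by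
  obtain ⟨xU, h⟩ := exists_isTy hR (Ch.univ L)
  have h1 : act (xU.2 0 : InvSeries (CC L)) (xU.1.comp φ) =
      Laz.lift (hz p ((Ch.univ L).vtx p 0)) := by
    apply LawRing.epi_laz
    rw [law_act, ← Law.map_map, hφ.law, ← h.vtx, Laz.law_eq, Laz.univ_map_lift]
  rw [resC, h.toChain, Cob.ev_mapRing, ofSeq_pre hφ, ev_ofSeq_one,
    ← A1_translate _ (a' := 1) (b' := ⟨(hs p (hz p ((Ch.univ L).vtx p 0)) ((Ch.univ L).a 0))⁻¹,
      inv_mem (hs_mem p _ _)⟩) (xU.2 0 : InvSeries (CC L)) (mul_inv_cancel _).symm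
      (by dsimp only; rw [h.arr, mul_inv_rev, inv_inv]), h1, A1_t1_lift ht]
  simp [Ch.arr]

theorem resC_t1' (hφ : IsLawHom φ) (h : (p : L) ^ (p - 1) = 0) {t : Cob Laz 1}
    (ht : P251.I.IsT1 p t) :
    resC hR 1 (Cob.mapRing φ 1 t) = (Ch.univ L).arr p 0 (MvPolynomial.X 0) := by
  rw [resC_t1 hR hφ ht, ← map_natCast MvPolynomial.C, ← map_pow, h, map_zero, sub_zero, one_mul]

theorem resC_v1' (hφ : IsLawHom φ) (h : (p : L) ^ (p - 1) = 0) :
    resC hR 0 (Cob.mapRing φ 0 (MvPolynomial.C (Laz.v p 1))) =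
      (Ch.univ L).pt p 0 (MvPolynomial.X 0) := by
  rw [resC_v1 hR hφ, ← map_natCast MvPolynomial.C, ← map_pow, h, map_zero, sub_zero, one_mul]

theorem resC_C_o (n : ℕ) (a : L) : resC hR n (MvPolynomial.C (hR.o a)) = MvPolynomial.C a :=
  DFunLike.congr_fun (hR.uniq _ ((resC hR n).comp (MvPolynomial.C.comp hR.o)) MvPolynomial.C) a

/-- the first edge of a triangle -/
theorem resC_e01 {t : Cob N 1} {g : GG L} (h : resC hR 1 t = (Ch.univ L).arr p 0 g) :
    resC hR 2 (Cob.map (Fin.succAbove (2 : Fin 3)) t) = (Ch.univ L).arr p 0 g := by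
  rw [resC_map hR _ monotone_id (fun i => by fin_cases i <;> rfl), pb_id, h]

/-- the second edge of a triangle -/
theorem resC_e12 {t : Cob N 1} {g : GG L} (h : resC hR 1 t = (Ch.univ L).arr p 0 g) :
    resC hR 2 (Cob.map (Fin.succAbove (0 : Fin 3)) t) = (Ch.univ L).arr p 1 g := by
  rw [resC_map hR _ (add_mono 1) (fun i => by fin_cases i <;> rfl), h]
  exact sh_arr 1 0 g

/-! ### cell comodules given by powers of a primitive element -/

/-- a graded representation of the additive group -/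
structure Ga (L ι : Type) [CommRing L] [Fintype ι] [DecidableEq ι] where
  /-- weights -/
  d : ι → ℤ
  /-- coefficients -/
  a : ι → ι → L
  low : ∀ c c', d c < d c' → a c c' = 0
  one : ∀ c c', d c = d c' → a c c' = if c = c' then 1 else 0
  add : ∀ (B : Type) [CommRing B] (o : L →+* B) (x y : B) (c c'' : ι),
    o (a c c'') * (x + y) ^ (d c - d c'').toNat =
      ∑ c', o (a c c') * x ^ (d c - d c').toNat * (o (a c' c'') * y ^ (d c' - d c'').toNat)

namespace Ga

variable {ι : Type} [Fintype ι] [DecidableEq ι] (Y : Ga L ι) {B B' : Type} [CommRing B]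
  [CommRing B']

/-- the matrix at `x` -/
def ent (o : L →+* B) (x : B) (c c' : ι) : B := o (Y.a c c') * x ^ (Y.d c - Y.d c').toNat

omit hp in
theorem map_ent (f : B →+* B') (o : L →+* B) (x : B) (c c' : ι) :
    f (Y.ent o x c c') = Y.ent (f.comp o) (f x) c c' := by
  simp [ent]

omit hp in
theorem ent_zero (o : L →+* B) (c c' : ι) : Y.ent o 0 c c' = if c = c' then 1 else 0 := by
  rw [ent]
  rcases lt_trichotomy (Y.d c) (Y.d c') with h | h | h
  · rw [Y.low _ _ h, map_zero, zero_mul, if_neg]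
    rintro rfl
    exact lt_irrefl _ h
  · rw [Y.one _ _ h, h, sub_self, Int.toNat_zero, pow_zero, mul_one, apply_ite o, map_one, map_zero]
  · rw [zero_pow (by omega), mul_zero, if_neg]
    rintro rfl
    exact lt_irrefl _ h

omit hp in
theorem ent_add (o : L →+* B) (x y : B) (c c'' : ι) :
    Y.ent o (x + y) c c'' = ∑ c', Y.ent o x c c' * Y.ent o y c' c'' := Y.add B o x y c c''

omit hp in
theorem ent_mem (𝒜 : ℤ → AddSubgroup B) [SetLike.GradedMonoid 𝒜] {o : L →+* B}
    (ho : ∀ a, o a ∈ 𝒜 0) {x : B} {k : ℤ} (hx : x ∈ 𝒜 k) (c c' : ι) :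
    Y.ent o x c c' ∈ 𝒜 (k * (Y.d c - Y.d c')) := by
  rw [ent]
  by_cases h : Y.d c < Y.d c'
  · rw [Y.low _ _ h, map_zero, zero_mul]
    exact zero_mem _
  · have h1 := SetLike.mul_mem_graded (ho (Y.a c c'))
      (SetLike.pow_mem_graded (Y.d c - Y.d c').toNat hx)
    rwa [zero_add, nsmul_eq_mul, Int.toNat_of_nonneg (by omega), mul_comm _ k] at h1

variable (p) in
/-- the cell comodule -/
def cm : Cm p L ι where
  d := Y.d
  th := Y.ent (MvPolynomial.C.comp MvPolynomial.C) (MvPolynomial.X 0)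
  ps := Y.ent (MvPolynomial.C.comp MvPolynomial.C) (-MvPolynomial.X 0)
  hth c c' := by
    have h := Y.ent_mem (ext p (WA p L)) (o := MvPolynomial.C.comp MvPolynomial.C)
      (fun a => C_mem_ext (grPt_id.C a)) (X_mem_ext 0) c c'
    rwa [show wz p 0 = 1 from rfl, one_mul] at h
  hps c c' := by
    have h := Y.ent_mem (ext p (WA p L)) (o := MvPolynomial.C.comp MvPolynomial.C)
      (fun a => C_mem_ext (grPt_id.C a)) (neg_mem (X_mem_ext 0)) c c'
    rwa [show wz p 0 = 1 from rfl, one_mul] at h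
  coc c c'' := by
    refine (Y.map_ent (B' := MvPolynomial ℕ (GG L)) (Del p L) _ _ c c'').trans ?_
    rw [Del_t1, ent_add]
    refine Finset.sum_congr rfl fun c' _ => ?_
    simp [ent, Del, etaR, etax]
  inv c c'' := by rw [← ent_add, add_neg_cancel, ent_zero]

/-- the reduced coaction on the cobar side -/
def tht (o : L →+* N) (t : Cob N 1) (c c' : ι) : Cob N 1 :=
  Y.ent (MvPolynomial.C.comp o) t c c' - if c = c' then 1 else 0

instance : SetLike.GradedMonoid (Cob.wt N 1) where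
  one_mem := Cob.isWt_one
  mul_mem _ _ _ _ h h' := Cob.IsWt.mul h h'

omit hp in
theorem A1_tht (t : Cob N 1) (x : N →+* B) (a b : strict B) (c c' : ι) :
    A1 x a b (Y.tht hR.o t c c') =
      Y.ent (x.comp hR.o) (A1 x a b t) c c' - if c = c' then 1 else 0 := by
  rw [tht, map_sub, map_ent, apply_ite (A1 x a b), map_one, map_zero,
    hR.uniq _ ((A1 x a b).comp _) (x.comp hR.o)]

omit hp in
theorem mc_tht {t : Cob N 1} (ht : Cob.d 1 t = 0) : MC (Y.tht hR.o t) := by
  have h1 : ∀ (B : Type) [CommRing B] (x : N →+* B) (a b g : strict B),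
      A1 x a g t = A1 x a b t + A1 x b g t := fun B _ x a b g => by
    have h := congrArg (Cob.ev (ofSeq 2 x fun k => if k = 0 then a else if k = 1 then b else g)) ht
    simp only [ev_d_ofSeq, ev_ofSeq_one, Finset.sum_range_succ, Finset.sum_range_zero, del,
      map_zero] at h
    simp at h
    linear_combination -h
  refine ⟨fun c c'' => ext_ofSeq fun B _ x V => ?_, fun c c' => ext_ofSeq fun B _ x V => ?_⟩
  · simp only [map_add, map_sum, ev_d_ofSeq, ev_cup_one, ev_ofSeq_one, Finset.sum_range_succ,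
      Finset.sum_range_zero, del, map_zero, A1_tht]
    simp [h1 B x (V 0) (V 1) (V 2), ent_add, sub_mul, mul_sub]
  · have h2 := h1 B x (V 0) (V 0) (V 0)
    rw [map_zero, ofSeq_congr (G' := fun _ => V 0) fun k hk => by rw [Nat.le_zero.1 hk], ← A1_self,
      A1_tht, left_eq_add.1 h2, ent_zero, sub_self]

theorem cell {G : ℕ → Type} [∀ q, Fintype (G q)] [Unique (G 0)] (R : Rs p L G)
    (h0 : R.deg 0 default = 0) (h1 : R.th default default = 1) {t : Cob N 1}
    (ht : Cob.d 1 t = 0) (hw : Cob.IsWt ((p : ℤ) - 1) t)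
    (hr : resC hR 1 t = (Ch.univ L).arr p 0 (MvPolynomial.X 0)) :
    Cell hR (R.tens h0 h1 (Y.cm p)) (Y.tht hR.o t) := by
  refine ⟨Y.mc_tht hR ht, fun (c c' : ι) => ?_, fun c c' => (Cob.wt N 1 _).sub_mem
    (Y.ent_mem (Cob.wt N 1) (fun a B _ e u => ?_) hw c c') ?_⟩
  · change (if c = c' then 1 else 0) + resC hR 1 (Y.tht hR.o t c c') =
      (Ch.univ L).arr p 0 (Y.ent _ _ c c')
    rw [tht, map_sub, apply_ite (resC hR 1), map_one, map_zero, add_sub_cancel, map_ent, hr]
    exact ((Y.map_ent _ _ _ c c').trans (by rw [hR.uniq _ (RingHom.comp _ _) (RingHom.comp _ _)])).symm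
  · rw [zpow_zero, Units.val_one, one_mul]
    exact DFunLike.congr_fun (hR.uniq _ ((Cob.ev (e.scale u)).comp (MvPolynomial.C.comp hR.o))
      ((Cob.ev e).comp (MvPolynomial.C.comp hR.o))) a
  · split_ifs with h
    · subst h
      rw [sub_self, mul_zero]
      exact Cob.isWt_one
    · exact zero_mem _

/-- one cell -/
def sph (L : Type) [CommRing L] : Ga L (Fin 1) where
  d _ := 0
  a _ _ := 1
  low _ _ h := absurd h (lt_irrefl _)
  one c c' _ := by rw [if_pos (Subsingleton.elim _ _)]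
  add B _ o x y c c'' := by simp

/-- two cells -/
def two (α : L) : Ga L (Fin 2) where
  d c := c
  a := ![![1, 0], ![α, 1]]
  low c c' := by fin_cases c <;> fin_cases c' <;> simp
  one c c' := by fin_cases c <;> fin_cases c' <;> simp
  add B _ o x y c c'' := by
    fin_cases c <;> fin_cases c'' <;> simp [Fin.sum_univ_two]
    ring

/-- three cells -/
def three (α β γ : L) (h : 2 * γ = α * β) : Ga L (Fin 3) where
  d c := c
  a := ![![1, 0, 0], ![α, 1, 0], ![γ, β, 1]]
  low c c' := by fin_cases c <;> fin_cases c' <;> simp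
  one c c' := by fin_cases c <;> fin_cases c' <;> simp
  add B _ o x y c c'' := by
    have h1 := congrArg o h
    rw [map_mul, map_mul, map_ofNat] at h1
    fin_cases c <;> fin_cases c'' <;> simp [Fin.sum_univ_three]
    · ring
    · linear_combination x * y * h1
    · ring

omit hp in
theorem a_toNat (o : L →+* B) (x : B) (c c' : ι) {k : ℤ} (hk : 0 ≤ k) :
    o (Y.a c c') * x ^ (Y.d c - Y.d c' + k).toNat = Y.ent o x c c' * x ^ k.toNat := by
  by_cases h : Y.d c < Y.d c'
  · simp [ent, Y.low _ _ h]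
  · rw [Int.toNat_add (by omega) hk, pow_add, ent, mul_assoc]

/-- the tensor product -/
def prod {κ : Type} [Fintype κ] [DecidableEq κ] (Z : Ga L κ) : Ga L (ι × κ) where
  d c := Y.d c.1 + Z.d c.2
  a c c' := Y.a c.1 c'.1 * Z.a c.2 c'.2
  low c c' h := by
    rcases lt_or_ge (Y.d c.1) (Y.d c'.1) with h1 | h1
    · rw [Y.low _ _ h1, zero_mul]
    · rw [Z.low _ _ (by omega), mul_zero]
  one c c' h := by
    rcases lt_trichotomy (Y.d c.1) (Y.d c'.1) with h1 | h1 | h1
    · rw [Y.low _ _ h1, zero_mul, if_neg]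
      rintro rfl
      exact lt_irrefl _ h1
    · rw [Y.one _ _ h1, Z.one _ _ (by omega), ite_zero_mul_ite_zero, mul_one]
      simp only [Prod.ext_iff]
    · rw [Z.low _ _ (by omega), mul_zero, if_neg]
      rintro rfl
      exact lt_irrefl _ h1
  add B _ o x y c c'' := by
    have key : ∀ (x : B) (c c' : ι × κ), o (Y.a c.1 c'.1 * Z.a c.2 c'.2) *
        x ^ (Y.d c.1 + Z.d c.2 - (Y.d c'.1 + Z.d c'.2)).toNat =
        Y.ent o x c.1 c'.1 * Z.ent o x c.2 c'.2 := fun x c c' => by
      by_cases h : Z.d c.2 < Z.d c'.2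
      · simp [ent, Z.low _ _ h]
      · rw [add_sub_add_comm, map_mul, mul_right_comm, a_toNat _ _ _ _ _ (by omega), mul_assoc,
          mul_comm _ (o _), ent, ent]
    simp only [key, ent_add, Finset.sum_mul_sum, Fintype.sum_prod_type]
    exact Finset.sum_congr rfl fun a _ => Finset.sum_congr rfl fun b _ => by ring

/-- the dual -/
def dual : Ga L ι where
  d c := -Y.d c
  a c c' := (-1) ^ (Y.d c' - Y.d c).toNat * Y.a c' c
  low c c' h := by rw [Y.low _ _ (by omega), mul_zero]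
  one c c' h := by
    rw [Y.one _ _ (by omega), show Y.d c' - Y.d c = 0 by omega]
    simp [eq_comm]
  add B _ o x y c c'' := by
    have key : ∀ (x : B) (c c' : ι), o ((-1) ^ (Y.d c' - Y.d c).toNat * Y.a c' c) *
        x ^ (-Y.d c - -Y.d c').toNat = Y.ent o (-x) c' c := fun x c c' => by
      rw [ent, neg_sub_neg, neg_pow x]
      simp only [map_mul, map_pow, map_neg, map_one]
      ring
    simp only [key]
    rw [neg_add, add_comm, ent_add]
    exact Finset.sum_congr rfl fun a _ => mul_comm _ _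

end Ga

end Vale.Agent.P236EL

end
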