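import Vale.Agent.P236EL.Std

/-!
# P236EL / Tool : integral charts, filtered by invariant ideals
-/

noncomputable section

namespace Vale.Agent.P236EL

open Vale.Agent.P251.F Vale.Agent.P251.F.F3 Vale.Agent.P257.H80 LawRing MvPolynomial

variable {p : ℕ} [hp : Fact p.Prime] {Q : ℕ} (hQ : PLoc p (ZMod Q))

theorem exists_of_Fil_sup {L : Type} [CommRing L] {q m j s : ℕ} (hm : (p : L) ^ m = 0) {w : ℤ}
    (hw : w < j) {F : CC L} (h1 : F ∈ Loc p L s) (h2 : F ∈ WC p L w)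
    (h3 : F ∈ Fil p (II p L ^ (m + j) ⊔ Ideal.span {(q : AA L)})) :
    ∃ y, y ∈ Loc p L s ∧ y ∈ WC p L w ∧ F = q • y := by
  classical
  rw [Fil, Ideal.map_sup, Ideal.map_span, Set.image_singleton, map_natCast, Ideal.map_pow] at h3
  obtain ⟨a, ha, _, hb, rfl⟩ := Submodule.mem_sup.1 h3
  obtain ⟨b, rfl⟩ := Ideal.mem_span_singleton'.1 hb
  have h4 := Ideal.sup_pow_add_le_pow_sup_pow (Ideal.pow_right_mono Fil_II_le _ ha)
  rw [Ideal.span_singleton_pow, ← map_natCast C, ← map_pow, hm, map_zero,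
    Ideal.span_singleton_zero, bot_sup_eq] at h4
  have h5 : weightedHomogeneousComponent (wC p) w a = 0 := by
    ext E
    rw [coeff_weightedHomogeneousComponent]
    split_ifs with h
    · exact Hi_pow j h4 E (by rw [h]; exact hw)
    · rfl
  refine ⟨_, pb_min_mem_Loc s (weightedHomogeneousComponent (wC p) w b),
    pb_mem_WC _ (weightedHomogeneousComponent_isWeightedHomogeneous w b), ?_⟩
  rw [← map_nsmul, ← map_nsmul, ← zero_add (weightedHomogeneousComponent _ _ _), ← h5, ← map_add,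
    nsmul_eq_mul', IsWeightedHomogeneous.weightedHomogeneousComponent_same h2, mem_Loc.1 h1]

/-- reduction and restriction of an integral cochain -/
def rs (s : ℕ) : Cob Laz s →+* CC (ZMod Q) := (resC (rpQZ hQ) s).comp (rq Q s)

theorem rs_apply (s : ℕ) (z : Cob Laz s) : rs hQ s z = resC (rpQZ hQ) s (rq Q s z) := rfl

/-- reduction and restriction of an integral chart -/
def rsP (ι : Type) (s : ℕ) : (ι → Cob Laz s) →+ (ι → CC (ZMod Q)) := pw ι (rs hQ s).toAddMonoidHom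

theorem rsP_apply {ι : Type} {s : ℕ} (x : ι → Cob Laz s) (c : ι) :
    rsP hQ ι s x c = rs hQ s (x c) := rfl

/-- charts of filtration `K` -/
def Fl (ι : Type) (s : ℕ) (K : Ideal (AA (ZMod Q))) : AddSubgroup (ι → Cob Laz s) :=
  (ZW p ι K).comap (rsP hQ ι s)

theorem mem_Fl {ι : Type} {s : ℕ} {K : Ideal (AA (ZMod Q))} {x : ι → Cob Laz s} :
    x ∈ Fl hQ ι s K ↔ ∀ c, rs hQ s (x c) ∈ Fil p K := Iff.rfl

theorem Fl_mono {ι : Type} {s : ℕ} {K K' : Ideal (AA (ZMod Q))} (h : K ≤ K') :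
    Fl hQ ι s K ≤ Fl hQ ι s K' := fun _ hx c => Fil_mono h (hx c)

theorem mem_Fl_top {ι : Type} {s : ℕ} (x : ι → Cob Laz s) : x ∈ Fl hQ ι s ⊤ := fun c => by
  rw [Fil_top]
  trivial

theorem nsmul_mem_Fl {ι : Type} {s : ℕ} {K K' : Ideal (AA (ZMod Q))} {q : ℕ}
    (hq : (q : AA (ZMod Q)) ∈ K) {x : ι → Cob Laz s} (hx : x ∈ Fl hQ ι s K') :
    q • x ∈ Fl hQ ι s (K * K') := fun c => by
  rw [map_nsmul, Pi.smul_apply, nsmul_eq_mul, Fil_mul]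
  refine Ideal.mul_mem_mul ?_ (hx c)
  rw [← map_natCast ((Ch.univ (ZMod Q)).pt p 0)]
  exact Ideal.mem_map_of_mem _ hq

theorem nsmul_mem_Fl' {ι : Type} {s : ℕ} {K : Ideal (AA (ZMod Q))} {q : ℕ}
    (hq : (q : AA (ZMod Q)) ∈ K) (x : ι → Cob Laz s) : q • x ∈ Fl hQ ι s K := by
  have h := nsmul_mem_Fl hQ hq (mem_Fl_top hQ x)
  rwa [Ideal.mul_top] at h

theorem rs_mem_Loc (s : ℕ) (z : Cob Laz s) : rs hQ s z ∈ Loc p (ZMod Q) s :=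
  resC_mem_Loc (rpQZ hQ) s (rq Q s z)

theorem rs_mem_WC {s : ℕ} {w : ℤ} {z : Cob Laz s} (hz : Cob.IsWt (((p : ℤ) - 1) * w) z) :
    rs hQ s z ∈ WC p (ZMod Q) w :=
  resC_mem_WC (rpQZ hQ) (z := rq Q s z) (hz.mapRing (isLawHom_mkZ Q))

theorem rs_cup {a b : ℕ} (x : Cob Laz a) (y : Cob Laz b) :
    rs hQ (a + b) (Cob.cup x y) = rs hQ a x * sh p (ZMod Q) a (rs hQ b y) := by
  rw [rs_apply, Cob.mapRing_cup (isLawHom_mkZ Q), resC_cup, rs_apply, rs_apply]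

theorem rs_d (s : ℕ) (z : Cob Laz s) :
    rs hQ (s + 1) (Cob.d s z) = alt p (ZMod Q) (s + 2) (rs hQ s z) := by
  rw [rs_apply, Cob.mapRing_d (isLawHom_mkZ Q), resC_d, rs_apply]

theorem rs_map {n m : ℕ} (α : Fin (m + 1) → Fin (n + 1)) {α' : ℕ → ℕ} (hα : Monotone α')
    (h : ∀ i : Fin (m + 1), α' i = α i) (z : Cob Laz m) :
    rs hQ n (Cob.map α z) = pb p (ZMod Q) α' (rs hQ m z) := by
  rw [rs_apply, Cob.mapRing_map (isLawHom_mkZ Q), resC_map _ _ hα h, rs_apply]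

theorem rs_t1 (h : (p : ZMod Q) ^ (p - 1) = 0) {t : Cob Laz 1} (ht : P251.I.IsT1 p t) :
    rs hQ 1 t = (Ch.univ (ZMod Q)).arr p 0 (X 0) := resC_t1' _ (isLawHom_mkZ Q) h ht

theorem rs_v1 (h : (p : ZMod Q) ^ (p - 1) = 0) :
    rs hQ 0 (C (Laz.v p 1)) = (Ch.univ (ZMod Q)).pt p 0 (X 0) := by
  rw [rs_apply, resC_v1' _ (isLawHom_mkZ Q) h]

theorem rsP_mem {ι : Type} {d : ι → ℤ} {w : ℤ} {s : ℕ} {K : Ideal (AA (ZMod Q))}
    {x : ι → Cob Laz s} (hx : x ∈ CW p Laz d w s) (hK : x ∈ Fl hQ ι s K) :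
    rsP hQ ι s x ∈ PW p d w K s := fun c => ⟨rs_mem_Loc hQ s _, rs_mem_WC hQ (hx c), hK c⟩

theorem exists_rs {s : ℕ} {w : ℤ} {y : CC (ZMod Q)} (h1 : y ∈ Loc p (ZMod Q) s)
    (h2 : y ∈ WC p (ZMod Q) w) : ∃ Y, Cob.IsWt (((p : ℤ) - 1) * w) Y ∧ rs hQ s Y = y := by
  obtain ⟨Y, hY, h3⟩ := exists_lift_rq (isWt_extC (rpQZ hQ) s h2)
  exact ⟨Y, hY, by rw [rs_apply, h3, resC_extC _ h1]⟩

theorem exists_rsP {ι : Type} {d : ι → ℤ} {w : ℤ} {s : ℕ} {K : Ideal (AA (ZMod Q))}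
    {y : ι → CC (ZMod Q)} (hy : y ∈ PW p d w K s) :
    ∃ Y ∈ CW p Laz d w s, Y ∈ Fl hQ ι s K ∧ rsP hQ ι s Y = y := by
  choose Y hY hY' using fun c => exists_rs hQ (hy c).1 (hy c).2.1
  exact ⟨Y, hY, fun c => by rw [rsP_apply, hY']; exact (hy c).2.2, funext hY'⟩

theorem cup_mem_Fl {ι : Type} {m s : ℕ} {K K' : Ideal (AA (ZMod Q))} (hK' : Inv p K')
    {t : Cob Laz m} (ht : rs hQ m t ∈ Fil p K) {x : ι → Cob Laz s} (hx : x ∈ Fl hQ ι s K') :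
    (fun c => Cob.cup t (x c)) ∈ Fl hQ ι (m + s) (K * K') := fun c => by
  rw [rsP_apply, rs_cup]
  exact cup_mem_ZW hK' m ht hx c

omit hp in
theorem cup_mem_CW {N : Type} [CommRing N] [LawRing N] {ι : Type} {m s : ℕ} {d : ι → ℤ} {ω w : ℤ}
    {t : Cob N m} (ht : Cob.IsWt (((p : ℤ) - 1) * ω) t) {x : ι → Cob N s}
    (hx : x ∈ CW p N d w s) : (fun c => Cob.cup t (x c)) ∈ CW p N d (ω + w) (m + s) := fun c => by
  rw [add_sub_assoc, mul_add]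
  exact ht.cup (hx c)

variable (p) in
/-- coboundaries -/
def BC {N : Type} [CommRing N] [LawRing N] {ι : Type} [Fintype ι] (θ : ι → ι → Cob N 1)
    (d : ι → ℤ) (w : ℤ) : ∀ s : ℕ, AddSubgroup (ι → Cob N s)
  | 0 => ⊥
  | s + 1 => (CW p N d w s).map (DD θ s)

omit hp in
theorem mem_BC_succ {N : Type} [CommRing N] [LawRing N] {ι : Type} [Fintype ι]
    {θ : ι → ι → Cob N 1} {d : ι → ℤ} {w : ℤ} {s : ℕ} {x : ι → Cob N (s + 1)} :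
    x ∈ BC p θ d w (s + 1) ↔ ∃ y ∈ CW p N d w s, DD θ s y = x := Iff.rfl

omit hp in
theorem BC_le_CW {N : Type} [CommRing N] [LawRing N] {ι : Type} [Fintype ι]
    {θ : ι → ι → Cob N 1} {d : ι → ℤ}
    (hθ : ∀ c c', Cob.IsWt (((p : ℤ) - 1) * (d c - d c')) (θ c c')) (w : ℤ) (s : ℕ) :
    BC p θ d w s ≤ CW p N d w s := by
  rcases s with _ | s
  · exact bot_le
  · rintro _ ⟨y, hy, rfl⟩
    exact DD_mem_CW hθ hy

/-- coboundaries of charts of filtration `K` -/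
def BF {ι : Type} [Fintype ι] (θ : ι → ι → Cob Laz 1) (d : ι → ℤ) (w : ℤ)
    (K : Ideal (AA (ZMod Q))) : ∀ s : ℕ, AddSubgroup (ι → Cob Laz s)
  | 0 => ⊥
  | s + 1 => (CW p Laz d w s ⊓ Fl hQ ι s K).map (DD θ s)

theorem BF_le_BC {ι : Type} [Fintype ι] (θ : ι → ι → Cob Laz 1) (d : ι → ℤ) (w : ℤ)
    (K : Ideal (AA (ZMod Q))) (s : ℕ) : BF hQ θ d w K s ≤ BC p θ d w s := by
  rcases s with _ | s
  · exact le_rfl
  · exact AddSubgroup.map_mono inf_le_left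

theorem BF_mono {ι : Type} [Fintype ι] (θ : ι → ι → Cob Laz 1) (d : ι → ℤ) (w : ℤ)
    {K K' : Ideal (AA (ZMod Q))} (h : K ≤ K') (s : ℕ) : BF hQ θ d w K s ≤ BF hQ θ d w K' s := by
  rcases s with _ | s
  · exact le_rfl
  · exact AddSubgroup.map_mono (inf_le_inf_left _ (Fl_mono hQ h))

theorem resC_hO {N L ι : Type} [CommRing N] [LawRing N] [CommRing L] [Fintype ι] [DecidableEq ι]
    (hR : Rp p N L) (θ : ι → ι → Cob N 1) {n : ℕ} {F : ι → Cob N (n + 1)}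
    (h : ∀ c, resC hR (n + 1) (F c) = 0) (c' : ι) : resC hR n (hO θ hR n F c') = 0 := by
  obtain ⟨xU, h1⟩ := exists_isTy hR (Ch.univ L)
  rw [resC, h1.toChain, ev_hO, h1.uS_eq]
  refine Finset.sum_eq_zero fun i _ => ?_
  have h2 : prs i xU.2 xU.2 = xU.2 ∘ dg i := funext fun k => by
    simp only [prs, dg, Function.comp]
    split_ifs <;> rfl
  simp only [h2, XX, ← (h1.res (dg_mono i)).ev_resC hR, h, map_zero, zero_mul,
    Finset.sum_const_zero, smul_zero]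

variable {G : ℕ → Type} [∀ q, Fintype (G q)] [DecidableEq (G 0)]

/-- the hypotheses on an integral coaction -/
structure IC (R : Rs p (ZMod Q) G) (θ : G 0 → G 0 → Cob Laz 1) : Prop where
  cell : Cell (rpQZ hQ) R fun a b => rq Q 1 (θ a b)
  wt : ∀ c c', Cob.IsWt (((p : ℤ) - 1) * (R.deg 0 c - R.deg 0 c')) (θ c c')

/-- the comparison map on integral charts -/
def Ph (R : Rs p (ZMod Q) G) (s : ℕ) : (G 0 → Cob Laz s) →+ (G (s + 1) → AA (ZMod Q)) :=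
  (R.Phi s).comp (rsP hQ _ s)

omit [DecidableEq (G 0)] in
theorem Ph_apply (R : Rs p (ZMod Q) G) (s : ℕ) (x : G 0 → Cob Laz s) :
    Ph hQ R s x = R.Phi s (rsP hQ _ s x) := rfl

variable {hQ} {R : Rs p (ZMod Q) G} {θ : G 0 → G 0 → Cob Laz 1} {F : Type} [Field F]
  {π : ZMod Q →+* F} {r s : ℕ} {T w : ℤ} {K K' : Ideal (AA (ZMod Q))}

omit [DecidableEq (G 0)] in
theorem Ph_mem (hK : Inv p K) {x : G 0 → Cob Laz s} (hx : x ∈ CW p Laz (R.deg 0) w s)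
    (hx' : x ∈ Fl hQ _ s K) : Ph hQ R s x ∈ PA p (R.deg (s + 1)) w K :=
  Rs.Phi_mem hK (rsP_mem hQ hx hx')

omit [DecidableEq (G 0)] in
theorem Ph_mem_ZA (hK : Inv p K) {x : G 0 → Cob Laz s} (hx : x ∈ Fl hQ _ s K) :
    Ph hQ R s x ∈ ZA _ K := Rs.Phi_mem_ZA hK s hx

omit [DecidableEq (G 0)] in
/-- products -/
theorem Ph_cup {m : ℕ} (t : Cob Laz m) {x : G 0 → Cob Laz s} (hx : x ∈ CW p Laz (R.deg 0) w s) :
    Ph hQ R (m + s) (fun c => Cob.cup t (x c)) =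
      R.star m (s + 1) (m + s + 1) (by omega) (rs hQ m t) (Ph hQ R s x) := by
  rw [Ph_apply, Ph_apply, ← Rs.Phi_cup (rs_mem_Loc hQ m t) (rsP_mem hQ hx (mem_Fl_top hQ x))]
  exact congrArg _ (funext fun c => rs_cup hQ t (x c))

omit [DecidableEq (G 0)] in
/-- a cochain placed on cells with integral coefficients -/
theorem Ph_cells {m : ℕ} (t : Cob Laz m) (a : G 0 → ℤ) :
    Ph hQ R m (fun c => a c • t) = R.star m 1 (m + 1) (by omega) (rs hQ m t)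
      fun w => ∑ c, (a c : AA (ZMod Q)) * constantCoeff (R.e c w) := by
  rw [← R.Phi_cup_up (rs_mem_Loc hQ m t), Ph_apply]
  congr 1
  funext c
  rw [rsP_apply, cup_apply, up_apply, map_intCast, map_intCast, map_zsmul, zsmul_eq_mul, mul_comm]

namespace IC

theorem coc (hC : IC hQ R θ) : Coc p R.th := coc_of_Lk _ hC.cell.mc hC.cell.lk

theorem rsP_DD (hC : IC hQ R θ) (x : G 0 → Cob Laz s) :
    rsP hQ _ (s + 1) (DD θ s x) = cD p R.th s (rsP hQ _ s x) := by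
  refine Eq.trans (funext fun c => ?_) (resC_DD _ hC.cell.lk s fun c => rq Q s (x c))
  rw [rsP_apply, rs_apply, mapRing_DD (isLawHom_mkZ Q)]

theorem DD_mem_Fl (hC : IC hQ R θ) (hK : Inv p K) {x : G 0 → Cob Laz s} (hx : x ∈ Fl hQ _ s K) :
    DD θ s x ∈ Fl hQ _ (s + 1) K := by
  rw [Fl, AddSubgroup.mem_comap, hC.rsP_DD]
  exact cD_mem_ZW hK s _ hx

theorem DD_BC (hC : IC hQ R θ) {b : G 0 → Cob Laz s} (hb : b ∈ BC p θ (R.deg 0) w s) :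
    DD θ s b ∈ Fl hQ _ (s + 1) K := by
  rcases s with _ | s
  · rw [AddSubgroup.mem_bot.1 hb, map_zero]
    exact zero_mem _
  · obtain ⟨y, -, rfl⟩ := hb
    rw [Fl, AddSubgroup.mem_comap, hC.rsP_DD, hC.rsP_DD, cD_cD hC.coc]
    exact zero_mem _

theorem BF_le_Fl (hC : IC hQ R θ) (hK : Inv p K) : BF hQ θ (R.deg 0) w K s ≤ Fl hQ _ s K := by
  rcases s with _ | s
  · exact bot_le
  · rintro _ ⟨y, hy, rfl⟩
    exact hC.DD_mem_Fl hK hy.2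

theorem exists_BF (hC : IC hQ R θ) {y : G 0 → CC (ZMod Q)}
    (hy : y ∈ PW p (R.deg 0) w K (s - 1)) :
    ∃ b ∈ BF hQ θ (R.deg 0) w K s, rsP hQ _ s b = R.dv s 0 y := by
  rcases s with _ | s
  · exact ⟨0, zero_mem _, map_zero _⟩
  · obtain ⟨Y, hY, h1, rfl⟩ := exists_rsP hQ hy
    exact ⟨_, ⟨Y, ⟨hY, h1⟩, rfl⟩, hC.rsP_DD Y⟩

/-- `Ph` is a chain map modulo `K I ^ r` -/
theorem Ph_DD (hC : IC hQ R θ) (h : R.Ok π r (s + 1) T) (hw : w ≤ T) (hK : Inv p K)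
    {x : G 0 → Cob Laz s} (hx : x ∈ CW p Laz (R.deg 0) w s) (hx' : x ∈ Fl hQ _ s K) :
    Ph hQ R (s + 1) (DD θ s x) - R.sd (s + 1) (Ph hQ R s x) ∈ ZA _ (K * II p (ZMod Q) ^ r) := by
  rw [Ph_apply, hC.rsP_DD]
  exact Rs.Phi_chain (inv_II.pow r) h.k1 hw hK (rsP_mem hQ hx hx')

theorem sd_Ph (hC : IC hQ R θ) (h : R.Ok π r (s + 1) T) (hw : w ≤ T) (hK : Inv p K)
    (hK' : Inv p K') (hKK : K * II p (ZMod Q) ^ r ≤ K') {x : G 0 → Cob Laz s}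
    (hx : x ∈ CW p Laz (R.deg 0) w s) (hx' : x ∈ Fl hQ _ s K)
    (h1 : DD θ s x ∈ Fl hQ _ (s + 1) K') : R.sd (s + 1) (Ph hQ R s x) ∈ ZA _ K' := by
  have h2 := sub_mem (Ph_mem_ZA (R := R) hK' h1) fun i => hKK (hC.Ph_DD h hw hK hx hx' i)
  rwa [sub_sub_cancel] at h2

/-- injectivity in a window -/
theorem step (hC : IC hQ R θ) (h : R.Ok π r s T) (hw : w ≤ T) (hK : Inv p K) (hK' : Inv p K')
    (hKK : K * II p (ZMod Q) ^ r ≤ K') {x : G 0 → Cob Laz s} (hx : x ∈ CW p Laz (R.deg 0) w s)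
    (hx' : x ∈ Fl hQ _ s K) (h1 : DD θ s x ∈ Fl hQ _ (s + 1) K') {u : G s → AA (ZMod Q)}
    (hu : u ∈ PA p (R.deg s) w K) (h2 : Ph hQ R s x - R.sd s u ∈ ZA _ K') :
    ∃ b ∈ BF hQ θ (R.deg 0) w K s, x - b ∈ Fl hQ _ s K' := by
  rw [Fl, AddSubgroup.mem_comap, hC.rsP_DD] at h1
  obtain ⟨y, hy, h3⟩ := Rs.Phi_inj h hw hK hK' hKK (rsP_mem hQ hx hx') h1 hu h2
  obtain ⟨b, hb, h5⟩ := hC.exists_BF hy
  exact ⟨b, hb, by rwa [Fl, AddSubgroup.mem_comap, map_sub, h5]⟩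

/-- surjectivity in a window -/
theorem surj (hC : IC hQ R θ) (h : R.Ok π r (s + 1) T) (hw : w ≤ T) (hK : Inv p K)
    (hK' : Inv p K') (hKK : K * II p (ZMod Q) ^ r ≤ K') {u : G (s + 1) → AA (ZMod Q)}
    (hu : u ∈ PA p (R.deg (s + 1)) w K) (h1 : R.sd (s + 1) u ∈ ZA _ K') :
    ∃ x ∈ CW p Laz (R.deg 0) w s, x ∈ Fl hQ _ s K ∧ DD θ s x ∈ Fl hQ _ (s + 1) K' ∧
      ∃ u' ∈ PA p (R.deg s) w K, Ph hQ R s x - u - R.sd s u' ∈ ZA _ K' := by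
  obtain ⟨y, hy, h2, h3⟩ := Rs.Phi_surj h hw hK hK' hKK hu h1
  obtain ⟨x, hx, h4, rfl⟩ := exists_rsP hQ hy
  exact ⟨x, hx, h4, by rwa [Fl, AddSubgroup.mem_comap, hC.rsP_DD], h3⟩

/-- **the basic induction along a filtration** -/
theorem span (hC : IC hQ R θ) (h : R.Ok π r s T) (hw : w ≤ T) {𝒦 𝓛 : ℕ → Ideal (AA (ZMod Q))}
    (h𝒦 : ∀ k, Inv p (𝒦 k)) (h𝓛 : ∀ k, Inv p (𝓛 k)) (h1 : ∀ k, 𝒦 k ≤ 𝓛 k)
    (h2 : ∀ k, 𝓛 k * II p (ZMod Q) ^ r ≤ 𝒦 (k + 1)) {𝒳 ℬ 𝒵 : AddSubgroup (G 0 → Cob Laz s)}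
    (h𝒳 : 𝒳 ≤ CW p Laz (R.deg 0) w s) (hℬ : ℬ ≤ 𝒳) (h𝒵 : 𝒵 ≤ 𝒳) {k₀ M : ℕ} (hM : k₀ ≤ M)
    (hb : ∀ k, k₀ ≤ k → BF hQ θ (R.deg 0) w (𝓛 k) s ≤ ℬ)
    (hd : ∀ x ∈ 𝒳, ∀ k < M, DD θ s x ∈ Fl hQ _ (s + 1) (𝒦 (k + 1)))
    (h3 : ∀ k, k₀ ≤ k → k < M → ∀ x ∈ 𝒳, x ∈ Fl hQ _ s (𝒦 k) →
      ∃ y ∈ PA p (R.deg s) w (𝓛 k), ∃ z ∈ 𝒵, z ∈ Fl hQ _ s (𝓛 k) ∧
        Ph hQ R s x - R.sd s y - Ph hQ R s z ∈ ZA _ (𝒦 (k + 1)))
    {x : G 0 → Cob Laz s} (hx : x ∈ 𝒳) (hx' : x ∈ Fl hQ _ s (𝒦 k₀)) :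
    ∃ b ∈ ℬ, ∃ z ∈ 𝒵, x - b - z ∈ Fl hQ _ s (𝒦 M) := by
  induction M, hM using Nat.le_induction with
  | base => exact ⟨0, zero_mem _, 0, zero_mem _, by simpa using hx'⟩
  | succ k hk ih =>
    obtain ⟨b, hb', z, hz, h4⟩ := ih (fun x hx j hj => hd x hx j (by omega))
      fun j hj hj' => h3 j hj (by omega)
    have h5 : x - b - z ∈ 𝒳 := sub_mem (sub_mem hx (hℬ hb')) (h𝒵 hz)
    obtain ⟨y, hy, z', hz', h6, h7⟩ := h3 k hk (Nat.lt_succ_self k) _ h5 h4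
    have h8 := sub_mem h5 (h𝒵 hz')
    obtain ⟨b', h9, h11⟩ := hC.step h hw (h𝓛 k) (h𝒦 (k + 1)) (h2 k) (h𝒳 h8)
      (sub_mem (Fl_mono hQ (h1 k) h4) h6) (hd _ h8 k (Nat.lt_succ_self k)) hy
      (by rwa [map_sub, sub_right_comm])
    refine ⟨b + b', add_mem hb' (hb k hk h9), z + z', add_mem hz hz', ?_⟩
    convert h11 using 1
    abel

theorem fin_zero (hC : IC hQ R θ) {q : ℕ} (hq : q ∣ Q) {x : G 0 → Cob Laz s}
    (hx : x ∈ CW p Laz (R.deg 0) w s) (h0 : rsP hQ _ s x = 0) {c : G 0 → Cob Laz (s + 1)}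
    (hc : c ∈ CW p Laz (R.deg 0) w (s + 1)) (hd : DD θ s x = q • c) :
    ∃ b ∈ BF hQ θ (R.deg 0) w ⊥ s, ∃ u ∈ CW p Laz (R.deg 0) w s, x = b + q • u := by
  have hθ : ∀ c c', Cob.IsWt (((p : ℤ) - 1) * R.deg 0 c - ((p : ℤ) - 1) * R.deg 0 c')
      (rq Q 1 (θ c c')) := fun c c' => by rw [← mul_sub]; exact hC.cell.wt c c'
  have hO' : ∀ {n : ℕ} {z : G 0 → Cob Laz (n + 1)}, z ∈ CW p Laz (R.deg 0) w (n + 1) →
      ∃ Z ∈ CW p Laz (R.deg 0) w n, (fun c => rq Q n (Z c)) =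
        hO (fun a b => rq Q 1 (θ a b)) (rpQZ hQ) n fun c => rq Q (n + 1) (z c) := by
    intro n z hz
    choose Z hZ hZ' using fun c => exists_lift_rq (isWt_hO (rpQZ hQ) hθ (W := ((p : ℤ) - 1) * w)
      (fun c => by rw [← mul_sub]; exact (hz c).mapRing (isLawHom_mkZ Q)) c)
    exact ⟨Z, fun c => by rw [mul_sub]; exact hZ c, funext hZ'⟩
  obtain ⟨Z, hZ, h1⟩ := hO' hc
  have h2 : ∀ c', hO (fun a b => rq Q 1 (θ a b)) (rpQZ hQ) s (DD (fun a b => rq Q 1 (θ a b)) s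
      fun c => rq Q s (x c)) c' = rq Q s (q • Z c') := fun c' => by
    rw [← funext (mapRing_DD (isLawHom_mkZ Q) θ s x), hd, map_nsmul, congrFun h1 c']
    simp only [hO, XX, Pi.smul_apply, map_nsmul, Finset.smul_sum, smul_mul_assoc,
      smul_comm q ((-1 : ℤ) ^ _)]
  have h3 : ∀ c', extT (fun a b => rq Q 1 (θ a b)) (rpQZ hQ) s
      (fun c => resC (rpQZ hQ) s (rq Q s (x c))) c' = 0 := fun c' => by
    have h4 : ∀ c, resC (rpQZ hQ) s (rq Q s (x c)) = 0 := congrFun h0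
    simp only [extT, h4, map_zero, zero_mul, Finset.sum_const_zero]
  obtain ⟨b, hb, h4⟩ : ∃ b ∈ BF hQ θ (R.deg 0) w ⊥ s,
      ∀ c', rq Q s ((x - b + q • Z) c') = 0 := by
    rcases s with _ | s
    · refine ⟨0, zero_mem _, fun c' => ?_⟩
      have h5 := homotopy_zero (rpQZ hQ) hC.cell.mc (fun c => rq Q 0 (x c)) c'
      rw [h2, h3] at h5
      rw [sub_zero, Pi.add_apply, map_add, Pi.smul_apply, h5, add_sub_cancel]
    · obtain ⟨Y, hY, h6⟩ := hO' hx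
      refine ⟨-DD θ s Y, neg_mem ⟨Y, ⟨hY, fun c' => ?_⟩, rfl⟩, fun c' => ?_⟩
      · rw [rsP_apply, rs_apply, congrFun h6 c', resC_hO _ _ (congrFun h0)]
        exact zero_mem _
      have h5 := homotopy_succ (rpQZ hQ) hC.cell.mc (fun c => rq Q (s + 1) (x c)) c'
      rw [h2, h3, ← h6, ← mapRing_DD (isLawHom_mkZ Q)] at h5
      rw [sub_neg_eq_add, Pi.add_apply, Pi.add_apply, map_add, map_add, Pi.smul_apply, add_assoc,
        add_comm _ (rq Q _ (q • _)), h5, add_sub_cancel]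
  obtain ⟨q', rfl⟩ := hq
  choose u hu hu' using fun c => exists_wt_of_rq
    (add_mem (sub_mem hx (BC_le_CW hC.wt w s (BF_le_BC hQ _ _ _ _ _ hb))) (nsmul_mem hZ q) c) (h4 c)
  refine ⟨b, hb, q' • u - Z, sub_mem (nsmul_mem (show u ∈ CW p Laz (R.deg 0) w s from hu) _) hZ, ?_⟩
  rw [smul_sub, smul_smul, ← show x - b + q • Z = (q * q') • u from funext hu']
  abel

/-- **the end of the induction** -/
theorem fin (hC : IC hQ R θ) {q : ℕ} (hq : q ∣ Q) {m j : ℕ} (hm : (p : ZMod Q) ^ m = 0)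
    (hj : ∀ c, w - R.deg 0 c < j) {x : G 0 → Cob Laz s} (hx : x ∈ CW p Laz (R.deg 0) w s)
    (h0 : x ∈ Fl hQ _ s (II p (ZMod Q) ^ (m + j) ⊔ Ideal.span {(q : AA (ZMod Q))}))
    {c : G 0 → Cob Laz (s + 1)} (hc : c ∈ CW p Laz (R.deg 0) w (s + 1)) (hd : DD θ s x = q • c) :
    ∃ b ∈ BF hQ θ (R.deg 0) w ⊥ s, ∃ u ∈ CW p Laz (R.deg 0) w s, x = b + q • u := by
  have h1 : ∀ c, ∃ Y, Cob.IsWt (((p : ℤ) - 1) * (w - R.deg 0 c)) Y ∧
      rs hQ s (x c - q • Y) = 0 := fun c => by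
    obtain ⟨y, h1, h2, h3⟩ := exists_of_Fil_sup hm (hj c) (rs_mem_Loc hQ s (x c))
      (rs_mem_WC hQ (hx c)) (h0 c)
    obtain ⟨Y, hY, rfl⟩ := exists_rs hQ h1 h2
    exact ⟨Y, hY, by rw [map_sub, map_nsmul, h3, sub_self]⟩
  choose Y hY hY' using h1
  replace hY : Y ∈ CW p Laz (R.deg 0) w s := hY
  obtain ⟨b, hb, u, hu, h2⟩ := hC.fin_zero hq (sub_mem hx (nsmul_mem hY q)) (funext hY')
    (sub_mem hc (DD_mem_CW hC.wt hY)) (by rw [map_sub, map_nsmul, hd, smul_sub])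
  exact ⟨b, hb, u + Y, add_mem hu hY, by rw [smul_add, ← add_assoc, ← h2, sub_add_cancel]⟩

end IC

end Vale.Agent.P236EL

end
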