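import Vale.Agent.P236EL.Pol
import Vale.Agent.P236EL.Fil

/-!
# P236EL / Val : explicit congruences for the structure maps at the prime three
-/

noncomputable section

namespace Vale.Agent.P236EL

open MvPolynomial

section val

variable (p : ℕ) (τ : Type)

/-- the ideal `(p, v_1, v_2, …)` of the universal ring -/
def IU : Ideal (MvPolynomial (ℕ ⊕ τ) ℤ) :=
  Ideal.span (insert (p : MvPolynomial (ℕ ⊕ τ) ℤ) (Set.range fun i => X (Sum.inl i)))

/-- the number of factors `v` -/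
def lenv (m : (ℕ ⊕ τ) →₀ ℕ) : ℕ := Finsupp.weight (Sum.elim (fun _ => 1) fun _ => 0) m

/-- polynomials of valuation at least `k` -/
def VV (k : ℕ) : Ideal (MvPolynomial (ℕ ⊕ τ) ℤ) where
  carrier := {f | ∀ m, (p : ℤ) ^ (k - lenv τ m) ∣ coeff m f}
  zero_mem' _ := dvd_zero _
  add_mem' ha hb m := by rw [coeff_add]; exact dvd_add (ha m) (hb m)
  smul_mem' c f hf m := by
    classical
    rw [smul_eq_mul, coeff_mul]
    refine Finset.dvd_sum fun ab hab => Dvd.dvd.mul_left ((pow_dvd_pow _ ?_).trans (hf ab.2)) _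
    rw [← Finset.HasAntidiagonal.mem_antidiagonal.1 hab, lenv, map_add, lenv]
    omega

variable {p τ}

theorem VV_mul (i j : ℕ) : VV p τ i * VV p τ j ≤ VV p τ (i + j) := by
  classical
  refine Ideal.mul_le.2 fun f hf g hg m => ?_
  rw [coeff_mul]
  refine Finset.dvd_sum fun ab hab => (pow_dvd_pow _ ?_).trans
    ((pow_add _ _ _).dvd.trans (mul_dvd_mul (hf ab.1) (hg ab.2)))
  rw [← Finset.HasAntidiagonal.mem_antidiagonal.1 hab, lenv, map_add, lenv, lenv]
  omega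

theorem IU_le : IU p τ ≤ VV p τ 1 := by
  classical
  rw [IU, Ideal.span_le]
  rintro _ (rfl | ⟨i, rfl⟩) m
  · rw [← mul_one (p : MvPolynomial (ℕ ⊕ τ) ℤ), ← map_natCast C, coeff_C_mul]
    exact Dvd.dvd.mul_right ((pow_dvd_pow _ (Nat.sub_le _ _)).trans (pow_one _).dvd) _
  · rw [coeff_X]
    split_ifs with h
    · rw [← h, lenv, Finsupp.weight_single]
      simp
    · exact dvd_zero _

theorem IU_pow_le (k : ℕ) : IU p τ ^ k ≤ VV p τ k := by
  induction k with
  | zero => exact fun f _ m => by simp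
  | succ k ih => exact (pow_succ _ k).trans_le ((Ideal.mul_mono ih IU_le).trans (VV_mul k 1))

theorem monomial_mem_IU (m : (ℕ ⊕ τ) →₀ ℕ) : monomial m (1 : ℤ) ∈ IU p τ ^ lenv τ m := by
  induction m using Finsupp.induction_linear with
  | zero => exact mem_pow_zero _
  | add a b ha hb =>
    have h := Ideal.mul_mem_mul ha hb
    rwa [monomial_mul, mul_one, ← pow_add, lenv, lenv, ← map_add] at h
  | single i n =>
    rw [lenv, Finsupp.weight_single, ← X_pow_eq_monomial]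
    rcases i with i | i
    · rw [Sum.elim_inl, smul_eq_mul, mul_one]
      exact Ideal.pow_mem_pow (Ideal.subset_span (Set.mem_insert_of_mem _ (Set.mem_range_self i))) n
    · exact mem_pow_zero _

theorem VV_le (k : ℕ) : VV p τ k ≤ IU p τ ^ k := by
  intro f hf
  rw [f.as_sum]
  refine sum_mem fun m _ => ?_
  obtain ⟨c, hc⟩ := hf m
  have h := Ideal.mul_mem_mul (Ideal.pow_mem_pow (I := IU p τ)
    (Ideal.subset_span (Set.mem_insert _ _)) (k - lenv τ m)) (monomial_mem_IU (p := p) m)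
  rw [← pow_add, ← map_natCast C, ← map_pow, C_mul_monomial, mul_one] at h
  rw [hc, mul_comm, ← C_mul_monomial]
  exact Ideal.mul_mem_left _ _ (Ideal.pow_le_pow_right (by omega) h)

theorem cancel_IU (hp : p ≠ 0) {n k : ℕ} {f : MvPolynomial (ℕ ⊕ τ) ℤ}
    (h : (p : MvPolynomial (ℕ ⊕ τ) ℤ) ^ n * f ∈ IU p τ ^ (n + k)) : f ∈ IU p τ ^ k := by
  refine VV_le k fun m => ?_
  have h1 := IU_pow_le _ h m
  rw [← map_natCast C, ← map_pow, coeff_C_mul] at h1
  by_cases hk : k ≤ lenv τ m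
  · simp [Nat.sub_eq_zero_of_le hk]
  · rw [show n + k - lenv τ m = n + (k - lenv τ m) by omega, pow_add] at h1
    exact (mul_dvd_mul_iff_left (pow_ne_zero n (Int.natCast_ne_zero.2 hp))).1 h1

theorem map_IU_le {B : Type*} [CommRing B] (φ : MvPolynomial (ℕ ⊕ τ) ℤ →+* B) {J : Ideal B}
    (hJ : (p : B) ∈ J) (hv : ∀ i, φ (X (Sum.inl i)) ∈ J) : (IU p τ).map φ ≤ J := by
  rw [IU, Ideal.map_span, Ideal.span_le]
  rintro _ ⟨a, rfl | ⟨i, rfl⟩, rfl⟩
  · rwa [map_natCast]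
  · exact hv i

theorem lam_mem {B : Type*} [CommRing B] {J : Ideal B} (hJ : (p : B) ∈ J) (hp : p ≠ 0)
    {v : ℕ → B} (hv : ∀ i, v i ∈ J) (n : ℕ) : lam p v n ∈ J ^ n := by
  induction n using Nat.strong_induction_on with
  | _ n ih =>
    rcases n with _ | n
    · exact mem_pow_zero _
    · rw [lam_succ]
      refine sum_mem fun i hi => ?_
      have hi' := Finset.mem_range.1 hi
      have h := Ideal.mul_mem_mul (Ideal.mul_mem_mul (Ideal.pow_mem_pow hJ (n - i)) (ih i hi'))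
        (Ideal.pow_mem_of_mem J (hv (n - i)) _ (pow_pos (Nat.pos_of_ne_zero hp) i))
      rwa [← pow_add, ← pow_succ, show n - i + i + 1 = n + 1 by omega] at h

end val

/-! ### the lists -/

/-- the recursion for `3^n l_n` -/
def lamF (f : ℕ → Pl) (n : ℕ) : Pl :=
  sumL ((List.range (n + 1)).map fun i => sft (3 ^ (n - i), pr (n - i) ^ 3 ^ i) (f i))

/-- `3^n l_n` for `n ≤ 4` -/
def lamL (n : ℕ) : Pl :=
  [[(1, 1)], [(1, 2)], [(3, 3), (1, 16)], [(9, 5), (3, 54), (3, 1536), (1, 8192)],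
    [(27, 7), (9, 250), (9, 59049), (3, 314928), (9, 671088640), (3, 7247757312),
      (3, 206158430208), (1, 1099511627776)]].getD n []

theorem lamL_succ : ∀ n < 4, lamL (n + 1) = lamF lamL n := by decide +kernel

/-- the logarithmic coefficients of the target of an arrow -/
def tgL (f : ℕ → Pl) (c : ℕ → ℕ) (n : ℕ) : Pl :=
  sumL ((List.range (n + 1)).map fun j => sft (3 ^ j, c j ^ 3 ^ (n - j)) (f (n - j)))

/-- the codes of the coordinates of the arrow number `a` -/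
def kA (a j : ℕ) : ℕ := Nat.rec (motive := fun _ => ℕ) 1 (fun j _ => pr (4 * (a + 1) + j)) j

/-- the left hand side of the logarithmic identity -/
def lhsL (R : ℕ) (LL TL : ℕ → Pl) (n : ℕ) : Pl := sumL ((List.range (n + 1)).map fun j =>
  mulT (n + R) (sft (3 ^ j, 1) (LL (n - j))) (cubes R (TL j) (n - j)))

/-- the check for the composite of two arrows -/
def ckD (R : ℕ) (TL : ℕ → Pl) (n : ℕ) : Bool :=
  eqT (n + R) (lhsL R lamL TL n) (tgL (tgL lamL (kA 0)) (kA 1) n)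

/-- the check for the target of an arrow -/
def ckE (R : ℕ) (EL : ℕ → Pl) (n : ℕ) : Bool :=
  eqT (n + R) (lhsL R (tgL lamL (kA 0)) EL n) (tgL lamL (kA 0) (n + 1))

variable {B : Type*} [CommRing B] [hp : Fact (Nat.Prime 3)]

/-- the variables -/
def xs (v s t : ℕ → B) (i : ℕ) : B := if i < 4 then v i else if i < 8 then s (i - 4) else t (i - 8)

omit hp in
theorem map_xs {C : Type*} [CommRing C] (φ : B →+* C) (v s t : ℕ → B) :
    (fun i => φ (xs v s t i)) = xs (fun i => φ (v i)) (fun i => φ (s i)) fun i => φ (t i) := by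
  funext i
  simp only [xs, apply_ite φ]

omit hp in
theorem pev_sum_range (x : ℕ → B) (m : ℕ) (l : ℕ → Pl) :
    pev x (sumL ((List.range m).map l)) = ∑ i ∈ Finset.range m, pev x (l i) := by
  rw [pev_sumL, List.map_map]
  rfl

omit hp in
theorem pev_lamL {x v : ℕ → B} (hx : ∀ i < 4, x i = v i) (n : ℕ) (hn : n ≤ 4) :
    pev x (lamL n) = lam 3 v n := by
  induction n using Nat.strong_induction_on with
  | _ n ih =>
    rcases n with _ | n
    · simp [lamL, lam_zero, kev_one]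
    · rw [lamL_succ n (by omega), lamF, pev_sum_range, lam_succ]
      refine Finset.sum_congr rfl fun i hi => ?_
      have hi' := Finset.mem_range.1 hi
      rw [pev_sft, ih i hi' (by omega), kev_pow, kev_pr x (by omega), hx _ (by omega)]
      push_cast
      ring

theorem pev_tgL {x w t : ℕ → B} {f : ℕ → Pl} {c : ℕ → ℕ} {n : ℕ}
    (hf : ∀ i ≤ n, pev x (f i) = lam 3 w i) (hc : ∀ j ≤ n, kev x (c j) = one1 t j) :
    pev x (tgL f c n) = lam 3 (tg 3 w t) n := by
  rw [tgL, pev_sum_range, lam_tg]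
  refine Finset.sum_congr rfl fun j hj => ?_
  rw [pev_sft, hf _ (Nat.sub_le _ _), kev_pow, hc j (by have := Finset.mem_range.1 hj; omega)]
  push_cast
  ring

omit hp in
theorem kev_kA0 (v s t : ℕ → B) {j : ℕ} (hj : j ≤ 4) : kev (xs v s t) (kA 0 j) = one1 s j := by
  rcases j with _ | j
  · exact kev_one _
  · refine (kev_pr _ (i := 4 * (0 + 1) + j) (by omega)).trans ?_
    rw [xs, if_neg (by omega), if_pos (by omega), one1_succ]
    congr 1
    omega

omit hp in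
theorem kev_kA1 (v s t : ℕ → B) {j : ℕ} (hj : j ≤ 4) : kev (xs v s t) (kA 1 j) = one1 t j := by
  rcases j with _ | j
  · exact kev_one _
  · refine (kev_pr _ (i := 4 * (1 + 1) + j) (by omega)).trans ?_
    rw [xs, if_neg (by omega), if_neg (by omega), one1_succ]
    congr 1
    omega

omit hp in
theorem step_mem {x : ℕ → B} {J : Ideal B} (h : Jv J x) {R n : ℕ} (hR : 2 ≤ R) {Λ a : ℕ → B}
    {LL TL : ℕ → Pl} (hΛ : ∀ i ≤ n, pev x (LL i) = Λ i) (hm : ∀ i, Λ i ∈ J ^ i) (h0 : Λ 0 = 1)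
    (ih : ∀ j < n, Ap J x R (a j) (TL j)) {rhs : Pl} (hr : pev x rhs =
      ∑ j ∈ Finset.range (n + 1), ((3 : ℕ) : B) ^ j * Λ (n - j) * a j ^ 3 ^ (n - j))
    (e : eqT (n + R) (lhsL R LL TL n) rhs = true) :
    ((3 : ℕ) : B) ^ n * (a n - pev x (TL n)) ∈ J ^ (n + R) := by
  have h1 : ∀ j ≤ n, ((3 : ℕ) : B) ^ j * Λ (n - j) ∈ J ^ n := fun j hj => by
    have h2 := Ideal.mul_mem_mul (Ideal.pow_mem_pow h.three j) (hm (n - j))
    rwa [← pow_add, Nat.add_sub_cancel' hj] at h2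
  have h2 := sub_mem_of_eqT h (ap_sum (f := fun j => ((3 : ℕ) : B) ^ j * Λ (n - j) *
    pev x (TL j) ^ 3 ^ (n - j)) fun j hj => Ap.mul' h (ap_of_eq (by
      rw [pev_sft, hΛ _ (Nat.sub_le _ _), kev_one, mul_one, Nat.cast_pow]))
      (h1 j (by omega)) ((ap_of_eq rfl).cubes h hR _) le_rfl) (ap_of_eq hr.symm) e
  rw [← Finset.sum_sub_distrib, Finset.sum_range_succ, Nat.sub_self, h0, pow_zero, pow_one,
    pow_one, mul_one] at h2
  have h3 : ∑ j ∈ Finset.range n, (((3 : ℕ) : B) ^ j * Λ (n - j) * pev x (TL j) ^ 3 ^ (n - j) -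
      ((3 : ℕ) : B) ^ j * Λ (n - j) * a j ^ 3 ^ (n - j)) ∈ J ^ (n + R) := by
    refine sum_mem fun j hj => ?_
    have hj' := Finset.mem_range.1 hj
    rw [← mul_sub, pow_add]
    refine Ideal.mul_mem_mul (h1 j hj'.le) (Ideal.mem_of_dvd _ (sub_dvd_pow_sub_pow _ _ _) ?_)
    rw [← neg_sub]
    exact neg_mem (ih j hj')
  convert neg_mem (sub_mem h2 h3) using 1
  ring

omit hp in
theorem jv_IU {τ : Type} (s t : ℕ → MvPolynomial (ℕ ⊕ τ) ℤ) :
    Jv (IU 3 τ) (xs (fun i => X (Sum.inl i)) s t) :=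
  ⟨Ideal.subset_span (Set.mem_insert _ _), fun i hi => by
    rw [xs, if_pos hi]
    exact Ideal.subset_span (Set.mem_insert_of_mem _ ⟨i, rfl⟩)⟩

theorem ap_cm_univ {τ : Type} (s t : ℕ → MvPolynomial (ℕ ⊕ τ) ℤ) {R : ℕ} (hR : 2 ≤ R)
    {TL : ℕ → Pl} {N : ℕ} (hN : N ≤ 4) (h : ∀ n ≤ N, ckD R TL n = true) (n : ℕ) (hn : n ≤ N) :
    Ap (IU 3 τ) (xs (fun i => X (Sum.inl i)) s t) R
      (one1 (cm 3 (fun i => X (Sum.inl i)) s t) n) (TL n) := by
  induction n using Nat.strong_induction_on with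
  | _ n ih =>
    have h1 : ∀ i ≤ n, pev (xs (fun i => X (Sum.inl i)) s t) (lamL i) =
        lam 3 (fun i => X (Sum.inl i)) i := fun i hi =>
      pev_lamL (fun i hi => if_pos hi) i (by omega)
    refine cancel_IU (by omega) (step_mem (jv_IU s t) hR h1 (lam_mem (jv_IU s t).three (by omega)
      fun i => Ideal.subset_span (Set.mem_insert_of_mem _ ⟨i, rfl⟩)) (lam_zero _ _)
      (fun j hj => ih j hj (by omega)) ?_ (h n hn))
    rw [pev_tgL (fun i hi => pev_tgL (fun j hj => h1 j (by omega))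
      fun j hj => kev_kA0 _ s t (by omega)) fun j hj => kev_kA1 _ s t (by omega), ← tg_cm, lam_tg]

theorem ap_tg_univ {τ : Type} (s t : ℕ → MvPolynomial (ℕ ⊕ τ) ℤ) {R : ℕ} (hR : 2 ≤ R)
    {EL : ℕ → Pl} {N : ℕ} (hN : N ≤ 4) (h : ∀ n < N, ckE R EL n = true) (n : ℕ) (hn : n < N) :
    Ap (IU 3 τ) (xs (fun i => X (Sum.inl i)) s t) R (tg 3 (fun i => X (Sum.inl i)) s n) (EL n) := by
  induction n using Nat.strong_induction_on with
  | _ n ih =>
    have h1 : ∀ i ≤ n + 1, pev (xs (fun i => X (Sum.inl i)) s t) (tgL lamL (kA 0) i) =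
        lam 3 (tg 3 (fun i => X (Sum.inl i)) s) i := fun i hi =>
      pev_tgL (fun j hj => pev_lamL (fun i hi => if_pos hi) j (by omega))
        fun j hj => kev_kA0 _ s t (by omega)
    refine cancel_IU (by omega) (step_mem (jv_IU s t) hR (fun i hi => h1 i (by omega))
      (lam_mem (jv_IU s t).three (by omega) (tg_mem_ideal (jv_IU s t).three
        (fun i => Ideal.subset_span (Set.mem_insert_of_mem _ ⟨i, rfl⟩)) s)) (lam_zero _ _)
      (fun j hj => ih j hj (by omega)) ?_ (h n hn))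
    rw [h1 _ le_rfl, lam_succ, ← Finset.sum_range_reflect]
    refine Finset.sum_congr rfl fun j hj => ?_
    have := Finset.mem_range.1 hj
    rw [show n + 1 - 1 - j = n - j by omega, show n - (n - j) = j by omega]

variable {J : Ideal B} {v : ℕ → B}

theorem ap_cm (hJ : ((3 : ℕ) : B) ∈ J) (hv : ∀ i, v i ∈ J) (s t : ℕ → B) {R : ℕ} (hR : 2 ≤ R)
    {TL : ℕ → Pl} {N : ℕ} (hN : N ≤ 4) (h : ∀ n ≤ N, ckD R TL n = true) (n : ℕ) (hn : n < N) :
    Ap J (xs v s t) R (cm 3 v s t n) (TL (n + 1)) := by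
  have h1 := Ideal.mem_map_of_mem (ev3 v s t) (ap_cm_univ (fun i => X (Sum.inr (Sum.inl i)))
    (fun i => X (Sum.inr (Sum.inr i))) hR hN h (n + 1) hn)
  rw [map_sub, map_pev, map_xs, one1_succ, map_cm, Ideal.map_pow] at h1
  simp only [ev3_1, ev3_2, ev3_3] at h1
  exact Ideal.pow_right_mono (map_IU_le _ hJ fun i => by rw [ev3_1]; exact hv i) R h1

theorem ap_tg (hJ : ((3 : ℕ) : B) ∈ J) (hv : ∀ i, v i ∈ J) (s t : ℕ → B) {R : ℕ} (hR : 2 ≤ R)
    {EL : ℕ → Pl} {N : ℕ} (hN : N ≤ 4) (h : ∀ n < N, ckE R EL n = true) (n : ℕ) (hn : n < N) :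
    Ap J (xs v s t) R (tg 3 v s n) (EL n) := by
  have h1 := Ideal.mem_map_of_mem (ev3 v s t) (ap_tg_univ (fun i => X (Sum.inr (Sum.inl i)))
    (fun i => X (Sum.inr (Sum.inr i))) hR hN h n hn)
  rw [map_sub, map_pev, map_xs, map_tg, Ideal.map_pow] at h1
  simp only [ev3_1, ev3_2, ev3_3] at h1
  exact Ideal.pow_right_mono (map_IU_le _ hJ fun i => by rw [ev3_1]; exact hv i) R h1

end Vale.Agent.P236EL

end
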