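import Vale.Agent.P236EL.Rep

/-!
# P236EL / Yon : products computed by chain maps of resolutions
-/

noncomputable section

namespace Vale.Agent.P236EL

open Vale.Agent.P251.F Vale.Agent.P251.F.F3 Vale.Agent.P257.H80 LawRing MvPolynomial Ch

namespace DC

variable {E E' : ℕ → Type} [∀ q, AddCommGroup (E q)] [∀ q, AddCommGroup (E' q)] {D : DC E}
  {D' : DC E'}

theorem T_σ {s : ℕ} (hS : D.Sq s) (n q : ℕ) (h : q + n = s) {a c : E (q + 1)}
    (hc : c ∈ D.W n (q + 1)) (h1 : a - D.δ n (q + 1) (((-1 : ℤ) ^ n) • c) ∈ D.Z (q + 1)) :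
    ∃ y ∈ D.W 0 s, D.T n (q + 1) (s + 1) (by omega) (D.σ n (q + 1) a) -
      D.T n (q + 1) (s + 1) (by omega) c - D.d 0 s y ∈ D.Z (s + 1) := by
  have h2 := D.TZ n (q + 1) (s + 1) (by omega) (D.σZ n _ _ h1)
  rcases n with _ | n
  · rw [pow_zero, one_smul, map_sub, D.σ0, map_sub] at h2
    exact ⟨0, zero_mem _, by rwa [map_zero, sub_zero]⟩
  · have h3 := D.σW _ _ _ hc
    refine ⟨_, zsmul_mem (D.TW n (q + 1) s (by omega) h3) ((-1 : ℤ) ^ (n + 1)), ?_⟩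
    have h4 := add_mem h2 (zsmul_mem (chain hS n (q + 1) (by omega) h3) ((-1 : ℤ) ^ (n + 1)))
    rw [map_zsmul, map_sub, map_zsmul, D.σδ, smul_add, neg_one_smul_smul, map_sub, map_add,
      map_zsmul] at h4
    rw [map_zsmul]
    convert h4 using 1
    rw [smul_sub]
    abel

/-- the zigzag commutes with maps of double complexes up to coboundaries -/
theorem T_map {m s : ℕ} (hS : D.Sq (s + 1)) (hS' : D'.Sq (m + s))
    {f : ℕ → (q : ℕ) → E (q + 1) →+ E' (m + q + 1)}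
    (fW : ∀ n q x, x ∈ D.W n (q + 1) → f n q x ∈ D'.W n (m + q + 1))
    (fZ : ∀ n q x, x ∈ D.Z (q + 1) → f n q x ∈ D'.Z (m + q + 1))
    (fδ : ∀ n q x, D'.δ n (m + q + 1) (f n q x) = f (n + 1) q (D.δ n (q + 1) x))
    (fd : ∀ n q x, q < s → x ∈ D.W n (q + 1) →
      D'.d n (m + q + 1) (f n q x) - f n (q + 1) (D.d n (q + 1) x) ∈ D'.Z (m + q + 2))
    (n q : ℕ) (h : q + n = s) {a : E (q + 1)} (ha : a ∈ D.W (n + 1) (q + 1))
    (h1 : D.δ (n + 1) (q + 1) a ∈ D.Z (q + 1)) (h2 : D.d (n + 1) (q + 1) a ∈ D.Z (q + 2)) :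
    ∃ y ∈ D'.W 0 (m + s), D'.T n (m + q + 1) (m + s + 1) (by omega)
      (D'.σ n (m + q + 1) (f (n + 1) q a)) - f 0 s (D.T n (q + 1) (s + 1) (by omega)
        (D.σ n (q + 1) a)) - D'.d 0 (m + s) y ∈ D'.Z (m + s + 1) := by
  induction n generalizing q with
  | zero =>
    obtain rfl : q = s := h
    exact T_σ (c := f 0 q (D.σ 0 (q + 1) a)) hS' 0 (m + q) rfl (fW _ _ _ (D.σW _ _ _ ha)) (by
      rw [← map_zsmul, fδ, ← map_sub]
      exact fZ _ _ _ (sub_δσ h1))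
  | succ n ih =>
    have h3 := D.σW _ _ _ ha
    have h4 := sub_δσ h1
    obtain ⟨y, hy, h5⟩ := T_σ hS' (n + 1) (m + q) (by omega) (fW _ _ _ h3) (by
      rw [← map_zsmul, fδ, ← map_sub]
      exact fZ _ _ _ h4)
    obtain ⟨y', hy', h6⟩ := ih (q + 1) (by omega) (D.dW _ _ _ h3) (by
      have h7 := zsmul_mem (sub_mem h2 (D.dZ (n + 1 + 1) _ _ h4)) ((-1 : ℤ) ^ (n + 1))
      rwa [map_sub, sub_sub_cancel, map_zsmul, map_zsmul, neg_one_smul_smul, D.dδ _ _ _ h3] at h7)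
      (hS _ _ _ (by omega) h3)
    refine ⟨y + y', add_mem hy hy', ?_⟩
    have h7 := D'.TZ n (m + q + 2) (m + s + 1) (by omega)
      (D'.σZ n _ _ (fd (n + 1) q _ (by omega) h3))
    rw [map_sub, map_sub] at h7
    have key : ∀ A B C e y y' : E' (m + s + 1), A - B - y ∈ D'.Z _ → B - C ∈ D'.Z _ →
        C - e - y' ∈ D'.Z _ → A - e - (y + y') ∈ D'.Z _ := fun A B C e y y' h h' h'' => by
      convert add_mem (add_mem h h') h'' using 1
      abel
    rw [map_add]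
    exact key _ _ _ _ _ _ h5 h7 h6

end DC

variable {p : ℕ} [hp : Fact p.Prime] {G G' : ℕ → Type} [∀ q, Fintype (G q)] [∀ q, Fintype (G' q)]

section cf

variable {L : Type} [CommRing L]

/-- a chain map of degree `m`, weight `ω` and filtration `j`, modulo filtration `n` -/
structure Cf (R : Rs p L G) (R' : Rs p L G') (m : ℕ) (ω : ℤ)
    (z : ∀ q, G (q + 1) → G' (m + q + 1) → (ℕ →₀ ℕ) → AA L) (j n Q : ℕ) (T : ℤ) : Prop where
  hom : ∀ q w w', HomR p (R.deg (q + 1) w + ω - R'.deg (m + q + 1) w') (z q w w')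
  fil : ∀ q w w' E, z q w w' E ∈ II p L ^ j
  sq : ∀ q < Q, ∀ w w'' E, Finsupp.weight (wz p) E + R.deg (q + 1) w ≤ T →
    ∑ w', conv p (R'.y (m + q) w' w'') (z q w w') E -
      ∑ v, conv p (z (q + 1) v w'') (R.y q w v) E ∈ II p L ^ n

variable (p) in
/-- the map of small complexes given by a matrix of functionals -/
def fa {ι κ : Type} [Fintype ι] (z : ι → κ → (ℕ →₀ ℕ) → AA L) : (ι → AA L) →+ (κ → AA L) :=
  mat fun w w' => (rAp (RingHom.id _) (z w w')).toAddMonoidHom.comp (etaR p L).toAddMonoidHom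

theorem fa_apply {ι κ : Type} [Fintype ι] (z : ι → κ → (ℕ →₀ ℕ) → AA L) (u : ι → AA L) (k : κ) :
    fa p z u k = ∑ i, rAp (RingHom.id _) (z i k) (etaR p L (u i)) := rfl

variable (p) in
/-- the map of double complexes given by a matrix of functionals -/
def fc' {ι κ : Type} [Fintype ι] (n : ℕ) (z : ι → κ → (ℕ →₀ ℕ) → AA L) :
    (ι → CC L) →+ (κ → CC L) := mat fun w w' => par p n (z w w')

theorem fc'_up {ι κ : Type} [Fintype ι] (z : ι → κ → (ℕ →₀ ℕ) → AA L) (u : ι → AA L) :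
    fc' p 0 z (up p _ u) = up p _ (fa p z u) := by
  funext w'
  simp only [fc', mat_apply, up_apply, par_pt, fa_apply, map_sum]

theorem par_mem_mul {K K' : Ideal (AA L)} (h : Inv p K) (h' : Inv p K') (n : ℕ)
    {r : (ℕ →₀ ℕ) → AA L} (hr : ∀ E, r E ∈ K') {F : CC L} (hF : F ∈ Fil p K) :
    par p n r F ∈ Fil p (K * K') := by
  rw [Fil_mul]
  exact Ideal.mul_mono_right (h'.pt _ n)
    (rAp_mem_mul (coeff_gen_mem_Fil n (pb_mem_Fil h (sa_mono n) hF)) fun E _ => hr E)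

namespace Cf

variable {R : Rs p L G} {R' : Rs p L G'} {m : ℕ} {ω : ℤ}
  {z : ∀ q, G (q + 1) → G' (m + q + 1) → (ℕ →₀ ℕ) → AA L} {j n Q : ℕ} {T w : ℤ}
  (h : Cf R R' m ω z j n Q T) {a b k q : ℕ}

include h

theorem mem_ZW {x : G (q + 1) → CC L} (hx : x ∈ ZW p _ (II p L ^ a)) :
    fc' p k (z q) x ∈ ZW p _ (II p L ^ (a + j)) := fun w' => by
  rw [pow_add]
  exact Ideal.sum_mem _ fun v _ => par_mem_mul (inv_II.pow a) (inv_II.pow j) k (h.fil q v w') (hx v)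

theorem mem_PW {x : G (q + 1) → CC L} (hx : x ∈ PW p (R.deg (q + 1)) w (II p L ^ a) k) :
    fc' p k (z q) x ∈ PW p (R'.deg (m + q + 1)) (w + ω) (II p L ^ (a + j)) k := by
  refine fun w' => ⟨?_, ?_, h.mem_ZW (fun v => (hx v).2.2) w'⟩
  · rw [fc', mat_apply]
    refine Subring.sum_mem _ fun i _ => ?_
    rw [par_apply]
    exact itg_mem_Loc _ _ _
  · rw [fc', mat_apply]
    refine AddSubgroup.sum_mem _ fun v _ => ?_
    have h1 := par_mem_WC k (h.hom q v w') (hx v).2.1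
    rwa [show w - R.deg (q + 1) v + (R.deg (q + 1) v + ω - R'.deg (m + q + 1) w') =
      w + ω - R'.deg (m + q + 1) w' by ring] at h1

theorem dd (hq : q < Q) (hw : w ≤ T) {x : G (q + 1) → CC L}
    (hx : x ∈ PW p (R.deg (q + 1)) w (II p L ^ a) k) :
    R'.dd k (m + q + 1) (fc' p k (z q) x) - fc' p k (z (q + 1)) (R.dd k (q + 1) x) ∈
      ZW p _ (II p L ^ (a + n)) := fun w'' => by
  have h1 : (R'.dd k (m + q + 1) (fc' p k (z q) x) - fc' p k (z (q + 1)) (R.dd k (q + 1) x)) w'' =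
      ∑ v, itg p k (fun E => ∑ w', conv p (R'.y (m + q) w' w'') (z q v w') E -
        ∑ v', conv p (z (q + 1) v' w'') (R.y q v v') E) (fc p L k (x v)) := by
    rw [Rs.dd_succ, Rs.dd_succ, Pi.sub_apply]
    simp only [fc', mat_apply, map_sum, par_par]
    rw [Finset.sum_comm, Finset.sum_comm (s := Finset.univ (α := G (q + 2))),
      ← Finset.sum_sub_distrib]
    refine Finset.sum_congr rfl fun v _ => ?_
    simp only [par_apply, itg_apply, rAp_eq, map_sub, map_sum, mul_sub, Finset.mul_sum,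
      Finset.sum_sub_distrib]
    rw [Finset.sum_comm, Finset.sum_comm (s := Finset.univ (α := G (q + 2)))]
  rw [h1, pow_add]
  exact Ideal.sum_mem _ fun v _ => itg_mem_mul (inv_II.pow n) k
    (fun E hE => h.sq q hq v w'' E (by omega)) (pb_mem_Fil (inv_II.pow a) (sa_mono k) (hx v).2.2)
    (pb_mem_WC _ (hx v).2.1)

theorem mem_ZA {u : G (q + 1) → AA L} (hu : u ∈ ZA _ (II p L ^ a)) :
    fa p (z q) u ∈ ZA _ (II p L ^ (a + j)) := by
  rw [← down_up (p := p) (fa p (z q) u), ← fc'_up]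
  exact down_mem_ZA (h.mem_ZW (up_mem_ZW hu))

theorem mem_PA {u : G (q + 1) → AA L} (hu : u ∈ PA p (R.deg (q + 1)) w (II p L ^ a)) :
    fa p (z q) u ∈ PA p (R'.deg (m + q + 1)) (w + ω) (II p L ^ (a + j)) := by
  rw [← down_up (p := p) (fa p (z q) u), ← fc'_up]
  exact down_mem_PA (h.mem_PW (up_mem_PW hu))

theorem sd (hq : q < Q) (hw : w ≤ T) {u : G (q + 1) → AA L}
    (hu : u ∈ PA p (R.deg (q + 1)) w (II p L ^ a)) :
    R'.sd (m + q + 1) (fa p (z q) u) - fa p (z (q + 1)) (R.sd (q + 1) u) ∈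
      ZA _ (II p L ^ (a + n)) := by
  have h1 := down_mem_ZA (h.dd hq hw (up_mem_PW hu))
  rw [fc'_up, Rs.dd_up, Rs.dd_up, fc'_up] at h1
  have key : ∀ u v : G' (m + q + 2) → AA L, down _ (up p _ u - up p _ v) = u - v := fun u v => by
    rw [← map_sub, down_up]
  exact key _ _ ▸ h1

theorem Bd {s b' : ℕ} (hq : s ≤ Q) (hw : w ≤ T) (h1 : b' ≤ b + j) (h2 : b' ≤ a + n)
    {u : G (s + 1) → AA L} (hu : u ∈ R.Bd s w a b) :
    fa p (z s) u ∈ R'.Bd (m + s) (w + ω) (a + j) b' := by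
  obtain ⟨y, hy, h3⟩ := Rs.mem_Bd.1 hu
  rw [← sub_add_cancel u (R.sd s y), map_add]
  refine add_mem (Rs.mem_Bd_of_ZA (Rs.ZA_mono (Ideal.pow_le_pow_right h1) (h.mem_ZA h3))) ?_
  rcases s with _ | s
  · rw [show R.sd 0 y = 0 from rfl, map_zero]
    exact zero_mem _
  · refine Rs.mem_Bd.2 ⟨_, h.mem_PA hy, Rs.ZA_mono (Ideal.pow_le_pow_right h2) ?_⟩
    have h4 := neg_mem (h.sd (Nat.lt_of_succ_le hq) hw hy)
    rwa [neg_sub] at h4

variable {F : Type} [Field F] {π : L →+* F} {r s b' : ℕ} {T₁ T₂ : ℤ}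

/-- **the chain map computes the product** -/
theorem star (hR : R.Ok π r (s + 1) T₁) (hR' : R'.Ok π r (m + s) T₂) (hq : s ≤ Q) (hw : w ≤ T)
    (hw₁ : w ≤ T₁) (hw₂ : w + ω ≤ T₂) (hb : b ≤ a + r) (h1 : b' ≤ b + j) (h2 : b' ≤ a + n)
    {x : G 0 → CC L} (hx : x ∈ PW p (R.deg 0) w (II p L ^ a) s)
    (hx' : cD p R.th s x ∈ ZW p _ (II p L ^ b)) :
    ∑ c, R'.star s (m + 1) (m + s + 1) (by omega) (x c)
      (fun w' => ∑ v, rAp (RingHom.id _) (z 0 v w') (R.e c v)) - fa p (z s) (R.Phi s x) ∈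
        R'.Bd (m + s) (w + ω) (a + j) b' := by
  have h3 : ∀ {ι : Type} {i i' : ℕ}, i' ≤ i → ZW p ι (II p L ^ i) ≤ ZW p ι (II p L ^ i') :=
    fun h _ hx c => Fil_mono (Ideal.pow_le_pow_right h) (hx c)
  have hS := R.sq_dc (inv_II.pow r) hR.k1 hw₁ (inv_II.pow a) (inv_II.pow b)
    (by rw [← pow_add]; exact Ideal.pow_le_pow_right hb)
  have hx0 : x ∈ R.WW w (II p L ^ a) (s + 1) 0 := hx
  obtain ⟨y, hy, h4⟩ := DC.T_map hS (R'.sq_dc (inv_II.pow r) hR'.k1 hw₂ (inv_II.pow (a + j))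
    (inv_II.pow b') (by rw [← pow_add]; exact Ideal.pow_le_pow_right (by omega)))
    (f := fun k q => fc' p k (z q)) (fun k q _ hx => h.mem_PW hx)
    (fun k q _ hx => h3 h1 (h.mem_ZW hx))
    (fun k q x => by
      change R'.dv k (m + q + 1) _ = fc' p (k + 1) (z q) (R.dv k (q + 1) x)
      rw [Rs.dv_succ, Rs.dv_succ]
      funext w'
      simp only [fc', pw_apply, mat_apply, par_alt, map_sum])
    (fun k q _ hq' hx => h3 h2 (h.dd (by omega) hw hx)) s 0 (zero_add s)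
    (R.dd_mem_WW (inv_II.pow a) w (s + 1) 0 hx0)
    (by
      change pw _ (alt p L (s + 1 + 1)) (tw p s R.e x) ∈ ZW p _ _
      rw [← tw_cD s R.coc]
      exact tw_mem_ZW (inv_II.pow b) _ _ hx')
    (hS _ _ _ (Nat.succ_pos s) hx0)
  obtain ⟨h5, h6⟩ := Rs.down_mem_of_WW hy
  refine Rs.mem_Bd.2 ⟨_, h5, ?_⟩
  have h7 : pw _ (sg p L s).toAddMonoidHom (fc' p (s + 1) (z 0) (tw p s R.e x)) =
      ∑ c, cup p _ s (x c) (up p _ fun w' => ∑ v, rAp (RingHom.id _) (z 0 v w') (R.e c v)) := by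
    funext w'
    rw [Finset.sum_apply]
    change sg p L s (∑ v, par p (s + 1) (z 0 v w') (tw p s R.e x v)) = _
    simp only [map_sum, sg_par, tw_apply, cup_apply, up_apply, sh_pt, add_zero, Finset.mul_sum]
    rw [Finset.sum_comm]
    refine Finset.sum_congr rfl fun c _ => Finset.sum_congr rfl fun v _ => ?_
    rw [fc_of_Loc (hx c).1 (Nat.lt_succ_self _), itg_mul (hx c).1, itg_arr]
  have h8 := down_mem_ZA h4
  change down _ (R'.TT s (m + 1) (m + s + 1) _ (pw _ (sg p L s).toAddMonoidHom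
    (fc' p (s + 1) (z 0) (tw p s R.e x))) - fc' p 0 (z s) (R.TT (s + 1) 0 (s + 1) (by omega) x) -
      R'.dd 0 (m + s) y) ∈ _ at h8
  rwa [h7, ← Rs.up_Phi (inv_II.pow a) hx, fc'_up, ← h6, Rs.dd_up, map_sub, map_sub, down_up,
    down_up, map_sum, map_sum] at h8

end Cf

end cf

variable {Q : ℕ} {hQ : PLoc p (ZMod Q)} {R : Rs p (ZMod Q) G} {R' : Rs p (ZMod Q) G'} {F : Type}
  [Field F] {π : ZMod Q →+* F} {r s m a b a' b' j n k e Q' : ℕ} {T T₁ T₂ w ω : ℤ}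
  {z : ∀ q, G (q + 1) → G' (m + q + 1) → (ℕ →₀ ℕ) → AA (ZMod Q)}

/-- **the Yoneda product** -/
theorem Rv.yon [Unique (G 0)] [DecidableEq (G 0)] (hf : Cf R R' m ω z j n Q' T) (hC : IC hQ R 0)
    (h0 : R.deg 0 default = 0) (hR : R.Ok π r (s + 1) T₁) (hR' : R'.Ok π r (m + s) T₂)
    (hq : s ≤ Q') (hw : w ≤ T) (hw₁ : w ≤ T₁) (hw₂ : w + ω ≤ T₂) {x : G 0 → Cob Laz s}
    {u : G (s + 1) → AA (ZMod Q)} (hx : Rv hQ R s w a b x u)
    (hd : P236EL.DD 0 s x ∈ Fl hQ _ (s + 1) (II p (ZMod Q) ^ (a + r))) {φ : G' 0 → Cob Laz m}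
    (hφ : Rv hQ R' m ω j k φ fun w' => ∑ v, rAp (RingHom.id _) (z 0 v w') (R.e default v))
    (hk : k ≤ j + r) (h1 : e ≤ b + j) (h2 : e ≤ a + n) (h3 : e ≤ a + k) :
    Rv hQ R' (m + s) (w + ω) (a + j) e (P236EL.lc _ (Nat.add_comm s m) (x default) φ)
      (fa p (z s) u) := by
  have h4 := (hφ.lc hR' hw₂ (Nat.add_comm s m) hk (by simpa [h0] using hx.cw default)
    (hx.fl default) (by rw [← DD_zero]; exact hd default)).mono le_rfl h3
  have h5 := hf.star hR hR' hq hw hw₁ hw₂ le_rfl (b' := e) (by omega) h2 (rsP_mem hQ hx.cw hx.fl)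
    (by rw [← hC.rsP_DD]; exact hd)
  rw [Fintype.sum_unique] at h5
  exact (h4.congr h5).congr (by rw [← map_sub]; exact hf.Bd hq hw h1 h2 hx.bd)

end Vale.Agent.P236EL

end
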