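import Vale.Agent.P236EL.Ext
import Vale.Agent.P236F.Vc

/-!
# P236EL / Wc : computations of vectors together with their weight and window
-/

noncomputable section

namespace Vale.Agent.P236EL

open MvPolynomial Vale.Agent.P236KE Vale.Agent.P236K2 Vale.Agent.P236K3 Vale.Agent.P236F

/-- computations of a weight, a window and a vector -/
structure WC' : Type where
  run : (Nat → Nat → Nat → P → Bool) → Bool

/-- a guard -/
def grd (c r : Bool) : Bool := Bool.rec (motive := fun _ => Bool) false r c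

theorem grd_spec {c r : Bool} (h : grd c r = true) : c = true ∧ r = true := by
  cases c
  · exact nomatch h
  · exact ⟨rfl, h⟩

/-- a known vector -/
def cst' (p : P) : VC := ⟨fun k => k p⟩

/-- the minimum -/
def mn (a b : Nat) : Nat := Nat.sub a (Nat.sub a b)

namespace WC'

def pure (T a b : Nat) (p : P) : WC' := ⟨fun k => k T a b p⟩
def bind (v : WC') (f : Nat → Nat → Nat → P → WC') : WC' :=
  ⟨fun k => v.run fun T a b p => (f T a b p).run k⟩
def of (T a b : Nat) (c : Bool) (v : VC) : WC' :=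
  ⟨fun k => force T fun T => force a fun a => force b fun b => grd c (v.run (k T a b))⟩
def share (v : WC') (f : WC' → WC') : WC' := v.bind fun T a b p => f (pure T a b p)
def neg (v : WC') : WC' := v.bind fun T a b p => of T a b true (cst' p).neg
def sm (c : Nat) (v : WC') : WC' := v.bind fun T a b p => of T a b true ((cst' p).sm c)
def cut (L : LD) (T a b b' : Nat) (p : P) : VC :=
  Bool.rec (motive := fun _ => VC) ((cst' p).re L T a b') (cst' p) (Nat.beq b b')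
def add (L : LD) (v w : WC') : WC' := v.bind fun T a b p => w.bind fun T' a' b' p' =>
  force (mn b b') fun e =>
    of T (mn a a') e (Nat.beq T T') ((cut L T a b e p).add (cut L T a' b' e p'))
def sub (L : LD) (v w : WC') : WC' := add L v w.neg
def mul (Tm dw dl s : Nat) (v : WC') : WC' := v.bind fun T a b p =>
  of (Nat.add T dw) (Nat.add a dl) (Nat.add b dl) (Nat.ble (Nat.add T dw) Tm) ((cst' p).shl s)
def dl (D : KD) (s c dw : Nat) (v : WC') : WC' := v.bind fun T a b p =>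
  force s fun s => force (Nat.succ s) fun s' => force (Nat.add T dw) fun T' =>
    of T' a b (Nat.ble T' (D.L s').T) (D.dl s s' c T T' a b (cst' p))
def fit (L : LD) (T₀ a₀ b₀ : Nat) (v : WC') : WC' := v.bind fun T a b p =>
  force (mn b b₀) fun e => of T a₀ e (grd (Nat.beq T T₀) (Nat.ble a₀ a)) (cut L T a b e p)
def lst (L : LD) (T a b : Nat) (l : List Tr) : WC' :=
  of T a b (grd (Nat.ble T L.T) (grd (Nat.ble b (Nat.add a 3)) (okL L T a b l))) (vcL L l)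
def h2 (L : LD) (m : Nat → WC' → WC') (f : WC' → WC') (k : Nat) : WC' → WC' :=
  Nat.rec (motive := fun _ => WC' → WC') f
    (fun k ih v => v.share fun v => add L (m (Nat.succ k) (f v)) (ih (m 1 v))) k
def h3 (L : LD) (m : Nat → WC' → WC') (f f' : WC' → WC') (k : Nat) : WC' → WC' :=
  Nat.rec (motive := fun _ => WC' → WC') (fun v => f (f' v))
    (fun k ih v => v.share fun v => add L (h2 L m f (Nat.succ k) (f' v)) (ih (m 1 v))) k

/-- the results satisfy `Q` -/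
def Ok (v : WC') (Q : ℕ → ℕ → ℕ → P → Prop) : Prop :=
  ∀ k, v.run k = true → ∃ T a b p, Q T a b p ∧ k T a b p = true

variable {v : WC'} {Q Q' : ℕ → ℕ → ℕ → P → Prop}

theorem Ok.mono (h : v.Ok Q) (h' : ∀ T a b p, Q T a b p → Q' T a b p) : v.Ok Q' := fun k hk => by
  obtain ⟨T, a, b, p, h1, h2⟩ := h k hk
  exact ⟨T, a, b, p, h' _ _ _ _ h1, h2⟩

theorem Ok.bind (h : v.Ok Q) {f : ℕ → ℕ → ℕ → P → WC'}
    (h' : ∀ T a b p, Q T a b p → (f T a b p).Ok Q') : (v.bind f).Ok Q' := fun k hk => by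
  obtain ⟨T, a, b, p, h1, h2⟩ := h _ hk
  exact h' _ _ _ _ h1 k h2

theorem ok_pure {T a b : ℕ} {p : P} (h : Q T a b p) : (pure T a b p).Ok Q :=
  fun _ hk => ⟨T, a, b, p, h, hk⟩

theorem ok_of {G : Type} [Fintype G] {L : LD} {ix : G → ℕ} {T a b : ℕ} {c : Bool} {w : VC}
    (h : c = true → ∃ u, VR L ix T a b w u ∧ ∀ p, VP L ix T a b p u → Q T a b p) :
    (of T a b c w).Ok Q := fun k hk => by
  obtain ⟨h1, h2⟩ := grd_spec (c := c) (r := w.run (k T a b)) hk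
  obtain ⟨u, h3, h4⟩ := h h1
  obtain ⟨p, h5, h6⟩ := h3.run _ h2
  exact ⟨T, a, b, p, h4 p ⟨h3.hz, h5⟩, h6⟩

end WC'

variable {W W' W'' : Type} [Fintype W] [Fintype W'] [Fintype W''] {L L' L'' : LD} {ix : W → ℕ}
  {ix' : W' → ℕ} {ix'' : W'' → ℕ} {T a b e : ℕ} {p : P} {v v' : WC'} {u u' : W → A}

theorem vr_cst (h : VP L ix T a b p u) : VR L ix T a b (cst' p) u :=
  ⟨h.hz, fun _ hk => ⟨p, h.r, hk⟩⟩

theorem vr_cut (hL : L.Ok ix) (hT : T ≤ L.T) (hb : b ≤ a + 3) (h : VP L ix T a b p u) {a' : ℕ}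
    (ha : a' ≤ a) (he : e ≤ b) : VR L ix T a' e (WC'.cut L T a b e p) u :=
  bool_ind (Q := fun c => VR L ix T a' e c u) ((vr_cst h).re hL hT hb ha he) fun h1 =>
    Nat.eq_of_beq_eq_true h1 ▸ (vr_cst h).low ha

theorem mn_eq (a b : ℕ) : mn a b = min a b := by
  change a - (a - b) = _
  omega

variable (L ix) in
/-- a value in a correct window -/
structure WP (u : W → A) (T a b : ℕ) (p : P) : Prop where
  hT : T ≤ L.T
  hb : b ≤ a + 3
  vp : VP L ix T a b p u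

variable (L ix) in
/-- the computation gives the coordinates of `u` -/
def WR (v : WC') (u : W → A) : Prop := v.Ok (WP L ix u)

namespace WR

theorem share (h : WR L ix v u) {f : WC' → WC'} {Q : ℕ → ℕ → ℕ → P → Prop}
    (h' : ∀ v, WR L ix v u → (f v).Ok Q) : (v.share f).Ok Q :=
  WC'.Ok.bind h fun _ _ _ _ h1 => h' _ (WC'.ok_pure h1)

theorem neg (h : WR L ix v u) : WR L ix v.neg (-u) := WC'.Ok.bind h fun _ _ _ _ h1 =>
  WC'.ok_of fun _ => ⟨_, (vr_cst h1.vp).neg, fun _ h2 => ⟨h1.hT, h1.hb, h2⟩⟩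

theorem sm (c : ℕ) (h : WR L ix v u) : WR L ix (v.sm c) (c • u) := WC'.Ok.bind h fun _ _ _ _ h1 =>
  WC'.ok_of fun _ => ⟨_, (vr_cst h1.vp).sm c, fun _ h2 => ⟨h1.hT, h1.hb, h2⟩⟩

theorem add (hL : L.Ok ix) (h : WR L ix v u) (h' : WR L ix v' u') :
    WR L ix (v.add L v') (u + u') := WC'.Ok.bind h fun T a b _ h1 =>
  WC'.Ok.bind h' fun _ a' b' _ h2 => WC'.ok_of fun h3 => by
    obtain rfl := Nat.eq_of_beq_eq_true h3
    have h4 := h1.hb
    have h5 := h2.hb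
    rw [mn_eq, mn_eq]
    exact ⟨_, (vr_cut hL h1.hT h4 h1.vp (min_le_left _ _) (min_le_left _ _)).add
      (vr_cut hL h2.hT h5 h2.vp (min_le_right _ _) (min_le_right _ _)),
      fun _ h6 => ⟨h1.hT, by omega, h6⟩⟩

theorem sub (hL : L.Ok ix) (h : WR L ix v u) (h' : WR L ix v' u') :
    WR L ix (v.sub L v') (u - u') := sub_eq_add_neg u u' ▸ h.add hL h'.neg

theorem mul {Tm : ℕ} (hT : L.T = Tm) (M : ℕ →₀ ℕ) {dw dl s : ℕ} (h1 : wtM M = dw)
    (h2 : lenM M = dl) (h3 : pl M = s) (h : WR L ix v u) :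
    WR L ix (v.mul Tm dw dl s) ((monomial M 1 : A) • u) :=
  WC'.Ok.bind h fun _ _ _ _ h4 => WC'.ok_of fun h5 => by
    subst h1 h2 h3 hT
    exact ⟨_, (vr_cst h4.vp).mul M, fun _ h6 => ⟨Nat.le_of_ble_eq_true h5, by
      have := h4.hb
      change _ + _ ≤ _ + _ + 3
      omega, h6⟩⟩

theorem v1 {Tm : ℕ} (hT : L.T = Tm) (k : ℕ) (h : WR L ix v u) :
    WR L ix (v.mul Tm k k 0) ((X 0 ^ k : A) • u) := by
  rw [X_pow_eq_monomial]
  exact h.mul hT _ (by simp [Finsupp.weight_single, wt]) (by simp [Finsupp.weight_single]) (pl_0 k)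

theorem v2 {Tm : ℕ} (hT : L.T = Tm) (k : ℕ) (h : WR L ix v u) :
    WR L ix (v.mul Tm (Nat.mul 4 k) k 0) ((X 1 ^ k : A) • u) := by
  rw [X_pow_eq_monomial]
  exact h.mul hT _ (by simp [Finsupp.weight_single, wt, mul_comm])
    (by simp [Finsupp.weight_single]) (pl_1 k)

theorem fit (hL : L.Ok ix) (h : WR L ix v u) {T₀ a₀ b₀ : ℕ} (hb : b₀ ≤ a₀ + 3) :
    (v.fit L T₀ a₀ b₀).Ok fun T a b p => T = T₀ ∧ a = a₀ ∧ b ≤ b₀ ∧ WP L ix u T a b p :=
  WC'.Ok.bind h fun T a b _ h1 => WC'.ok_of fun h2 => by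
    obtain ⟨h3, h4⟩ := grd_spec h2
    rw [mn_eq]
    exact ⟨_, vr_cut hL h1.hT h1.hb h1.vp (Nat.le_of_ble_eq_true h4) (min_le_left _ _),
      fun _ h5 => ⟨Nat.eq_of_beq_eq_true h3, rfl, min_le_right _ _, h1.hT,
        (min_le_right _ _).trans hb, h5⟩⟩

end WR

/-- the vector with the listed terms -/
def vL (ix : W → ℕ) (l : List Tr) : W → A := fun g =>
  (l.map fun t => if ix g = t.i then t.c • monomial (mk4 t.e1 t.e2 t.e3 t.e4) (1 : K) else 0).sum

theorem vr_vL (hL : L.Ok ix) {l : List Tr} (h : okL L T a b l = true) :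
    VR L ix T a b (vcL L l) (vL ix l) := by
  induction l with
  | nil => exact VR.zero
  | cons t l ih =>
    rw [okL, List.all_cons, Bool.and_eq_true, decide_eq_true_iff] at h
    obtain ⟨⟨h1, h2, h3, h4⟩, h5⟩ := h
    obtain ⟨g, hg⟩ := hL.sur _ h1
    have h6 : lenM (mk4 t.e1 t.e2 t.e3 t.e4) = t.e1 + t.e2 + t.e3 + t.e4 := by
      rw [lenM, weight_mk4]
      omega
    have h7 := VR.mon (L := L) (ix := ix) (T := T) (a := a) (b := b) g
      (J := mk4 t.e1 t.e2 t.e3 t.e4) (by rw [wtM, weight_wt_mk4, hg, h2]) (h6 ▸ h3) (h6 ▸ h4)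
    rw [mk4_2, mk4_3, hg] at h7
    refine (congrArg _ (funext fun g' => ?_)).mp ((h7.sm t.c).add (ih h5))
    rw [Pi.add_apply, vL, vL, List.map_cons, List.sum_cons, ← hg, Pi.smul_apply]
    by_cases h8 : g' = g
    · rw [h8, bv_self, if_pos rfl]
    · rw [bv_ne h8, if_neg fun h9 => h8 (hL.inj h9), smul_zero]

theorem ok_lst (hL : L.Ok ix) (T a b : ℕ) (l : List Tr) : (WC'.lst L T a b l).Ok
    fun T' a' b' p => T' = T ∧ a' = a ∧ b' = b ∧ WP L ix (vL ix l) T' a' b' p :=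
  WC'.ok_of fun h => by
    obtain ⟨h1, h2⟩ := grd_spec h
    obtain ⟨h3, h4⟩ := grd_spec h2
    exact ⟨_, vr_vL hL h4, fun _ h5 =>
      ⟨rfl, rfl, rfl, Nat.le_of_ble_eq_true h1, Nat.le_of_ble_eq_true h3, h5⟩⟩

/-- the computation of an operator -/
def OP (L : LD) (ix : W → ℕ) (L' : LD) (ix' : W' → ℕ) (o : WC' → WC') (f : (W → A) → W' → A) :
    Prop :=
  ∀ v u, WR L ix v u → WR L' ix' (o v) (f u)

theorem OP.h2 (hL : L'.Ok ix') {m : ℕ → WC' → WC'} {c : A}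
    (hm : ∀ k, OP L ix L ix (m k) (c ^ k • ·)) (hm' : ∀ k, OP L' ix' L' ix' (m k) (c ^ k • ·))
    {o : WC' → WC'} {f : (W → A) → W' → A}
    (h : OP L ix L' ix' o f) (k : ℕ) : OP L ix L' ix' (WC'.h2 L' m o k) (H2 c f (k + 1)) := by
  induction k with
  | zero => exact fun v u hv => by simpa [H2, WC'.h2] using h v u hv
  | succ k ih =>
    refine fun v u hv => hv.share (f := fun v => (m (k + 1) (o v)).add L' (WC'.h2 L' m o k (m 1 v)))
      fun v hv => ?_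
    have h1 := hm 1 v u hv
    rw [pow_one] at h1
    exact (hm' _ _ _ (h v u hv)).add hL (ih _ _ h1)

theorem OP.h3 (hL : L''.Ok ix'') {m : ℕ → WC' → WC'} {c : A}
    (hm : ∀ k, OP L ix L ix (m k) (c ^ k • ·)) (hm' : ∀ k, OP L' ix' L' ix' (m k) (c ^ k • ·))
    (hm'' : ∀ k, OP L'' ix'' L'' ix'' (m k) (c ^ k • ·)) {o o' : WC' → WC'}
    {f : (W' → A) → W'' → A} {f' : (W → A) → W' → A} (h : OP L' ix' L'' ix'' o f)
    (h' : OP L ix L' ix' o' f') (k : ℕ) :
    OP L ix L'' ix'' (WC'.h3 L'' m o o' k) (H3 c f f' (k + 2)) := by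
  induction k with
  | zero => exact fun v u hv => by simpa [H3, H2, WC'.h3] using h _ _ (h' v u hv)
  | succ k ih =>
    refine fun v u hv => hv.share (f := fun v => (WC'.h2 L'' m o (k + 1) (o' v)).add L''
      (WC'.h3 L'' m o o' k (m 1 v))) fun v hv => ?_
    have h1 := hm 1 v u hv
    rw [pow_one] at h1
    exact (OP.h2 hL hm' hm'' h _ _ _ (h' v u hv)).add hL (ih _ _ h1)

variable [Fact (Nat.Prime 3)] {G : ℕ → Type} [∀ q, Fintype (G q)] {R : Rs 3 K G} {Tm s3 s4 s : ℕ}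
  {D : KD} {ix : ∀ q, G (q + 1) → ℕ} {o : ℤ}

theorem op_dl (h : Cx R o Tm s3 s4 D ix) (F : ℕ →₀ ℕ) {c dw : ℕ} (hc : cd s3 s4 F = c)
    (hw : wtM F = dw) : OP (D.L s) (ix s) (D.L (s + 1)) (ix (s + 1)) (WC'.dl D s c dw)
      (R.dl s (monomial F 1)) := fun _ _ hv => WC'.Ok.bind hv fun T a b _ h1 =>
  WC'.ok_of fun h2 => by
    have h3 := Nat.le_of_ble_eq_true h2
    exact ⟨_, h.dl F hc (hw ▸ rfl) rfl (h.hT _ ▸ h3) h1.hb (vr_cst h1.vp),
      fun _ h4 => ⟨h3, h1.hb, h4⟩⟩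

theorem op_tm (h : Cx R o Tm s3 s4 D ix) (k : ℕ) :
    OP (D.L s) (ix s) (D.L (s + 1)) (ix (s + 1)) (WC'.dl D s k k) (R.tm s k) := by
  have h1 := op_dl (s := s) h (Finsupp.single 0 k) (cd_0 _ _ _)
    (show _ = k by simp [Finsupp.weight_single, wt])
  rwa [← X_pow_eq_monomial] at h1

theorem op_t2 (h : Cx R o Tm s3 s4 D ix) :
    OP (D.L s) (ix s) (D.L (s + 1)) (ix (s + 1)) (WC'.dl D s 388 4) (R.dl s (X 1)) :=
  op_dl h (Finsupp.single 1 1) (cd_1 _ _ _) (by simp [Finsupp.weight_single, wt])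

theorem op_sd (h : Cx R o Tm s3 s4 D ix) :
    OP (D.L s) (ix s) (D.L (s + 1)) (ix (s + 1)) (WC'.dl D s 0 0) (R.sd (s + 1)) := by
  have h1 := op_dl (s := s) h 0 (show _ = 0 by simp [cd]) (show _ = 0 by simp)
  exact fun v u hv => R.dl_one s u ▸ h1 v u hv

end Vale.Agent.P236EL

end
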