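import Vale.Agent.P236EL.Wc
import Vale.Agent.P236EL.Grk

/-!
# P236EL / Wg : the computation of the action of the Greek letter elements
-/

noncomputable section

namespace Vale.Agent.P236EL

open MvPolynomial Vale.Agent.P236KE Vale.Agent.P236K2 Vale.Agent.P236K3 Vale.Agent.P236F

namespace WC'

def shr (L : LD) (j : Nat) (v : WC') : WC' := v.bind fun T a b p =>
  force (Nat.sub b j) fun e => of T a e true (cut L T a b e p)

variable (D : KD) (Tm s : Nat)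

/-- `t ^ c` -/
def tm (c : Nat) : WC' → WC' := dl D s c c
/-- `v_1 ^ j t ^ c` -/
def vt (j c : Nat) (v : WC') : WC' := mul Tm j j 0 (dl D s c c (shr (D.L s) j v))
def tT (n : Nat) (v : WC') : WC' := v.share fun v =>
  sub (D.L (Nat.succ s)) (tm D s (Nat.mul 3 n) v) (vt D Tm s (Nat.mul 2 n) n v)
def tT2 (n : Nat) (v : WC') : WC' := v.share fun v =>
  add (D.L (Nat.succ s)) (add (D.L (Nat.succ s)) (tm D s (Nat.mul 6 n) v)
    (vt D Tm s (Nat.mul 2 n) (Nat.mul 4 n) v)) (vt D Tm s (Nat.mul 4 n) (Nat.mul 2 n) v)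
def m2 (n j : Nat) : WC' → WC' := mul Tm (Nat.mul 4 (Nat.mul n j)) (Nat.mul n j) 0
def e0 (v : WC') : WC' := v.share fun v =>
  sub (D.L (Nat.succ s)) (dl D s 388 4 v) (vt D Tm s 3 1 v)
def e1 (n : Nat) (v : WC') : WC' := mul Tm n n 0 (m2 Tm n 1 (tT D Tm s n (m2 Tm n 1 v)))
def a0 (v : WC') : WC' := v.share fun v =>
  sub (D.L (Nat.succ s)) (tm D s 4 v) (vt D Tm s 2 2 v)
def bm (k : Nat) (v : WC') : WC' := v.share fun v => add (D.L (Nat.succ (Nat.succ s)))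
  (tm D (Nat.succ s) (Nat.mul 2 k) (tm D s k v)) (tm D (Nat.succ s) k (tm D s (Nat.mul 2 k) v))
def d0 (v : WC') : WC' := v.share fun v => sub (D.L (Nat.succ (Nat.succ s))) (bm D s 1 v)
  (vt D Tm (Nat.succ s) 1 1 (tm D s 1 (shr (D.L s) 1 v)))
def d1 (n : Nat) (v : WC') : WC' := v.share fun v => add (D.L (Nat.succ (Nat.succ s)))
  (tT2 D Tm (Nat.succ s) n (tT D Tm s n v)) (tT D Tm (Nat.succ s) n (tT2 D Tm s n v))
/-- the product with `β_(n (k + 1) / n)` modulo three -/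
def gm (n k : Nat) : WC' → WC' := h2 (D.L (Nat.succ s)) (m2 Tm n) (tT D Tm s n) k
/-- the product with `β_(k + 2)` -/
def b0 (k : Nat) (v : WC') : WC' := v.share fun v =>
  sub (D.L (Nat.succ (Nat.succ s))) (sub (D.L (Nat.succ (Nat.succ s)))
    (sub (D.L (Nat.succ (Nat.succ s)))
      (h3 (D.L (Nat.succ (Nat.succ s))) (m2 Tm 1) (e0 D Tm (Nat.succ s)) (tT D Tm s 1) k v)
      (h3 (D.L (Nat.succ (Nat.succ s))) (m2 Tm 1) (tT D Tm (Nat.succ s) 1) (e0 D Tm s) k v))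
    (h3 (D.L (Nat.succ (Nat.succ s))) (m2 Tm 1) (a0 D Tm (Nat.succ s)) (tT D Tm s 1) k v))
  (h2 (D.L (Nat.succ (Nat.succ s))) (m2 Tm 1) (d0 D Tm s) (Nat.succ k) v)
/-- the product with `β_(3 n (k + 2) / 3 n)` -/
def b1 (n k : Nat) (v : WC') : WC' := v.share fun v =>
  sub (D.L (Nat.succ (Nat.succ s))) (sub (D.L (Nat.succ (Nat.succ s)))
    (h3 (D.L (Nat.succ (Nat.succ s))) (m2 Tm (Nat.mul n 3)) (e1 D Tm (Nat.succ s) n)
      (tT D Tm s (Nat.mul n 3)) k v)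
    (h3 (D.L (Nat.succ (Nat.succ s))) (m2 Tm (Nat.mul n 3)) (tT D Tm (Nat.succ s) (Nat.mul n 3))
      (e1 D Tm s n) k v))
  (h2 (D.L (Nat.succ (Nat.succ s))) (m2 Tm (Nat.mul n 3)) (d1 D Tm s n) (Nat.succ k) v)

end WC'

theorem WR.shr {W : Type} [Fintype W] {L : LD} {ix : W → ℕ} {v : WC'} {u : W → A} (hL : L.Ok ix)
    (j : ℕ) (h : WR L ix v u) : WR L ix (v.shr L j) u := WC'.Ok.bind h fun _ _ b _ h1 =>
  WC'.ok_of fun _ => ⟨_, vr_cut hL h1.hT h1.hb h1.vp le_rfl (Nat.sub_le b j),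
    fun _ h2 => ⟨h1.hT, (Nat.sub_le b j).trans h1.hb, h2⟩⟩

variable [Fact (Nat.Prime 3)]

theorem tT_pow (f : ℕ) :
    tT K ^ 3 ^ f = X 0 ^ (3 * 3 ^ f) - C (X 0 ^ (2 * 3 ^ f)) * X 0 ^ 3 ^ f := by
  rw [tT, sub_pow_char_pow, mul_pow, ← map_pow, ← pow_mul, ← pow_mul]

theorem tT_sq (f : ℕ) : (tT K ^ 3 ^ f) ^ 2 = X 0 ^ (6 * 3 ^ f) +
    C (X 0 ^ (2 * 3 ^ f)) * X 0 ^ (4 * 3 ^ f) + C (X 0 ^ (4 * 3 ^ f)) * X 0 ^ (2 * 3 ^ f) := by
  have h : (3 : GG K) = 0 := CharP.cast_eq_zero (GG K) 3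
  rw [tT_pow]
  simp only [mul_comm _ (3 ^ f), pow_mul, map_pow]
  linear_combination (-(C (X 0) ^ 3 ^ f) ^ 2 * (X 0 ^ 3 ^ f) ^ 4) * h

variable {G : ℕ → Type} [∀ q, Fintype (G q)] {R : Rs 3 K G} {Tm s3 s4 s : ℕ} {D : KD}
  {ix : ∀ q, G (q + 1) → ℕ} {o : ℤ} (h : Cx R o Tm s3 s4 D ix)

include h

theorem op_vt (j c : ℕ) : OP (D.L s) (ix s) (D.L (s + 1)) (ix (s + 1)) (WC'.vt D Tm s j c)
    (R.dl s (C (X 0 ^ j) * X 0 ^ c)) := fun v u hv => by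
  rw [Rs.dl_C_mul]
  exact (op_tm h c _ _ (hv.shr (h.st s).ok j)).v1 (h.hT _) j

theorem op_tT (f : ℕ) : OP (D.L s) (ix s) (D.L (s + 1)) (ix (s + 1)) (WC'.tT D Tm s (3 ^ f))
    (R.dl s (tT K ^ 3 ^ f)) := fun v u hv => hv.share fun v hv => by
  rw [tT_pow, Rs.dl_sub]
  exact (op_tm h _ _ _ hv).sub (h.st _).ok (op_vt h _ _ _ _ hv)

theorem op_tT2 (f : ℕ) : OP (D.L s) (ix s) (D.L (s + 1)) (ix (s + 1)) (WC'.tT2 D Tm s (3 ^ f))
    (R.dl s ((tT K ^ 3 ^ f) ^ 2)) := fun v u hv => hv.share fun v hv => by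
  rw [tT_sq, Rs.dl_add, Rs.dl_add]
  exact ((op_tm h _ _ _ hv).add (h.st _).ok (op_vt h _ _ _ _ hv)).add (h.st _).ok
    (op_vt h _ _ _ _ hv)

theorem op_m2 (n j : ℕ) : OP (D.L s) (ix s) (D.L s) (ix s) (WC'.m2 Tm n j)
    (((X 1 : A) ^ n) ^ j • ·) := fun v u hv => by
  rw [← pow_mul]
  exact hv.v2 (h.hT _) _

theorem op_e0 : OP (D.L s) (ix s) (D.L (s + 1)) (ix (s + 1)) (WC'.e0 D Tm s) (R.dl s (εF K 0)) :=
  fun v u hv => hv.share fun v hv => by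
    rw [εF, Rs.dl_sub, ← pow_one (X 0 : GG K)]
    exact (op_t2 h _ _ hv).sub (h.st _).ok (op_vt h _ _ _ _ hv)

theorem op_e1 (f : ℕ) : OP (D.L s) (ix s) (D.L (s + 1)) (ix (s + 1)) (WC'.e1 D Tm s (3 ^ f))
    (R.dl s (εF K (f + 1))) := fun v u hv => by
  have h1 := (op_m2 h (3 ^ f) 1 _ _ (op_tT h f _ _ (op_m2 h (3 ^ f) 1 _ _ hv))).v1 (h.hT _)
    (3 ^ f)
  rw [εF, Rs.dl_mul_etaR, Rs.dl_C_mul, mul_smul]
  rwa [pow_one] at h1

theorem op_a0 : OP (D.L s) (ix s) (D.L (s + 1)) (ix (s + 1)) (WC'.a0 D Tm s)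
    (R.dl s (αF K 0 * tT K ^ 3 ^ 0)) := fun v u hv => hv.share fun v hv => by
  rw [show αF K 0 * tT K ^ 3 ^ 0 = X 0 ^ 4 - C (X 0 ^ 2) * X 0 ^ 2 by rw [αF, tT]; ring, Rs.dl_sub]
  exact (op_tm h _ _ _ hv).sub (h.st _).ok (op_vt h _ _ _ _ hv)

theorem op_bm (k : ℕ) : OP (D.L s) (ix s) (D.L (s + 2)) (ix (s + 2)) (WC'.bm D s k) (R.bm s k) :=
  fun _ _ hv => hv.share fun _ hv => (op_tm h _ _ _ (op_tm h _ _ _ hv)).add (h.st _).ok
    (op_tm h _ _ _ (op_tm h _ _ _ hv))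

theorem op_d0 : OP (D.L s) (ix s) (D.L (s + 2)) (ix (s + 2)) (WC'.d0 D Tm s)
    (R.star 2 (s + 1) (s + 3) rfl (δF K 0)) := fun v u hv => hv.share fun v hv => by
  rw [δF, Rs.star_sub, Rs.star_add, Rs.star_arr2, Rs.star_arr2, Rs.star_arr2,
    ← pow_one (X 0 : GG K), ← pow_one (X 0 : AA K), ← pow_mul]
  exact (op_bm h 1 _ _ hv).sub (h.st _).ok
    (op_vt h 1 1 _ _ (op_tm h 1 _ _ (hv.shr (h.st s).ok 1)))

theorem op_d1 (f : ℕ) : OP (D.L s) (ix s) (D.L (s + 2)) (ix (s + 2)) (WC'.d1 D Tm s (3 ^ f))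
    (R.star 2 (s + 1) (s + 3) rfl (δF K (f + 1))) := fun v u hv => hv.share fun v hv => by
  rw [δF, Rs.star_add, Rs.star_arr2, Rs.star_arr2]
  exact (op_tT2 h f _ _ (op_tT h f _ _ hv)).add (h.st _).ok (op_tT h f _ _ (op_tT2 h f _ _ hv))

theorem op_gm (f k : ℕ) : OP (D.L s) (ix s) (D.L (s + 1)) (ix (s + 1)) (WC'.gm D Tm s (3 ^ f) k)
    (R.dl s (gF K f (k + 1))) := fun v u hv => by
  rw [gF, Rs.dl_gk]
  exact OP.h2 (h.st _).ok (op_m2 h _) (op_m2 h _) (op_tT h f) k v u hv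

omit h in
theorem δF_mem (f : ℕ) : δF K f ∈ Loc 3 K 2 := by
  have h : ∀ g g', (Ch.univ K).arr 3 0 g * (Ch.univ K).arr 3 1 g' ∈ Loc 3 K 2 := fun g g' =>
    mul_mem (Loc_mono one_le_two (arr_mem_Loc 0 g)) (arr_mem_Loc 1 g')
  rcases f with _ | f
  exacts [sub_mem (add_mem (h _ _) (h _ _)) (h _ _), add_mem (h _ _) (h _ _)]

theorem op_b0 (k : ℕ) : OP (D.L s) (ix s) (D.L (s + 2)) (ix (s + 2)) (WC'.b0 D Tm s k)
    (R.star 2 (s + 1) (s + 3) rfl (hF K 0 (k + 2))) := fun v u hv => hv.share fun v hv => by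
  rw [hF, R.star_hk _ _ _ (δF_mem 0)]
  exact (((OP.h3 (h.st _).ok (op_m2 h _) (op_m2 h _) (op_m2 h _) (op_e0 h) (op_tT h 0) k v u
    hv).sub (h.st _).ok (OP.h3 (h.st _).ok (op_m2 h _) (op_m2 h _) (op_m2 h _) (op_tT h 0) (op_e0 h)
      k v u hv)).sub (h.st _).ok (OP.h3 (h.st _).ok (op_m2 h _) (op_m2 h _) (op_m2 h _) (op_a0 h)
        (op_tT h 0) k v u hv)).sub (h.st _).ok
          (OP.h2 (h.st _).ok (op_m2 h _) (op_m2 h _) (op_d0 h) _ v u hv)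

omit h [Fact (Nat.Prime 3)] in
theorem H2_zero {ι κ : Type} (b : A) (k : ℕ) (u : ι → A) :
    H2 b (fun _ => (0 : κ → A)) k u = 0 := by
  induction k generalizing u with
  | zero => rfl
  | succ k ih => rw [H2, ih, smul_zero, add_zero]

omit h [Fact (Nat.Prime 3)] in
theorem H3_zero {ι κ μ : Type} (b : A) (f : (ι → A) → κ → A) (k : ℕ) (u : ι → A) :
    H3 b (fun _ => (0 : μ → A)) f k u = 0 := by
  induction k generalizing u with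
  | zero => rfl
  | succ k ih => rw [H3, ih, H2_zero, add_zero]

omit h in
theorem dl_zero' : R.dl s 0 = fun _ => 0 := funext fun u => by
  simpa using R.dl_sub (q := s) 0 0 u

theorem op_b1 (f k : ℕ) : OP (D.L s) (ix s) (D.L (s + 2)) (ix (s + 2)) (WC'.b1 D Tm s (3 ^ f) k)
    (R.star 2 (s + 1) (s + 3) rfl (hF K (f + 1) (k + 2))) := fun v u hv => hv.share fun v hv => by
  rw [hF, R.star_hk _ _ _ (δF_mem _), αF, zero_mul, dl_zero', H3_zero, sub_zero]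
  exact ((OP.h3 (h.st _).ok (op_m2 h _) (op_m2 h _) (op_m2 h _) (op_e1 h f) (op_tT h (f + 1)) k v u
    hv).sub (h.st _).ok (OP.h3 (h.st _).ok (op_m2 h _) (op_m2 h _) (op_m2 h _) (op_tT h (f + 1))
      (op_e1 h f) k v u hv)).sub (h.st _).ok
        (OP.h2 (h.st _).ok (op_m2 h _) (op_m2 h _) (op_d1 h f) _ v u hv)

theorem op_b1' (f : ℕ) : OP (D.L s) (ix s) (D.L (s + 2)) (ix (s + 2))
    (fun v => (WC'.d1 D Tm s (3 ^ f) v).neg) (R.star 2 (s + 1) (s + 3) rfl (hF K (f + 1) 1)) :=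
    fun v u hv => by
  rw [hF, R.star_hk _ _ _ (δF_mem _)]
  simpa [H3, H2] using (op_d1 h f v u hv).neg

end Vale.Agent.P236EL

end
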