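import Vale.Agent.P236EL.Ch
import Vale.Agent.P251.F.WtProj
import Mathlib.RingTheory.MvPolynomial.WeightedHomogeneous

/-!
# P236EL / Wt : gradings
-/

noncomputable section

namespace Vale.Agent.P236EL

open MvPolynomial Vale.Agent.P251.F

section scale

variable {σ R B : Type*} [CommRing R] [CommRing B]

theorem zpow_sum' (u : Bˣ) {ι : Type*} (s : Finset ι) (f : ι → ℤ) :
    u ^ (∑ i ∈ s, f i) = ∏ i ∈ s, u ^ f i := by
  classical
  induction s using Finset.induction_on with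
  | empty => simp
  | insert i s hi ih => rw [Finset.sum_insert hi, Finset.prod_insert hi, zpow_add, ih]

theorem scale_monomial (o : R →+* B) (g : σ → B) (u : Bˣ) (ω : σ → ℤ) (m : σ →₀ ℕ) (a : R) :
    eval₂Hom o (fun i => ((u ^ ω i : Bˣ) : B) * g i) (monomial m a) =
      ((u ^ Finsupp.weight ω m : Bˣ) : B) * eval₂Hom o g (monomial m a) := by
  rw [eval₂Hom_monomial, eval₂Hom_monomial, Finsupp.weight_apply, Finsupp.sum, zpow_sum',
    Finsupp.prod, Finsupp.prod, Units.coe_prod, mul_left_comm, ← Finset.prod_mul_distrib]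
  congr 1
  refine Finset.prod_congr rfl fun i _ => ?_
  rw [mul_pow, nsmul_eq_mul, mul_comm (m i : ℤ), zpow_mul, zpow_natCast, Units.val_pow_eq_pow_val]

theorem scale_of_homog (o : R →+* B) (g : σ → B) (u : Bˣ) {ω : σ → ℤ} {f : MvPolynomial σ R}
    {W : ℤ} (hf : IsWeightedHomogeneous ω f W) :
    eval₂Hom o (fun i => ((u ^ ω i : Bˣ) : B) * g i) f = ((u ^ W : Bˣ) : B) * eval₂Hom o g f := by
  conv_lhs => rw [f.as_sum, map_sum]
  conv_rhs => rw [f.as_sum, map_sum, Finset.mul_sum]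
  refine Finset.sum_congr rfl fun m hm => ?_
  rw [scale_monomial, hf (mem_support_iff.1 hm)]

theorem homog_of_scale {ω : σ → ℤ} {f : MvPolynomial σ R} {W : ℤ}
    (h : eval₂Hom ((LaurentPolynomial.C : MvPolynomial σ R →+* _).comp C)
      (fun i => ((tU (MvPolynomial σ R) ^ ω i : (LaurentPolynomial (MvPolynomial σ R))ˣ) :
        LaurentPolynomial (MvPolynomial σ R)) * LaurentPolynomial.C (X i)) f =
      ((tU (MvPolynomial σ R) ^ W : (LaurentPolynomial (MvPolynomial σ R))ˣ) :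
        LaurentPolynomial (MvPolynomial σ R)) * LaurentPolynomial.C f) :
    IsWeightedHomogeneous ω f W := by
  classical
  have h0 : eval₂Hom ((LaurentPolynomial.C : MvPolynomial σ R →+* _).comp C)
      (fun i => LaurentPolynomial.C (X i)) = LaurentPolynomial.C :=
    ringHom_ext (fun a => by simp) fun i => by simp
  intro e he
  conv_lhs at h => rw [f.as_sum, map_sum]
  simp only [scale_monomial, h0] at h
  simp only [tU_zpow, mul_comm (LaurentPolynomial.T _)] at h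
  have h5 := congrArg (fun q : LaurentPolynomial (MvPolynomial σ R) =>
    coeff e (q.coeff (Finsupp.weight ω e))) h
  simp only [AddMonoidAlgebra.coeff_sum, Finsupp.finsetSum_apply, coeff_C_mul_TW, coeff_sum]
    at h5
  rw [Finset.sum_eq_single e] at h5
  · rw [if_pos rfl, coeff_monomial, if_pos rfl] at h5
    by_contra hne
    rw [if_neg (Ne.symm hne), coeff_zero] at h5
    exact he h5
  · intro e' _ hne
    split_ifs
    · rw [coeff_monomial, if_neg hne]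
    · exact coeff_zero _
  · intro hes
    exact absurd (mem_support_iff.2 he) hes

theorem weight_mul (k : ℤ) (ω : σ → ℤ) (m : σ →₀ ℕ) :
    Finsupp.weight (fun i => k * ω i) m = k * Finsupp.weight ω m := by
  rw [Finsupp.weight_apply, Finsupp.weight_apply, Finsupp.sum, Finsupp.sum, Finset.mul_sum]
  refine Finset.sum_congr rfl fun i _ => ?_
  rw [nsmul_eq_mul, nsmul_eq_mul]
  ring

theorem weight_cast (ω : σ → ℕ) (m : σ →₀ ℕ) :
    Finsupp.weight (fun i => (ω i : ℤ)) m = (Finsupp.weight ω m : ℕ) := by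
  rw [Finsupp.weight_apply, Finsupp.weight_apply, Finsupp.sum, Finsupp.sum, Nat.cast_sum]
  refine Finset.sum_congr rfl fun i _ => ?_
  simp

theorem HW_iff (ω : σ → ℕ) (d w : ℕ) (f : MvPolynomial σ R) :
    HW ω d w f ↔ IsWeightedHomogeneous (fun i => (ω i : ℤ)) f ((w : ℤ) - d) := by
  refine forall_congr' fun m => imp_congr_right fun _ => ?_
  rw [weight_cast]
  omega

end scale

/-! ### graded rings -/

section graded

variable {σ : Type*} {L : Type} [CommRing L] {B : Type*} [CommRing B]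

/-- homogeneous polynomials -/
def WS (σ : Type*) (R : Type*) [CommRing R] (ω : σ → ℤ) (n : ℤ) : AddSubgroup (MvPolynomial σ R) :=
  (weightedHomogeneousSubmodule R ω n).toAddSubgroup

theorem mem_WS {R : Type*} [CommRing R] {ω : σ → ℤ} {n : ℤ} {f : MvPolynomial σ R} :
    f ∈ WS σ R ω n ↔ IsWeightedHomogeneous ω f n := Iff.rfl

instance {R : Type*} [CommRing R] (ω : σ → ℤ) : SetLike.GradedMonoid (WS σ R ω) where
  one_mem := isWeightedHomogeneous_one R ω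
  mul_mem _ _ _ _ hf hg := IsWeightedHomogeneous.mul hf hg

theorem eval₂Hom_mem {R : Type*} [CommRing R] (𝒜 : ℤ → AddSubgroup B) [SetLike.GradedMonoid 𝒜]
    {o : R →+* B} (ho : ∀ a, o a ∈ 𝒜 0) {ω : σ → ℤ} {g : σ → B} (hg : ∀ i, g i ∈ 𝒜 (ω i))
    {f : MvPolynomial σ R} {n : ℤ} (hf : IsWeightedHomogeneous ω f n) :
    eval₂Hom o g f ∈ 𝒜 n := by
  rw [f.as_sum, map_sum]
  refine AddSubgroup.sum_mem _ fun m hm => ?_
  rw [eval₂Hom_monomial, ← hf (mem_support_iff.1 hm), Finsupp.weight_apply, ← zero_add (m.sum _)]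
  exact SetLike.mul_mem_graded (ho _)
    (SetLike.prod_pow_mem_graded 𝒜 ω g (F := m.support) m fun i _ => hg i)

theorem intCast_mem (𝒜 : ℤ → AddSubgroup B) [SetLike.GradedMonoid 𝒜] (a : ℤ) : (a : B) ∈ 𝒜 0 := by
  rw [← zsmul_one]
  exact AddSubgroup.zsmul_mem _ (SetLike.one_mem_graded 𝒜) a

/-- the integral weights -/
def wz (p : ℕ) (i : ℕ) : ℤ := wt p i

theorem weight_wz_nonneg (p : ℕ) (E : ℕ →₀ ℕ) : 0 ≤ Finsupp.weight (wz p) E := by
  have h := weight_cast (wt p) E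
  change 0 ≤ Finsupp.weight (fun i => (wt p i : ℤ)) E
  rw [h]
  exact Int.natCast_nonneg _

/-- the grading of functions of an arrow -/
def ext (p : ℕ) (𝒜 : ℤ → AddSubgroup B) (n : ℤ) : AddSubgroup (MvPolynomial ℕ B) where
  carrier := {G | ∀ E, coeff E G ∈ 𝒜 (n - Finsupp.weight (wz p) E)}
  zero_mem' _ := AddSubgroup.zero_mem _
  add_mem' {a b} ha hb E := by
    rw [coeff_add]
    exact AddSubgroup.add_mem _ (ha E) (hb E)
  neg_mem' {a} ha E := by
    rw [coeff_neg]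
    exact AddSubgroup.neg_mem _ (ha E)

variable {p : ℕ} {𝒜 : ℤ → AddSubgroup B}

theorem mem_ext {n : ℤ} {G : MvPolynomial ℕ B} :
    G ∈ ext p 𝒜 n ↔ ∀ E, coeff E G ∈ 𝒜 (n - Finsupp.weight (wz p) E) := Iff.rfl

theorem monomial_mem_ext {n : ℤ} {b : B} {E : ℕ →₀ ℕ}
    (hb : b ∈ 𝒜 (n - Finsupp.weight (wz p) E)) : monomial E b ∈ ext p 𝒜 n := by
  classical
  intro E'
  rw [coeff_monomial]
  split_ifs with h
  · exact h ▸ hb
  · exact AddSubgroup.zero_mem _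

theorem C_mem_ext {n : ℤ} {b : B} (hb : b ∈ 𝒜 n) : C b ∈ ext p 𝒜 n :=
  monomial_mem_ext (by rwa [map_zero, sub_zero])

instance [SetLike.GradedMonoid 𝒜] : SetLike.GradedMonoid (ext p 𝒜) where
  one_mem := C_mem_ext (SetLike.one_mem_graded 𝒜)
  mul_mem m n f g hf hg E := by
    classical
    rw [coeff_mul]
    refine AddSubgroup.sum_mem _ fun ab hab => ?_
    have h := SetLike.mul_mem_graded (hf ab.1) (hg ab.2)
    rw [← Finset.HasAntidiagonal.mem_antidiagonal.1 hab, map_add]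
    convert h using 2
    ring

theorem X_mem_ext [SetLike.GradedMonoid 𝒜] (i : ℕ) : X i ∈ ext p 𝒜 (wz p i) :=
  monomial_mem_ext (by
    rw [Finsupp.weight_single, one_smul, sub_self]
    exact SetLike.one_mem_graded 𝒜)

theorem rAp_mem_graded [SetLike.GradedMonoid 𝒜] {x : AA L →+* B} {r : (ℕ →₀ ℕ) → AA L}
    {δ : ℤ} (hr : ∀ E, x (r E) ∈ 𝒜 (Finsupp.weight (wz p) E + δ)) {G : MvPolynomial ℕ B} {n : ℤ}
    (hG : G ∈ ext p 𝒜 n) : rAp x r G ∈ 𝒜 (n + δ) := by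
  rw [rAp_eq]
  refine AddSubgroup.sum_mem _ fun E _ => ?_
  have h := SetLike.mul_mem_graded (hG E) (hr E)
  convert h using 2
  ring

end graded

/-! ### homogeneity of the structure maps -/

section homog

variable (p : ℕ) [hp : Fact p.Prime] {B : Type*} [CommRing B]

theorem scl_eq (u : Bˣ) (v : ℕ → B) :
    scl p (u : B) v = fun k => ((u ^ (((p : ℤ) - 1) * wz p k) : Bˣ) : B) * v k := by
  funext k
  have h : ((p : ℤ) - 1) * wz p k = ((p ^ (k + 1) - 1 : ℕ) : ℤ) := by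
    rw [← wt_mul hp.out.one_lt.le, wz, Nat.cast_mul, Nat.cast_sub hp.out.one_lt.le, Nat.cast_one]
  rw [h, zpow_natCast, Units.val_pow_eq_pow_val, scl]

theorem homog_cancel {σ R : Type*} [CommRing R] {ω : σ → ℤ} {f : MvPolynomial σ R} {n : ℤ}
    (h : IsWeightedHomogeneous (fun i => ((p : ℤ) - 1) * ω i) f (((p : ℤ) - 1) * n)) :
    IsWeightedHomogeneous ω f n := by
  intro m hm
  have h1 := h hm
  rw [weight_mul] at h1
  have h2 : (p : ℤ) - 1 ≠ 0 := by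
    have := hp.out.one_lt
    omega
  exact mul_left_cancel₀ h2 h1

theorem tgU_homog (n : ℕ) :
    IsWeightedHomogeneous (Sum.elim (wz p) (wz p)) (tgU p n) (wz p n) := by
  apply homog_cancel p
  apply homog_of_scale
  set K := LaurentPolynomial (MvPolynomial (ℕ ⊕ ℕ) ℤ)
  have h := congrFun (tg_scl p (tU (MvPolynomial (ℕ ⊕ ℕ) ℤ))
    (fun i => (LaurentPolynomial.C (X (Sum.inl i)) : K))
    fun i => (LaurentPolynomial.C (X (Sum.inr i)) : K)) n
  have h1 : ev2 (fun i => (LaurentPolynomial.C (X (Sum.inl i)) : K))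
      (fun i => (LaurentPolynomial.C (X (Sum.inr i)) : K)) = LaurentPolynomial.C :=
    hom_ext_Z (by rintro (i | i) <;> simp)
  rw [scl_eq, scl_eq, scl_eq] at h
  simp only [tg, h1] at h
  refine Eq.trans (DFunLike.congr_fun (hom_ext_Z ?_) _) h
  rintro (i | i) <;> simp only [eval₂Hom_X', Sum.elim_inl, Sum.elim_inr, ev2_inl, ev2_inr]

theorem cmU_homog (n : ℕ) :
    IsWeightedHomogeneous (Sum.elim (wz p) (Sum.elim (wz p) (wz p))) (cmU p n) (wz p n) := by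
  apply homog_cancel p
  apply homog_of_scale
  set K := LaurentPolynomial (MvPolynomial (ℕ ⊕ ℕ ⊕ ℕ) ℤ)
  have h := congrFun (cm_scl p (tU (MvPolynomial (ℕ ⊕ ℕ ⊕ ℕ) ℤ))
    (fun i => (LaurentPolynomial.C (X (Sum.inl i)) : K))
    (fun i => (LaurentPolynomial.C (X (Sum.inr (Sum.inl i))) : K))
    fun i => (LaurentPolynomial.C (X (Sum.inr (Sum.inr i))) : K)) n
  have h1 : ev3 (fun i => (LaurentPolynomial.C (X (Sum.inl i)) : K))
      (fun i => (LaurentPolynomial.C (X (Sum.inr (Sum.inl i))) : K))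
      (fun i => (LaurentPolynomial.C (X (Sum.inr (Sum.inr i))) : K)) = LaurentPolynomial.C :=
    hom_ext_Z (by rintro (i | i | i) <;> simp)
  rw [scl_eq, scl_eq, scl_eq, scl_eq] at h
  simp only [cm, h1] at h
  refine Eq.trans (DFunLike.congr_fun (hom_ext_Z ?_) _) h
  rintro (i | i | i) <;>
    simp only [eval₂Hom_X', Sum.elim_inl, Sum.elim_inr, ev3_1, ev3_2, ev3_3]

variable {p} {𝒜 : ℤ → AddSubgroup B} [SetLike.GradedMonoid 𝒜]

theorem tg_mem {v t : ℕ → B} (hv : ∀ i, v i ∈ 𝒜 (wz p i)) (ht : ∀ i, t i ∈ 𝒜 (wz p i)) (n : ℕ) :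
    tg p v t n ∈ 𝒜 (wz p n) :=
  eval₂Hom_mem 𝒜 (intCast_mem 𝒜) (by rintro (i | i); exacts [hv i, ht i]) (tgU_homog p n)

theorem cm_mem {v s t : ℕ → B} (hv : ∀ i, v i ∈ 𝒜 (wz p i)) (hs : ∀ i, s i ∈ 𝒜 (wz p i))
    (ht : ∀ i, t i ∈ 𝒜 (wz p i)) (n : ℕ) : cm p v s t n ∈ 𝒜 (wz p n) :=
  eval₂Hom_mem 𝒜 (intCast_mem 𝒜) (by rintro (i | i | i); exacts [hv i, hs i, ht i])
    (cmU_homog p n)

variable {L : Type} [CommRing L]

variable (p) in
/-- the grading of `AA L` -/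
abbrev WA (L : Type) [CommRing L] : ℤ → AddSubgroup (AA L) := WS ℕ L (wz p)

variable (p) in
/-- the weights of the variables of `CC L` -/
def wC : ℕ ⊕ ℕ × ℕ → ℤ := Sum.elim (wz p) fun ki => wz p ki.2

variable (p) in
/-- the grading of `CC L` -/
abbrev WC (L : Type) [CommRing L] : ℤ → AddSubgroup (CC L) := WS _ L (wC p)

variable (p 𝒜) in
/-- graded points -/
def GrPt (x : AA L →+* B) : Prop := ∀ n, ∀ a ∈ WA p L n, x a ∈ 𝒜 n

omit hp in
theorem grPt_id : GrPt p (WA p L) (RingHom.id (AA L)) := fun _ _ h => h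

omit hp [SetLike.GradedMonoid 𝒜] in
theorem GrPt.C {x : AA L →+* B} (h : GrPt p 𝒜 x) (a : L) : x (C a) ∈ 𝒜 0 :=
  h 0 _ (isWeightedHomogeneous_C _ a)

omit hp [SetLike.GradedMonoid 𝒜] in
theorem GrPt.X {x : AA L →+* B} (h : GrPt p 𝒜 x) (i : ℕ) : x (X i) ∈ 𝒜 (wz p i) :=
  h _ _ (isWeightedHomogeneous_X L _ i)

theorem GrPt.tgt {x : AA L →+* B} (h : GrPt p 𝒜 x) {t : ℕ → B} (ht : ∀ i, t i ∈ 𝒜 (wz p i)) :
    GrPt p 𝒜 (tgt p x t) := fun _ _ ha => eval₂Hom_mem 𝒜 h.C (tg_mem h.X ht) ha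

theorem GrPt.etax {x : AA L →+* B} (h : GrPt p 𝒜 x) : GrPt p (ext p 𝒜) (etax p x) :=
  GrPt.tgt (x := MvPolynomial.C.comp x) (fun n a ha => C_mem_ext (h n a ha)) X_mem_ext

theorem GrPt.delx {x : AA L →+* B} (h : GrPt p 𝒜 x) {n : ℤ} {G : MvPolynomial ℕ B}
    (hG : G ∈ ext p 𝒜 n) : delx p x G ∈ ext p (ext p 𝒜) n := by
  rw [G.as_sum, map_sum]
  refine AddSubgroup.sum_mem _ fun E _ => ?_
  rw [P236EL.delx, eval₂Hom_monomial, ← sub_add_cancel n (Finsupp.weight (wz p) E)]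
  refine SetLike.mul_mem_graded (C_mem_ext (C_mem_ext (hG E))) ?_
  rw [Finsupp.weight_apply]
  exact SetLike.prod_pow_mem_graded (ext p (ext p 𝒜)) (wz p) _ (F := E.support) E fun i _ =>
    cm_mem (fun i => C_mem_ext (C_mem_ext (h.X i))) (fun i => C_mem_ext (X_mem_ext i))
      X_mem_ext i

variable (p) in
/-- homogeneous functionals of degree `δ` -/
def HomR (δ : ℤ) (r : (ℕ →₀ ℕ) → AA L) : Prop :=
  ∀ E, r E ∈ WA p L (Finsupp.weight (wz p) E + δ)

omit hp in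
theorem GrPt.rAp {x : AA L →+* B} (h : GrPt p 𝒜 x) {δ : ℤ} {r : (ℕ →₀ ℕ) → AA L}
    (hr : HomR p δ r) {n : ℤ} {G : MvPolynomial ℕ B} (hG : G ∈ ext p 𝒜 n) :
    rAp x r G ∈ 𝒜 (n + δ) := rAp_mem_graded (fun E => h _ _ (hr E)) hG

theorem GrPt.Dop {x : AA L →+* B} (h : GrPt p 𝒜 x) {δ : ℤ} {r : (ℕ →₀ ℕ) → AA L}
    (hr : HomR p δ r) {n : ℤ} {G : MvPolynomial ℕ B} (hG : G ∈ ext p 𝒜 n) :
    Dop p x r G ∈ ext p 𝒜 (n + δ) := h.etax.rAp hr (h.delx hG)

variable (p 𝒜) in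
/-- graded chains -/
structure GrCh (c : Ch L B) : Prop where
  o : ∀ a, c.o a ∈ 𝒜 0
  x : ∀ i, c.x i ∈ 𝒜 (wz p i)
  a : ∀ k i, c.a k i ∈ 𝒜 (wz p i)

theorem GrCh.vtx {c : Ch L B} (h : GrCh p 𝒜 c) (k i : ℕ) : c.vtx p k i ∈ 𝒜 (wz p i) := by
  induction k generalizing i with
  | zero => exact h.x i
  | succ k ih => exact tg_mem ih (h.a k) i

theorem GrCh.seg {c : Ch L B} (h : GrCh p 𝒜 c) (j k i : ℕ) : c.seg p j k i ∈ 𝒜 (wz p i) := by
  rw [Ch.seg]
  induction k - j generalizing i with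
  | zero => exact AddSubgroup.zero_mem _
  | succ m ih => exact cm_mem (h.vtx j) ih (h.a _) i

theorem GrCh.res {c : Ch L B} (h : GrCh p 𝒜 c) (α : ℕ → ℕ) : GrCh p 𝒜 (c.res p α) :=
  ⟨h.o, h.vtx _, fun _ => h.seg _ _⟩

theorem GrCh.pt {c : Ch L B} (h : GrCh p 𝒜 c) (k : ℕ) : GrPt p 𝒜 (c.pt p k) :=
  fun _ _ ha => eval₂Hom_mem 𝒜 h.o (h.vtx k) ha

omit hp in
theorem GrCh.ev {c : Ch L B} (h : GrCh p 𝒜 c) {n : ℤ} {F : CC L} (hF : F ∈ WC p L n) :
    c.ev F ∈ 𝒜 n :=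
  eval₂Hom_mem 𝒜 h.o (by rintro (i | ⟨k, i⟩); exacts [h.x i, h.a k i]) hF

omit hp in
theorem grCh_univ : GrCh p (WC p L) (Ch.univ L) :=
  ⟨fun a => isWeightedHomogeneous_C _ a, fun i => isWeightedHomogeneous_X L _ (Sum.inl i),
    fun k i => isWeightedHomogeneous_X L _ (Sum.inr (k, i))⟩

theorem pb_mem_WC (α : ℕ → ℕ) {n : ℤ} {F : CC L} (hF : F ∈ WC p L n) : pb p L α F ∈ WC p L n :=
  (grCh_univ.res α).ev hF

theorem alt_mem_WC (m : ℕ) {n : ℤ} {F : CC L} (hF : F ∈ WC p L n) : alt p L m F ∈ WC p L n := by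
  rw [alt_apply]
  exact AddSubgroup.sum_mem _ fun j _ => AddSubgroup.zsmul_mem _ (pb_mem_WC _ hF) _

end homog

end Vale.Agent.P236EL

end
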